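import Claimed.Agent.R286.PM.Defs

/-!
# Row 286 (S0533), folder PM, file Kit : calculus of the real `L^p` norm `skpN`      (owner helper72; prefix `skpn_`)

TEX[LL:prop:statistics-pointwise] (tool box; no statement of the paper).  No sorry.
The working class of functions is `MemLp f ⊤ μ` (a.e. strongly measurable and essentially bounded) on a finite / probability measure.
* `skpn_eq` : `skpN μ p f = (eLpNorm f (ofReal p) μ).toReal`;
* order, Minkowski (`skpn_add_le`, `skpn_sum_le`), homogeneity, constants, exponent monotonicity, squares, Cauchy-Schwarz;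
* push-forward (`skpn_map`), conditional expectation (`skpn_condExp_le`), integer moments (`skpn_pow_two_mul`, `skpn_le_of_moment`).
-/

set_option autoImplicit false

namespace Claimed.Agent.R286

open Set MeasureTheory
open scoped ENNReal

section Kit

variable {α : Type} [MeasurableSpace α] {μ : Measure α}

theorem skpn_nonneg (p : ℝ) (f : α → ℝ) : 0 ≤ skpN μ p f :=
  Real.rpow_nonneg (integral_nonneg fun _ => Real.rpow_nonneg (abs_nonneg _) _) _

theorem skpn_memLp [IsFiniteMeasure μ] {f : α → ℝ} (hf : MemLp f ⊤ μ) (p : ℝ) :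
    MemLp f (ENNReal.ofReal p) μ := hf.mono_exponent le_top

theorem skpn_top_of_bound {f : α → ℝ} (hf : AEStronglyMeasurable f μ) (M : ℝ) (h : ∀ ω, |f ω| ≤ M) :
    MemLp f ⊤ μ := memLp_top_of_bound hf M (ae_of_all _ h)

theorem skpn_eq {p : ℝ} (hp : 0 < p) {f : α → ℝ} (hf : MemLp f (ENNReal.ofReal p) μ) :
    skpN μ p f = (eLpNorm f (ENNReal.ofReal p) μ).toReal := by
  rw [hf.eLpNorm_eq_integral_rpow_norm (by simpa using hp) ENNReal.ofReal_ne_top,
    ENNReal.toReal_ofReal hp.le, ENNReal.toReal_ofReal (by positivity)]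
  simp [skpN, Real.norm_eq_abs, one_div]

theorem skpn_integrable [IsFiniteMeasure μ] {p : ℝ} (hp : 0 < p) {f : α → ℝ} (hf : MemLp f ⊤ μ) :
    Integrable (fun ω => |f ω| ^ p) μ := by
  have h := (skpn_memLp hf p).integrable_norm_rpow (by simpa using hp) ENNReal.ofReal_ne_top
  simpa [ENNReal.toReal_ofReal hp.le, Real.norm_eq_abs] using h

theorem skpn_mono' {p : ℝ} (hp : 0 < p) {f g : α → ℝ} (hg : Integrable (fun ω => |g ω| ^ p) μ)
    (h : ∀ᵐ ω ∂μ, |f ω| ≤ |g ω|) : skpN μ p f ≤ skpN μ p g := by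
  unfold skpN
  refine Real.rpow_le_rpow (integral_nonneg fun _ => by positivity) ?_ (by positivity)
  refine integral_mono_of_nonneg (ae_of_all _ fun _ => by positivity) hg ?_
  filter_upwards [h] with ω hω
  exact Real.rpow_le_rpow (abs_nonneg _) hω hp.le

theorem skpn_mono [IsFiniteMeasure μ] {p : ℝ} (hp : 0 < p) {f g : α → ℝ} (hg : MemLp g ⊤ μ)
    (h : ∀ᵐ ω ∂μ, |f ω| ≤ |g ω|) : skpN μ p f ≤ skpN μ p g :=
  skpn_mono' hp (skpn_integrable hp hg) h

theorem skpn_congr {p : ℝ} {f g : α → ℝ} (h : f =ᵐ[μ] g) : skpN μ p f = skpN μ p g := by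
  unfold skpN
  congr 1
  refine integral_congr_ae ?_
  filter_upwards [h] with ω hω
  rw [hω]

theorem skpn_abs (p : ℝ) (f : α → ℝ) : skpN μ p (fun ω => |f ω|) = skpN μ p f := by
  simp [skpN]

theorem skpn_neg (p : ℝ) (f : α → ℝ) : skpN μ p (fun ω => - f ω) = skpN μ p f := by
  simp [skpN]

theorem skpn_const_mul {p : ℝ} (hp : 0 < p) (c : ℝ) (f : α → ℝ) :
    skpN μ p (fun ω => c * f ω) = |c| * skpN μ p f := by
  unfold skpN
  have h1 : ∀ ω, |c * f ω| ^ p = |c| ^ p * |f ω| ^ p := fun ω => by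
    rw [abs_mul, Real.mul_rpow (abs_nonneg _) (abs_nonneg _)]
  simp_rw [h1]
  rw [integral_const_mul, Real.mul_rpow (by positivity) (integral_nonneg fun _ => by positivity),
    ← Real.rpow_mul (abs_nonneg _), mul_one_div_cancel hp.ne', Real.rpow_one]

theorem skpn_mul_const {p : ℝ} (hp : 0 < p) (c : ℝ) (f : α → ℝ) :
    skpN μ p (fun ω => f ω * c) = skpN μ p f * |c| := by
  simp_rw [mul_comm _ c]
  rw [skpn_const_mul hp, mul_comm]

theorem skpn_const [IsProbabilityMeasure μ] {p : ℝ} (hp : 0 < p) (c : ℝ) :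
    skpN μ p (fun _ => c) = |c| := by
  unfold skpN
  rw [integral_const, probReal_univ, one_smul, ← Real.rpow_mul (abs_nonneg _),
    mul_one_div_cancel hp.ne', Real.rpow_one]

theorem skpn_le_of_bound [IsProbabilityMeasure μ] {p : ℝ} (hp : 0 < p) {f : α → ℝ} {M : ℝ}
    (h : ∀ᵐ ω ∂μ, |f ω| ≤ M) : skpN μ p f ≤ M := by
  have hM : 0 ≤ M := by
    obtain ⟨ω, hω⟩ := h.exists
    exact (abs_nonneg _).trans hω
  have h1 : skpN μ p f ≤ skpN μ p (fun _ => M) :=
    skpn_mono hp (memLp_const M) (by filter_upwards [h] with ω hω; rwa [abs_of_nonneg hM])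
  rwa [skpn_const hp, abs_of_nonneg hM] at h1

theorem skpn_add_le [IsFiniteMeasure μ] {p : ℝ} (hp : 1 ≤ p) {f g : α → ℝ} (hf : MemLp f ⊤ μ)
    (hg : MemLp g ⊤ μ) : skpN μ p (fun ω => f ω + g ω) ≤ skpN μ p f + skpN μ p g := by
  have hp0 : 0 < p := by linarith
  have hfg : MemLp (fun ω => f ω + g ω) ⊤ μ := hf.add hg
  rw [skpn_eq hp0 (skpn_memLp hf p), skpn_eq hp0 (skpn_memLp hg p), skpn_eq hp0 (skpn_memLp hfg p),
    ← ENNReal.toReal_add (skpn_memLp hf p).eLpNorm_ne_top (skpn_memLp hg p).eLpNorm_ne_top]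
  refine ENNReal.toReal_mono
    (ENNReal.add_ne_top.2 ⟨(skpn_memLp hf p).eLpNorm_ne_top, (skpn_memLp hg p).eLpNorm_ne_top⟩) ?_
  exact eLpNorm_add_le hf.1 hg.1 (by rw [← ENNReal.ofReal_one]; exact ENNReal.ofReal_le_ofReal hp)

theorem skpn_sub_le [IsFiniteMeasure μ] {p : ℝ} (hp : 1 ≤ p) {f g : α → ℝ} (hf : MemLp f ⊤ μ)
    (hg : MemLp g ⊤ μ) : skpN μ p (fun ω => f ω - g ω) ≤ skpN μ p f + skpN μ p g := by
  have h := skpn_add_le hp hf hg.neg
  have e : skpN μ p (-g) = skpN μ p g := skpn_neg p g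
  rw [e] at h
  simpa [sub_eq_add_neg] using h

theorem skpn_top_sum {ι : Type} (J : Finset ι) {f : ι → α → ℝ} (hf : ∀ i ∈ J, MemLp (f i) ⊤ μ) :
    MemLp (fun ω => ∑ i ∈ J, f i ω) ⊤ μ := memLp_finsetSum J hf

theorem skpn_sum_le [IsFiniteMeasure μ] {p : ℝ} (hp : 1 ≤ p) {ι : Type} (J : Finset ι) {f : ι → α → ℝ}
    (hf : ∀ i ∈ J, MemLp (f i) ⊤ μ) :
    skpN μ p (fun ω => ∑ i ∈ J, f i ω) ≤ ∑ i ∈ J, skpN μ p (f i) := by
  classical
  induction J using Finset.induction_on with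
  | empty =>
    have hp0 : p ≠ 0 := by linarith
    simp [skpN, hp0]
  | insert a J ha ih =>
    simp_rw [Finset.sum_insert ha]
    have h1 := skpn_add_le hp (hf a (Finset.mem_insert_self a J))
      (skpn_top_sum J fun i hi => hf i (Finset.mem_insert_of_mem hi))
    have h2 := ih fun i hi => hf i (Finset.mem_insert_of_mem hi)
    linarith

/-- triangle inequality after a pointwise bound -/
theorem skpn_le_add [IsFiniteMeasure μ] {p : ℝ} (hp : 1 ≤ p) {f g h : α → ℝ} (hg : MemLp g ⊤ μ)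
    (hh : MemLp h ⊤ μ) (hb : ∀ᵐ ω ∂μ, |f ω| ≤ |g ω| + |h ω|) :
    skpN μ p f ≤ skpN μ p g + skpN μ p h := by
  have hp0 : 0 < p := by linarith
  have h1 : skpN μ p f ≤ skpN μ p (fun ω => |g ω| + |h ω|) := by
    refine skpn_mono hp0 (hg.abs.add hh.abs) ?_
    filter_upwards [hb] with ω hω
    exact hω.trans (le_abs_self _)
  have h2 := skpn_add_le hp hg.abs hh.abs
  have e1 : skpN μ p |g| = skpN μ p g := skpn_abs p g
  have e2 : skpN μ p |h| = skpN μ p h := skpn_abs p h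
  rw [e1, e2] at h2
  exact h1.trans h2

theorem skpn_exp_mono [IsProbabilityMeasure μ] {p q : ℝ} (hp : 0 < p) (hpq : p ≤ q) {f : α → ℝ}
    (hf : MemLp f ⊤ μ) : skpN μ p f ≤ skpN μ q f := by
  rw [skpn_eq hp (skpn_memLp hf p), skpn_eq (hp.trans_le hpq) (skpn_memLp hf q)]
  exact ENNReal.toReal_mono (skpn_memLp hf q).eLpNorm_ne_top
    (eLpNorm_le_eLpNorm_of_exponent_le (ENNReal.ofReal_le_ofReal hpq) hf.1)

theorem skpn_sq {p : ℝ} (hp : 0 < p) (f : α → ℝ) :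
    skpN μ (p / 2) (fun ω => f ω ^ 2) = skpN μ p f ^ 2 := by
  unfold skpN
  have h1 : ∀ ω, |f ω ^ 2| ^ (p / 2) = |f ω| ^ p := fun ω => by
    rw [abs_pow, ← Real.rpow_natCast, ← Real.rpow_mul (abs_nonneg _)]
    congr 1
    push_cast
    ring
  simp_rw [h1]
  rw [← Real.rpow_natCast, ← Real.rpow_mul (integral_nonneg fun _ => by positivity)]
  congr 1
  push_cast
  field_simp

theorem skpn_rpow {p : ℝ} (hp : 0 < p) (f : α → ℝ) : skpN μ p f ^ p = ∫ ω, |f ω| ^ p ∂μ := by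
  unfold skpN
  rw [← Real.rpow_mul (integral_nonneg fun _ => by positivity), one_div_mul_cancel hp.ne',
    Real.rpow_one]

theorem skpn_le_of_rpow {p : ℝ} (hp : 0 < p) {f : α → ℝ} {C : ℝ} (hC : 0 ≤ C)
    (h : ∫ ω, |f ω| ^ p ∂μ ≤ C ^ p) : skpN μ p f ≤ C := by
  unfold skpN
  calc (∫ ω, |f ω| ^ p ∂μ) ^ (1 / p) ≤ (C ^ p) ^ (1 / p) :=
        Real.rpow_le_rpow (integral_nonneg fun _ => by positivity) h (by positivity)
    _ = C := by rw [← Real.rpow_mul hC, mul_one_div_cancel hp.ne', Real.rpow_one]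

theorem skpn_abs_rpow_two_mul (t : ℕ) (x : ℝ) : |x| ^ (2 * (t : ℝ)) = x ^ (2 * t) := by
  have : (2 * (t : ℝ)) = ((2 * t : ℕ) : ℝ) := by push_cast; ring
  rw [this, Real.rpow_natCast, pow_mul, pow_mul, sq_abs]

theorem skpn_pow_two_mul {t : ℕ} (ht : 1 ≤ t) (f : α → ℝ) :
    skpN μ (2 * t) f ^ (2 * t) = ∫ ω, f ω ^ (2 * t) ∂μ := by
  have hp : (0 : ℝ) < 2 * t := by positivity
  have h := skpn_rpow (μ := μ) hp f
  simp_rw [skpn_abs_rpow_two_mul] at h
  rw [← h]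
  have : (2 * (t : ℝ)) = ((2 * t : ℕ) : ℝ) := by push_cast; ring
  conv_rhs => rw [this, Real.rpow_natCast]
  rw [← this]

theorem skpn_le_of_moment {t : ℕ} (ht : 1 ≤ t) {f : α → ℝ} {C : ℝ} (hC : 0 ≤ C)
    (h : ∫ ω, f ω ^ (2 * t) ∂μ ≤ C ^ (2 * t)) : skpN μ (2 * t) f ≤ C := by
  have hp : (0 : ℝ) < 2 * t := by positivity
  refine skpn_le_of_rpow hp hC ?_
  simp_rw [skpn_abs_rpow_two_mul]
  have : (2 * (t : ℝ)) = ((2 * t : ℕ) : ℝ) := by push_cast; ring
  rw [this, Real.rpow_natCast]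
  exact h

theorem skpn_map {β : Type} [MeasurableSpace β] {ν : Measure β} {π : β → α} (hπ : Measurable π)
    (hmap : ν.map π = μ) (p : ℝ) {f : α → ℝ} (hf : AEStronglyMeasurable f μ) :
    skpN ν p (fun η => f (π η)) = skpN μ p f := by
  unfold skpN
  congr 1
  rw [← hmap, integral_map hπ.aemeasurable]
  rw [hmap]
  exact (hf.norm.aemeasurable.pow_const p).aestronglyMeasurable

theorem skpn_top_map {β : Type} [MeasurableSpace β] {ν : Measure β} {π : β → α} (hπ : Measurable π)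
    (hmap : ν.map π = μ) {f : α → ℝ} (hf : MemLp f ⊤ μ) : MemLp (fun η => f (π η)) ⊤ ν := by
  rw [← hmap] at hf
  exact hf.comp_of_map hπ.aemeasurable

theorem skpn_le_of_eLpNorm_le {p : ℝ} (hp : 0 < p) {f g : α → ℝ} (hg : MemLp g (ENNReal.ofReal p) μ)
    (hf : MemLp f (ENNReal.ofReal p) μ)
    (h : eLpNorm g (ENNReal.ofReal p) μ ≤ eLpNorm f (ENNReal.ofReal p) μ) :
    skpN μ p g ≤ skpN μ p f := by
  rw [skpn_eq hp hg, skpn_eq hp hf]
  exact ENNReal.toReal_mono hf.eLpNorm_ne_top h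

theorem skpn_condExp_le {α : Type} {m0 : MeasurableSpace α} {μ : Measure α} [IsFiniteMeasure μ]
    {p : ℝ} (hp : 1 ≤ p) (m : MeasurableSpace α) {f : α → ℝ}
    (hf : MemLp f ⊤ μ) : @skpN α m0 μ p (μ[f|m]) ≤ @skpN α m0 μ p f := by
  have hp0 : 0 < p := by linarith
  have h1 : (1 : ℝ≥0∞) ≤ ENNReal.ofReal p := by
    rw [← ENNReal.ofReal_one]; exact ENNReal.ofReal_le_ofReal hp
  have h2 : MemLp f (ENNReal.ofReal p) μ := hf.mono_exponent le_top
  exact @skpn_le_of_eLpNorm_le α m0 μ p hp0 f (μ[f|m]) (h2.condExp h1) h2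
    (eLpNorm_condExp_le_eLpNorm f h1)

theorem skpn_top_condExp {α : Type} {m0 : MeasurableSpace α} {μ : Measure α}
    (m : MeasurableSpace α) {f : α → ℝ} (hf : MemLp f ⊤ μ) :
    MemLp (μ[f|m]) ⊤ μ := hf.condExp le_top

theorem skpn_top_mul {f g : α → ℝ} (hf : MemLp f ⊤ μ) (hg : MemLp g ⊤ μ) :
    MemLp (fun ω => f ω * g ω) ⊤ μ :=
  (MemLp.mul (p := ⊤) (q := ⊤) (r := ⊤) hg hf : MemLp (f * g) ⊤ μ)

/-- Cauchy-Schwarz -/
theorem skpn_mul_le [IsFiniteMeasure μ] {p : ℝ} (hp : 0 < p) {f g : α → ℝ} (hf : MemLp f ⊤ μ)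
    (hg : MemLp g ⊤ μ) : skpN μ p (fun ω => f ω * g ω) ≤ skpN μ (2 * p) f * skpN μ (2 * p) g := by
  have h2p : 0 < 2 * p := by linarith
  rw [skpn_eq hp (skpn_memLp (skpn_top_mul hf hg) p), skpn_eq h2p (skpn_memLp hf _),
    skpn_eq h2p (skpn_memLp hg _), ← ENNReal.toReal_mul]
  refine ENNReal.toReal_mono (ENNReal.mul_ne_top (skpn_memLp hf _).eLpNorm_ne_top
    (skpn_memLp hg _).eLpNorm_ne_top) ?_
  have : ENNReal.HolderTriple (ENNReal.ofReal (2 * p)) (ENNReal.ofReal (2 * p)) (ENNReal.ofReal p) := by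
    constructor
    rw [← ENNReal.ofReal_inv_of_pos h2p, ← ENNReal.ofReal_inv_of_pos hp,
      ← ENNReal.ofReal_add (by positivity) (by positivity)]
    congr 1
    field_simp
    ring
  exact eLpNorm_smul_le_mul_eLpNorm (p := ENNReal.ofReal (2 * p)) (q := ENNReal.ofReal (2 * p))
    (r := ENNReal.ofReal p) (f := g) (φ := f) hg.1 hf.1

end Kit

end Claimed.Agent.R286
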