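import Claimed.Agent.R286.PM.Leaves
import Claimed.Agent.R286.PM.Kit

/-!
# Row 286 (S0533), folder PM, file Tail : **Leaf TAIL** (`SkpLeafTail` of PM/Leaves, LL l.516, l.615-620)      (owner helper113; prefix `skp_tail_`)

TEX[LL:prop:statistics-pointwise] (tails of the overlap).  No open leaf.
Route: every term is `skp_tail_core` = `l8s_fork_proj` ((A3) on the fork, anchor = a bounded function of the FIRST branch) written for `skpN`;
`skp_tail_core'` = the same for the first branch (`l8s_fork_swap`).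
One layer `a < b`:  `X_b·X_b' - X_a·X_a' = (R_a - R_b)·X_b' + X_a·(R_a' - R_b')`: four terms, each `≤ κ(g,a) N(|X_b|)`
(`hlen` is monotone in the right end, `N(|X_a|) ≤ N(|X_b|)` by conditional Jensen).  The terminal layer is `b = n + 1` (`X_(n+1) = y`).
Second claim: `X_k(ω) = X_k(ω')` a.e. under the fork law, then `l8s_fork_snd`.
-/

set_option autoImplicit false

namespace Claimed.Agent.R286

open Set MeasureTheory

variable {Ω : Type} [mΩ : MeasurableSpace Ω] {m : ℕ}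

theorem skp_tail_top {α : Type} [MeasurableSpace α] {μ : Measure α} {f : α → ℝ} (hf : L8Bd f) : MemLp f ⊤ μ :=
  skpn_top_of_bound hf.1.aestronglyMeasurable hf.2.choose hf.2.choose_spec

theorem skp_tail_sqrt_pow {x : ℝ} (hx : 0 ≤ x) (t : ℕ) : Real.sqrt x ^ (2 * t) = x ^ t := by
  rw [pow_mul, Real.sq_sqrt hx]

theorem skp_tail_hlen_mono (P : L8P Ω m) (h : P.Ok) (k : ℕ) {l l' : ℕ} (hl : l ≤ l') : P.hlen k l ≤ P.hlen k l' := by
  unfold L8P.hlen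
  exact Finset.sum_le_sum_of_subset_of_nonneg (Finset.Ico_subset_Ico_right hl) fun j _ _ => h.dh_nonneg j

theorem skp_tail_kap_nonneg (P : L8P Ω m) (h : P.Ok) {κ0 : ℝ} (hκ : 0 ≤ κ0) (k₁ k₂ : ℕ) : 0 ≤ skpKap P κ0 k₁ k₂ := by
  unfold skpKap
  exact div_nonneg hκ (mul_nonneg (h.v_nonneg k₁) (Real.sqrt_nonneg _))

theorem skp_tail_kap_anti (P : L8P Ω m) (h : P.Ok) (hm : 0 < m) {κ0 : ℝ} (hκ : 0 ≤ κ0) {k₁ k₂ k₃ : ℕ} (h23 : k₂ ≤ k₃)
    (hv : 0 < P.v k₁) (hh : 0 < P.hlen k₁ k₂) : skpKap P κ0 k₁ k₃ ≤ skpKap P κ0 k₁ k₂ := by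
  unfold skpKap
  have hm' : (0 : ℝ) < m := by exact_mod_cast hm
  refine div_le_div_of_nonneg_left hκ (mul_pos hv (Real.sqrt_pos.2 (mul_pos hm' hh))) ?_
  exact mul_le_mul_of_nonneg_left
    (Real.sqrt_le_sqrt (mul_le_mul_of_nonneg_left (skp_tail_hlen_mono P h k₁ h23) hm'.le)) hv.le

theorem skp_tail_kap_pow (P : L8P Ω m) (κ0 : ℝ) (k₁ k₂ t : ℕ) (hh : 0 ≤ P.hlen k₁ k₂) :
    skpKap P κ0 k₁ k₂ ^ (2 * t) = κ0 ^ (2 * t) / (P.v k₁ ^ 2 * m * P.hlen k₁ k₂) ^ t := by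
  unfold skpKap
  rw [div_pow]
  congr 1
  rw [pow_mul, mul_pow, Real.sq_sqrt (mul_nonneg (Nat.cast_nonneg m) hh)]
  congr 1
  ring

/-- **(A3) on the fork for `skpN`**: the projected branch is the second one, the anchor a bounded function of the first one -/
theorem skp_tail_core (P : L8P Ω m) (h : P.Ok) {κ0 vmin hmin : ℝ} {t : ℕ} (hκ : 0 ≤ κ0) (hh0 : 0 < hmin)
    (hp : P.Proj t (κ0 ^ (2 * t)) vmin hmin) (ht : 1 ≤ t) {k k₁ k₂ : ℕ} (hk : k ≤ k₁) (h12 : k₁ < k₂) (h2 : k₂ ≤ P.n + 1)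
    (hv : vmin ≤ P.v k₁) (hh : hmin ≤ P.hlen k₁ k₂) (U : Fin m → Ω → ℝ) (hU : ∀ i, L8Bd (U i)) :
    skpN (P.fork k) (2 * t) (fun p => ∑ i, U i p.1 * P.R k₂ i p.2)
      ≤ skpKap P κ0 k₁ k₂ * skpN P.μ (2 * t) (fun ω => Real.sqrt (∑ i, U i ω ^ 2)) := by
  refine skpn_le_of_moment ht (mul_nonneg (skp_tail_kap_nonneg P h hκ k₁ k₂) (skpn_nonneg _ _)) ?_
  rw [mul_pow, skpn_pow_two_mul ht]
  have e1 : ∀ ω, Real.sqrt (∑ i, U i ω ^ 2) ^ (2 * t) = (∑ i, U i ω ^ 2) ^ t := fun ω =>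
    skp_tail_sqrt_pow (Finset.sum_nonneg fun i _ => sq_nonneg _) t
  simp_rw [e1]
  have key := P.l8s_fork_proj h hp hk h12 h2 hv hh (fun i p => U i p.1)
    (fun i => (hU i).1.comp (@measurable_fst Ω Ω mΩ (P.ℱ k₁)))
    (fun i => ⟨(hU i).2.choose, fun p => (hU i).2.choose_spec p.1⟩)
  have hb : L8Bd (fun ω => (∑ i, U i ω ^ 2) ^ t) := (L8Bd.sum _ fun i _ => (hU i).pow 2).pow t
  have e2 : ∫ p, (∑ i, U i p.1 ^ 2) ^ t ∂(P.fork k) = ∫ ω, (∑ i, U i ω ^ 2) ^ t ∂P.μ := by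
    conv_rhs => rw [← P.l8s_fork_fst h k]
    rw [integral_map measurable_fst.aemeasurable hb.1.aestronglyMeasurable]
  rw [skp_tail_kap_pow P κ0 k₁ k₂ t (hh0.le.trans hh), ← e2]
  exact key

/-- the same for the first branch -/
theorem skp_tail_core' (P : L8P Ω m) (h : P.Ok) {κ0 vmin hmin : ℝ} {t : ℕ} (hκ : 0 ≤ κ0) (hh0 : 0 < hmin)
    (hp : P.Proj t (κ0 ^ (2 * t)) vmin hmin) (ht : 1 ≤ t) {k k₁ k₂ : ℕ} (hk : k ≤ k₁) (h12 : k₁ < k₂) (h2 : k₂ ≤ P.n + 1)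
    (hv : vmin ≤ P.v k₁) (hh : hmin ≤ P.hlen k₁ k₂) (U : Fin m → Ω → ℝ) (hU : ∀ i, L8Bd (U i)) :
    skpN (P.fork k) (2 * t) (fun p => ∑ i, P.R k₂ i p.1 * U i p.2)
      ≤ skpKap P κ0 k₁ k₂ * skpN P.μ (2 * t) (fun ω => Real.sqrt (∑ i, U i ω ^ 2)) := by
  have hR : ∀ i, L8Bd (P.R k₂ i) := fun i => P.l8s_W_bd_R h k₂ i
  have hf : @L8Bd (Ω × Ω) _ (fun p => ∑ i, U i p.1 * P.R k₂ i p.2) :=
    L8Bd.sum _ fun i _ => (l8k_bd_comp measurable_fst (hU i)).mul (l8k_bd_comp measurable_snd (hR i))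
  have e := skpn_map (ν := P.fork k) (μ := P.fork k) measurable_swap (P.l8s_fork_swap h k) (2 * t)
    (f := fun p => ∑ i, U i p.1 * P.R k₂ i p.2) hf.1.aestronglyMeasurable
  have e' : (fun η : Ω × Ω => (fun p : Ω × Ω => ∑ i, U i p.1 * P.R k₂ i p.2) (Prod.swap η))
      = fun p => ∑ i, P.R k₂ i p.1 * U i p.2 := by
    funext η
    exact Finset.sum_congr rfl fun i _ => mul_comm _ _
  rw [e'] at e
  rw [e]
  exact skp_tail_core P h hκ hh0 hp ht hk h12 h2 hv hh U hU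

/-- the anchors grow along the path -/
theorem skp_tail_anchor (P : L8P Ω m) (h : P.Ok) {t : ℕ} (ht : 1 ≤ t) {a b : ℕ} (hab : a ≤ b) :
    skpN P.μ (2 * t) (fun ω => Real.sqrt (P.nX a ω)) ≤ skpN P.μ (2 * t) (fun ω => Real.sqrt (P.nX b ω)) := by
  have := h.prob
  have h0 : ∀ c ω, 0 ≤ P.nX c ω := fun c ω => Finset.sum_nonneg fun i _ => sq_nonneg _
  refine skpn_le_of_moment ht (skpn_nonneg _ _) ?_
  rw [skpn_pow_two_mul ht]
  simp_rw [skp_tail_sqrt_pow (h0 _ _)]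
  have hb := P.l8s_nX_bd_aux h b
  have h1 := P.l8s_integral_E_pow_le h a hb t
  have e1 : ∀ ω, |P.nX b ω| ^ t = P.nX b ω ^ t := fun ω => by rw [abs_of_nonneg (h0 b ω)]
  simp_rw [e1] at h1
  refine le_trans ?_ h1
  refine integral_mono (((P.l8s_nX_bd_aux h a).pow t).integrable _) (((P.l8s_E_bd h a hb).abs.pow t).integrable _) fun ω => ?_
  exact pow_le_pow_left₀ (h0 a ω) ((P.l8s_nX_le_E h hab ω).trans (le_abs_self _)) t

/-- one layer -/
theorem skp_tail_layer (P : L8P Ω m) (h : P.Ok) (hm : 0 < m) {κ0 vmin hmin : ℝ} {t : ℕ} (hκ : 0 ≤ κ0) (hv0 : 0 < vmin) (hh0 : 0 < hmin)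
    (hp : P.Proj t (κ0 ^ (2 * t)) vmin hmin) (ht : 1 ≤ t) {k g a b : ℕ} (hk : k ≤ g) (hga : g < a) (hab : a < b) (hb : b ≤ P.n + 1)
    (hv : vmin ≤ P.v g) (hh : hmin ≤ P.hlen g a) :
    skpN (P.fork k) (2 * t) (fun η => P.QX b b η - P.QX a a η)
      ≤ 4 * skpKap P κ0 g a * skpN P.μ (2 * t) (fun ω => Real.sqrt (P.nX b ω)) := by
  have := P.l8s_fork_prob h k
  have hp1 : (1 : ℝ) ≤ 2 * t := by
    have : (1 : ℝ) ≤ t := by exact_mod_cast ht
    linarith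
  have hR : ∀ c i, L8Bd (P.R c i) := fun c i => P.l8s_W_bd_R h c i
  have hX : ∀ c i, L8Bd (P.X c i) := fun c i => P.l8s_X_bd h c i
  have hhb : hmin ≤ P.hlen g b := hh.trans (skp_tail_hlen_mono P h g hab.le)
  have hkap : skpKap P κ0 g b ≤ skpKap P κ0 g a :=
    skp_tail_kap_anti P h hm hκ hab.le (hv0.trans_le hv) (hh0.trans_le hh)
  have hN0 : ∀ c, 0 ≤ skpN P.μ (2 * t) (fun ω => Real.sqrt (P.nX c ω)) := fun c => skpn_nonneg _ _
  have hK0 := skp_tail_kap_nonneg P h hκ g a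
  have hanc := skp_tail_anchor P h ht hab.le
  -- the four terms
  have b1 := skp_tail_core' P h hκ hh0 hp ht hk hga (hab.le.trans hb) hv hh (P.X b) (hX b)
  have b2 := skp_tail_core' P h hκ hh0 hp ht hk (hga.trans hab) hb hv hhb (P.X b) (hX b)
  have b3 := skp_tail_core P h hκ hh0 hp ht hk hga (hab.le.trans hb) hv hh (P.X a) (hX a)
  have b4 := skp_tail_core P h hκ hh0 hp ht hk (hga.trans hab) hb hv hhb (P.X a) (hX a)
  have m1 : ∀ c d, @L8Bd (Ω × Ω) _ (fun p => ∑ i, P.R c i p.1 * P.X d i p.2) := fun c d =>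
    L8Bd.sum _ fun i _ => (l8k_bd_comp measurable_fst (hR c i)).mul (l8k_bd_comp measurable_snd (hX d i))
  have m2 : ∀ c d, @L8Bd (Ω × Ω) _ (fun p => ∑ i, P.X d i p.1 * P.R c i p.2) := fun c d =>
    L8Bd.sum _ fun i _ => (l8k_bd_comp measurable_fst (hX d i)).mul (l8k_bd_comp measurable_snd (hR c i))
  have e : (fun η : Ω × Ω => P.QX b b η - P.QX a a η)
      = fun η => ((∑ i, P.R a i η.1 * P.X b i η.2) - ∑ i, P.R b i η.1 * P.X b i η.2)
        + ((∑ i, P.X a i η.1 * P.R a i η.2) - ∑ i, P.X a i η.1 * P.R b i η.2) := by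
    funext η
    unfold L8P.QX L8P.R
    rw [← Finset.sum_sub_distrib, ← Finset.sum_sub_distrib, ← Finset.sum_sub_distrib, ← Finset.sum_add_distrib]
    exact Finset.sum_congr rfl fun i _ => by ring
  rw [e]
  have s0 := skpn_add_le (μ := P.fork k) hp1 (skp_tail_top ((m1 a b).sub (m1 b b))) (skp_tail_top ((m2 a a).sub (m2 b a)))
  have s1 := skpn_sub_le (μ := P.fork k) hp1 (skp_tail_top (m1 a b)) (skp_tail_top (m1 b b))
  have s2 := skpn_sub_le (μ := P.fork k) hp1 (skp_tail_top (m2 a a)) (skp_tail_top (m2 b a))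
  have c2 : skpKap P κ0 g b * skpN P.μ (2 * t) (fun ω => Real.sqrt (∑ i, P.X b i ω ^ 2))
      ≤ skpKap P κ0 g a * skpN P.μ (2 * t) (fun ω => Real.sqrt (P.nX b ω)) :=
    mul_le_mul_of_nonneg_right hkap (hN0 b)
  have c3 : skpKap P κ0 g a * skpN P.μ (2 * t) (fun ω => Real.sqrt (∑ i, P.X a i ω ^ 2))
      ≤ skpKap P κ0 g a * skpN P.μ (2 * t) (fun ω => Real.sqrt (P.nX b ω)) :=
    mul_le_mul_of_nonneg_left hanc hK0
  have c4 : skpKap P κ0 g b * skpN P.μ (2 * t) (fun ω => Real.sqrt (∑ i, P.X a i ω ^ 2))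
      ≤ skpKap P κ0 g a * skpN P.μ (2 * t) (fun ω => Real.sqrt (P.nX b ω)) :=
    mul_le_mul hkap hanc (hN0 a) hK0
  have c1 : skpKap P κ0 g a * skpN P.μ (2 * t) (fun ω => Real.sqrt (∑ i, P.X b i ω ^ 2))
      = skpKap P κ0 g a * skpN P.μ (2 * t) (fun ω => Real.sqrt (P.nX b ω)) := rfl
  linarith

theorem skp_leaf_tail : SkpLeafTail := by
  intro Ω mΩ m P h hm κ0 vmin hmin t k B c g hκ hv0 hh0 hp ht hB hc hc0 hcB hg
  have := h.prob
  have := P.l8s_fork_prob h k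
  have ecast : ((2 * t : ℕ) : ℝ) = 2 * (t : ℝ) := by push_cast; ring
  rw [ecast]
  have hp1 : (1 : ℝ) ≤ 2 * t := by
    have : (1 : ℝ) ≤ t := by exact_mod_cast ht
    linarith
  have hX : ∀ c i, L8Bd (P.X c i) := fun c i => P.l8s_X_bd h c i
  constructor
  · -- the cuts, with the terminal one
    set c' : ℕ → ℕ := fun i => if i ≤ B then c i else P.n + 1 with hc'
    have hQX : ∀ a, @L8Bd (Ω × Ω) _ (fun η => P.QX a a η) := fun a =>
      L8Bd.sum _ fun i _ => (l8k_bd_comp measurable_fst (hX a i)).mul (l8k_bd_comp measurable_snd (hX a i))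
    have tel : ∀ (f : ℕ → ℝ) (N : ℕ), 1 ≤ N → ∑ i ∈ Finset.Icc 1 N, (f (i + 1) - f i) = f (N + 1) - f 1 := by
      intro f N hN
      induction N, hN using Nat.le_induction with
      | base => simp
      | succ N hN ih => rw [Finset.sum_Icc_succ_top (by omega), ih]; ring
    have e : (fun η : Ω × Ω => P.Q η - P.QX (c 1) (c 1) η)
        = fun η => ∑ i ∈ Finset.Icc 1 B, (P.QX (c' (i + 1)) (c' (i + 1)) η - P.QX (c' i) (c' i) η) := by
      funext η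
      rw [tel (fun i => P.QX (c' i) (c' i) η) B hB]
      have e1 : c' (B + 1) = P.n + 1 := by simp [hc']
      have e2 : c' 1 = c 1 := by simp [hc', hB]
      rw [e1, e2]
      congr 1
      unfold L8P.Q L8P.QX
      exact Finset.sum_congr rfl fun i _ => by
        rw [P.l8s_X_term h (Nat.lt_succ_self _), P.l8s_X_term h (Nat.lt_succ_self _)]
    rw [e]
    refine (skpn_sum_le hp1 _ fun i _ => skp_tail_top ((hQX _).sub (hQX _))).trans ?_
    refine Finset.sum_le_sum fun i hi => ?_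
    obtain ⟨h1, h2, h3, h4⟩ := hg i hi
    rw [Finset.mem_Icc] at hi
    have ei : c' i = c i := by simp [hc', hi.2]
    rw [ei]
    by_cases hiB : i < B
    · have ei' : c' (i + 1) = c (i + 1) := by
        have : i + 1 ≤ B := hiB
        simp [hc', this]
      rw [ei', if_pos hiB]
      have hle : c (i + 1) ≤ c B := hc.monotone hiB
      exact skp_tail_layer P h hm hκ hv0 hh0 hp ht h1 h2 (hc (Nat.lt_succ_self i)) (by omega) h3 h4
    · have hiB' : i = B := by omega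
      have ei' : c' (i + 1) = P.n + 1 := by
        have : ¬ i + 1 ≤ B := by omega
        simp [hc', this]
      rw [ei', if_neg hiB]
      have hl := skp_tail_layer P h hm hκ hv0 hh0 hp ht h1 h2 (b := P.n + 1) (by rw [hiB']; omega) le_rfl h3 h4
      have e1 : (fun ω => Real.sqrt (P.nX (P.n + 1) ω)) = fun _ => (1 : ℝ) := by
        funext ω
        have : P.nX (P.n + 1) ω = 1 := by
          unfold L8P.nX
          rw [← h.y_sq ω]
          exact Finset.sum_congr rfl fun i _ => by rw [P.l8s_X_term h (Nat.lt_succ_self _)]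
        rw [this, Real.sqrt_one]
      rw [e1, skpn_const (by linarith), abs_one] at hl
      exact hl
  · obtain ⟨h1, h2, h3, h4⟩ := hg 1 (Finset.mem_Icc.2 ⟨le_rfl, hB⟩)
    have hle : c 1 ≤ c B := hc.monotone hB
    have hcore := skp_tail_core P h hκ hh0 hp ht h1 h2 (by omega) h3 h4 (P.X k) (hX k)
    have hR : ∀ i, L8Bd (P.R (c 1) i) := fun i => P.l8s_W_bd_R h (c 1) i
    have hF : L8Bd (fun ω => ∑ i, P.R (c 1) i ω * P.X k i ω) := L8Bd.sum _ fun i _ => (hR i).mul (hX k i)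
    have e1 := skpn_map (ν := P.fork k) (μ := P.μ) measurable_snd (P.l8s_fork_snd h k) (2 * t)
      (f := fun ω => ∑ i, P.R (c 1) i ω * P.X k i ω) hF.1.aestronglyMeasurable
    have e2 : (fun p : Ω × Ω => ∑ i, P.X k i p.1 * P.R (c 1) i p.2)
        =ᵐ[P.fork k] fun η => (fun ω => ∑ i, P.R (c 1) i ω * P.X k i ω) η.2 := by
      have hall : ∀ᵐ p ∂(P.fork k), ∀ i, P.X k i p.1 = P.X k i p.2 := by
        rw [ae_all_iff]
        exact fun i => P.l8s_fork_prefix h k (P.l8s_X_sm h k i).measurable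
      filter_upwards [hall] with p hp'
      exact Finset.sum_congr rfl fun i _ => by rw [hp' i, mul_comm]
    rw [← e1, ← skpn_congr e2]
    exact hcore

/-! ## corollaries in the form used by RAW / REF -/

/-- from a bound of the norm to the bound of the even moment (converse of `skpn_le_of_moment`) -/
theorem skp_tail_moment_of_le {α : Type} [MeasurableSpace α] {μ : Measure α} {t : ℕ} (ht : 1 ≤ t) {f : α → ℝ} {C : ℝ}
    (h : skpN μ (2 * t) f ≤ C) : ∫ ω, f ω ^ (2 * t) ∂μ ≤ C ^ (2 * t) := by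
  rw [← skpn_pow_two_mul ht]
  exact pow_le_pow_left₀ (skpn_nonneg _ _) h _

/-- every anchor is at most `1` -/
theorem skp_tail_anchor_le_one (P : L8P Ω m) (h : P.Ok) {t : ℕ} (ht : 1 ≤ t) (a : ℕ) :
    skpN P.μ (2 * t) (fun ω => Real.sqrt (P.nX a ω)) ≤ 1 := by
  have := h.prob
  have hp0 : (0 : ℝ) < 2 * t := by
    have : (1 : ℝ) ≤ t := by exact_mod_cast ht
    linarith
  refine skpn_le_of_bound hp0 (ae_of_all _ fun ω => ?_)
  rw [abs_of_nonneg (Real.sqrt_nonneg _)]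
  exact Real.sqrt_le_one.2 (P.l8s_nX_le_one h a ω)

/-! ## Jensen on the fork: projected endpoints -/

/-- projecting the SECOND branch at a cut after the fork decreases the even moments (anchor = any bounded function of the first branch) -/
theorem skp_tail_qx_snd (P : L8P Ω m) (h : P.Ok) {k k₂ : ℕ} (hk : k ≤ k₂) (c : ℝ) (r : ℕ) (U : Fin m → Ω → ℝ) (hU : ∀ i, L8Bd (U i)) :
    ∫ z, (∑ i, U i z.1 * P.X k₂ i z.2 - c) ^ (2 * r) ∂(P.fork k) ≤ ∫ z, (∑ i, U i z.1 * P.y i z.2 - c) ^ (2 * r) ∂(P.fork k) := by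
  have := h.prob
  have hy : ∀ i, L8Bd (P.y i) := P.l8s_y_bd h
  have hX : ∀ i, L8Bd (P.X k₂ i) := P.l8s_X_bd h k₂
  have hF1 : @L8Bd (Ω × Ω) _ (fun z => (∑ i, U i z.1 * P.X k₂ i z.2 - c) ^ (2 * r)) :=
    ((L8Bd.sum _ fun i _ => (l8k_bd_comp measurable_fst (hU i)).mul (l8k_bd_comp measurable_snd (hX i))).sub (l8Bd_const c)).pow _
  have hF2 : @L8Bd (Ω × Ω) _ (fun z => (∑ i, U i z.1 * P.y i z.2 - c) ^ (2 * r)) :=
    ((L8Bd.sum _ fun i _ => (l8k_bd_comp measurable_fst (hU i)).mul (l8k_bd_comp measurable_snd (hy i))).sub (l8Bd_const c)).pow _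
  obtain ⟨m1, C1, b1⟩ := hF1
  obtain ⟨m2, C2, b2⟩ := hF2
  rw [P.l8s_fork_integral h k m1 b1, P.l8s_fork_integral h k m2 b2]
  refine integral_mono ((P.l8s_fork_inner_bd_aux h k m1 b1).integrable _) ((P.l8s_fork_inner_bd_aux h k m2 b2).integrable _) fun ω => ?_
  have hs : L8Bd (fun ω' => ∑ i, U i ω * P.y i ω') := L8Bd.sum _ fun i _ => (hy i).const_mul _
  have hg : L8Bd (fun ω' => ∑ i, U i ω * P.y i ω' - c) := hs.sub (l8Bd_const c)
  have hl : L8Bd (fun ω' => (∑ i, U i ω * P.X k₂ i ω' - c) ^ (2 * r)) :=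
    ((L8Bd.sum _ fun i _ => (hX i).const_mul _).sub (l8Bd_const c)).pow _
  have eabs : ∀ x : ℝ, |x| ^ (2 * r) = x ^ (2 * r) := fun x => by rw [pow_mul, pow_mul, sq_abs]
  have e1 : ∀ ω', ∑ i, U i ω * P.X k₂ i ω' - c = P.E k₂ (fun ω'' => ∑ i, U i ω * P.y i ω'' - c) ω' := by
    intro ω'
    rw [P.l8s_E_sub h k₂ hs (l8Bd_const c), P.l8s_E_const h, P.l8s_E_sum h k₂ _ fun i _ => (hy i).const_mul _]
    congr 1
    exact Finset.sum_congr rfl fun i _ => (P.l8s_E_const_mul k₂ _ _ ω').symm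
  have s1 : ∀ ω', (∑ i, U i ω * P.X k₂ i ω' - c) ^ (2 * r) ≤ P.E k₂ (fun ω'' => |∑ i, U i ω * P.y i ω'' - c| ^ (2 * r)) ω' := by
    intro ω'
    rw [e1 ω', ← eabs]
    exact P.l8s_E_pow_le h k₂ hg (2 * r) ω'
  have s2 := P.l8s_E_mono h k hl (P.l8s_E_bd h k₂ (hg.abs.pow (2 * r))) s1 ω
  rw [P.l8s_E_tower h hk (hg.abs.pow (2 * r)) ω] at s2
  simp only [eabs] at s2
  exact s2

/-- **Jensen on the fork**: all projected endpoints `QX k₁ k₂`, `k ≤ k₁, k₂`, are dominated by the terminal overlap `Q` -/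
theorem skp_tail_qx (P : L8P Ω m) (h : P.Ok) {k k₁ k₂ : ℕ} (h1 : k ≤ k₁) (h2 : k ≤ k₂) (c : ℝ) (r : ℕ) :
    ∫ z, (P.QX k₁ k₂ z - c) ^ (2 * r) ∂(P.fork k) ≤ ∫ z, (P.Q z - c) ^ (2 * r) ∂(P.fork k) := by
  have a1 := skp_tail_qx_snd P h h2 c r (P.X k₁) (P.l8s_X_bd h k₁)
  have a2 := skp_tail_qx_snd P h h1 c r P.y (P.l8s_y_bd h)
  have hF : @L8Bd (Ω × Ω) _ (fun z => (∑ i, P.y i z.1 * P.X k₁ i z.2 - c) ^ (2 * r)) :=
    ((L8Bd.sum _ fun i _ => (l8k_bd_comp measurable_fst (P.l8s_y_bd h i)).mul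
      (l8k_bd_comp measurable_snd (P.l8s_X_bd h k₁ i))).sub (l8Bd_const c)).pow _
  have e : ∫ z, (∑ i, P.X k₁ i z.1 * P.y i z.2 - c) ^ (2 * r) ∂(P.fork k)
      = ∫ z, (∑ i, P.y i z.1 * P.X k₁ i z.2 - c) ^ (2 * r) ∂(P.fork k) := by
    conv_rhs => rw [← P.l8s_fork_swap h k]
    rw [integral_map measurable_swap.aemeasurable hF.1.aestronglyMeasurable]
    refine integral_congr_ae (ae_of_all _ fun z => ?_)
    show (∑ i, P.X k₁ i z.1 * P.y i z.2 - c) ^ (2 * r) = (∑ i, P.y i z.2 * P.X k₁ i z.1 - c) ^ (2 * r)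
    have e0 : ∑ i, P.X k₁ i z.1 * P.y i z.2 = ∑ i, P.y i z.2 * P.X k₁ i z.1 :=
      Finset.sum_congr rfl fun i _ => mul_comm _ _
    rw [e0]
  rw [e] at a1
  exact a1.trans a2

end Claimed.Agent.R286
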