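import Claimed.Agent.R286.PM.Inst
import Claimed.Agent.R286.PM.Tail

/-!
# Row 286 (S0533), folder PM, file InstD2 : LEAF D2 of `l8p_core_dir` = the six (D2) fields of `L8In.RndC false` on the direct sweep      (owner helper145; prefix `l8p_d2_`)

    l8p_d2_dir : L8pD2Dir llBase T        (0 sorry here; stands on `skp_raw`, `skp_ref` of PM/Contract.lean and on `skp_tail_qx` of PM/Tail.lean)

* only the TOP order is used: `skp_raw` at the orders `2 pm`, `pm`, `skp_ref` at the order `pm` and the loss `ε/2`; lower orders by Lyapunov (`l8p_d2_lyap`);   slack threshold `eps0 = ε/4` (`1/b² = x^(-2 eps)`);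
* `r(z_k) + zlo ≤ Cv v_k + 2 zlo` (`l8p_d2_R_le`, from `vlo`);   below `zlo`: raw bound, `|q_k| ≤ Cq zlo + x^40`, `e = Y`;   above: `e ≥ x²/CW` (`l8p_d2_E_lo`) absorbs the Q-LINK error `x^40`;
* projected endpoints `QX k₁ k₂`: Jensen on the fork (`skp_tail_qx`).
`l8p_d2_one`, `l8p_d2_inst` are ABSTRACT in the variant: the low-region instance can reuse them verbatim.
-/

set_option autoImplicit false

namespace Claimed.Agent.R286

open MeasureTheory Set Filter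

section abstract

variable {Ω : Type} [mΩ : MeasurableSpace Ω] {m : ℕ}

/-- the cuts of the instance lie in `[0, zbuf]` -/
theorem l8p_d2_z_mem {S : SkpS} {J : SkpI Ω m} (hJ : J.Ok S) {k : ℕ} (hk : k ≤ J.nb) : J.z k ∈ Icc 0 J.zbuf := by
  constructor
  · have := hJ.zmono (Nat.zero_le k)
    rw [hJ.z0] at this
    exact this
  · have := hJ.zmono hk
    rw [hJ.nb] at this
    exact this

/-- `r(z_k) + zlo ≲ v_k + zlo` -/
theorem l8p_d2_R_le {S : SkpS} (hS : S.Ok) {J : SkpI Ω m} (hJ : J.Ok S) {k : ℕ} (hk : k ≤ J.nb) :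
    skwR (J.z k) + J.d.zlo ≤ S.Cv * J.P.v k + 2 * J.d.zlo := by
  have hv : 0 ≤ J.P.v k := hJ.sp.v_nonneg k
  have hCv : 0 < S.Cv := by linarith [hS.Cv]
  have hzlo := hJ.wh.zlo0
  rcases le_or_gt (J.d.zlo / 4) (J.z k) with h | h
  · have h1 := hJ.vlo k hk h
    rw [div_le_iff₀ hCv] at h1
    linarith
  · have h1 : skwR (J.z k) ≤ J.z k := min_le_left _ _
    have h2 : 0 ≤ S.Cv * J.P.v k := mul_nonneg hCv.le hv
    linarith

/-- the envelope is at least `x² / CW` above `zlo` -/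
theorem l8p_d2_E_lo {S : SkpS} (hS : S.Ok) {J : SkpI Ω m} (hJ : J.Ok S) (hxb : J.d.x ≤ J.d.b) {k : ℕ} (hk : k ≤ J.nb)
    (hz : J.d.zlo ≤ J.z k) : J.d.x ^ 2 / S.CW ≤ skwE J.d J.hh (J.z k) := by
  have hx0 := hJ.wh.x0
  have hx1 : J.d.x ≤ 1 := hJ.wh.xU.trans hJ.wh.U1
  have hCW : 1 ≤ S.CW := hS.CW
  have hCW0 : 0 < S.CW := by linarith
  have hzlo := hJ.wh.zlo0
  have hmem := l8p_d2_z_mem hJ hk
  have hRx : J.d.x ≤ skwR (J.z k) := le_min (hJ.zlox.trans hz) hx1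
  have hR0 : 0 < skwR (J.z k) := hx0.trans_le hRx
  have hR1 : skwR (J.z k) ≤ 1 := min_le_right _ _
  have h1 := hJ.wc.lower (J.z k) ⟨by linarith, hmem.2⟩
  have h2 : J.d.x ^ 2 ≤ min (J.d.b * skwR (J.z k)) (J.d.U ^ 2 / skwR (J.z k)) := by
    refine le_min ?_ ?_
    · have := mul_le_mul hxb hRx hx0.le (hx0.le.trans hxb)
      nlinarith
    · rw [le_div_iff₀ hR0]
      have h3 : J.d.x ^ 2 ≤ J.d.U ^ 2 := pow_le_pow_left₀ hx0.le hJ.wh.xU 2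
      have h4 : 0 ≤ J.d.x ^ 2 := by positivity
      nlinarith
  have h3 : J.d.x ^ 2 / S.CW ≤ J.hh (J.z k) := (div_le_div_of_nonneg_right h2 hCW0.le).trans h1
  have h4 : 0 ≤ J.d.x ^ 2 / S.CW := by positivity
  refine le_min ?_ ?_
  · refine le_trans ?_ hRx
    rw [div_le_iff₀ hCW0]
    nlinarith
  · have hZ : (1 : ℝ) ≤ J.d.Z ^ 2 := one_le_pow₀ hJ.wh.Z1
    have h5 : 0 ≤ J.hh (J.z k) := h4.trans h3
    nlinarith

/-- size of a perturbed reference overlap below `zlo` -/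
theorem l8p_d2_q_low {S : SkpS} (hS : S.Ok) {J : SkpI Ω m} (hJ : J.Ok S) {k : ℕ} (hk : k ≤ J.nb) (hz : J.z k < J.d.zlo) {qk η : ℝ}
    (hq : |qk - J.d.q (J.z k)| ≤ η) : |qk| ≤ S.Cq * J.d.zlo + η := by
  have hmem := l8p_d2_z_mem hJ hk
  have h1 := hJ.qr (J.z k) hmem
  have h0 := hJ.wh.q0 (J.z k) ⟨hmem.1, hmem.2.trans hJ.zbuf⟩
  have hR : skwR (J.z k) ≤ J.d.zlo := (min_le_left _ _).trans hz.le
  have hCq : 0 ≤ S.Cq := by linarith [hS.Cq]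
  have h2 : S.Cq * skwR (J.z k) ≤ S.Cq * J.d.zlo := mul_le_mul_of_nonneg_left hR hCq
  obtain ⟨h3, h4⟩ := abs_le.1 hq
  have hη : 0 ≤ η := (abs_nonneg _).trans hq
  have hzlo := hJ.wh.zlo0
  rw [abs_le]
  constructor
  · have : 0 ≤ S.Cq * J.d.zlo := mul_nonneg hCq hzlo.le
    linarith
  · linarith

end abstract

section moments

variable {α : Type} [MeasurableSpace α]

/-- Lyapunov for even moments -/
theorem l8p_d2_lyap (μ : Measure α) [IsProbabilityMeasure μ] {f : α → ℝ} (hf : L8Bd f) {r p : ℕ} (hr : 1 ≤ r) (hrp : r ≤ p) {B : ℝ}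
    (hB : 0 ≤ B) (h : ∫ x, f x ^ (2 * p) ∂μ ≤ B ^ (2 * p)) : ∫ x, f x ^ (2 * r) ∂μ ≤ B ^ (2 * r) := by
  have h1 := bud_bm_lyap μ hf (q := 2 * r) (q' := 2 * p) (by omega) (by omega) hB (by simpa [(even_two_mul p).pow_abs] using h)
  simpa [(even_two_mul r).pow_abs] using h1

/-- monotonicity of the bound -/
theorem l8p_d2_mono {μ : Measure α} {f : α → ℝ} {n : ℕ} {A B : ℝ} (hA : 0 ≤ A) (hAB : A ≤ B) (h : ∫ x, f x ^ n ∂μ ≤ A ^ n) :
    ∫ x, f x ^ n ∂μ ≤ B ^ n := h.trans (pow_le_pow_left₀ hA hAB n)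

/-- recentring -/
theorem l8p_d2_shift (μ : Measure α) [IsProbabilityMeasure μ] {f : α → ℝ} (hf : L8Bd f) {r : ℕ} (hr : 1 ≤ r) {A B c c' : ℝ} (hA : 0 ≤ A)
    (hc : |c - c'| ≤ B) (h : ∫ x, (f x - c) ^ (2 * r) ∂μ ≤ A ^ (2 * r)) : ∫ x, (f x - c') ^ (2 * r) ∂μ ≤ (A + B) ^ (2 * r) := by
  have h1 := skp_ref_mkc μ (f := fun x => f x - c) (l8k_bd_sub hf (l8k_bd_const c)) hr hA hc h
  refine le_trans (le_of_eq ?_) h1
  congr 1
  funext x
  congr 1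
  ring

end moments

section one

variable {Ω : Type} [mΩ : MeasurableSpace Ω] {m : ℕ} {α : Type} [MeasurableSpace α]

/-- **the refined line of (D2) for ONE observable `f`** (`|X_k|²`, `2 L_k`, `Q`) at one cut of an abstract instance, with the perturbed reference `qk` and the envelope `Y` below `zlo` -/
theorem l8p_d2_one {S : SkpS} (hS : S.Ok) {J : SkpI Ω m} (hJ : J.Ok S) (hxb : J.d.x ≤ J.d.b) {r : ℕ} (hr : 1 ≤ r) {Cm Ar : ℝ} (hCm : 0 ≤ Cm)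
    (hAr : 0 ≤ Ar) (μ : Measure α) [IsProbabilityMeasure μ] {f : α → ℝ} (hf : L8Bd f) {k : ℕ} (hk : k ≤ J.nb)
    (hraw : ∫ x, f x ^ (2 * r) ∂μ ≤ (Cm * (skwR (J.z k) + J.d.zlo)) ^ (2 * r))
    (href : J.d.zlo ≤ J.z k → ∫ x, (f x - J.d.q (J.z k)) ^ (2 * r) ∂μ ≤ (Ar * skwE J.d J.hh (J.z k)) ^ (2 * r))
    {qk : ℝ} (hq : |qk - J.d.q (J.z k)| ≤ J.d.x ^ 40) {Y A : ℝ}
    (hlow : (2 * Cm + S.Cq) * J.d.zlo + J.d.x ^ 40 ≤ A * Y) (hhigh : Ar + S.CW ≤ A) :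
    ∫ x, (f x - qk) ^ (2 * r) ∂μ ≤ (A * (if J.z k < J.d.zlo then Y else skwE J.d J.hh (J.z k))) ^ (2 * r) := by
  have hzlo := hJ.wh.zlo0
  have hx0 := hJ.wh.x0
  have hx1 : J.d.x ≤ 1 := hJ.wh.xU.trans hJ.wh.U1
  have hmem := l8p_d2_z_mem hJ hk
  have hR0 : 0 ≤ skwR (J.z k) := le_min hmem.1 zero_le_one
  by_cases hz : J.z k < J.d.zlo
  · rw [if_pos hz]
    have h1 := l8p_d2_q_low hS hJ hk hz hq
    have h2 : ∫ x, (f x - 0) ^ (2 * r) ∂μ ≤ (Cm * (skwR (J.z k) + J.d.zlo)) ^ (2 * r) := by simpa using hraw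
    have h3 := l8p_d2_shift μ hf hr (c := 0) (c' := qk) (B := S.Cq * J.d.zlo + J.d.x ^ 40)
      (mul_nonneg hCm (add_nonneg hR0 hzlo.le)) (by rw [zero_sub, abs_neg]; exact h1) h2
    refine l8p_d2_mono ?_ ?_ h3
    · have : 0 ≤ S.Cq := by linarith [hS.Cq]
      positivity
    · refine le_trans ?_ hlow
      have hR : skwR (J.z k) ≤ J.d.zlo := (min_le_left _ _).trans hz.le
      have := mul_le_mul_of_nonneg_left hR hCm
      nlinarith
  · rw [if_neg hz]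
    have hz' : J.d.zlo ≤ J.z k := not_lt.1 hz
    have hE := l8p_d2_E_lo hS hJ hxb hk hz'
    have hCW0 : 0 < S.CW := by linarith [hS.CW]
    have hE0 : 0 ≤ skwE J.d J.hh (J.z k) := le_trans (by positivity) hE
    have hB : |J.d.q (J.z k) - qk| ≤ S.CW * skwE J.d J.hh (J.z k) := by
      rw [abs_sub_comm]
      refine hq.trans ?_
      rw [div_le_iff₀ hCW0] at hE
      have : J.d.x ^ 40 ≤ J.d.x ^ 2 := pow_le_pow_of_le_one hx0.le hx1 (by norm_num)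
      linarith
    have h3 := l8p_d2_shift μ hf hr (mul_nonneg hAr hE0) hB (href hz')
    refine l8p_d2_mono (add_nonneg (mul_nonneg hAr hE0) (mul_nonneg hCW0.le hE0)) ?_ h3
    have := mul_le_mul_of_nonneg_right hhigh hE0
    linarith

end one

/-- doubling an observable -/
theorem l8p_d2_two {α : Type} [MeasurableSpace α] {μ : Measure α} {g : α → ℝ} {n : ℕ} {B : ℝ} (h : ∫ x, g x ^ n ∂μ ≤ B ^ n) :
    ∫ x, (2 * g x) ^ n ∂μ ≤ (2 * B) ^ n := by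
  simp only [mul_pow]
  rw [integral_const_mul]
  exact mul_le_mul_of_nonneg_left h (by positivity)

/-- **D2** at one instance, from the bounds of `skp_raw` (orders `2 pm`, `pm`) and `skp_ref` (order `pm`) at `l8pI I π` -/
theorem l8p_d2_inst {I : L8In} {π : L8pPar} {S : SkpS} {cv : ℝ} (hπ : π.Ok S cv) (hIok : I.Ok) (hok : L8pOk I π S cv) {pm : ℕ} (hpm : 1 ≤ pm)
    {Cm Ar A : ℝ} (hCm : 0 ≤ Cm) (hAr : 0 ≤ Ar)
    (hX : ∀ k ≤ I.n, ∫ ω, (I.sp false).nX k ω ^ (2 * pm) ∂(I.sp false).μ ≤ (Cm * (skwR (l8pZc I π k) + π.c1 * I.Y)) ^ (2 * pm))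
    (hL : ∀ k ≤ I.n, ∫ ω, (I.sp false).L k ω ^ (2 * pm) ∂(I.sp false).μ ≤ (Cm * (skwR (l8pZc I π k) + π.c1 * I.Y)) ^ (2 * pm))
    (hQ : ∀ k ≤ I.n, ∫ η, (I.sp false).Q η ^ (2 * pm) ∂((I.sp false).fork k) ≤ (Cm * (skwR (l8pZc I π k) + π.c1 * I.Y)) ^ (2 * pm))
    (hrX : ∀ k ≤ I.n, π.c1 * I.Y ≤ l8pZc I π k → ∫ ω, ((I.sp false).nX k ω - (l8pD I π).q (l8pZc I π k)) ^ (2 * pm) ∂(I.sp false).μ
      ≤ (Ar * skwE (l8pD I π) (l8pH I π) (l8pZc I π k)) ^ (2 * pm))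
    (hrL : ∀ k ≤ I.n, π.c1 * I.Y ≤ l8pZc I π k → ∫ ω, (2 * (I.sp false).L k ω - (l8pD I π).q (l8pZc I π k)) ^ (2 * pm) ∂(I.sp false).μ
      ≤ (Ar * skwE (l8pD I π) (l8pH I π) (l8pZc I π k)) ^ (2 * pm))
    (hrQ : ∀ k ≤ I.n, π.c1 * I.Y ≤ l8pZc I π k → ∫ η, ((I.sp false).Q η - (l8pD I π).q (l8pZc I π k)) ^ (2 * pm) ∂((I.sp false).fork k)
      ≤ (Ar * skwE (l8pD I π) (l8pH I π) (l8pZc I π k)) ^ (2 * pm))
    (hA1 : Cm * (S.Cv + 2 * π.c1) ≤ A) (hA2 : (4 * Cm + S.Cq) * π.c1 + 1 ≤ A) (hA3 : Ar + S.CW ≤ A) :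
    L8pD2 I false (l8pE I π) A I.Y I.a pm := by
  have hS := hπ.Sok
  have hJ := hok.pm
  have hP : (I.sp false).Ok := hJ.sp
  have := hP.prob
  have hfk : ∀ k, IsProbabilityMeasure ((I.sp false).fork k) := fun k => (I.sp false).l8s_fork_prob hP k
  have hx0 : 0 < I.x := I.x_pos hIok
  have hx1 : I.x ≤ 1 := I.x_le_one hIok
  have hc1 : 0 < π.c1 := by
    have := hπ.c1
    have h2 := hπ.cv0
    by_contra hcon
    have : cv * π.c1 ≤ 0 := mul_nonpos_of_nonneg_of_nonpos h2.le (not_lt.1 hcon)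
    linarith
  have hU0 : 0 < I.U := hx0.trans_le hok.xU
  have hUY : I.U ≤ I.Y := by
    have : I.U * 1 ≤ I.U * I.Z := mul_le_mul_of_nonneg_left hok.Z1 hU0.le
    simpa [L8In.Y] using this
  have hY0 : 0 < I.Y := hU0.trans_le hUY
  have hxY : I.x ^ 40 ≤ I.Y := by
    have : I.x ^ 40 ≤ I.x ^ 1 := pow_le_pow_of_le_one hx0.le hx1 (by norm_num)
    rw [pow_one] at this
    exact this.trans (hok.xU.trans hUY)
  have hCv : 0 ≤ S.Cv := by linarith [hS.Cv]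
  have hCq : 0 ≤ S.Cq := by linarith [hS.Cq]
  have hA0 : 0 ≤ A := le_trans (by positivity) hA2
  have hv0 : ∀ k, 0 ≤ I.v k := fun k => hP.v_nonneg k
  have hxb : I.x ≤ I.x ^ π.eps := by
    have := Real.rpow_le_rpow_of_exponent_ge hx0 hx1 hπ.eps1
    rwa [Real.rpow_one] at this
  -- the raw scale
  have hconv : ∀ k ≤ I.n, Cm * (skwR (l8pZc I π k) + π.c1 * I.Y) ≤ A * (I.v k + I.Y) := by
    intro k hk
    have h1 : skwR (l8pZc I π k) + π.c1 * I.Y ≤ S.Cv * I.v k + 2 * (π.c1 * I.Y) := l8p_d2_R_le hS hJ (k := k) hk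
    have h2 : S.Cv * I.v k + 2 * (π.c1 * I.Y) ≤ (S.Cv + 2 * π.c1) * (I.v k + I.Y) := by
      have := hv0 k
      nlinarith [mul_nonneg hCv hY0.le, mul_nonneg hc1.le this]
    calc Cm * (skwR (l8pZc I π k) + π.c1 * I.Y) ≤ Cm * ((S.Cv + 2 * π.c1) * (I.v k + I.Y)) :=
          mul_le_mul_of_nonneg_left (h1.trans h2) hCm
      _ = Cm * (S.Cv + 2 * π.c1) * (I.v k + I.Y) := by ring
      _ ≤ A * (I.v k + I.Y) := mul_le_mul_of_nonneg_right hA1 (add_nonneg (hv0 k) hY0.le)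
  have hsc0 : ∀ k ≤ I.n, 0 ≤ Cm * (skwR (l8pZc I π k) + π.c1 * I.Y) := by
    intro k hk
    have hmem := l8p_d2_z_mem hJ (k := k) hk
    have : 0 ≤ skwR (l8pZc I π k) := le_min hmem.1 zero_le_one
    positivity
  have hB0 : ∀ k, 0 ≤ A * (I.v k + I.Y) := fun k => mul_nonneg hA0 (add_nonneg (hv0 k) hY0.le)
  have hlow : ∀ c, 0 ≤ c → c ≤ 2 * Cm → (2 * c + S.Cq) * (π.c1 * I.Y) + I.x ^ 40 ≤ A * I.Y := by
    intro c _ hc
    have h1 : (2 * c + S.Cq) * (π.c1 * I.Y) ≤ (4 * Cm + S.Cq) * (π.c1 * I.Y) :=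
      mul_le_mul_of_nonneg_right (by linarith) (by positivity)
    have h2 := mul_le_mul_of_nonneg_right hA2 hY0.le
    nlinarith
  have he0 : ∀ k ≤ I.n, 0 ≤ A * l8pE I π k := by
    intro k hk
    refine mul_nonneg hA0 ?_
    unfold l8pE
    split_ifs with hz
    · exact hY0.le
    · exact le_trans (by have := hS.CW; positivity) (l8p_d2_E_lo hS hJ hxb (k := k) hk (not_lt.1 hz))
  have bX : ∀ k, L8Bd ((I.sp false).nX k) := (I.sp false).l8s_W_bd_nX hP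
  have bL : ∀ k, L8Bd ((I.sp false).L k) := (I.sp false).l8s_L_bd hP
  have bQ : L8Bd (I.sp false).Q := skp_ref_Q_bd _ hP
  -- the refined bounds at the order `pm`
  have rX : ∀ k ≤ I.n, ∫ ω, ((I.sp false).nX k ω - I.q k) ^ (2 * pm) ∂(I.sp false).μ ≤ (A * l8pE I π k) ^ (2 * pm) := fun k hk =>
    l8p_d2_one hS hJ hxb hpm hCm hAr (I.sp false).μ (bX k) (k := k) hk (hX k hk) (hrX k hk) (hok.qlink k hk)
      (hlow Cm hCm (by linarith)) hA3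
  have rL : ∀ k ≤ I.n, ∫ ω, (2 * (I.sp false).L k ω - I.q k) ^ (2 * pm) ∂(I.sp false).μ ≤ (A * l8pE I π k) ^ (2 * pm) := fun k hk =>
    l8p_d2_one hS hJ hxb hpm (Cm := 2 * Cm) (by positivity) hAr (I.sp false).μ (f := fun ω => 2 * (I.sp false).L k ω)
      ((bL k).const_mul 2) (k := k) hk (by
        have := l8p_d2_two (hL k hk)
        rwa [← mul_assoc] at this) (hrL k hk) (hok.qlink k hk) (hlow (2 * Cm) (by positivity) le_rfl) hA3
  have rQ : ∀ k ≤ I.n, ∫ η, ((I.sp false).Q η - I.q k) ^ (2 * pm) ∂((I.sp false).fork k) ≤ (A * l8pE I π k) ^ (2 * pm) := fun k hk =>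
    have := hfk k
    l8p_d2_one hS hJ hxb hpm hCm hAr ((I.sp false).fork k) bQ (k := k) hk (hQ k hk) (hrQ k hk) (hok.qlink k hk)
      (hlow Cm hCm (by linarith)) hA3
  refine ⟨?_, ?_, ?_, ?_, ?_, ?_⟩
  · intro r hr1 hr2 k hk
    exact l8p_d2_lyap _ (bX k) hr1 hr2 (hB0 k) (l8p_d2_mono (hsc0 k hk.1) (hconv k hk.1) (hX k hk.1))
  · intro r hr1 hr2 k hk
    exact l8p_d2_lyap _ (bL k) hr1 hr2 (hB0 k) (l8p_d2_mono (hsc0 k hk.1) (hconv k hk.1) (hL k hk.1))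
  · intro r hr1 hr2 k hk k₁ k₂ h1 h2
    have := hfk k
    have h3 := skp_tail_qx (I.sp false) hP h1 h2 0 r
    simp only [sub_zero] at h3
    exact h3.trans (l8p_d2_lyap _ bQ hr1 hr2 (hB0 k) (l8p_d2_mono (hsc0 k hk.1) (hconv k hk.1) (hQ k hk.1)))
  · intro r hr1 hr2 k hk _
    exact l8p_d2_lyap _ (l8k_bd_sub (bX k) (l8k_bd_const _)) hr1 hr2 (he0 k hk.1) (rX k hk.1)
  · intro r hr1 hr2 k hk _
    exact l8p_d2_lyap _ (l8k_bd_sub ((bL k).const_mul 2) (l8k_bd_const _)) hr1 hr2 (he0 k hk.1) (rL k hk.1)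
  · intro r hr1 hr2 k hk _ k₁ k₂ h1 h2
    have := hfk k
    exact (skp_tail_qx (I.sp false) hP h1 h2 (I.q k) r).trans
      (l8p_d2_lyap _ (l8k_bd_sub bQ (l8k_bd_const _)) hr1 hr2 (he0 k hk.1) (rQ k hk.1))

/-- **D2: (D2), untilted, on the direct sweep.**      TEX[LL:prop:statistics-pointwise] -/
theorem l8p_d2_dir (T : ℝ) (_hT : 1 < T) : L8pD2Dir llBase T := by
  intro F0 hF pB pS h0 h1 κ ε pm hκ hε
  refine ⟨ε / 4, by positivity, fun π S cv hπ heps => ?_⟩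
  have hS := hπ.Sok
  rcases Nat.eq_zero_or_pos pm with hpm | hpm
  · subst hpm
    refine ⟨0, 0, 0, fun I _ _ C _ => ⟨?_, ?_, ?_, ?_, ?_, ?_⟩⟩ <;>
    · intro r hr1 hr2
      omega
  obtain ⟨C1, hC1, H1⟩ := skp_raw S hS (2 * pm) (by omega)
  obtain ⟨C2, hC2, H2⟩ := skp_raw S hS pm hpm
  obtain ⟨C3, hC3, H3⟩ := skp_ref S hS pm (ε / 2) hpm (by positivity)
  obtain ⟨Cm, hCmd⟩ : ∃ Cm : ℝ, Cm = C1 + C2 + C3 := ⟨_, rfl⟩
  have hCm1 : C1 ≤ Cm := by linarith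
  have hCm2 : C2 ≤ Cm := by linarith
  have hCm3 : C3 ≤ Cm := by linarith
  have hCm0 : 0 < Cm := by linarith
  obtain ⟨Na, hNa⟩ := skw_llb_small 1 (1 / Cm) one_pos (by positivity)
  obtain ⟨Nb, hNb⟩ := skw_llb_small π.eps (1 / Cm) hπ.eps0 (by positivity)
  obtain ⟨Nc, hNc⟩ := skw_llb_small κ (1 / Cm) hκ (by positivity)
  refine ⟨Cm * (S.Cv + 2 * π.c1) + ((4 * Cm + S.Cq) * π.c1 + 1) + (Cm + S.CW), max (max Na Nb) Nc, 0, fun I hI hok C hC => ?_⟩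
  have hJ := hok.pm
  have hx0 : 0 < I.x := I.x_pos hI.ok
  have hx1 : I.x ≤ 1 := I.x_le_one hI.ok
  have hc1 : 0 < π.c1 := by
    have := hπ.c1
    have h2 := hπ.cv0
    by_contra hcon
    have : cv * π.c1 ≤ 0 := mul_nonpos_of_nonneg_of_nonpos h2.le (not_lt.1 hcon)
    linarith
  have hCv : 0 ≤ S.Cv := by linarith [hS.Cv]
  have hCq : 0 ≤ S.Cq := by linarith [hS.Cq]
  have hCW : 0 ≤ S.CW := by linarith [hS.CW]
  have hinv : ∀ c : ℝ, 1 ≤ c → c ≤ Cm → 1 / Cm ≤ 1 / c := fun c hc hcm => one_div_le_one_div_of_le (by linarith) hcm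
  have sx : I.x ≤ 1 / Cm := by
    have := hNa I.p (((le_max_left _ _).trans (le_max_left _ _)).trans hI.hN)
    rwa [Real.rpow_one] at this
  have sb : I.x ^ π.eps ≤ 1 / Cm := hNb I.p (((le_max_right _ _).trans (le_max_left _ _)).trans hI.hN)
  have sU : I.U ≤ 1 / Cm := by
    have hU0 : 0 ≤ I.U := hx0.le.trans hok.xU
    have hUY : I.U ≤ I.Y := by
      have : I.U * 1 ≤ I.U * I.Z := mul_le_mul_of_nonneg_left hok.Z1 hU0
      simpa [L8In.Y] using this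
    exact hUY.trans (hI.hY.trans (hNc I.p ((le_max_right _ _).trans hI.hN)))
  have hxe : 1 ≤ I.x ^ (-ε) := Real.one_le_rpow_of_pos_of_le_one_of_nonpos hx0 hx1 (by linarith)
  have hsmall : SkwSmall C3 (l8pD I π) := ⟨sb.trans (hinv C3 hC3 hCm3), sU.trans (hinv C3 hC3 hCm3), sx.trans (hinv C3 hC3 hCm3)⟩
  -- the loss of `skp_ref`
  have hloss : C3 * I.x ^ (-(ε / 2)) / (I.x ^ π.eps) ^ 2 ≤ Cm * I.x ^ (-ε) := by
    have e1 : (I.x ^ π.eps) ^ 2 = I.x ^ (2 * π.eps) := by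
      rw [← Real.rpow_natCast, ← Real.rpow_mul hx0.le]
      congr 1
      push_cast
      ring
    rw [e1, mul_div_assoc, ← Real.rpow_sub hx0]
    have e2 : I.x ^ (-(ε / 2) - 2 * π.eps) ≤ I.x ^ (-ε) := Real.rpow_le_rpow_of_exponent_ge hx0 hx1 (by linarith)
    exact mul_le_mul hCm3 e2 (Real.rpow_nonneg hx0.le _) hCm0.le
  have hCpos : 0 ≤ C := le_trans (by positivity) hC
  have hCA : C ≤ C * I.x ^ (-ε) := le_mul_of_one_le_right hCpos hxe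
  have hraw1 := fun k (hk : k ≤ I.n) => H1 _ _ (l8pI I π) hJ (sx.trans (hinv C1 hC1 hCm1)) k hk
  have hraw2 := fun k (hk : k ≤ I.n) => H2 _ _ (l8pI I π) hJ (sx.trans (hinv C2 hC2 hCm2)) k hk
  have href := fun k (hk : k ≤ I.n) (hz : π.c1 * I.Y ≤ l8pZc I π k) => H3 _ _ (l8pI I π) hJ hsmall k hk hz
  have hsc : ∀ k ≤ I.n, 0 ≤ skwR (l8pZc I π k) + π.c1 * I.Y := by
    intro k hk
    have hmem := l8p_d2_z_mem hJ (k := k) hk
    have h3 : 0 ≤ skwR (l8pZc I π k) := le_min hmem.1 zero_le_one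
    have h4 : 0 < π.c1 * I.Y := hJ.wh.zlo0
    linarith
  refine l8p_d2_inst hπ hI.ok hok hpm (Cm := Cm) (Ar := C3 * I.x ^ (-(ε / 2)) / (I.x ^ π.eps) ^ 2) hCm0.le
    (by have := Real.rpow_nonneg hx0.le (-(ε / 2)); have := Real.rpow_nonneg hx0.le π.eps; positivity) ?_ ?_ ?_ ?_ ?_ ?_ ?_ ?_ ?_
  · intro k hk
    exact l8p_d2_mono (mul_nonneg (by linarith) (hsc k hk)) (mul_le_mul_of_nonneg_right hCm1 (hsc k hk)) (hraw1 k hk).1
  · intro k hk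
    exact l8p_d2_mono (mul_nonneg (by linarith) (hsc k hk)) (mul_le_mul_of_nonneg_right hCm2 (hsc k hk)) (hraw2 k hk).2.1
  · intro k hk
    exact l8p_d2_mono (mul_nonneg (by linarith) (hsc k hk)) (mul_le_mul_of_nonneg_right hCm2 (hsc k hk)) (hraw2 k hk).2.2
  · intro k hk hz
    exact (href k hk hz).1
  · intro k hk hz
    exact (href k hk hz).2.1
  · intro k hk hz
    exact (href k hk hz).2.2
  · refine le_trans ?_ (hC.trans hCA)
    have : 0 ≤ (4 * Cm + S.Cq) * π.c1 + 1 := by positivity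
    linarith
  · refine le_trans ?_ (hC.trans hCA)
    have : 0 ≤ Cm * (S.Cv + 2 * π.c1) := by positivity
    linarith
  · have h5 : Cm + S.CW ≤ C := by
      refine le_trans ?_ hC
      have h6 : 0 ≤ Cm * (S.Cv + 2 * π.c1) := by positivity
      have h7 : 0 ≤ (4 * Cm + S.Cq) * π.c1 + 1 := by positivity
      linarith
    have h8 : S.CW ≤ S.CW * I.x ^ (-ε) := le_mul_of_one_le_right hCW hxe
    have h9 : (Cm + S.CW) * I.x ^ (-ε) ≤ C * I.x ^ (-ε) := mul_le_mul_of_nonneg_right h5 (by linarith)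
    nlinarith

end Claimed.Agent.R286
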