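import Claimed.Agent.R286.PM.InstIv8
import Claimed.Agent.R286.L08.IvSk

/-!
# Row 286 (S0533), folder PM, file InstIv9 : LEAF IV9 of `l8p_iv_dir` = THE LOWER BAND (D9) AT THE INSTANCE      (owner helper150; prefix `lw9_` / `Lw9`)

TEX[LL:lem:statistics-lower-band] TEX[LL:eq:D9]
    lw9_d9_dir : ENV + D2  ⟹  fields `n9 d9_W d9_Q` of `L8pIv` on the direct sweep (record `Lw9D9`, shape `L8pCons`)
* §1 PATH: `lw9_path` : the low slope `v' (h(v') - h(v)) ≥ κ₀ λ₁ max(v,U)³ (v' - v)`, `x ≤ v ≤ v' ≤ v₁`, and the jump `h(x) ≥ κ₀ λ U² x`, from `LlSec3` (`seed`, `p4`, `ref`, `adm`): ALL points (direct or smoothed).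
* §2 CHAIN: `lw9_cell` : the field `cell` of `IvsLow` at every cell of a fine chain (`I.Fine μ`, exact values `h_eq`, `h_jump`), INCLUDING the cell which contains the jump of `h` at the mass `x`.
* §3 ONE INSTANCE, ABSTRACT IN THE VARIANT (asks of 294, 200, 298): scale `Y`, loss `A`, FREE top `M Y`: `lw9B I A M Y κ cs : L8LB`, `Lw9In I A M Y κ cs c0 μ` (the hypotheses), `lw9_low : IvsLow (I.sp false) ..`,
       `lw9_W`, `lw9_D` (any window `x ≤ lo ≤ hi ≤ M Y`), `lw9_inst : Lw9D9 I (lw9K M κ cs c0 * A ^ 2) Y`.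
* §4 the two variants: `lw9_in_of` (raw facts ⟹ `Lw9In`);   direct sweep: `lw9_in_dir` (`Lw9In` from `L8pAt`, `L8pOk`, ENV, D2; `κ₀` first, `M` free after `π, S, cv`), `lw9_d9_dir : Lw9D9Dir`, `L8pLowDir` (contract of 298): `l8p_low_dir`, PM/InstIv7.lean, which imports THIS file;   low region of the size paths (`Y = Y_c`): `lw9_in_low`, `lw9_d9_low : Lw9D9Low` = helper145, PM/InstD2L.lean.
-/

set_option autoImplicit false

namespace Claimed.Agent.R286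

open MeasureTheory Set Filter

/-! ## 1. the path -/

/-- real-number core of the low slope -/
theorem lw9_slope_num {c l l1 U v v' dS dL κ : ℝ} (hc : 0 < c) (hl1 : 0 ≤ l1) (hll : l1 ≤ l) (hU : 0 ≤ U) (hv : 0 < v) (hvv : v ≤ v')
    (hκ1 : κ ≤ c) (hκ2 : κ ≤ 1) (hS : c * l * v ^ 2 * (v' - v) ≤ dS) (hL : l1 * U ^ 3 * (v' - v) ≤ v' * dL) :
    κ * l1 * max v U ^ 3 * (v' - v) ≤ v' * (dS + dL) := by
  have hd : 0 ≤ v' - v := sub_nonneg.2 hvv
  have hv' : 0 < v' := lt_of_lt_of_le hv hvv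
  have h1 : c * l1 * v ^ 3 * (v' - v) ≤ v' * dS := by
    have a1 : c * l1 * v ^ 3 * (v' - v) ≤ v' * (c * l * v ^ 2 * (v' - v)) := by
      have : c * l1 * v ^ 3 * (v' - v) = v * (c * l1 * v ^ 2 * (v' - v)) := by ring
      rw [this]
      have b1 : c * l1 * v ^ 2 * (v' - v) ≤ c * l * v ^ 2 * (v' - v) := by gcongr
      have b0 : 0 ≤ c * l1 * v ^ 2 * (v' - v) := by positivity
      exact mul_le_mul hvv b1 b0 hv'.le
    exact a1.trans (mul_le_mul_of_nonneg_left hS hv'.le)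
  have hdS : 0 ≤ v' * dS := le_trans (by positivity) h1
  have hdL : 0 ≤ v' * dL := le_trans (by positivity) hL
  rw [mul_add]
  rcases le_total v U with h | h
  · rw [max_eq_right h]
    have : κ * l1 * U ^ 3 * (v' - v) ≤ 1 * (l1 * U ^ 3 * (v' - v)) := by
      have b0 : 0 ≤ l1 * U ^ 3 * (v' - v) := by positivity
      calc κ * l1 * U ^ 3 * (v' - v) = κ * (l1 * U ^ 3 * (v' - v)) := by ring
        _ ≤ _ := mul_le_mul_of_nonneg_right hκ2 b0
    linarith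
  · rw [max_eq_left h]
    have : κ * l1 * v ^ 3 * (v' - v) ≤ c * l1 * v ^ 3 * (v' - v) := by gcongr
    linarith

/-- the two facts on the field clock of ONE point which the lower band uses -/
structure Lw9Path (𝔹 : LlBase) (F : LlFix) (p : LlPt) (κ0 v1 : ℝ) : Prop where
  slope : ∀ v v', p.x ≤ v → v ≤ v' → v' ≤ v1 → κ0 * p.lam1 F * max v (p.U F) ^ 3 * (v' - v) ≤ v' * (p.h F 𝔹 v' - p.h F 𝔹 v)
  jump : p.x ≤ v1 → κ0 * p.lam * p.U F ^ 2 * p.x ≤ p.h F 𝔹 p.x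

/-- **the low slope of the field clock at the path level** (TEX[LL:eq:D3], low form) -/
theorem lw9_path {𝔹 : LlBase} {F : LlFix} (h3 : LlSec3 𝔹 F) :
    ∃ κ0 v1 : ℝ, 0 < κ0 ∧ κ0 ≤ 1 ∧ 0 < v1 ∧ v1 ≤ 1 / 2 ∧ LlUnif F fun p => Lw9Path 𝔹 F p κ0 v1 := by
  obtain ⟨vS, hvS, N1, hseed⟩ := h3.seed
  obtain ⟨c, C, v0, hc, hv0, N2, hp4⟩ := h3.p4
  obtain ⟨c', C', v0', hc', hv0', N3, href⟩ := h3.ref
  obtain ⟨ca, Ca, hca, N4, hadm⟩ := h3.adm
  refine ⟨min (c * c' / 2) 1, min vS (min v0' (1 / 2)), lt_min (by positivity) one_pos, min_le_right _ _, lt_min hvS (lt_min hv0' (by norm_num)),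
    (min_le_right _ _).trans (min_le_right _ _), max (max N1 N2) (max N3 N4), fun p hp hN => ?_⟩
  have hs := hseed p hp ((le_max_left _ _).trans ((le_max_left _ _).trans hN))
  have h4 := (hp4 p hp ((le_max_right _ _).trans ((le_max_left _ _).trans hN))).1
  have hr := href p hp ((le_max_left _ _).trans ((le_max_right _ _).trans hN))
  have had := hadm p hp ((le_max_right _ _).trans ((le_max_right _ _).trans hN))
  obtain ⟨ha1, -⟩ := lce_a_mem hp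
  have hx := lce_x_pos (p := p) hp.N2
  have hx1 := lce_x_lt_one (p := p) hp.N2
  have hl0 : 0 < p.lam := lt_of_lt_of_le (Real.rpow_pos_of_pos hx _) hp.lam_lo
  have hl1 : p.lam ≤ 1 := hp.lam_hi.trans (Real.rpow_le_one hx.le hx1.le h3.ok.pS0.le)
  have hll : p.lam1 F ≤ p.lam := by
    unfold LlPt.lam1
    calc p.lam ^ (1 + F.eta) ≤ p.lam ^ (1 : ℝ) := Real.rpow_le_rpow_of_exponent_ge hl0 hl1 (by linarith [h3.ok.eta0])
      _ = p.lam := Real.rpow_one _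
  have hl10 : 0 ≤ p.lam1 F := Real.rpow_nonneg hl0.le _
  have hU : 0 ≤ p.U F := le_min zero_le_one (mul_nonneg hx.le (Real.rpow_nonneg hl0.le _))
  have hheq : ∀ v, p.x ≤ v → v ≤ vS → p.h F 𝔹 v = p.hS F 𝔹 v + p.Hlo F v := fun v h1 h2 => by
    have := hs v h1 h2
    unfold LlPt.d at this
    linarith
  have hSlo : ∀ v v', 0 < v → v ≤ v' → v' ≤ min vS (min v0' (1 / 2)) → c * c' * p.lam * (v ^ 2 + p.U F ^ 2) * (v' - v) ≤ p.hS F 𝔹 v' - p.hS F 𝔹 v := by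
    intro v v' h0 hvv hv'
    have hv'2 : v' ≤ 1 / 2 := hv'.trans ((min_le_right _ _).trans (min_le_right _ _))
    have hv'0 : v' ≤ v0' := hv'.trans ((min_le_right _ _).trans (min_le_left _ _))
    have a1 := h4 v ⟨h0, by linarith⟩ v' ⟨by linarith, by linarith⟩ hvv
    have a2 := hr.K_lo v v' h0 hvv hv'0
    refine le_trans ?_ a1
    have : 0 ≤ c * p.lam * (v ^ 2 + p.U F ^ 2) := by positivity
    calc c * c' * p.lam * (v ^ 2 + p.U F ^ 2) * (v' - v) = c * p.lam * (v ^ 2 + p.U F ^ 2) * (c' * (v' - v)) := by ring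
      _ ≤ _ := mul_le_mul_of_nonneg_left a2 this
  refine ⟨fun v v' h1 hvv hv' => ?_, fun hxv => ?_⟩
  · have hv0 : 0 < v := lt_of_lt_of_le hx h1
    have hv'0 : 0 < v' := lt_of_lt_of_le hv0 hvv
    have hv'S : v' ≤ vS := hv'.trans (min_le_left _ _)
    have hv'2 : v' ≤ 1 / 2 := hv'.trans ((min_le_right _ _).trans (min_le_right _ _))
    rw [hheq v' (h1.trans hvv) hv'S, hheq v h1 (hvv.trans hv'S)]
    have e : p.hS F 𝔹 v' + p.Hlo F v' - (p.hS F 𝔹 v + p.Hlo F v) = (p.hS F 𝔹 v' - p.hS F 𝔹 v) + (p.Hlo F v' - p.Hlo F v) := by ring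
    rw [e]
    have hcc : 0 < c * c' := by positivity
    refine lw9_slope_num (c := c * c') (l := p.lam) hcc hl10 hll hU hv0 hvv ((min_le_left _ _).trans (by linarith)) (min_le_right _ _) ?_ ?_
    · refine le_trans ?_ (hSlo v v' hv0 hvv hv')
      have : 0 ≤ c * c' * p.lam * p.U F ^ 2 * (v' - v) := by
        have := sub_nonneg.2 hvv
        positivity
      nlinarith
    · unfold LlPt.Hlo
      rw [min_eq_left (by linarith [hp.ell1]), min_eq_left (by linarith [hp.ell1])]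
      have hlog : 1 - v / v' ≤ Real.log (v' / p.x) - Real.log (v / p.x) := by
        rw [← Real.log_div (by positivity) (by positivity)]
        have e2 : v' / p.x / (v / p.x) = v' / v := by field_simp
        rw [e2]
        have := Real.one_sub_inv_le_log_of_pos (show 0 < v' / v by positivity)
        rwa [inv_div] at this
      have hA : 0 ≤ p.lam1 F * p.U F ^ 3 := by positivity
      calc p.lam1 F * p.U F ^ 3 * (v' - v) = v' * (p.lam1 F * p.U F ^ 3 * (1 - v / v')) := by field_simp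
        _ ≤ v' * (p.lam1 F * p.U F ^ 3 * (Real.log (v' / p.x) - Real.log (v / p.x))) := by gcongr
        _ = _ := by ring
  · rw [hheq p.x le_rfl (hxv.trans (min_le_left _ _))]
    have a1 := hSlo (p.x / 2) p.x (by positivity) (by linarith) hxv
    have a2 : 0 ≤ p.hS F 𝔹 (p.x / 2) := (had.2.2.2.2.2.1 (p.x / 2) ⟨by positivity, by linarith⟩).2.2.2.1
    have a3 : p.Hlo F p.x = 0 := by
      unfold LlPt.Hlo
      rw [min_eq_left (by linarith [hp.ell1]), div_self hx.ne', Real.log_one, mul_zero]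
    rw [a3, add_zero]
    have a4 : c * c' / 2 * p.lam * p.U F ^ 2 * p.x ≤ c * c' * p.lam * ((p.x / 2) ^ 2 + p.U F ^ 2) * (p.x - p.x / 2) := by
      have : 0 ≤ c * c' * p.lam * (p.x / 2) ^ 2 * (p.x / 2) := by positivity
      nlinarith
    have a5 : min (c * c' / 2) 1 * p.lam * p.U F ^ 2 * p.x ≤ c * c' / 2 * p.lam * p.U F ^ 2 * p.x := by
      have := min_le_left (c * c' / 2) 1
      gcongr
    linarith

/-! ## 2. the chain -/

/-- the low slope between two neighbouring stages (all cases: above the mask, across the mask); `H` = the value of the field clock read at the left stage -/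
theorem lw9_cell_num {𝔹 : LlBase} {F : LlFix} {p : LlPt} {κ0 v1 μ : ℝ} (hκ : 0 ≤ κ0) (hp : Lw9Path 𝔹 F p κ0 v1)
    (hx : 0 < p.x) (hxU : p.x ≤ p.U F) (hU1 : p.U F ≤ 1) (hl0 : 0 ≤ p.lam1 F) (hll : p.lam1 F ≤ p.lam) (hμ : μ ≤ p.x ^ 2)
    {v v' H : ℝ} (hH : H ≤ p.h F 𝔹 v) (hH0 : v < p.x → H = 0) (hu : v ≤ v') (hd : v' - v ≤ μ) (hxr : p.x < v') (hv1 : v' ≤ v1) :
    κ0 * p.lam1 F * max v (p.U F) ^ 3 * (v' - v) ≤ v' * (p.h F 𝔹 v' - H) := by
  have hr'0 : 0 < v' := hx.trans hxr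
  rcases le_or_gt p.x v with h | h
  · refine (hp.slope v v' h hu hv1).trans (mul_le_mul_of_nonneg_left ?_ hr'0.le)
    linarith
  · rw [hH0 h, sub_zero, max_eq_right (h.le.trans hxU)]
    have a1 := hp.slope p.x v' le_rfl hxr.le hv1
    have hj := hp.jump (hxr.le.trans hv1)
    rw [max_eq_right hxU] at a1
    have hU0 : 0 ≤ p.U F := hx.le.trans hxU
    have c3 : 0 ≤ p.lam := hl0.trans hll
    have a2 : κ0 * p.lam1 F * p.U F ^ 3 * (p.x - v) ≤ v' * p.h F 𝔹 p.x := by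
      have b1 : p.x - v ≤ p.x ^ 2 := by linarith
      have b2 : κ0 * p.lam1 F * p.U F ^ 3 * (p.x - v) ≤ κ0 * p.lam * p.U F ^ 2 * p.x ^ 2 := by
        have c1 : p.U F ^ 3 ≤ p.U F ^ 2 := pow_le_pow_of_le_one hU0 hU1 (by norm_num)
        have c2 : 0 ≤ p.x - v := by linarith
        calc κ0 * p.lam1 F * p.U F ^ 3 * (p.x - v) ≤ κ0 * p.lam * p.U F ^ 2 * (p.x - v) := by gcongr
          _ ≤ _ := by gcongr
      have b3 : κ0 * p.lam * p.U F ^ 2 * p.x ^ 2 = p.x * (κ0 * p.lam * p.U F ^ 2 * p.x) := by ring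
      have b4 : 0 ≤ κ0 * p.lam * p.U F ^ 2 * p.x := by positivity
      calc _ ≤ p.x * (κ0 * p.lam * p.U F ^ 2 * p.x) := b3 ▸ b2
        _ ≤ v' * p.h F 𝔹 p.x := mul_le_mul hxr.le hj b4 hr'0.le
    have e3 : κ0 * p.lam1 F * p.U F ^ 3 * (v' - v) = κ0 * p.lam1 F * p.U F ^ 3 * (v' - p.x) + κ0 * p.lam1 F * p.U F ^ 3 * (p.x - v) := by ring
    rw [e3]
    have e4 : v' * p.h F 𝔹 v' = v' * (p.h F 𝔹 v' - p.h F 𝔹 p.x) + v' * p.h F 𝔹 p.x := by ring
    rw [e4]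
    exact add_le_add a1 a2

/-- dictionary: the field increment of the revelation `k` -/
theorem lw9_dh (I : L8In) {k : ℕ} (hk : k < I.n) : (I.sp false).dh k = I.hC (k + 1) - I.hC k := by
  have hlen : k < ((llMat I.LP).map SkInc.dh).length := by
    have : I.n = I.LP.length := rfl
    simp only [llMat, List.length_map]
    omega
  have a3 := l8f_take_succ ((llMat I.LP).map SkInc.dh) hlen
  show ((llMat I.LP).map SkInc.dh).getD k 0 = skCumH (llMat I.LP) (k + 1) - skCumH (llMat I.LP) k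
  unfold skCumH
  rw [List.map_take, List.map_take, a3, List.getD_eq_getElem _ _ hlen]
  ring

theorem lw9_dhn (I : L8In) : (I.sp false).dh (I.sp false).n = 0 := by
  show ((llMat I.LP).map SkInc.dh).getD (llMat I.LP).length 0 = 0
  exact List.getD_eq_default _ _ (by simp)

/-- **the field `cell` of `IvsLow`** at every cell of a fine chain -/
theorem lw9_cell {I : L8In} (hI : I.Ok) (hP : (I.sp false).Ok) {κ0 v1 μ vtop : ℝ} (hκ : 0 ≤ κ0) (hp : Lw9Path I.𝔹 I.F I.p κ0 v1) (hf : I.Fine μ)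
    (hxU : I.x ≤ I.U) (hll : I.lam1 ≤ I.lam) (hl0 : 0 ≤ I.lam1) (hμ : μ ≤ I.x ^ 2) (hv1 : vtop + μ ≤ v1) (hv11 : v1 < 1) :
    ∀ k ≤ I.n, I.x < I.v k → I.v k - I.dv k < vtop → κ0 * I.lam1 * max (I.v k - I.dv k) I.U ^ 3 * I.dv k ≤ I.v k * (I.sp false).dh k := by
  intro k hk hxk htop
  have hx : 0 < I.x := I.x_pos hI
  have hd := hf.dv_le k hk
  rcases hk.eq_or_lt with rfl | hkn
  · exfalso
    have ha : I.v I.n = I.a := by
      show ((llMat I.LP).map SkInc.m).getD I.LP.length I.a = I.a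
      exact List.getD_eq_default _ _ (by simp [llMat])
    have ha1 : 1 ≤ I.a := (lce_a_mem hI.pt).1
    linarith
  · rcases Nat.eq_zero_or_pos k with rfl | hk0
    · rw [hf.v_zero] at hxk
      exact absurd hxk (not_lt.2 hx.le)
    · obtain ⟨j, rfl⟩ : ∃ j, k = j + 1 := ⟨k - 1, by omega⟩
      have hj : j < I.n := by omega
      have edv : I.dv (j + 1) = I.v (j + 1) - I.v j := by
        show skMs I.a I.P0 (j + 1) - (if j + 1 = 0 then 0 else skMs I.a I.P0 (j + 1 - 1)) = _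
        rw [if_neg (Nat.succ_ne_zero j)]
        rfl
      have e1 : I.v (j + 1) - I.dv (j + 1) = I.v j := by rw [edv]; ring
      rw [e1] at htop ⊢
      rw [edv, lw9_dh I hkn, hf.h_eq (j + 1) hkn hxk.ne']
      rw [edv] at hd
      have hmono : I.v j ≤ I.v (j + 1) := hP.v_mono (Nat.le_succ j)
      refine lw9_cell_num (μ := μ) hκ hp hx hxU (min_le_left _ _) hl0 hll hμ ?_ ?_ hmono hd hxk (by linarith)
      · by_cases hjx : I.v j = I.x
        · rw [hjx]; exact (hf.h_jump j hj hjx).2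
        · rw [hf.h_eq j hj hjx]
      · intro hlt
        rw [hf.h_eq j hj hlt.ne]
        show I.p.h I.F I.𝔹 (I.v j) = 0
        unfold LlPt.h
        rw [if_pos hlt]

/-! ## 3. one instance, abstract in the variant -/

/-- the three (D9) fields of `L8pIv`, untilted -/
structure Lw9D9 (I : L8In) (A Y : ℝ) : Prop where
  n9 : ∀ w, 0 < w → w ≤ 2 * Y → I.int (max w I.x) (2 * w) I.D2 ≤ A * Y * I.epsw Y w
  d9_W : ∀ w, 0 < w → w ≤ 2 * Y → I.int (max w I.x) (2 * w) (fun k => I.ex false ((I.sp false).W k)) ≤ A * I.epsw Y w ^ 2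
  d9_Q : ∀ w, 0 < w → w ≤ 2 * Y → I.int (max w I.x) (2 * w) (fun k => I.moF false k 1 fun ω => (I.sp false).Q ω - I.S k) ≤ A * Y * I.epsw Y w

/-- the scales of the lower band: top `M Y`, `S ≤ (M + 2) A Y`, raw scale `(M + 2) A Y` -/
noncomputable def lw9B (I : L8In) (A M Y κ cs : ℝ) : L8LB := ⟨I.x, Y, I.U, I.lam1, M * Y, (M + 2) * A, κ / 16, cs / 2, (M + 2) * A * Y⟩

/-- the constant of the exit -/
noncomputable def lw9K (M κ cs c0 : ℝ) : ℝ := (9 + 16 * c0) * (1 + 128 * (M + 2) / (cs * κ)) * (M + 2) + 1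

theorem lw9_eqns_cite : True := by
  have := @lw9B.eq_1
  have := @lw9K.eq_1
  trivial

/-- **the hypotheses of the lower band at one instance** (scale `Y`, loss `A`, top `M Y`, slope `κ`, mesh `μ`) -/
structure Lw9In (I : L8In) (A M Y κ cs c0 μ : ℝ) : Prop where
  ok : I.Ok
  sp : (I.sp false).Ok
  adm : LlStpAdm I.a I.LP
  cs0 : 0 < cs
  c00 : 0 ≤ c0
  sus : (I.sp false).Sus cs
  pin : (I.sp false).Pin 1 c0
  mesh : ∀ k ≤ I.n, I.dv k ≤ μ
  cell : ∀ k ≤ I.n, I.x < I.v k → I.v k - I.dv k < M * Y → κ * I.lam1 * max (I.v k - I.dv k) I.U ^ 3 * I.dv k ≤ I.v k * (I.sp false).dh k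
  κ0 : 0 < κ
  A1 : 1 ≤ A
  M4 : 4 ≤ M
  xY : I.x ≤ Y
  U0 : 0 < I.U
  lam0 : 0 < I.lam1
  lam1 : I.lam1 ≤ 1
  top : M * Y + μ ≤ 1 / 2
  μ40 : μ ≤ I.x ^ 40
  x2 : I.x ≤ 1 / 2
  s_le : ∀ k ≤ I.n, I.S k ≤ A * (I.v k + Y)
  raw_X : ∀ k ≤ I.n, ∫ ω, (I.sp false).nX k ω ^ 2 ∂(I.sp false).μ ≤ (A * (I.v k + Y)) ^ 2
  raw_B : ∀ k ≤ I.n, (I.sp false).B k ≤ (A * (I.v k + Y)) ^ 2

theorem lw9_S {I : L8In} (hI : I.Ok) (hadm : LlStpAdm I.a I.LP) {k : ℕ} (hk : k ≤ I.n) : (I.sp false).S k = I.S k := by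
  have ha0 : 0 < I.a := lt_of_lt_of_le one_pos (lce_a_mem hI.pt).1
  have hk' : k ≤ (I.P false).length := by
    have := l8p_iv8_n I
    have e : (I.sp false).n = (I.P false).length := rfl
    omega
  exact l8i_S I.m I.a ha0 _ hadm.1 k hk'

/-- `m x⁶ ≥ 1/2` -/
theorem lw9_msz {I : L8In} (hI : I.Ok) : (1 : ℝ) / 2 ≤ I.m * I.x ^ 6 := by
  have hN : (0 : ℝ) < I.p.N := by
    have := hI.pt.N2
    exact_mod_cast (by omega : 0 < I.p.N)
  have e : I.x ^ 6 = (I.p.N : ℝ)⁻¹ := by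
    show ((I.p.N : ℝ) ^ (-(1 / 6) : ℝ)) ^ 6 = _
    rw [← Real.rpow_natCast, ← Real.rpow_mul hN.le]
    norm_num
    exact Real.rpow_neg_one _
  rw [e]
  have h2 : (I.p.N : ℝ) ≤ 2 * I.m := by exact_mod_cast hI.m_lo
  rw [← div_eq_mul_inv, le_div_iff₀ hN]
  linarith

section inst

variable {I : L8In} {A M Y κ cs c0 μ : ℝ}

theorem Lw9In.x0 (h : Lw9In I A M Y κ cs c0 μ) : 0 < I.x := I.x_pos h.ok

theorem Lw9In.Y0 (h : Lw9In I A M Y κ cs c0 μ) : 0 < Y := lt_of_lt_of_le h.x0 h.xY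

theorem Lw9In.μ0 (h : Lw9In I A M Y κ cs c0 μ) : 0 ≤ μ := (ivk_dv_nonneg h.sp 0).trans (h.mesh 0 (Nat.zero_le _))

theorem Lw9In.μx (h : Lw9In I A M Y κ cs c0 μ) : μ ≤ I.x / 2 := by
  have hx := h.x0
  have h1 : I.x ^ 39 ≤ 1 / 2 := by
    calc I.x ^ 39 ≤ I.x ^ 1 := pow_le_pow_of_le_one hx.le (by linarith [h.x2]) (by norm_num)
      _ = I.x := pow_one _
      _ ≤ 1 / 2 := h.x2
  calc μ ≤ I.x ^ 40 := h.μ40
    _ = I.x * I.x ^ 39 := by ring
    _ ≤ I.x * (1 / 2) := mul_le_mul_of_nonneg_left h1 hx.le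
    _ = I.x / 2 := by ring

/-- a cut whose cell starts before `M Y + μ` -/
theorem Lw9In.v_le (h : Lw9In I A M Y κ cs c0 μ) {k : ℕ} (hk : k ≤ I.n) (ht : I.v k - I.dv k < M * Y + μ) : I.v k + Y ≤ (M + 2) * Y := by
  have := h.mesh k hk
  have := h.μx
  have := h.xY
  linarith

/-- **the grid-level imports of the lower band**, FREE top `M Y` -/
theorem lw9_low (h : Lw9In I A M Y κ cs c0 μ) : IvsLow (I.sp false) (lw9B I A M Y κ cs) κ cs μ where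
  x0 := h.x0
  Y0 := h.Y0
  U0 := h.U0
  lam0 := h.lam0
  cS0 := by show 0 < (M + 2) * A; have := h.M4; have := h.A1; positivity
  cm0 := by show 0 < cs / 2; have := h.cs0; positivity
  κ0 := h.κ0
  ck := rfl
  xtop := by show I.x ≤ M * Y; have := h.M4; have := h.Y0; have := h.xY; nlinarith
  top := by show M * Y ≤ I.a; have := (lce_a_mem h.ok.pt).1; have := h.top; have := h.μ0; show M * Y ≤ I.p.a; linarith
  mesh := fun k hk => h.mesh k (by rw [← l8p_iv8_n I]; exact hk)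
  μx := h.μx
  msz := by
    show cs / 2 ≤ cs * I.m * I.x ^ 6
    have := lw9_msz h.ok
    have := h.cs0
    nlinarith
  Stop := by
    intro k hk ht
    have hn := l8p_iv8_n I
    show (I.sp false).S k ≤ (M + 2) * A * Y
    rcases Nat.lt_or_ge I.n k with hlt | hle
    · exfalso
      have hk1 : k = I.n + 1 := by omega
      subst hk1
      have e : (I.sp false).v (I.n + 1) - (I.sp false).dv (I.n + 1) = (I.sp false).v I.n := by
        unfold L8P.dv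
        rw [if_neg (Nat.succ_ne_zero _)]
        simp
      rw [e, h.sp.v_term I.n (by omega)] at ht
      have : (1 : ℝ) ≤ (I.sp false).a := (lce_a_mem h.ok.pt).1
      have h1 : (lw9B I A M Y κ cs).vtop = M * Y := rfl
      rw [h1] at ht
      linarith [h.top]
    · rw [lw9_S h.ok h.adm hle]
      have h1 := h.v_le hle ht
      have hA : 0 ≤ A := by linarith [h.A1]
      calc I.S k ≤ A * (I.v k + Y) := h.s_le k hle
        _ ≤ A * ((M + 2) * Y) := mul_le_mul_of_nonneg_left h1 hA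
        _ = _ := by ring
  cell := fun k hk h1 h2 => h.cell k (by rw [← l8p_iv8_n I]; exact hk) h1 h2
  raw4 := by
    intro k hk _ h2
    have hk' : k ≤ I.n := by rw [← l8p_iv8_n I]; exact hk
    have h1 := h.v_le hk' (lt_of_lt_of_le h2 (by show M * Y ≤ M * Y + μ; linarith [h.μ0]))
    have hA : 0 ≤ A := by linarith [h.A1]
    have hv : 0 ≤ I.v k + Y := add_nonneg (h.sp.v_nonneg k) h.Y0.le
    refine (h.raw_X k hk').trans ?_
    show (A * (I.v k + Y)) ^ 2 ≤ ((M + 2) * A * Y) ^ 2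
    refine pow_le_pow_left₀ (mul_nonneg hA hv) ?_ 2
    calc A * (I.v k + Y) ≤ A * ((M + 2) * Y) := mul_le_mul_of_nonneg_left h1 hA
      _ = _ := by ring
  rawT := by
    intro k hk _ h2
    have hk' : k ≤ I.n := by rw [← l8p_iv8_n I]; exact hk
    have h1 := h.v_le hk' (lt_of_lt_of_le h2 (by show M * Y ≤ M * Y + μ; linarith [h.μ0]))
    have hA : 0 ≤ A := by linarith [h.A1]
    have hv : 0 ≤ I.v k + Y := add_nonneg (h.sp.v_nonneg k) h.Y0.le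
    have e := ivk_D2_eq h.sp k
    have e1 : 0 ≤ ivkVar (I.sp false) k := by
      unfold ivkVar
      exact integral_nonneg fun _ => sq_nonneg _
    have e2 : 0 ≤ ∫ ω, (I.sp false).xCx k ω ∂(I.sp false).μ := integral_nonneg (ivk_xCx_nonneg h.sp k)
    have e3 : (I.sp false).D2 k ≤ (I.sp false).B k := by
      unfold L8P.D2
      nlinarith [sq_nonneg ((I.sp false).S k)]
    have e4 : ∫ ω, (I.sp false).trC2 k ω ∂(I.sp false).μ ≤ (A * (I.v k + Y)) ^ 2 := by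
      have := h.raw_B k hk'
      linarith
    refine e4.trans ?_
    show (A * (I.v k + Y)) ^ 2 ≤ ((M + 2) * A * Y) ^ 2
    refine pow_le_pow_left₀ (mul_nonneg hA hv) ?_ 2
    calc A * (I.v k + Y) ≤ A * ((M + 2) * Y) := mul_le_mul_of_nonneg_left h1 hA
      _ = _ := by ring
  SR := le_of_eq (by show (M + 2) * A * Y = (M + 2) * A * Y; rfl)

/-- (D9), first line, any window `x ≤ lo ≤ hi ≤ M Y` -/
theorem lw9_W (h : Lw9In I A M Y κ cs c0 μ) {lo hi : ℝ} (h1 : I.x ≤ lo) (h12 : lo ≤ hi) (h2 : hi ≤ M * Y) :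
    I.int lo hi (fun k => I.ex false ((I.sp false).W k)) ≤ (lw9B I A M Y κ cs).K1 * (lw9B I A M Y κ cs).eps2 lo + μ * (4 * I.a) := by
  rw [l8p_iv8_int]
  have hm : 0 < I.m := by
    have := h.ok.m_lo
    have := h.ok.pt.N2
    omega
  exact ivs_d9_W h.sp (lw9_low h) hm h.c00 h.cs0 h.sus h.pin (lw9_dhn I) h1 h12 h2

/-- (D9), second line, any window `x ≤ lo ≤ hi ≤ min (M Y) (2 lo)` -/
theorem lw9_D (h : Lw9In I A M Y κ cs c0 μ) {lo hi : ℝ} (h1 : I.x ≤ lo) (h12 : lo ≤ hi) (h2 : hi ≤ M * Y) (h22 : hi ≤ 2 * lo) :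
    I.int lo hi I.D2 ≤ (9 + 16 * c0) * Real.sqrt (lw9B I A M Y κ cs).K1 * ((M + 2) * A * Y * (lw9B I A M Y κ cs).eps lo) + μ := by
  have hm : 0 < I.m := by
    have := h.ok.m_lo
    have := h.ok.pt.N2
    omega
  have e : I.int lo hi I.D2 = (I.sp false).int lo hi (I.sp false).D2 := by
    rw [← l8p_iv8_int]
    exact l8p_iv8_int_congr I _ _ fun k hk => (l8p_iv8_D2 h.ok h.adm hk).symm
  rw [e]
  exact ivs_d9_D h.sp (lw9_low h) hm h.c00 h.cs0 h.sus h.pin (lw9_dhn I) h1 h12 h2 h22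

/-- `ε_w²` of `LowBand` is `I.epsw Y w ²` -/
theorem lw9_eps2 (h : Lw9In I A M Y κ cs c0 μ) (w : ℝ) : (lw9B I A M Y κ cs).eps2 w = I.epsw Y w ^ 2 := by
  have hm : 0 < max w I.U := lt_of_lt_of_le h.U0 (le_max_right _ _)
  have e1 : (max w I.U ^ (3 / 2 : ℝ)) ^ 2 = max w I.U ^ 3 := by
    rw [← Real.rpow_natCast, ← Real.rpow_mul hm.le, ← Real.rpow_natCast]
    norm_num
  show I.x ^ 6 * Y / (I.lam1 * max w I.U ^ 3) = (I.x ^ 3 * Real.sqrt Y / (Real.sqrt I.lam1 * max w I.U ^ (3 / 2 : ℝ))) ^ 2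
  rw [div_pow, mul_pow, mul_pow, Real.sq_sqrt h.Y0.le, Real.sq_sqrt h.lam0.le, e1]
  ring

theorem lw9_epsw_nonneg (I : L8In) (Y w : ℝ) (hU : 0 < I.U) : 0 ≤ I.epsw Y w := by
  have hm : 0 < max w I.U := lt_of_lt_of_le hU (le_max_right _ _)
  unfold L8In.epsw
  exact div_nonneg (mul_nonneg (pow_nonneg I.x_nonneg _) (Real.sqrt_nonneg _)) (mul_nonneg (Real.sqrt_nonneg _) (Real.rpow_nonneg hm.le _))

theorem lw9_eps (h : Lw9In I A M Y κ cs c0 μ) (w : ℝ) : (lw9B I A M Y κ cs).eps w = I.epsw Y w := by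
  unfold L8LB.eps
  rw [lw9_eps2 h, Real.sqrt_sq (lw9_epsw_nonneg I Y w h.U0)]

/-- `ε_w` decreases in `w` -/
theorem lw9_epsw_anti (h : Lw9In I A M Y κ cs c0 μ) {w w' : ℝ} (hw : w ≤ w') : I.epsw Y w' ≤ I.epsw Y w := by
  have hm : 0 < max w I.U := lt_of_lt_of_le h.U0 (le_max_right _ _)
  unfold L8In.epsw
  refine div_le_div_of_nonneg_left (mul_nonneg (pow_nonneg I.x_nonneg _) (Real.sqrt_nonneg _))
    (mul_pos (Real.sqrt_pos.2 h.lam0) (Real.rpow_pos_of_pos hm _)) ?_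
  exact mul_le_mul_of_nonneg_left (Real.rpow_le_rpow hm.le (max_le_max hw le_rfl) (by norm_num)) (Real.sqrt_nonneg _)

/-- `ε_w² ≥ x⁷` on the lower band -/
theorem lw9_epsw_lo (h : Lw9In I A M Y κ cs c0 μ) {w : ℝ} (hw : w ≤ 2 * Y) : I.x ^ 7 ≤ I.epsw Y w ^ 2 := by
  have hx := h.x0
  have hY := h.Y0
  have hm : 0 < max w I.U := lt_of_lt_of_le h.U0 (le_max_right _ _)
  have hm1 : max w I.U ≤ 1 := by
    refine max_le ?_ (min_le_left _ _)
    have := h.top; have := h.M4; have := h.μ0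
    nlinarith
  rw [← lw9_eps2 h]
  show I.x ^ 7 ≤ I.x ^ 6 * Y / (I.lam1 * max w I.U ^ 3)
  have hden : I.lam1 * max w I.U ^ 3 ≤ 1 := by
    calc I.lam1 * max w I.U ^ 3 ≤ 1 * 1 := mul_le_mul h.lam1 (pow_le_one₀ hm.le hm1) (by positivity) zero_le_one
      _ = 1 := one_mul 1
  rw [le_div_iff₀ (mul_pos h.lam0 (by positivity))]
  calc I.x ^ 7 * (I.lam1 * max w I.U ^ 3) ≤ I.x ^ 7 * 1 := mul_le_mul_of_nonneg_left hden (by positivity)
    _ = I.x ^ 6 * I.x := by ring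
    _ ≤ I.x ^ 6 * Y := mul_le_mul_of_nonneg_left h.xY (by positivity)

theorem lw9_K1 (h : Lw9In I A M Y κ cs c0 μ) : (lw9B I A M Y κ cs).K1 = 128 * (M + 2) / (cs * κ) * A := by
  have := h.cs0; have := h.κ0
  show 4 * ((M + 2) * A) / (cs / 2 * (κ / 16)) = _
  field_simp
  ring

theorem lw9_num_n9 {c0 K' M A Y e e' μ D s : ℝ} (hc0 : 0 ≤ c0) (hK : 0 ≤ K') (hM : 4 ≤ M) (hA : 1 ≤ A) (hY : 0 < Y) (he' : 0 ≤ e') (hee : e' ≤ e)
    (hs : s ≤ (1 + K') * A) (hμ : μ ≤ Y * e) (key : D ≤ (9 + 16 * c0) * s * ((M + 2) * A * Y * e') + μ) :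
    D ≤ ((9 + 16 * c0) * (1 + K') * (M + 2) + 1) * A ^ 2 * Y * e := by
  have he : 0 ≤ e := he'.trans hee
  have h1 : (9 + 16 * c0) * s * ((M + 2) * A * Y * e') ≤ (9 + 16 * c0) * ((1 + K') * A) * ((M + 2) * A * Y * e) := by
    gcongr
  have h2 : Y * e ≤ A ^ 2 * (Y * e) := by
    have : 1 ≤ A ^ 2 := by nlinarith
    have h0 : 0 ≤ Y * e := by positivity
    nlinarith
  calc D ≤ _ := key
    _ ≤ (9 + 16 * c0) * ((1 + K') * A) * ((M + 2) * A * Y * e) + A ^ 2 * (Y * e) := add_le_add h1 (hμ.trans h2)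
    _ = _ := by ring

theorem lw9_num_mu {x μ Y e : ℝ} (hx : 0 < x) (hx2 : x ≤ 1 / 2) (hμ : μ ≤ x ^ 40) (hxY : x ≤ Y) (he : 0 ≤ e) (h7 : x ^ 7 ≤ e ^ 2) : μ ≤ Y * e := by
  have hx1 : x ≤ 1 := by linarith
  have a2 : x ^ 4 ≤ e := by
    refine (pow_le_pow_iff_left₀ (by positivity) he (by norm_num : (2 : ℕ) ≠ 0)).1 ?_
    calc (x ^ 4) ^ 2 = x ^ 8 := by ring
      _ ≤ x ^ 7 := pow_le_pow_of_le_one hx.le hx1 (by norm_num)
      _ ≤ _ := h7
  calc μ ≤ x ^ 40 := hμ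
    _ ≤ x ^ 5 := pow_le_pow_of_le_one hx.le hx1 (by norm_num)
    _ = x * x ^ 4 := by ring
    _ ≤ Y * e := mul_le_mul hxY a2 (by positivity) (hx.le.trans hxY)

theorem lw9_num_W {c0 K' M A e2 e2' μ a x D : ℝ} (hc0 : 0 ≤ c0) (hK : 0 ≤ K') (hM : 4 ≤ M) (hA : 1 ≤ A) (he' : 0 ≤ e2') (hee : e2' ≤ e2)
    (hx : 0 < x) (hx2 : x ≤ 1 / 2) (hμ : μ ≤ x ^ 40) (ha0 : 0 ≤ a) (ha : a ≤ 4) (h7 : x ^ 7 ≤ e2)
    (key : D ≤ K' * A * e2' + μ * (4 * a)) :
    D ≤ ((9 + 16 * c0) * (1 + K') * (M + 2) + 1) * A ^ 2 * e2 := by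
  have he : 0 ≤ e2 := he'.trans hee
  have hA2 : A ≤ A ^ 2 := by nlinarith
  have hx33 : 16 * x ^ 33 ≤ 1 := by
    have : x ^ 33 ≤ (1 / 2) ^ 33 := pow_le_pow_left₀ hx.le hx2 33
    have e : ((1 : ℝ) / 2) ^ 33 ≤ 1 / 16 := by norm_num
    linarith
  have h1 : μ * (4 * a) ≤ e2 := by
    calc μ * (4 * a) ≤ x ^ 40 * (4 * 4) := by gcongr
      _ = x ^ 7 * (16 * x ^ 33) := by ring
      _ ≤ x ^ 7 * 1 := mul_le_mul_of_nonneg_left hx33 (by positivity)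
      _ ≤ e2 := by rw [mul_one]; exact h7
  have h2 : K' * A * e2' ≤ K' * A ^ 2 * e2 := by gcongr
  have h3 : e2 ≤ A ^ 2 * e2 := by
    have : 1 ≤ A ^ 2 := by nlinarith
    nlinarith
  have h4 : K' ≤ (9 + 16 * c0) * (1 + K') * (M + 2) := by
    have : 1 ≤ (9 + 16 * c0) * (M + 2) := by nlinarith
    nlinarith
  have h5 : K' * (A ^ 2 * e2) ≤ (9 + 16 * c0) * (1 + K') * (M + 2) * (A ^ 2 * e2) := mul_le_mul_of_nonneg_right h4 (by positivity)
  calc D ≤ _ := key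
    _ ≤ K' * A ^ 2 * e2 + A ^ 2 * e2 := add_le_add h2 (h1.trans h3)
    _ ≤ _ := by nlinarith

theorem lw9_int_empty (I : L8In) {lo hi : ℝ} (h : hi < lo) (g : ℕ → ℝ) : I.int lo hi g = 0 := by
  unfold L8In.int
  refine Finset.sum_eq_zero fun k hk => ?_
  have := (Finset.mem_filter.1 hk).2
  linarith [this.1, this.2]

/-- TEX[LL:lem:statistics-lower-band] **(D9) at one instance** -/
theorem lw9_inst (h : Lw9In I A M Y κ cs c0 μ) : Lw9D9 I (lw9K M κ cs c0 * A ^ 2) Y := by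
  have hx := h.x0
  have hY := h.Y0
  have hA := h.A1
  have hM := h.M4
  have hc0 := h.c00
  set K' : ℝ := 128 * (M + 2) / (cs * κ) with hK'
  have hK'0 : 0 ≤ K' := by have := h.cs0; have := h.κ0; positivity
  have hA2 : A ≤ A ^ 2 := by nlinarith
  have ha4 : I.a ≤ 4 := (lce_a_mem h.ok.pt).2
  have ha0 : 0 ≤ I.a := zero_le_one.trans (lce_a_mem h.ok.pt).1
  have hK0 : 0 ≤ lw9K M κ cs c0 * A ^ 2 := by
    unfold lw9K
    rw [← hK']
    positivity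
  have hn9 : ∀ w, 0 < w → w ≤ 2 * Y → I.int (max w I.x) (2 * w) I.D2 ≤ lw9K M κ cs c0 * A ^ 2 * Y * I.epsw Y w := by
    intro w hw hwY
    have he0 := lw9_epsw_nonneg I Y w h.U0
    rcases lt_or_ge (2 * w) (max w I.x) with hlt | hle
    · rw [lw9_int_empty I hlt]
      exact mul_nonneg (mul_nonneg hK0 hY.le) he0
    · have key := lw9_D h (le_max_right w I.x) hle (by nlinarith) (by linarith [le_max_left w I.x])
      rw [lw9_eps h, lw9_K1 h, ← hK'] at key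
      have h1 : I.epsw Y (max w I.x) ≤ I.epsw Y w := lw9_epsw_anti h (le_max_left _ _)
      have h2 : Real.sqrt (K' * A) ≤ (1 + K') * A := by
        rw [Real.sqrt_le_left (by positivity)]
        nlinarith [mul_nonneg hK'0 (sub_nonneg.2 hA2), sq_nonneg K', mul_nonneg (mul_nonneg hK'0 hK'0) (sq_nonneg A), sq_nonneg A]
      have h3 : μ ≤ Y * I.epsw Y w := lw9_num_mu hx h.x2 h.μ40 h.xY he0 (lw9_epsw_lo h hwY)
      exact lw9_num_n9 hc0 hK'0 hM hA hY (lw9_epsw_nonneg I Y _ h.U0) h1 h2 h3 key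
  refine ⟨hn9, ?_, ?_⟩
  · intro w hw hwY
    rcases lt_or_ge (2 * w) (max w I.x) with hlt | hle
    · rw [lw9_int_empty I hlt]
      exact mul_nonneg hK0 (sq_nonneg _)
    · have key := lw9_W h (le_max_right w I.x) hle (by nlinarith)
      rw [lw9_eps2 h, lw9_K1 h, ← hK'] at key
      have h1 : I.epsw Y (max w I.x) ≤ I.epsw Y w := lw9_epsw_anti h (le_max_left _ _)
      have h1' : I.epsw Y (max w I.x) ^ 2 ≤ I.epsw Y w ^ 2 := pow_le_pow_left₀ (lw9_epsw_nonneg I Y _ h.U0) h1 2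
      exact lw9_num_W hc0 hK'0 hM hA (sq_nonneg _) h1' hx h.x2 h.μ40 ha0 ha4 (lw9_epsw_lo h hwY) key
  · intro w hw hwY
    refine le_trans (le_of_eq ?_) (hn9 w hw hwY)
    refine l8p_iv8_int_congr I _ _ fun k hk => ?_
    show ∫ ω, ((I.sp false).Q ω - I.S k) ^ (2 * 1) ∂(I.sp false).fork k = I.D2 k
    rw [mul_one, ← lw9_S h.ok h.adm hk, (I.sp false).l8s_fork_var_Q h.sp k, l8p_iv8_D2 h.ok h.adm hk]

theorem Lw9D9.mono {A' : ℝ} (h : Lw9D9 I A Y) (hA : A ≤ A') (hY : 0 ≤ Y) (hU : 0 < I.U) : Lw9D9 I A' Y where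
  n9 := fun w hw hwY => (h.n9 w hw hwY).trans
    (mul_le_mul_of_nonneg_right (mul_le_mul_of_nonneg_right hA hY) (lw9_epsw_nonneg I Y w hU))
  d9_W := fun w hw hwY => (h.d9_W w hw hwY).trans (mul_le_mul_of_nonneg_right hA (sq_nonneg _))
  d9_Q := fun w hw hwY => (h.d9_Q w hw hwY).trans
    (mul_le_mul_of_nonneg_right (mul_le_mul_of_nonneg_right hA hY) (lw9_epsw_nonneg I Y w hU))

end inst

/-! ## 4. the direct sweep -/

theorem lw9_lam1_le {F : LlFix} (hF : F.Ok) {p : LlPt} (hp : p.Ok F) : p.lam1 F ≤ p.lam := by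
  have hx := lce_x_pos (p := p) hp.N2
  have hx1 := lce_x_lt_one (p := p) hp.N2
  have hl0 : 0 < p.lam := lt_of_lt_of_le (Real.rpow_pos_of_pos hx _) hp.lam_lo
  have hl1 : p.lam ≤ 1 := hp.lam_hi.trans (Real.rpow_le_one hx.le hx1.le hF.pS0.le)
  unfold LlPt.lam1
  calc p.lam ^ (1 + F.eta) ≤ p.lam ^ (1 : ℝ) := Real.rpow_le_rpow_of_exponent_ge hl0 hl1 (by linarith [hF.eta0])
    _ = p.lam := Real.rpow_one _

/-- **`Lw9In` from the raw facts of an instance**, ABSTRACT IN THE VARIANT (direct sweep: `Y = I.Y`; low region of the size paths: `Y = I.Yc`), FREE top `M Y` -/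
theorem lw9_in_of {I : L8In} {κ0 v1 A M Y c0 vt : ℝ} {e : ℕ → ℝ} (hI : I.Ok) (hP : (I.sp false).Ok) (hfine : I.Fine (I.x ^ 40))
    (hsus : (I.sp false).Sus (1 / 4)) (hc0 : 0 ≤ c0) (hpin : (I.sp false).Pin 1 c0) (hxU : I.x ≤ I.U) (hUY : I.U ≤ Y)
    (hl14 : I.x ^ 14 ≤ I.lam1) (hl1 : I.lam1 ≤ 1) (hκ0 : 0 < κ0) (hp : Lw9Path I.𝔹 I.F I.p κ0 v1) (hv1 : v1 ≤ 1 / 2) (hll : I.lam1 ≤ I.lam)
    (hA : 1 ≤ A) (hM : 4 ≤ M) (htop : M * Y + I.x ^ 40 ≤ v1) (hx2 : I.x ≤ 1 / 2) (hs : ∀ k ≤ I.n, I.S k ≤ A * (I.v k + Y))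
    (hd2 : L8pD2 I false e A Y vt 1) : Lw9In I A M Y κ0 (1 / 4) c0 (I.x ^ 40) := by
  have hx0 : 0 < I.x := I.x_pos hI
  have hx1 : I.x ≤ 1 := I.x_le_one hI
  have hU0 : 0 < I.U := lt_of_lt_of_le hx0 hxU
  have hl0 : 0 < I.lam1 := lt_of_lt_of_le (pow_pos hx0 14) hl14
  have hact : ∀ k ≤ I.n, I.act false k := fun k hk => ⟨hk, fun h => absurd h (by simp)⟩
  exact
  { ok := hI
    sp := hP
    adm := hfine.adm
    cs0 := by norm_num
    c00 := hc0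
    sus := hsus
    pin := hpin
    mesh := hfine.dv_le
    cell := lw9_cell hI hP hκ0.le hp hfine hxU hll hl0.le (pow_le_pow_of_le_one hx0.le hx1 (by norm_num)) htop (by linarith)
    κ0 := hκ0
    A1 := hA
    M4 := hM
    xY := hxU.trans hUY
    U0 := hU0
    lam0 := hl0
    lam1 := hl1
    top := htop.trans hv1
    μ40 := le_rfl
    x2 := hx2
    s_le := hs
    raw_X := fun k hk => by
      have h := hd2.raw_X 1 le_rfl le_rfl k (hact k hk)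
      simpa only [L8In.mo, mul_one] using h
    raw_B := fun k hk => by
      have h := hd2.raw_Q 1 le_rfl le_rfl k (hact k hk) (I.n + 1) (I.n + 1) (by omega) (by omega)
      have hn : (I.sp false).n < I.n + 1 := by rw [l8p_iv8_n]; exact Nat.lt_succ_self _
      have e1 : (I.sp false).QX (I.n + 1) (I.n + 1) = (I.sp false).Q := funext fun p => by
        unfold L8P.QX L8P.Q
        exact Finset.sum_congr rfl fun i _ => by rw [l8k_X_term hP hn, l8k_X_term hP hn]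
      rw [e1] at h
      rw [← (I.sp false).l8s_fork_Q_sq hP k]
      simpa only [L8In.moF, mul_one] using h }

/-- the smallness of the top: `M Y + x^40 ≤ v₁` from `Y ≤ x^κ ≤ v₁ / (2 M)`, `x ≤ v₁ / 2` -/
theorem lw9_top_num {x Y M v1 t : ℝ} (hx0 : 0 < x) (hx1 : x ≤ 1) (hM : 4 ≤ M) (hY : Y ≤ t) (ht : t ≤ v1 / (2 * M)) (sx : x ≤ v1 / 2) :
    M * Y + x ^ 40 ≤ v1 := by
  have b1 : M * Y ≤ v1 / 2 := by
    have := hY.trans ht
    rw [le_div_iff₀ (by positivity)] at this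
    linarith
  have b2 : x ^ 40 ≤ v1 / 2 := by
    calc x ^ 40 ≤ x ^ 1 := pow_le_pow_of_le_one hx0.le hx1 (by norm_num)
      _ = x := pow_one _
      _ ≤ _ := sx
  linarith

/-- **PRODUCER of `Lw9In` on the direct sweep**: slope `κ₀` fixed FIRST; top `M` free AFTER `π, S, cv` (298: `M = 8 Cv c1`) -/
theorem lw9_in_dir {𝔹 : LlBase} {T : ℝ} (he : L8pEnvDir 𝔹 T) (h2 : L8pD2Dir 𝔹 T) (F0 : LlFix) (hF : L8Fix 𝔹 T F0) (pB : LLParB) (pS : ℝ)
    (h0 : 0 < pS) (h1 : pS ≤ 1) :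
    ∃ κ0 : ℝ, 0 < κ0 ∧ ∀ κ ε : ℝ, 0 < κ → 0 < ε → ∃ eps0 : ℝ, 0 < eps0 ∧ ∀ (π : L8pPar) (S : SkpS) (cv : ℝ), π.Ok S cv → π.eps ≤ eps0 →
      ∀ M : ℝ, 4 ≤ M → ∃ (C0 : ℝ) (N0 : ℕ) (Kf : ℝ), 1 ≤ C0 ∧ ∀ I : L8In, L8pAt 𝔹 (F0.wExp pB.sStar pB.eta pS) N0 Kf κ I → L8pOk I π S cv →
        Lw9In I (C0 * I.x ^ (-ε)) M I.Y κ0 (1 / 4) (S.K.cA1 1) (I.x ^ 40) := by
  have h3 : LlSec3 𝔹 (F0.wExp pB.sStar pB.eta pS) := (hF.2.2 _ _ _ (llc_expOk pB h0 h1)).sec3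
  obtain ⟨κ0, v1, hκ0, -, hv10, hv1, Np, hpath⟩ := lw9_path h3
  refine ⟨κ0, hκ0, fun κ ε hκ hε => ?_⟩
  obtain ⟨e0, he0, H⟩ := (he F0 hF pB pS h0 h1 κ ε hκ hε).and (h2 F0 hF pB pS h0 h1 κ ε 1 hκ hε)
  refine ⟨e0, he0, fun π S cv hπ heps M hM => ?_⟩
  obtain ⟨C1, N1, K1, H⟩ := H π S cv hπ heps
  obtain ⟨Na, hNa⟩ := skw_llb_small κ (v1 / (2 * M)) hκ (by positivity)
  obtain ⟨Nb, hNb⟩ := skw_llb_small 1 (v1 / 2) one_pos (by positivity)
  refine ⟨max C1 1, max (max Na Nb) (max N1 Np), K1, le_max_right _ _, fun I hI hok => ?_⟩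
  have hx0 : 0 < I.x := I.x_pos hI.ok
  have hx1 : I.x ≤ 1 := I.x_le_one hI.ok
  have hNN : ∀ N', N' ≤ max (max Na Nb) (max N1 Np) → N' ≤ I.p.N := fun N' h => h.trans hI.hN
  have sκ : I.x ^ κ ≤ v1 / (2 * M) := hNa I.p (hNN _ ((le_max_left _ _).trans (le_max_left _ _)))
  have sx : I.x ≤ v1 / 2 := by
    have := hNb I.p (hNN _ ((le_max_right _ _).trans (le_max_left _ _)))
    rwa [Real.rpow_one] at this
  obtain ⟨a1, a2⟩ := H I (hI.mono ((le_max_left _ _).trans (le_max_right _ _)) le_rfl) hok (max C1 1) (le_max_left _ _)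
  have hpt : I.p.Ok (F0.wExp pB.sStar pB.eta pS) := hI.hF ▸ hI.ok.pt
  have hp : Lw9Path I.𝔹 I.F I.p κ0 v1 := by
    rw [hI.hF, hI.hB]
    exact hpath I.p hpt (hNN _ ((le_max_right _ _).trans (le_max_right _ _)))
  have hll : I.lam1 ≤ I.lam := by
    show I.p.lam1 I.F ≤ I.p.lam
    rw [hI.hF]
    exact lw9_lam1_le h3.ok hpt
  have hxe : 1 ≤ I.x ^ (-ε) := Real.one_le_rpow_of_pos_of_le_one_of_nonpos hx0 hx1 (by linarith)
  have hA : 1 ≤ max C1 1 * I.x ^ (-ε) := by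
    have : (1 : ℝ) ≤ max C1 1 := le_max_right _ _
    nlinarith
  have hUY : I.U ≤ I.Y := by
    have : I.U * 1 ≤ I.U * I.Z := mul_le_mul_of_nonneg_left hok.Z1 (hx0.le.trans hok.xU)
    simpa [L8In.Y] using this
  exact lw9_in_of hI.ok hok.pm.sp hok.fine hok.ivx.sus (zero_le_one.trans (hπ.Sok.cA1 1)) (hok.pm.pin 1 le_rfl) hok.xU hUY hok.pm.lam1a hok.pm.lam1b
    hκ0 hp hv1 hll hA hM (lw9_top_num hx0 hx1 hM hI.hY sκ sx) (by linarith) a1.s_le a2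

/-- the (D9) contract on the direct sweep (= `L8vD9Dir` of 199, PM/InstIv.lean) -/
def Lw9D9Dir (𝔹 : LlBase) (T : ℝ) : Prop :=
  ∀ F0, L8Fix 𝔹 T F0 → ∀ (pB : LLParB) (pS : ℝ), 0 < pS → pS ≤ 1 → ∀ κ ε : ℝ, 0 < κ → 0 < ε →
    L8pCons 𝔹 (F0.wExp pB.sStar pB.eta pS) κ fun I _ C => Lw9D9 I (C * I.x ^ (-ε)) I.Y

theorem lw9_dir_eqns_cite : True := by
  have := @Lw9D9Dir.eq_1
  trivial

/-- the loss: `K (C₀ x^(-ε/2))² ≤ C x^(-ε)` for `C ≥ K C₀²` -/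
theorem lw9_loss_num {x ε K C0 C : ℝ} (hx0 : 0 < x) (hC : K * C0 ^ 2 ≤ C) : K * (C0 * x ^ (-(ε / 2))) ^ 2 ≤ C * x ^ (-ε) := by
  have e : (C0 * x ^ (-(ε / 2))) ^ 2 = C0 ^ 2 * x ^ (-ε) := by
    rw [mul_pow, ← Real.rpow_natCast (x ^ (-(ε / 2))) 2, ← Real.rpow_mul hx0.le]
    congr 2
    push_cast
    ring
  rw [e, ← mul_assoc]
  exact mul_le_mul_of_nonneg_right hC (Real.rpow_nonneg hx0.le _)

/-- TEX[LL:lem:statistics-lower-band] TEX[LL:eq:D9] **IV9: (D9) on the direct sweep** -/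
theorem lw9_d9_dir {𝔹 : LlBase} {T : ℝ} (he : L8pEnvDir 𝔹 T) (h2 : L8pD2Dir 𝔹 T) : Lw9D9Dir 𝔹 T := by
  intro F0 hF pB pS h0 h1 κ ε hκ hε
  obtain ⟨κ0, hκ0, H⟩ := lw9_in_dir he h2 F0 hF pB pS h0 h1
  obtain ⟨e0, he0, H⟩ := H κ (ε / 2) hκ (by positivity)
  refine ⟨e0, he0, fun π S cv hπ heps => ?_⟩
  obtain ⟨C0, N0, Kf, hC0, H⟩ := H π S cv hπ heps 4 le_rfl
  refine ⟨lw9K 4 κ0 (1 / 4) (S.K.cA1 1) * C0 ^ 2, N0, Kf, fun I hI hok C hC => ?_⟩
  have hin := H I hI hok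
  exact (lw9_inst hin).mono (lw9_loss_num (I.x_pos hI.ok) hC) hin.Y0.le hin.U0

-- the supply `L8pLowDir` of the lower band with a FREE top (contract of 298): `l8p_low_dir`, PM/InstIv7.lean (279), which IMPORTS this file; this file must NOT import PM/InstIv7 (cycle)

end Claimed.Agent.R286
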