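import Claimed.Agent.R286.PM.InstA
import Claimed.Agent.R286.W.GlueL

/-!
# Row 286 (S0533), folder PM, file InstL : THE SK INSTANCE of unit L10 (W + PM) ON `L8In`, LOW REGION OF THE SIZE PATHS; CUT OF `L8gCoreLow`      (head helper37; prefix `l8q` / `L8q`)

    l8q_core_low : L8gCoreLow llBase T   <=   l8g_fine  +  CAP (163, from (D11): `Exit/Cap.lean`, PROVED)  +  INSTL  +  ENVL  +  DEFL  +  D2L  +  IVL            (compiled glue `l8q_core_low_of`)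
    INSTL                                <=   GEOL + CLKL + DEVL + GRIDL + D3L + QLL + IVXL + STR + NUML  +  `skw_low`  +  `skw_concl_shrink`      (compiled glue `l8q_inst_of`)
SHAPE OF CAP (163, 06:15Z): (D11) holds for all SUFFICIENTLY fine chains (`L8Ev`; the mesh of the freezing lemma is not a power of `x`), so CAP is an `L8Ev` statement `L8qCap`; INSTL takes `L8qCapAt I Cc` as a HYPOTHESIS at the instance,
for EVERY constant `Cc ≥ 1`, and `l8q_core_low_of` joins the two by `L8Ev.and`.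

LL 08 l.356-380 ("The low-region construction"): coordinate `z = v` (mass), `G = 1`, `(U, Z) := (Y_c, 1)` with the CAPPED scale `Y_c = I.Yc δ_* = min(U Z, x^(δ_*/3))`, no plateau, ramp `(z - zw)_+` beyond the working interval
`[zlo, zw]`, buffer interval `[0, zs]`, `zs = π.c.zs` a small FIXED mass on which the size-path inverse is regular ((P2): `K_lo`, `K_hi`).      Refined estimates below `v0 = zw / 4`.
* `l8qD I π : SkwD`, `l8qH = skwHact`, grid `zc k = v_(k-1) = l8pVl I k`, `nb` = number of stages of mass `≤ zs`, `zbuf = v_(nb-1) ∈ [zs - x^40, zs]` (`skw_concl_shrink`), `zhi = zw`.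
* `l8qE I π k` **THE ENVELOPE of `exit_dlow`**: `Y_c` for `v_(k-1) < zlo = c1 Y_c`, `min(r, 𝔥)(v_(k-1))` up to `zw`, `r` above.
* shapes `L8qAt`, `L8qEvt`, `L8qCons`: as in PM/Inst.lean, PM/InstA.lean, class `l8Siz`, no hypothesis on `Y`.
ORDER: `F0, pB` | `p0` (threshold of (D11)) | `pS` | `c1, zw, c, S, Cc` (so `v0 = zw/4`) | `pm, jm, ε` | `eps0` | `eps, K = 100` | `C, N0, Kf`.
-/

set_option autoImplicit false

namespace Claimed.Agent.R286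

open MeasureTheory Set Filter

noncomputable section

/-! ## 1. Objects -/

/-- parameters of the low-region construction, fixed before `N` -/
structure L8qPar where
  eps : ℝ
  K : ℕ
  c1 : ℝ
  /-- end of the working interval (a mass); the buffer interval ends at `c.zs` -/
  zw : ℝ
  c : SkwC

/-- the width data of the instance -/
def l8qD (I : L8In) (π : L8qPar) : SkwD where
  x := I.x
  U := I.Yc llDStar
  Z := 1
  b := I.x ^ π.eps
  tiny := I.x ^ π.K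
  A := 1
  E := 1
  zlo := π.c1 * I.Yc llDStar
  zmax := π.c.zs
  G := fun _ => 1
  S := l8pSv I
  q := I.p.q I.F I.𝔹
  hpl := fun _ => 0
  Hx := fun z => max 0 (z - π.zw)

/-- the width `𝔥` -/
def l8qH (I : L8In) (π : L8qPar) : ℝ → ℝ := skwHact π.c (l8qD I π)

/-- number of stages of mass `≤ zs` = index of the last cut of the buffer interval -/
def l8qNb (I : L8In) (π : L8qPar) : ℕ := l8pIdx I π.c.zs

/-- **the instance of PM** -/
def l8qI (I : L8In) (π : L8qPar) : SkpI (SkOm I.m) I.m where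
  P := I.sp false
  d := l8qD I π
  hh := l8qH I π
  zhi := π.zw
  zbuf := l8pVl I (l8qNb I π)
  zj := π.c.zs
  zc := l8pVl I
  δ := I.x ^ 40
  nb := l8qNb I π
  lam1 := I.lam1
  g0 := I.g0
  Lg := 1
  lowb := I.x ^ 80

/-- **the envelope** -/
def l8qE (I : L8In) (π : L8qPar) (k : ℕ) : ℝ :=
  if l8pVl I k < π.c1 * I.Yc llDStar then I.Yc llDStar
  else if l8pVl I k ≤ π.zw then skwE (l8qD I π) (l8qH I π) (l8pVl I k) else skwR (l8pVl I k)

theorem l8q_eqns_cite : True := by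
  have := @l8qD.eq_1; have := @l8qH.eq_1; have := @l8qNb.eq_1; have := @l8qI.eq_1; have := @l8qE.eq_1
  trivial

/-- sanity of the parameters -/
structure L8qPar.Ok (π : L8qPar) (S : SkpS) : Prop where
  eps0 : 0 < π.eps
  eps1 : π.eps ≤ 1
  K : 100 ≤ π.K
  c1 : 8 ≤ π.c1
  zw0 : 0 < π.zw
  zws : 2 * π.zw ≤ π.c.zs
  zs1 : π.c.zs ≤ 1
  Sok : S.Ok
  Sc : S.c = π.c
  Cz : S.Cz = π.c1

/-- the standing hypotheses on ONE instance of a smoothed size path -/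
structure L8qAt (𝔹 : LlBase) (F : LlFix) (N0 : ℕ) (Kf : ℝ) (I : L8In) : Prop where
  hF : I.F = F
  hB : I.𝔹 = 𝔹
  hN : N0 ≤ I.p.N
  ok : I.Ok
  siz : l8Siz I.p
  fine : I.Fine (I.x ^ Kf)

/-- **Cor. 8.10 at ONE instance**: `U ≤ x^(δ_*/3)` and (D1) with the capped scale -/
def L8qCapAt (I : L8In) (Cc : ℝ) : Prop :=
  1 ≤ I.Zc llDStar ∧ ∀ r, I.U ≤ r → r ≤ I.a → I.band r (fun k => I.f k ^ 2) ≤ Cc * r * (I.Yc llDStar ^ 4 / r ^ 2)

/-- everything the users of the instance may use, for ONE instance -/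
structure L8qOk (I : L8In) (π : L8qPar) (S : SkpS) (Cc : ℝ) : Prop where
  pm : (l8qI I π).Ok S
  /-- Lemma 8.2, low-region form, up to the end of the buffer interval (before shrinking) -/
  wfull : SkwConcl S.CW (l8qD I π) π.zw π.c.zs π.c.zs (l8qH I π)
  /-- the last cut of the buffer interval -/
  nbn : l8qNb I π ≤ I.n
  top : π.c.zs - l8pVl I (l8qNb I π) ≤ I.x ^ 40
  qlink : ∀ k ≤ l8qNb I π, |I.q k - I.p.q I.F I.𝔹 (l8pVl I k)| ≤ I.x ^ 40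
  Slink : ∀ k ≤ I.n, I.S k = (I.sp false).S k
  fine : I.Fine (I.x ^ 40)
  /-- Cor. 8.10 -/
  Zc1 : 1 ≤ I.Zc llDStar
  cap : ∀ r, I.U ≤ r → r ≤ I.a → I.band r (fun k => I.f k ^ 2) ≤ Cc * r * (I.Yc llDStar ^ 4 / r ^ 2)
  xU : I.x ≤ I.U
  /-- (D3) between ANY two cuts of the buffer interval above the jump of `h` at the mass `x` -/
  D3x : ∀ k₁ k₂, k₁ < k₂ → k₂ ≤ l8qNb I π → I.x < l8pVl I k₁ →
    S.cD3 * I.lam1 * skwR (l8pVl I k₁) ^ 2 * (l8pVl I k₂ - l8pVl I k₁) ≤ (I.sp false).hlen k₁ k₂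
  ivx : L8D7X S (l8qI I π) (1 / 4) 1

/-- `B` bounds the value at `p` and the LOCAL Lipschitz constant in `θ = 6 log ℓ` (both sides, admissible neighbours only) of a function of the point      [117; low twin of `L8pdLip`] -/
def L8qdLip (F : LlFix) (p : LlPt) (f : LlPt → ℝ) (B : ℝ) : Prop :=
  |f p| ≤ B ∧ ∃ h : ℝ, 0 < h ∧ ∀ θ' : ℝ, |θ' - 6 * Real.log p.ell| ≤ h → (p.wTh θ').Ok F →
    |f (p.wTh θ') - f p| ≤ B * |θ' - 6 * Real.log p.ell|

/-- **LINK chain / path for the defect and the dotted defect, size paths** (hypothesis of DEFL; low twin of `L8pDefLk`), at the cuts whose LEFT end `v' = l8pVl I k` is `≤ vl` (`vl` = the fixed mass of DD-LINK, below the kinks of `Â⁻¹`).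
NOT a per-instance consequence of `I.Fine`: PRODUCER at the `L8Ev` level = `L8qLk` (103, L08/DdDef.lean). -/
def L8qDefLk (I : L8In) (vl η : ℝ) : Prop :=
  ∀ k ≤ I.n, l8pVl I k ≤ vl → ∀ B : ℝ, L8qdLip I.F I.p (fun q => q.d I.F I.𝔹 (l8pVl I k)) B →
    (l8pVl I k = I.x → L8qdLip I.F I.p (fun q => q.hS I.F I.𝔹 (l8pVl I k)) B) → |I.d k| ≤ B + η ∧ |I.dd k| ≤ B + η

theorem l8q_lk_eqns_cite : True := by
  have := @L8qdLip.eq_1; have := @L8qDefLk.eq_1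
  trivial

/-! ## 2. Shapes and contracts -/

def L8qEvt (𝔹 : LlBase) (F : LlFix) (Φ : L8In → Prop) : Prop :=
  ∃ (N0 : ℕ) (Kf : ℝ), ∀ I : L8In, L8qAt 𝔹 F N0 Kf I → Φ I

def L8qCons (𝔹 : LlBase) (F : LlFix) (Φ : L8In → L8qPar → ℝ → Prop) : Prop :=
  ∃ eps0 : ℝ, 0 < eps0 ∧ ∀ (π : L8qPar) (S : SkpS) (Cc : ℝ), π.Ok S → 1 ≤ Cc → π.eps ≤ eps0 →
    ∃ (C0 : ℝ) (N0 : ℕ) (Kf : ℝ), ∀ I : L8In, L8qAt 𝔹 F N0 Kf I → L8qOk I π S Cc → ∀ C : ℝ, C0 ≤ C → Φ I π C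

/-- **INSTL** -/
def L8qInst (𝔹 : LlBase) (T : ℝ) : Prop :=
  ∀ F0, L8Fix 𝔹 T F0 → ∀ (pB : LLParB) (pS : ℝ), 0 < pS → pS ≤ 1 → ∀ Cc : ℝ, 1 ≤ Cc →
    ∃ (c1 zw : ℝ) (c : SkwC) (S : SkpS), 0 < zw ∧ ∀ (eps : ℝ) (K : ℕ), 0 < eps → eps ≤ 1 → 100 ≤ K →
      (⟨eps, K, c1, zw, c⟩ : L8qPar).Ok S ∧ L8qEvt 𝔹 (F0.wExp pB.sStar pB.eta pS) fun I => L8qCapAt I Cc → L8qOk I ⟨eps, K, c1, zw, c⟩ S Cc

/-- **CAP** = Cor. 8.10 (OWNER helper163, from `exit_d11`; PROOF: `Exit/Cap.lean`): `U ≤ x^(δ_*/3)`; (D1) holds with the capped scale: by the definition of `I.Z` if `Z` is the minimum, by `A ≤ (C x^δ_*)²` ((D11)) otherwise.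
Shape `L8Ev`, as (D11).      TEX[LL:cor:statistics-cap] -/
def L8qCap (𝔹 : LlBase) (T : ℝ) : Prop :=
  ∀ F0, L8Fix 𝔹 T F0 → ∀ pB : LLParB, LlcStB 𝔹 F0 pB → ∃ p0 : ℝ, 0 < p0 ∧ p0 ≤ 1 ∧ ∀ pS, 0 < pS → pS ≤ p0 → ∃ (Cc : ℝ) (N0 : ℕ), 1 ≤ Cc ∧
    L8Ev (F0.wExp pB.sStar pB.eta pS) 𝔹 N0 l8Siz fun I => L8qCapAt I Cc

/-- **ENVL** -/
def L8qEnv (𝔹 : LlBase) (T : ℝ) : Prop :=
  ∀ F0, L8Fix 𝔹 T F0 → ∀ (pB : LLParB) (pS : ℝ), 0 < pS → pS ≤ 1 → ∀ ε : ℝ, 0 < ε →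
    L8qCons 𝔹 (F0.wExp pB.sStar pB.eta pS) fun I π C => L8pEnv I (l8qE I π) (C * I.x ^ (-ε)) (I.Yc llDStar) (π.zw / 4) 4

/-- **DEFL**: "the defect bounds are the low size-path bounds of (P8)": `d = H_lo = λ_1 U³ log(v/x)` for `x ≤ v ≤ 4 v_b`, `- h_*` below `x`; `ḋ = ∂_θ` -/
def L8qDef (𝔹 : LlBase) (T : ℝ) : Prop :=
  ∀ F0, L8Fix 𝔹 T F0 → ∀ (pB : LLParB) (pS : ℝ), 0 < pS → pS ≤ 1 → ∀ vl ε : ℝ, 0 < ε →
    L8qCons 𝔹 (F0.wExp pB.sStar pB.eta pS) fun I π C =>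
      L8qDefLk I vl (I.x ^ 40) → ∀ k ≤ I.n, I.v k ≤ min (π.zw / 4) vl →
        |I.d k| + |I.dd k| ≤ C * I.x ^ (-ε) * I.lam * max (I.v k) (I.Yc llDStar) ^ 2 * l8qE I π k

/-- **LKL: PRODUCER of the link of DEFL**, at the `L8Ev` level; `vl` = the mass of `l8dd_exit`.      OWNER: 103 (L08/DdDef.lean) -/
def L8qLk (𝔹 : LlBase) (T : ℝ) : Prop :=
  ∀ F0, L8Fix 𝔹 T F0 → ∀ (pB : LLParB) (pS : ℝ), 0 < pS → pS ≤ 1 → ∃ vl : ℝ, 0 < vl ∧ ∃ N0 : ℕ,
    L8Ev (F0.wExp pB.sStar pB.eta pS) 𝔹 N0 l8Siz fun I => L8qDefLk I vl (I.x ^ 40)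

/-- **D2L** -/
def L8qD2 (𝔹 : LlBase) (T : ℝ) : Prop :=
  ∀ F0, L8Fix 𝔹 T F0 → ∀ (pB : LLParB) (pS : ℝ), 0 < pS → pS ≤ 1 → ∀ (ε : ℝ) (pm : ℕ), 0 < ε →
    L8qCons 𝔹 (F0.wExp pB.sStar pB.eta pS) fun I π C => L8pD2 I false (l8qE I π) (C * I.x ^ (-ε)) (I.Yc llDStar) (π.zw / 4) pm

/-- **IVL** -/
def L8qIv (𝔹 : LlBase) (T : ℝ) : Prop :=
  ∀ F0, L8Fix 𝔹 T F0 → ∀ (pB : LLParB) (pS : ℝ), 0 < pS → pS ≤ 1 → ∀ (ε : ℝ) (jm : ℕ), 0 < ε →
    L8qCons 𝔹 (F0.wExp pB.sStar pB.eta pS) fun I π C => L8pIv I false (l8qE I π) (C * I.x ^ (-ε)) (I.Yc llDStar) 1 (π.zw / 4) jm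

end

/-! ## 3. Glue of the core (proved) -/

theorem L8qAt.mono {𝔹 : LlBase} {F : LlFix} {N0 N1 : ℕ} {Kf Kf' : ℝ} {I : L8In} (h : L8qAt 𝔹 F N1 Kf' I) (hN : N0 ≤ N1) (hK : Kf ≤ Kf') :
    L8qAt 𝔹 F N0 Kf I :=
  { hF := h.hF
    hB := h.hB
    hN := hN.trans h.hN
    ok := h.ok
    siz := h.siz
    fine := h.fine.mono (Real.rpow_le_rpow_of_exponent_ge (I.x_pos h.ok) (I.x_le_one h.ok) hK) }

theorem L8qEvt.and {𝔹 : LlBase} {F : LlFix} {Φ Ψ : L8In → Prop} (h : L8qEvt 𝔹 F Φ) (h' : L8qEvt 𝔹 F Ψ) :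
    L8qEvt 𝔹 F fun I => Φ I ∧ Ψ I := by
  obtain ⟨N1, K1, H1⟩ := h
  obtain ⟨N2, K2, H2⟩ := h'
  exact ⟨max N1 N2, max K1 K2, fun I hI => ⟨H1 I (hI.mono (le_max_left _ _) (le_max_left _ _)), H2 I (hI.mono (le_max_right _ _) (le_max_right _ _))⟩⟩

theorem L8qEvt.mono {𝔹 : LlBase} {F : LlFix} {Φ Ψ : L8In → Prop} (h : L8qEvt 𝔹 F Φ)
    (hi : ∀ I : L8In, L8qAt 𝔹 F 0 0 I → Φ I → Ψ I) : L8qEvt 𝔹 F Ψ := by
  obtain ⟨N1, K1, H1⟩ := h
  exact ⟨N1, max K1 0, fun I hI => hi I (hI.mono (Nat.zero_le _) (le_max_right _ _)) (H1 I (hI.mono le_rfl (le_max_left _ _)))⟩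

theorem l8q_evt_fine (𝔹 : LlBase) (F : LlFix) : L8qEvt 𝔹 F fun I => I.Fine (I.x ^ 40) :=
  ⟨0, 40, fun I h => by
    have := h.fine
    rwa [show (40 : ℝ) = ((40 : ℕ) : ℝ) by norm_num, Real.rpow_natCast] at this⟩

theorem L8qCons.and {𝔹 : LlBase} {F : LlFix} {Φ Ψ : L8In → L8qPar → ℝ → Prop} (h : L8qCons 𝔹 F Φ) (h' : L8qCons 𝔹 F Ψ) :
    L8qCons 𝔹 F fun I π C => Φ I π C ∧ Ψ I π C := by
  obtain ⟨e1, he1, H1⟩ := h
  obtain ⟨e2, he2, H2⟩ := h'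
  refine ⟨min e1 e2, lt_min he1 he2, fun π S Cc hπ hCc he => ?_⟩
  obtain ⟨C1, N1, K1, H1⟩ := H1 π S Cc hπ hCc (he.trans (min_le_left _ _))
  obtain ⟨C2, N2, K2, H2⟩ := H2 π S Cc hπ hCc (he.trans (min_le_right _ _))
  refine ⟨max C1 C2, max N1 N2, max K1 K2, fun I hI hok C hC => ⟨?_, ?_⟩⟩
  · exact H1 I (hI.mono (le_max_left _ _) (le_max_left _ _)) hok C ((le_max_left _ _).trans hC)
  · exact H2 I (hI.mono (le_max_right _ _) (le_max_right _ _)) hok C ((le_max_right _ _).trans hC)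

/-- the refined region may be shrunk -/
theorem L8pEnv.mono_vt {I : L8In} {e : ℕ → ℝ} {A Y vt vt' cE : ℝ} (h : L8pEnv I e A Y vt cE) (hv : vt' ≤ vt) : L8pEnv I e A Y vt' cE :=
  ⟨h.lo, h.low, h.hi, fun r h1 h2 => h.bud r h1 (h2.trans hv), fun k hk h1 => h.f_le k hk (h1.trans hv), h.d1, h.s_le⟩

theorem L8pD2.mono_vt {I : L8In} {tl : Bool} {e : ℕ → ℝ} {A Y vt vt' : ℝ} {pm : ℕ} (h : L8pD2 I tl e A Y vt pm) (hv : vt' ≤ vt) : L8pD2 I tl e A Y vt' pm :=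
  ⟨h.raw_X, h.raw_L, h.raw_Q, fun r h1 h2 k hk h3 => h.ref_X r h1 h2 k hk (h3.trans hv), fun r h1 h2 k hk h3 => h.ref_L r h1 h2 k hk (h3.trans hv),
    fun r h1 h2 k hk h3 => h.ref_Q r h1 h2 k hk (h3.trans hv)⟩

theorem L8pIv.mono_vt {I : L8In} {tl : Bool} {e : ℕ → ℝ} {A Y Zh vt vt' : ℝ} {jm : ℕ} (h : L8pIv I tl e A Y Zh vt jm) (hv : vt' ≤ vt) : L8pIv I tl e A Y Zh vt' jm :=
  ⟨fun r h1 h2 => h.n7 r h1 (h2.trans hv), h.n9, fun r h1 h2 => h.d7_W r h1 (h2.trans hv), fun r h1 h2 => h.d7_C r h1 (h2.trans hv),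
    fun r h1 h2 => h.d7_Q r h1 (h2.trans hv), h.d9_W, h.d9_Q⟩

/-- **GLUE of the core, low region of the size paths**; `v0 = min (zw / 4) vl` -/
theorem l8q_core_low_of {𝔹 : LlBase} {T : ℝ} (hf : L8gFine 𝔹 T) (hcap : L8qCap 𝔹 T) (hi : L8qInst 𝔹 T) (he : L8qEnv 𝔹 T) (hl : L8qLk 𝔹 T) (hd : L8qDef 𝔹 T)
    (h2 : L8qD2 𝔹 T) (hv : L8qIv 𝔹 T) : L8gCoreLow 𝔹 T := by
  intro F0 hF pB hSt
  obtain ⟨p0, hp0, hp1, hcap⟩ := hcap F0 hF pB hSt
  refine ⟨p0, 4, hp0, hp1, by norm_num, fun pS h0 h1 => ?_⟩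
  have h1' : pS ≤ 1 := h1.trans hp1
  obtain ⟨Cc, Ncap, hCc, hcap⟩ := hcap pS h0 h1
  obtain ⟨c1, zw, c, S, hzw, hi⟩ := hi F0 hF pB pS h0 h1' Cc hCc
  obtain ⟨vl, hvl, Nl, hl⟩ := hl F0 hF pB pS h0 h1'
  refine ⟨min (zw / 4) vl, lt_min (by positivity) hvl, fun pm jm ε hε => ?_⟩
  obtain ⟨eps0, he0, H⟩ := ((he F0 hF pB pS h0 h1' ε hε).and (hd F0 hF pB pS h0 h1' vl ε hε)).and
    ((h2 F0 hF pB pS h0 h1' ε pm hε).and (hv F0 hF pB pS h0 h1' ε jm hε))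
  obtain ⟨hπ, N2, K2, hinst⟩ := hi (min eps0 1) 100 (lt_min he0 one_pos) (min_le_right _ _) le_rfl
  obtain ⟨Cc', N1, K1, H⟩ := H ⟨min eps0 1, 100, c1, zw, c⟩ S Cc hπ hCc (min_le_left _ _)
  obtain ⟨N0, hev⟩ := L8Ev.of_fine hf hF pB h0 h1' (max K1 K2) (max N1 N2) (R := l8Siz)
    (Φ := fun I => L8qCapAt I Cc → L8qDefLk I vl (I.x ^ 40) →
      1 ≤ I.Zc llDStar ∧ ∃ e : ℕ → ℝ, I.Core e (Cc' * I.x ^ (-ε)) (I.Yc llDStar) 1 (min (zw / 4) vl) 4 pm jm) (by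
      intro I hIF hIB hN hR hOk hfine hc hlk
      have hat : L8qAt 𝔹 (F0.wExp pB.sStar pB.eta pS) (max N1 N2) (max K1 K2) I := ⟨hIF, hIB, hN, hOk, hR, hfine⟩
      have hok := hinst I (hat.mono (le_max_right _ _) (le_max_right _ _)) hc
      obtain ⟨⟨a1, a2⟩, a3, a4⟩ := H I (hat.mono (le_max_left _ _) (le_max_left _ _)) hok Cc' le_rfl
      exact ⟨hok.Zc1, l8qE I ⟨min eps0 1, 100, c1, zw, c⟩, L8In.Core.of_l8p (a1.mono_vt (min_le_left _ _)) (a2 hlk) (a3.mono_vt (min_le_left _ _))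
        (a4.mono_vt (min_le_left _ _))⟩)
  exact ⟨Cc', max (max N0 Ncap) Nl, ((hev.and hcap).and hl).mono le_rfl fun I _ h => h.1.1 h.1.2 h.2⟩

/-! ## 4. Cut of INSTL -/

noncomputable section

/-- the structural constants of the low-region construction -/
abbrev l8qC (zs Lq Cf C1 : ℝ) : SkwC := ⟨zs, 1, Lq, Cf, C1, 1, fun _ => 1⟩

/-- the parameters: `c1 = 8`, working interval `[zlo, zs/2]`, buffer `[0, zs]` -/
abbrev l8qP (eps : ℝ) (K : ℕ) (zs Lq Cf C1 : ℝ) : L8qPar := ⟨eps, K, 8, zs / 2, l8qC zs Lq Cf C1⟩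

/-- path facts on the buffer interval `[0, zs]` (masses) -/
structure L8qGeo (I : L8In) (zs c3 Lq : ℝ) : Prop where
  qlip : ∀ z ∈ Icc 0 zs, ∀ z' ∈ Icc 0 zs, |I.p.q I.F I.𝔹 z - I.p.q I.F I.𝔹 z'| ≤ Lq * |z - z'|
  /-- the same on `[0, 2 zs]` (200): the cell of the cut `nb` ends at `v_nb > zs`, and `Fine.q_link` reads `q` at `v_nb` -/
  qlipx : ∀ z ∈ Icc 0 (2 * zs), ∀ z' ∈ Icc 0 (2 * zs), |I.p.q I.F I.𝔹 z - I.p.q I.F I.𝔹 z'| ≤ Lq * |z - z'|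
  q00 : I.p.q I.F I.𝔹 0 = 0
  q0 : ∀ z ∈ Icc 0 zs, 0 ≤ I.p.q I.F I.𝔹 z
  q1 : ∀ z ∈ Icc 0 zs, I.p.q I.F I.𝔹 z ≤ 1
  /-- (D3) with `z = v` -/
  d3 : ∀ z₁ ∈ Icc 0 zs, ∀ z₂ ∈ Icc 0 zs, z₁ ≤ z₂ → I.x ≤ z₁ →
    c3 * I.lam1 * skwR z₁ ^ 2 * (z₂ - z₁) ≤ I.p.h I.F I.𝔹 z₂ - I.p.h I.F I.𝔹 z₁

/-- the grid of the cuts (coordinate = mass) -/
structure L8qGrid (I : L8In) (π : L8qPar) : Prop where
  nbn : l8qNb I π ≤ I.n
  zbuf : l8pVl I (l8qNb I π) ≤ π.c.zs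
  top : π.c.zs - l8pVl I (l8qNb I π) ≤ I.x ^ 40
  zmono : Monotone (l8pVl I)
  zmesh : ∀ k < l8qNb I π, l8pVl I (k + 1) - l8pVl I k ≤ I.x ^ 40
  Slink : ∀ k ≤ l8qNb I π, ∀ z ∈ Icc 0 (l8pVl I (l8qNb I π)), l8pVl I k ≤ z → z < l8pVl I (k + 1) → l8pSv I z = (I.sp false).S k
  gaplink : ∀ k < l8qNb I π, (I.sp false).dv k = ∫ _z in (l8pVl I k)..(l8pVl I (k + 1)), (1 : ℝ)
  vlo : ∀ k ≤ l8qNb I π, skwR (l8pVl I k) / 1 ≤ (I.sp false).v k
  vhi : ∀ k < l8qNb I π, (I.sp false).v k ≤ 1 * skwR (l8pVl I (k + 1))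

/-- powers of `x` -/
structure L8qNum (I : L8In) (π : L8qPar) (CW zr cg : ℝ) : Prop where
  x0 : 0 < I.x
  g0a : I.x ^ 3 / Real.sqrt I.lam1 ≤ I.g0 * I.Yc llDStar ^ 3
  g0b : I.g0 ≤ I.x ^ cg
  g0c : 0 < I.g0
  lam1a : I.x ^ 14 ≤ I.lam1
  lam1b : I.lam1 ≤ 1
  Lg : (1 : ℝ) ≤ 7 * Real.log (1 / I.x)
  xU : I.x ≤ I.U
  Yc0 : 0 ≤ I.Yc llDStar
  zlox : I.x ≤ π.c1 * I.Yc llDStar
  zloreg : 16 * (π.c1 * I.Yc llDStar) ≤ zr
  bs : 4 * CW * I.x ^ π.eps ≤ 1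
  ts : I.x ^ 40 ≤ 1 / (2 * CW)
  tz : I.x ^ 40 ≤ zr
  small : SkwSmall CW (l8qD I π)

/-- **GEOL**.   ROUTE: `L8Fix ⟹ LlSec3` (`ref`, `p4`, `adm`).  `q = Γ(K(v))`: `gam_ftc`, `0 < Γ' ≤ 1/b_∘ ≤ 1/c` (`gap_lo ≥ 0`), `K_hi`; `zs = min(v0, 4 v_b, 1)`;  `d3`: (P4) `Δh_* ≥ c λ v² ΔK`, `K_lo`, `H_lo`, `H_lin` nondecreasing, `χ_e = 0`, `λ_1 ≤ λ`. -/
def L8qLeafGeo (𝔹 : LlBase) (T : ℝ) : Prop :=
  ∀ F0, L8Fix 𝔹 T F0 → ∀ (pB : LLParB) (pS : ℝ), 0 < pS → pS ≤ 1 → ∃ zs c3 Lq : ℝ, 0 < zs ∧ zs ≤ 1 ∧ 0 < c3 ∧ 1 ≤ Lq ∧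
    L8qEvt 𝔹 (F0.wExp pB.sStar pB.eta pS) fun I => L8qGeo I zs c3 Lq

/-- **CLKL**: as CLK (PM/InstA), on the size paths -/
def L8qLeafClk (𝔹 : LlBase) (T : ℝ) : Prop :=
  ∀ F0, L8Fix 𝔹 T F0 → ∀ (pB : LLParB) (pS : ℝ), 0 < pS → pS ≤ 1 → L8qEvt 𝔹 (F0.wExp pB.sStar pB.eta pS) fun I => L8pClk I

/-- **DEVL**: `SkwHyp` for the low-region record.   ROUTE: `G = 1`: `G0, GM, Gc, Gi, adj` trivial;  `Smono, S0, S1` as in DEV;  `D1`: `cap` on the chain ⟹ integral form (cells, `Fine.q_link`, `Geo.qlip`, mass mesh), `ρ ≥ zlo/4 = 2 Y_c ≥ U`;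
`fr`: `skw_leaf_inS1`;  `Hx`: ramp.      (200: `F` is ARBITRARY here, so `x ≤ U` is a hypothesis: it comes from NUML) -/
def L8qLeafDev (𝔹 : LlBase) (F : LlFix) : Prop :=
  ∀ zs c3 Lq Cc : ℝ, 0 < zs → zs ≤ 1 → 1 ≤ Lq → 1 ≤ Cc → ∃ Cf C1 : ℝ, 1 ≤ Cf ∧ 1 ≤ C1 ∧ ∀ (eps : ℝ) (K : ℕ), 0 < eps → eps ≤ 1 → 100 ≤ K →
    L8qEvt 𝔹 F fun I => L8qGeo I zs c3 Lq → 1 ≤ I.Zc llDStar → I.x ≤ I.U →
      (∀ r, I.U ≤ r → r ≤ I.a → I.band r (fun k => I.f k ^ 2) ≤ Cc * r * (I.Yc llDStar ^ 4 / r ^ 2)) →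
      SkwHyp (l8qC zs Lq Cf C1) (l8qD I (l8qP eps K zs Lq Cf C1)) ∧ ∀ k ≤ I.n, I.S k = (I.sp false).S k

/-- **GRIDL**.   ROUTE: sorted masses; `nb` = number of masses `≤ zs`, so `v_(nb-1) ≤ zs < v_nb` (`v_n = a = 4`) and `zs - v_(nb-1) ≤ dv nb ≤ x^Kf`. -/
def L8qLeafGrid (𝔹 : LlBase) (F : LlFix) : Prop :=
  ∀ π : L8qPar, 0 < π.c.zs → π.c.zs ≤ 1 → L8qEvt 𝔹 F fun I => (∀ k ≤ I.n, I.S k = (I.sp false).S k) → L8qGrid I π

/-- **D3L** -/
def L8qLeafD3 (𝔹 : LlBase) (F : LlFix) : Prop :=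
  ∀ (π : L8qPar) (c3 Lq : ℝ), 8 ≤ π.c1 → 0 < c3 → L8qEvt 𝔹 F fun I => L8qGeo I π.c.zs c3 Lq → L8pClk I → L8qGrid I π → 1 ≤ I.Zc llDStar → I.x ≤ I.U →
    (∀ k₁ k₂, k₁ < k₂ → k₂ ≤ l8qNb I π → I.x < l8pVl I k₁ →
      c3 * I.lam1 * skwR (l8pVl I k₁) ^ 2 * (l8pVl I k₂ - l8pVl I k₁) ≤ (I.sp false).hlen k₁ k₂) ∧
    ∀ k ≤ l8qNb I π, (l8qD I π).zlo / 4 ≤ l8pVl I k → I.x < l8pVl I k

/-- **QLL** -/
def L8qLeafQ (𝔹 : LlBase) (F : LlFix) : Prop :=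
  ∀ (π : L8qPar) (c3 Lq : ℝ), 1 ≤ Lq → 0 < π.c.zs → L8qEvt 𝔹 F fun I => L8qGeo I π.c.zs c3 Lq → L8qGrid I π →
    ∀ k ≤ l8qNb I π, |I.q k - I.p.q I.F I.𝔹 (l8pVl I k)| ≤ I.x ^ 40

/-- **IVXL** (`top`: first alternative, `zw + x^40 ≤ zbuf`) -/
def L8qLeafIvx (𝔹 : LlBase) (F : LlFix) : Prop :=
  ∀ (π : L8qPar) (S : SkpS), π.Ok S → L8qEvt 𝔹 F fun I => L8qGrid I π → L8D7X S (l8qI I π) (1 / 4) 1

/-- **NUML**.   `λ = x^pS`, `U = x^(1 - pS s/2)`, `x ≤ U ≤ Y_c ≤ x^(δ_*/3)` -/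
def L8qLeafNum (𝔹 : LlBase) : Prop :=
  ∀ (F0 : LlFix) (pB : LLParB) (pS : ℝ), 0 < pS → pS ≤ 1 → ∀ (π : L8qPar) (CW zr : ℝ), 0 < π.eps → 1 ≤ π.c1 → 1 ≤ CW → 0 < zr →
    L8qEvt 𝔹 (F0.wExp pB.sStar pB.eta pS) fun I => 1 ≤ I.Zc llDStar → L8qNum I π CW zr (pS * (3 * pB.sStar - 1 - pB.eta) / 2)

end

/-- **GLUE of INSTL** -/
theorem l8q_inst_of {𝔹 : LlBase} {T : ℝ} (hgeo : L8qLeafGeo 𝔹 T) (hclk : L8qLeafClk 𝔹 T) (hdev : ∀ F, L8qLeafDev 𝔹 F)
    (hgrid : ∀ F, L8qLeafGrid 𝔹 F) (hd3 : ∀ F, L8qLeafD3 𝔹 F) (hq : ∀ F, L8qLeafQ 𝔹 F) (hivx : ∀ F, L8qLeafIvx 𝔹 F) (hstr : L8pLeafStr)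
    (hnum : L8qLeafNum 𝔹) (hlow : SkwLow) : L8qInst 𝔹 T := by
  intro F0 hF pB pS h0 h1' Cc hCc
  obtain ⟨zs, c3, Lq, hzs, hzs1, hc3, hLq, hgeo⟩ := hgeo F0 hF pB pS h0 h1'
  obtain ⟨Kc, hK1, hK3, hstr⟩ := hstr
  set F := F0.wExp pB.sStar pB.eta pS with hFdef
  obtain ⟨Cf, C1, hCf, hC1, hdev⟩ := hdev F zs c3 Lq Cc hzs hzs1 hLq hCc
  have hc : (l8qC zs Lq Cf C1).Ok := ⟨hzs, le_rfl, hLq, hCf, hC1, le_rfl, fun _ => le_rfl⟩
  obtain ⟨CW, hCW, hlow⟩ := hlow (l8qC zs Lq Cf C1) hc (zs / 2) (by positivity)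
  set S : SkpS := ⟨l8qC zs Lq Cf C1, Kc, 2 * CW, 1, c3, 2, pS * (3 * pB.sStar - 1 - pB.eta) / 2, zs / 2, 1, Lq, 8⟩ with hS
  have hSok : S.Ok :=
    { c := hc
      CW := by show (1 : ℝ) ≤ 2 * CW; linarith
      Cv := le_rfl
      cD3 := hc3
      Cm := by show (1 : ℝ) ≤ 2; norm_num
      cg := l8p_cg_pos pB h0
      zreg := by show (0 : ℝ) < zs / 2; positivity
      zreg1 := by show zs / 2 ≤ 1; linarith
      cG := one_pos
      Cq := hLq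
      Cz := by show (1 : ℝ) ≤ 8; norm_num
      cA1 := hK1
      cA3 := hK3 }
  refine ⟨8, zs / 2, l8qC zs Lq Cf C1, S, by positivity, fun eps K he he1 hK => ?_⟩
  set π : L8qPar := l8qP eps K zs Lq Cf C1 with hπ
  have hπok : π.Ok S :=
    { eps0 := he
      eps1 := he1
      K := hK
      c1 := le_rfl
      zw0 := by show (0 : ℝ) < zs / 2; positivity
      zws := by show 2 * (zs / 2) ≤ zs; linarith
      zs1 := hzs1
      Sok := hSok
      Sc := rfl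
      Cz := rfl }
  refine ⟨hπok, ?_⟩
  have E := ((hgeo.and ((hclk F0 hF pB pS h0 h1').and (hdev eps K he he1 hK))).and
      (((hgrid F π hzs hzs1).and (hd3 F π c3 Lq le_rfl hc3)).and ((hq F π c3 Lq hLq hzs).and (hivx F π S hπok)))).and
      ((hnum F0 pB pS h0 h1' π CW (zs / 2) he (by show (1 : ℝ) ≤ 8; norm_num) hCW (by positivity)).and (l8q_evt_fine 𝔹 F))
  refine E.mono ?_
  rintro I hat ⟨⟨⟨geo, clk, dev⟩, ⟨grid, d3⟩, ql, ivx⟩, num, fine⟩ ⟨hZc, cap⟩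
  have num := num hZc
  obtain ⟨hyp, hSl⟩ := dev geo hZc num.xU cap
  have grid := grid hSl
  have str := hstr I hat.ok fine.adm
  have concl : SkwConcl CW (l8qD I π) (zs / 2) zs zs (l8qH I π) :=
    hlow (l8qD I π) (zs / 2) hyp rfl num.small (by
      have := num.zloreg
      show 2 * (8 * I.Yc llDStar) ≤ zs / 2
      have h8 : (π.c1 : ℝ) = 8 := rfl
      rw [h8] at this
      have := num.Yc0
      linarith) (by linarith) (fun _ => rfl)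
  exact
    { pm :=
        { sp := str.sp
          m0 := str.m0
          a1 := str.a1
          a4 := str.a4
          pin := str.pin
          proj := str.proj
          wh := hyp
          wc := skw_concl_shrink hyp hCW (by show zs / 2 ≤ zs; linarith) concl num.bs grid.zbuf (grid.top.trans num.ts)
          zbuf := grid.zbuf
          zreg := by
            have e1 := grid.top
            have e2 := num.tz
            show zs / 2 ≤ l8pVl I (l8qNb I π)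
            have e3 : π.c.zs = zs := rfl
            rw [e3] at e1
            linarith
          δ0 := pow_pos num.x0 40
          z0 := rfl
          zmono := grid.zmono
          zmesh := grid.zmesh
          nb := rfl
          nbn := grid.nbn.trans str.nbn
          Slink := grid.Slink
          gaplink := grid.gaplink
          vlo := fun k hk _ => grid.vlo k hk
          vhi := grid.vhi
          D3 := fun k₁ k₂ h12 h2n hz => (d3 geo clk grid hZc num.xU).1 k₁ k₂ h12 h2n ((d3 geo clk grid hZc num.xU).2 k₁ (h12.le.trans h2n) hz)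
          msz := str.msz
          g0a := num.g0a
          g0b := num.g0b
          g0c := num.g0c
          lam1a := num.lam1a
          lam1b := num.lam1b
          Lg0 := zero_le_one
          Lg := num.Lg
          mesh := le_rfl
          lowb0 := pow_pos num.x0 80
          lowb := le_rfl
          Yz := by
            show I.Yc llDStar * 1 ≤ 8 * I.Yc llDStar
            have := num.Yc0
            linarith
          zloY := by
            show 8 * I.Yc llDStar ≤ 8 * (I.Yc llDStar * 1)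
            rw [mul_one]
          zlox := num.zlox
          zloreg := num.zloreg
          qr := fun z hz => by
            have hz' : z ∈ Icc 0 zs := ⟨hz.1, hz.2.trans grid.zbuf⟩
            have e1 := geo.qlip z hz' 0 ⟨le_rfl, hzs.le⟩
            rw [geo.q00, sub_zero, sub_zero, abs_of_nonneg hz.1] at e1
            have e2 : skwR z = z := min_eq_left (hz'.2.trans hzs1)
            show I.p.q I.F I.𝔹 z ≤ Lq * skwR z
            rw [e2]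
            exact (le_abs_self _).trans e1
          Greg := fun _ _ => le_rfl
          zregs := by show zs / 2 ≤ zs; linarith }
      wfull := skw_concl_shrink hyp hCW (by show zs / 2 ≤ zs; linarith) concl num.bs le_rfl (by
        show zs - zs ≤ 1 / (2 * CW)
        rw [sub_self]; positivity)
      nbn := grid.nbn
      top := grid.top
      qlink := ql geo grid
      Slink := hSl
      fine := fine
      Zc1 := hZc
      cap := cap
      xU := num.xU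
      D3x := (d3 geo clk grid hZc num.xU).1
      ivx := ivx grid }

/-! ## 5. The leaves -/

/-! ### GEOL: helpers (helper200; prefix `l8qg_`) -/

/-- the facts of LL 03 at one point which the low region uses -/
structure L8qgPt (p : LlPt) (F : LlFix) (𝔹 : LlBase) (zs Lq c3 : ℝ) : Prop where
  K0 : p.K F 𝔹 0 = 0
  q00 : p.q F 𝔹 0 = 0
  qmono : MonotoneOn (p.q F 𝔹) (Icc 0 zs)
  qlip : ∀ v ∈ Icc 0 zs, ∀ v' ∈ Icc 0 zs, |p.q F 𝔹 v - p.q F 𝔹 v'| ≤ Lq * |v - v'|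
  q0 : ∀ v ∈ Icc 0 zs, 0 ≤ p.q F 𝔹 v
  q1 : ∀ v ∈ Icc 0 zs, p.q F 𝔹 v ≤ 1
  qr : ∀ v ∈ Icc 0 zs, p.q F 𝔹 v ≤ Lq * skwR v
  d3 : ∀ v v', p.x ≤ v → v ≤ v' → v' ≤ zs → c3 * p.lam1 F * skwR v ^ 2 * (v' - v) ≤ p.h F 𝔹 v' - p.h F 𝔹 v

theorem l8qg_K0 {p : LlPt} {F : LlFix} {𝔹 : LlBase} {c C v0 w : ℝ} (hw : 0 < w) (hwv : w ≤ v0) (ha : w ≤ p.a) (hc : 0 < c) (R : p.Ref F 𝔹 c C v0)
    (hm : MonotoneOn (p.K F 𝔹) (Icc 0 p.a)) (h0 : 0 ≤ p.K F 𝔹 0) : p.K F 𝔹 0 = 0 := by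
  have hC : 0 < C := hc.trans_le (R.b0_lo.trans R.b0_hi)
  by_contra hne
  have hpos : 0 < p.K F 𝔹 0 := lt_of_le_of_ne h0 (Ne.symm hne)
  set v := min w (p.K F 𝔹 0 / (2 * C)) with hv
  have hvpos : 0 < v := lt_min hw (by positivity)
  have hvw : v ≤ w := min_le_left _ _
  have h1 := R.K_hi0 v hvpos (hvw.trans hwv)
  have h2 : p.K F 𝔹 0 ≤ p.K F 𝔹 v := hm ⟨le_rfl, hw.le.trans ha⟩ ⟨hvpos.le, hvw.trans ha⟩ hvpos.le
  have h3 : C * v ≤ C * (p.K F 𝔹 0 / (2 * C)) := mul_le_mul_of_nonneg_left (min_le_right _ _) hC.le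
  have h4 : C * (p.K F 𝔹 0 / (2 * C)) = p.K F 𝔹 0 / 2 := by field_simp
  linarith

theorem l8qg_gam1_le {p : LlPt} {F : LlFix} {𝔹 : LlBase} {c C v0 : ℝ} (hc : 0 < c) (hl : 0 ≤ p.lam) (R : p.Ref F 𝔹 c C v0) {t : ℝ} (ht : 0 ≤ t) :
    p.Gam1 F 𝔹 t ≤ 1 / c := by
  have h1 := R.gap_lo t ht
  have h2 : 0 ≤ c * p.lam * min (t ^ 2) 1 := by positivity
  have h3 : p.b0 F 𝔹 * p.Gam1 F 𝔹 t ≤ 1 := by
    have : p.gap F 𝔹 t = 1 - p.b0 F 𝔹 * p.Gam1 F 𝔹 t := rfl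
    linarith
  have h4 := R.g1_pos t ht
  have h5 : c * p.Gam1 F 𝔹 t ≤ p.b0 F 𝔹 * p.Gam1 F 𝔹 t := mul_le_mul_of_nonneg_right R.b0_lo h4.le
  rw [le_div_iff₀ hc]
  linarith

/-- increments of `q` -/
theorem l8qg_q_inc {p : LlPt} {F : LlFix} {𝔹 : LlBase} {c C v0 : ℝ} (hc : 0 < c) (hl : 0 ≤ p.lam) (R : p.Ref F 𝔹 c C v0) {t t' : ℝ} (ht : 0 ≤ t) (htt : t ≤ t') :
    0 ≤ p.Gam F 𝔹 t' - p.Gam F 𝔹 t ∧ p.Gam F 𝔹 t' - p.Gam F 𝔹 t ≤ 1 / c * (t' - t) := by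
  rw [R.gam_ftc t t' ht htt]
  have hint : IntervalIntegrable (p.Gam1 F 𝔹) volume t t' :=
    (R.g1_cont.mono (fun s hs => by
      rw [uIcc_of_le htt] at hs
      exact ht.trans hs.1)).intervalIntegrable
  constructor
  · exact intervalIntegral.integral_nonneg htt fun s hs => (R.g1_pos s (ht.trans hs.1)).le
  · have := intervalIntegral.integral_mono_on htt hint (intervalIntegrable_const (c := 1 / c))
      (fun s hs => l8qg_gam1_le hc hl R (ht.trans hs.1))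
    simpa [mul_comm] using this

theorem l8qg_x_pos {p : LlPt} {F : LlFix} (h : p.Ok F) : 0 < p.x := by
  have hN : (0 : ℝ) < p.N := by
    have := h.N2
    exact_mod_cast (by omega : 0 < p.N)
  exact Real.rpow_pos_of_pos hN _

theorem l8qg_x_le_one {p : LlPt} {F : LlFix} (h : p.Ok F) : p.x ≤ 1 := by
  have hN : (1 : ℝ) ≤ p.N := by
    have := h.N2
    exact_mod_cast (by omega : 1 ≤ p.N)
  exact Real.rpow_le_one_of_one_le_of_nonpos hN (by norm_num)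

theorem l8qg_lam_pos {p : LlPt} {F : LlFix} (h : p.Ok F) : 0 < p.lam :=
  (Real.rpow_pos_of_pos (l8qg_x_pos h) _).trans_le h.lam_lo

theorem l8qg_lam_le_one {p : LlPt} {F : LlFix} (h : p.Ok F) (hF : 0 ≤ F.pS) : p.lam ≤ 1 :=
  h.lam_hi.trans (Real.rpow_le_one (l8qg_x_pos h).le (l8qg_x_le_one h) hF)

theorem l8qg_lam1_le {p : LlPt} {F : LlFix} (h : p.Ok F) (hF : 0 ≤ F.pS) (he : 0 ≤ F.eta) : p.lam1 F ≤ p.lam := by
  unfold LlPt.lam1
  have h0 := l8qg_lam_pos h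
  calc p.lam ^ (1 + F.eta) ≤ p.lam ^ (1 : ℝ) := Real.rpow_le_rpow_of_exponent_ge h0 (l8qg_lam_le_one h hF) (by linarith)
    _ = p.lam := Real.rpow_one _

/-- the logarithmic field is nondecreasing -/
theorem l8qg_Hlo_mono {p : LlPt} {F : LlFix} (h : p.Ok F) {v v' : ℝ} (hv : 0 < v) (hvv : v ≤ v') : p.Hlo F v ≤ p.Hlo F v' := by
  unfold LlPt.Hlo
  have hx := l8qg_x_pos h
  have hl : 0 < p.ell := by linarith [h.ell1]
  have h1 : 0 ≤ p.lam1 F * p.U F ^ 3 := by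
    have a1 : 0 ≤ p.lam1 F := Real.rpow_nonneg (l8qg_lam_pos h).le _
    have a2 : 0 ≤ p.U F := le_min zero_le_one (mul_nonneg hx.le (Real.rpow_nonneg (l8qg_lam_pos h).le _))
    positivity
  apply mul_le_mul_of_nonneg_left _ h1
  apply Real.log_le_log
  · exact div_pos (lt_min hv hl) hx
  · exact div_le_div_of_nonneg_right (min_le_min_right _ hvv) hx.le

theorem l8qg_Hlin_mono {p : LlPt} {F : LlFix} (h : p.Ok F) {v v' : ℝ} (hvv : v ≤ v') : p.Hlin F v ≤ p.Hlin F v' := by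
  unfold LlPt.Hlin
  have hx := l8qg_x_pos h
  apply mul_le_mul_of_nonneg_left _ (by positivity)
  exact max_le_max_left _ (by linarith [min_le_min_right p.ell hvv])

/-- **the geometry of the low region at one smoothed point** -/
theorem l8qg_pt {p : LlPt} {F : LlFix} {𝔹 : LlBase} {c C v0 c4 zs : ℝ} (hF : F.Ok) (hp : p.Ok F) (hsm : p.sm = true) (hc : 0 < c) (hc4 : 0 < c4)
    (hzs : 0 < zs) (hzv : zs ≤ v0) (hz1 : zs ≤ 1) (R : p.Ref F 𝔹 c C v0)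
    (hK : MonotoneOn (p.K F 𝔹) (Icc 0 p.a)) (hq : MonotoneOn (p.q F 𝔹) (Icc 0 p.a)) (hK0 : 0 ≤ p.K F 𝔹 0)
    (h4 : ∀ v ∈ Ioo 0 p.a, ∀ v' ∈ Ioo 0 p.a, v ≤ v' → c4 * p.lam * (v ^ 2 + p.U F ^ 2) * (p.K F 𝔹 v' - p.K F 𝔹 v) ≤ p.hS F 𝔹 v' - p.hS F 𝔹 v) :
    L8qgPt p F 𝔹 zs (C / c) (c4 * c) := by
  have ha : p.a = 4 := by simp [LlPt.a, hsm]
  have hC : 0 < C := hc.trans_le (R.b0_lo.trans R.b0_hi)
  have hl0 := l8qg_lam_pos hp
  have hx0 := l8qg_x_pos hp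
  have hsub : Icc 0 zs ⊆ Icc 0 p.a := Icc_subset_Icc le_rfl (by rw [ha]; linarith)
  have hKz : p.K F 𝔹 0 = 0 := l8qg_K0 hzs hzv (by rw [ha]; linarith) hc R hK hK0
  have hq00 : p.q F 𝔹 0 = 0 := by
    show p.Gam F 𝔹 (p.K F 𝔹 0) = 0
    rw [hKz]
    exact R.gam_zero
  -- increments of `K` on the closed interval
  have hKinc : ∀ v v', 0 ≤ v → v ≤ v' → v' ≤ zs → c * (v' - v) ≤ p.K F 𝔹 v' - p.K F 𝔹 v ∧ p.K F 𝔹 v' - p.K F 𝔹 v ≤ C * (v' - v) := by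
    intro v v' h0 hvv hv'
    rcases h0.eq_or_lt with rfl | h0
    · rcases hvv.eq_or_lt with rfl | hvv
      · simp
      · rw [hKz]
        simpa using And.intro (R.K_lo0 v' hvv (hv'.trans hzv)) (R.K_hi0 v' hvv (hv'.trans hzv))
    · exact ⟨R.K_lo v v' h0 hvv (hv'.trans hzv), R.K_hi v v' h0 hvv (hv'.trans hzv)⟩
  have hKnn : ∀ v, 0 ≤ v → v ≤ zs → 0 ≤ p.K F 𝔹 v := by
    intro v h0 hv
    have := (hKinc 0 v le_rfl h0 hv).1
    rw [hKz] at this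
    have h2 : 0 ≤ c * (v - 0) := by
      have : 0 ≤ v - 0 := by linarith
      positivity
    linarith
  have hqinc : ∀ v v', 0 ≤ v → v ≤ v' → v' ≤ zs → 0 ≤ p.q F 𝔹 v' - p.q F 𝔹 v ∧ p.q F 𝔹 v' - p.q F 𝔹 v ≤ C / c * (v' - v) := by
    intro v v' h0 hvv hv'
    have hk := hKinc v v' h0 hvv hv'
    have hkk : p.K F 𝔹 v ≤ p.K F 𝔹 v' := by
      have : 0 ≤ c * (v' - v) := mul_nonneg hc.le (by linarith)
      linarith [hk.1]
    have := l8qg_q_inc hc hl0.le R (hKnn v h0 (hvv.trans hv')) hkk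
    refine ⟨this.1, this.2.trans ?_⟩
    calc 1 / c * (p.K F 𝔹 v' - p.K F 𝔹 v) ≤ 1 / c * (C * (v' - v)) := mul_le_mul_of_nonneg_left hk.2 (by positivity)
      _ = C / c * (v' - v) := by ring
  have hLq : 0 ≤ C / c := by positivity
  refine ⟨hKz, hq00, hq.mono hsub, ?_, ?_, ?_, ?_, ?_⟩
  · intro v hv v' hv'
    rcases le_total v v' with h | h
    · have := hqinc v v' hv.1 h hv'.2
      rw [abs_sub_comm, abs_of_nonneg this.1, abs_sub_comm, abs_of_nonneg (by linarith : 0 ≤ v' - v)]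
      exact this.2
    · have := hqinc v' v hv'.1 h hv.2
      rw [abs_of_nonneg this.1, abs_of_nonneg (by linarith : 0 ≤ v - v')]
      exact this.2
  · intro v hv
    have := (hqinc 0 v le_rfl hv.1 hv.2).1
    rw [hq00] at this
    linarith
  · intro v hv
    exact R.gam_le _ (hKnn v hv.1 hv.2)
  · intro v hv
    have := (hqinc 0 v le_rfl hv.1 hv.2).2
    rw [hq00] at this
    have hr : skwR v = v := min_eq_left (hv.2.trans hz1)
    rw [hr]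
    linarith
  · intro v v' hxv hvv hv'
    have hv0 : 0 < v := hx0.trans_le hxv
    have hr : skwR v = v := min_eq_left ((hvv.trans hv').trans hz1)
    rw [hr]
    have hchiE : p.chiE = 0 := (hp.sm_fin hsm).2
    have e1 : p.h F 𝔹 v = p.hS F 𝔹 v + p.Hlo F v + p.chiL * p.Hlin F v := by
      unfold LlPt.h
      rw [if_neg (not_lt.2 hxv), hchiE]
      ring
    have e2 : p.h F 𝔹 v' = p.hS F 𝔹 v' + p.Hlo F v' + p.chiL * p.Hlin F v' := by
      unfold LlPt.h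
      rw [if_neg (not_lt.2 (hxv.trans hvv)), hchiE]
      ring
    have m1 := l8qg_Hlo_mono hp hv0 hvv
    have m2 : p.chiL * p.Hlin F v ≤ p.chiL * p.Hlin F v' := mul_le_mul_of_nonneg_left (l8qg_Hlin_mono hp hvv) hp.chiL.1
    have m3 := h4 v ⟨hv0, by rw [ha]; linarith⟩ v' ⟨hv0.trans_le hvv, by rw [ha]; linarith⟩ hvv
    have hk := (hKinc v v' hv0.le hvv hv').1
    have hl1 := l8qg_lam1_le hp hF.pS0.le hF.eta0.le
    have hl10 : 0 ≤ p.lam1 F := Real.rpow_nonneg hl0.le _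
    have hd : 0 ≤ v' - v := by linarith
    have m4 : c4 * c * p.lam1 F * v ^ 2 * (v' - v) ≤ c4 * p.lam * (v ^ 2 + p.U F ^ 2) * (p.K F 𝔹 v' - p.K F 𝔹 v) := by
      have a1 : c4 * p.lam1 F * v ^ 2 ≤ c4 * p.lam * (v ^ 2 + p.U F ^ 2) := by
        have : p.lam1 F * v ^ 2 ≤ p.lam * (v ^ 2 + p.U F ^ 2) :=
          mul_le_mul hl1 (by nlinarith [sq_nonneg (p.U F)]) (by positivity) hl0.le
        nlinarith
      have a2 : 0 ≤ c4 * p.lam1 F * v ^ 2 := by positivity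
      have a3 : 0 ≤ c * (v' - v) := by positivity
      calc c4 * c * p.lam1 F * v ^ 2 * (v' - v) = c4 * p.lam1 F * v ^ 2 * (c * (v' - v)) := by ring
        _ ≤ c4 * p.lam * (v ^ 2 + p.U F ^ 2) * (p.K F 𝔹 v' - p.K F 𝔹 v) := mul_le_mul a1 hk a3 (a2.trans a1)
    rw [e1, e2]
    linarith

theorem L8qgPt.mono {p : LlPt} {F : LlFix} {𝔹 : LlBase} {zs Lq Lq' c3 : ℝ} (h : L8qgPt p F 𝔹 zs Lq c3) (hL : Lq ≤ Lq') : L8qgPt p F 𝔹 zs Lq' c3 :=
  { K0 := h.K0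
    q00 := h.q00
    qmono := h.qmono
    qlip := fun v hv v' hv' => (h.qlip v hv v' hv').trans (mul_le_mul_of_nonneg_right hL (abs_nonneg _))
    q0 := h.q0
    q1 := h.q1
    qr := fun v hv => (h.qr v hv).trans (mul_le_mul_of_nonneg_right hL (le_min hv.1 zero_le_one))
    d3 := h.d3 }

/-- **GEO-LOW, uniformly**: constants before `N` -/
theorem l8qg_unif {𝔹 : LlBase} {F : LlFix} (h : LlSec3 𝔹 F) :
    ∃ zs Lq c3 : ℝ, 0 < zs ∧ zs ≤ 1 / 2 ∧ 1 ≤ Lq ∧ 0 < c3 ∧ LlUnif F fun p => p.sm = true → ∀ z, 0 < z → z ≤ zs → L8qgPt p F 𝔹 z Lq c3 := by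
  obtain ⟨c, C, v0, hc, hv0, N1, R⟩ := h.ref
  obtain ⟨ca, Ca, hca, N2, A⟩ := h.adm
  obtain ⟨c4, C4, v4, hc4, hv4, N3, P4⟩ := h.p4
  refine ⟨min v0 (1 / 2), max 1 (C / c), c4 * c, lt_min hv0 (by norm_num), min_le_right _ _, le_max_left _ _, by positivity,
    max (max N1 N2) N3, fun p hp hN hsm z hz0 hz => ?_⟩
  have hN1 : N1 ≤ p.N := ((le_max_left _ _).trans (le_max_left _ _)).trans hN
  have hN2 : N2 ≤ p.N := ((le_max_right _ _).trans (le_max_left _ _)).trans hN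
  have hN3 : N3 ≤ p.N := (le_max_right _ _).trans hN
  obtain ⟨-, -, -, hK, hq, hb, -, -⟩ := A p hp hN2
  have ha : p.a = 4 := by simp [LlPt.a, hsm]
  have hK0 : 0 ≤ p.K F 𝔹 0 := (hb 0 ⟨le_rfl, by rw [ha]; norm_num⟩).2.2.2.2
  exact (l8qg_pt h.ok hp hsm hc hc4 hz0 (hz.trans (min_le_left _ _)) (by linarith [hz.trans (min_le_right _ _)]) (R p hp hN1) hK hq hK0
    (P4 p hp hN3).1).mono (le_max_right _ _)

theorem l8qg_geo (𝔹 : LlBase) (T : ℝ) : L8qLeafGeo 𝔹 T := by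
  intro F0 hF pB pS h0 h1
  have h3 : LlSec3 𝔹 (F0.wExp pB.sStar pB.eta pS) := (hF.2.2 _ _ _ (llc_expOk pB h0 h1)).sec3
  obtain ⟨zs, Lq, c3, hzs, hzs2, hLq, hc3, N0, H⟩ := l8qg_unif h3
  refine ⟨zs / 2, c3, Lq, by positivity, by linarith, hc3, hLq, N0, 0, fun I hat => ?_⟩
  have hp : I.p.Ok (F0.wExp pB.sStar pB.eta pS) := by
    rw [← hat.hF]
    exact hat.ok.pt
  have P := H I.p hp hat.hN hat.siz.1 (zs / 2) (by positivity) (by linarith)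
  have P2 := H I.p hp hat.hN hat.siz.1 zs hzs le_rfl
  rw [← hat.hF, ← hat.hB] at P P2
  have e2 : 2 * (zs / 2) = zs := by ring
  exact
    { qlip := P.qlip
      qlipx := by rw [e2]; exact P2.qlip
      q00 := P.q00
      q0 := P.q0
      q1 := P.q1
      d3 := fun z₁ _ z₂ h2 h12 hx => P.d3 z₁ z₂ hx h12 h2.2 }

theorem l8q_leaf_geo (T : ℝ) (_hT : 1 < T) : L8qLeafGeo llBase T := l8qg_geo llBase T

theorem l8q_leaf_clk (T : ℝ) (_hT : 1 < T) : L8qLeafClk llBase T := by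
  intro F0 hF pB pS h0 h1
  have h3 : LlSec3 llBase (F0.wExp pB.sStar pB.eta pS) := (hF.2.2 _ _ _ (llc_expOk pB h0 h1)).sec3
  obtain ⟨Ne, hequi⟩ := h3.equi
  obtain ⟨ca, Ca, hca, Na, hadm⟩ := h3.adm
  obtain ⟨cr, Cr, v0, hcr, hv0, Nr, href⟩ := h3.ref
  refine ⟨max Ne (max Na Nr), 0, fun I hI => ?_⟩
  have hNe : Ne ≤ I.p.N := (le_max_left _ _).trans hI.hN
  have hNa : Na ≤ I.p.N := ((le_max_left _ _).trans (le_max_right _ _)).trans hI.hN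
  have hNr : Nr ≤ I.p.N := ((le_max_right _ _).trans (le_max_right _ _)).trans hI.hN
  have hpt : I.p.Ok (F0.wExp pB.sStar pB.eta pS) := hI.hF ▸ hI.ok.pt
  have hA := hadm I.p hpt hNa
  have hR := href I.p hpt hNr
  rw [← hI.hF, ← hI.hB] at hA hR
  have ha0 : 0 < I.a := by
    unfold L8In.a LlPt.a
    split_ifs
    · norm_num
    · linarith [hI.ok.pt.ell1]
  have hx0 : 0 < I.x := I.x_pos hI.ok
  obtain ⟨-, hmh, -, hmK, -, hpos, -, -⟩ := hA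
  have hz : (0 : ℝ) ∈ Icc 0 I.p.a := ⟨le_rfl, ha0.le⟩
  have hKc : GhClk1 I.a (I.p.K I.F I.𝔹) := ⟨hmK, (hpos 0 hz).2.2.2.2⟩
  have hhc : GhClk1 I.a (I.p.h I.F I.𝔹) := ⟨hmh, (hpos 0 hz).2.2.1⟩
  have hK0 : I.p.K I.F I.𝔹 0 = 0 := by
    refine le_antisymm ?_ (hpos 0 hz).2.2.2.2
    by_contra hc
    push Not at hc
    set k0 := I.p.K I.F I.𝔹 0 with hk0
    have hC : 0 < |Cr| + 1 := by positivity
    set v := min (min v0 I.a) (k0 / (2 * (|Cr| + 1))) with hv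
    have hvpos : 0 < v := lt_min (lt_min hv0 ha0) (by positivity)
    have e1 := hR.K_hi0 v hvpos ((min_le_left _ _).trans (min_le_left _ _))
    have e2 := hmK hz ⟨hvpos.le, (min_le_left _ _).trans (min_le_right _ _)⟩ hvpos.le
    have e3 : v ≤ k0 / (2 * (|Cr| + 1)) := min_le_right _ _
    rw [le_div_iff₀ (by positivity)] at e3
    have e4 : Cr * v ≤ |Cr| * v := mul_le_mul_of_nonneg_right (le_abs_self _) hvpos.le
    nlinarith
  have heK : ∀ η : ℝ, 0 < η → ∃ δ : ℝ, 0 < δ ∧ ∀ v v' : ℝ, 0 ≤ v → v ≤ v' → v' ≤ I.a → v' - v ≤ δ →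
      I.p.K I.F I.𝔹 v' - I.p.K I.F I.𝔹 v ≤ η := by
    intro η hη
    obtain ⟨δ, hδ, H⟩ := hequi I.p.N hNe η hη
    refine ⟨δ, hδ, fun v v' a1 a2 a3 a4 => ?_⟩
    have := (H I.p hpt rfl v v' a1 a2 a3 a4).1
    rwa [← hI.hF, ← hI.hB] at this
  have heh : ∀ η : ℝ, 0 < η → ∃ δ : ℝ, 0 < δ ∧ ∀ v v' : ℝ, I.x ≤ v → v ≤ v' → v' ≤ I.a → v' - v ≤ δ →
      I.p.h I.F I.𝔹 v' - I.p.h I.F I.𝔹 v ≤ η := by
    intro η hη
    obtain ⟨δ, hδ, H⟩ := hequi I.p.N hNe η hη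
    refine ⟨δ, hδ, fun v v' a1 a2 a3 a4 => ?_⟩
    have := (H I.p hpt rfl v v' (hx0.le.trans a1) a2 a3 a4).2.2.2.2 (Or.inr a1)
    rwa [← hI.hF, ← hI.hB] at this
  constructor
  · intro k hk
    rcases k with _ | j
    · show llCumK I.LP 0 = I.p.K I.F I.𝔹 (if 0 = 0 then 0 else _)
      rw [if_pos rfl, hK0]
      simp [llCumK]
    · obtain ⟨q, hq, e1, e2, -⟩ := l8p_clk_dict I (Nat.lt_of_succ_le hk)
      have hok := (gh_os_ps_mem.1 hq).2
      rw [e1, e2]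
      exact l8p_clk_at0 ha0.le hKc hK0 heK hok.1 hok.2.1
  · intro k hk hx
    rcases k with _ | j
    · exfalso
      have : l8pVl I 0 = 0 := if_pos rfl
      rw [this] at hx
      linarith
    · obtain ⟨q, hq, e1, -, e3⟩ := l8p_clk_dict I (Nat.lt_of_succ_le hk)
      have hok := (gh_os_ps_mem.1 hq).2
      rw [e1] at hx ⊢
      rw [e3]
      exact l8p_clk_at ha0.le hhc hx0.le heh hx hok.2.1

/-! ### DEVL: helpers (helper200; prefix `l8qv_`) -/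

/-- integral over a monotone partition, bounded cell by cell -/
theorem l8qv_step_int {a : ℕ → ℝ} (ha : Monotone a) (n : ℕ) {g : ℝ → ℝ} {G : ℕ → ℝ}
    (hg : IntervalIntegrable g volume (a 0) (a n))
    (hG : ∀ k < n, ∀ z ∈ Ioo (a k) (a (k + 1)), g z ≤ G k) :
    ∫ z in (a 0)..(a n), g z ≤ ∑ k ∈ Finset.range n, (a (k + 1) - a k) * G k := by
  have hgk : ∀ k < n, IntervalIntegrable g volume (a k) (a (k + 1)) := fun k hk =>
    hg.mono_set (by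
      rw [uIcc_of_le (ha (Nat.zero_le n)), uIcc_of_le (ha (Nat.le_succ k))]
      exact Icc_subset_Icc (ha (Nat.zero_le k)) (ha hk))
  rw [← intervalIntegral.sum_integral_adjacent_intervals hgk]
  refine Finset.sum_le_sum fun k hk => ?_
  have hk' := Finset.mem_range.1 hk
  have h1 := intervalIntegral.integral_mono_on_of_le_Ioo (ha (Nat.le_succ k)) (hgk k hk') (intervalIntegrable_const (c := G k)) (hG k hk')
  simpa using h1

theorem l8qv_clamp_le {ρ β u w : ℝ} (h : u ≤ w) : max ρ (min β w) - max ρ (min β u) ≤ w - u := by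
  simp only [max_def, min_def]
  split_ifs <;> linarith

theorem l8qv_clamp_mono (ρ β : ℝ) {u w : ℝ} (h : u ≤ w) : max ρ (min β u) ≤ max ρ (min β w) :=
  max_le_max_left _ (min_le_min_left _ h)

/-- integral over `[ρ, β]` of a function which is bounded on the cells of a partition of `[0, vl (n+1)]` -/
theorem l8qv_band_int {vl : ℕ → ℝ} (hvl : Monotone vl) (h0 : vl 0 = 0) {n : ℕ} {ρ β : ℝ} (hρ0 : 0 ≤ ρ) (hρβ : ρ ≤ β) (hβ : β ≤ vl (n + 1))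
    {g : ℝ → ℝ} (hg : IntervalIntegrable g volume ρ β) {G : ℕ → ℝ} (hG0 : ∀ k, 0 ≤ G k)
    (hG : ∀ k ≤ n, ∀ z ∈ Ioo (vl k) (vl (k + 1)), ρ < z → z < β → g z ≤ G k) :
    ∫ z in ρ..β, g z ≤ ∑ k ∈ (Finset.range (n + 1)).filter (fun k => ρ < vl (k + 1) ∧ vl k < β), (vl (k + 1) - vl k) * G k := by
  set a : ℕ → ℝ := fun k => max ρ (min β (vl k)) with ha
  have ham : Monotone a := fun i j hij => l8qv_clamp_mono ρ β (hvl hij)
  have ha0 : a 0 = ρ := by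
    show max ρ (min β (vl 0)) = ρ
    rw [h0, min_eq_right (hρ0.trans hρβ), max_eq_left hρ0]
  have han : a (n + 1) = β := by
    show max ρ (min β (vl (n + 1))) = β
    rw [min_eq_left hβ, max_eq_right hρβ]
  have h1 := l8qv_step_int ham (n + 1) (g := g) (G := G) (by rw [ha0, han]; exact hg) (by
    intro k hk z hz
    have hz1 : ρ < z := lt_of_le_of_lt (le_max_left _ _) hz.1
    have hz2 : min β (vl k) < z := lt_of_le_of_lt (le_max_right _ _) hz.1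
    have hz3 : z < max ρ (min β (vl (k + 1))) := hz.2
    have hz4 : z < min β (vl (k + 1)) := by
      rcases lt_max_iff.1 hz3 with h | h
      · exact absurd h (not_lt.2 hz1.le)
      · exact h
    have hz5 : z < β := hz4.trans_le (min_le_left _ _)
    have hz6 : z < vl (k + 1) := hz4.trans_le (min_le_right _ _)
    have hz7 : vl k < z := by
      rcases min_lt_iff.1 hz2 with h | h
      · exact absurd h (not_lt.2 hz5.le)
      · exact h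
    exact hG k (Nat.lt_succ_iff.1 hk) z ⟨hz7, hz6⟩ hz1 hz5)
  rw [ha0, han] at h1
  refine h1.trans ?_
  rw [Finset.sum_filter]
  refine Finset.sum_le_sum fun k _ => ?_
  split_ifs with hc
  · exact mul_le_mul_of_nonneg_right (l8qv_clamp_le (hvl (Nat.le_succ k))) (hG0 k)
  · have : a (k + 1) - a k = 0 := by
      show max ρ (min β (vl (k + 1))) - max ρ (min β (vl k)) = 0
      rw [not_and_or, not_lt, not_lt] at hc
      have hkk := hvl (Nat.le_succ k)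
      rcases hc with hc | hc
      · rw [max_eq_left ((min_le_right _ _).trans hc), max_eq_left ((min_le_right _ _).trans (hkk.trans hc)), sub_self]
      · rw [min_eq_left hc, min_eq_left (hc.trans hkk), sub_self]
    rw [this, zero_mul]

theorem l8qv_a {I : L8In} (h : I.p.sm = true) : I.a = 4 := by simp [L8In.a, LlPt.a, h]

theorem l8qv_vl_succ (I : L8In) (k : ℕ) : l8pVl I (k + 1) = I.v k := by simp [l8pVl]

theorem l8qv_vl_zero (I : L8In) : l8pVl I 0 = 0 := by simp [l8pVl]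

theorem l8qv_vl_mono {I : L8In} (ha : 0 ≤ I.a) (hP : SkAdm I.a I.P0) : Monotone (l8pVl I) := by
  apply monotone_nat_of_le_succ
  intro k
  rw [l8qv_vl_succ]
  cases k with
  | zero => rw [l8qv_vl_zero]; exact (l8pg_ms_mem ha hP 0).1
  | succ k => rw [l8qv_vl_succ]; exact l8pg_ms_mono ha hP (Nat.le_succ k)

theorem l8qv_dv (I : L8In) (k : ℕ) : I.dv k = l8pVl I (k + 1) - l8pVl I k := by
  rw [l8qv_vl_succ]
  unfold L8In.dv skGap l8pVl L8In.v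
  rfl

theorem l8qv_len (I : L8In) : I.P0.length = I.n := by simp [L8In.P0, llMat, L8In.n]

theorem l8qv_v_top (I : L8In) : I.v I.n = I.a := l8pg_ms_ge I.a (l8qv_len I).le

theorem l8qv_idx {I : L8In} (ha : 0 ≤ I.a) (hP : SkAdm I.a I.P0) {k : ℕ} (hk : k ≤ I.n) {z : ℝ} (h1 : l8pVl I k ≤ z) (h2 : z < I.v k) :
    l8pIdx I z = k := by
  refine l8pg_idx ha hP (by rw [l8qv_len]; exact hk) (fun j hj => ?_) h2
  obtain ⟨k, rfl⟩ : ∃ k', k = k' + 1 := ⟨k - 1, by omega⟩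
  rw [l8qv_vl_succ] at h1
  exact (l8pg_ms_mono ha hP (by omega : j ≤ k)).trans h1

theorem l8qv_idx_mono (I : L8In) : Monotone (l8pIdx I) := by
  intro u w h
  unfold l8pIdx
  apply List.Sublist.length_le
  apply List.monotone_filter_right
  intro e he
  simp only [decide_eq_true_eq] at he ⊢
  exact he.trans h

/-- a sum over cuts of a window is at most the mass integral -/
theorem l8qv_int_ge (I : L8In) (lo hi : ℝ) (g : ℕ → ℝ) (hg : ∀ k, 0 ≤ I.dv k * g k) (s : Finset ℕ)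
    (hs : ∀ k ∈ s, k ≤ I.n ∧ lo ≤ I.v k ∧ I.v k ≤ hi) : ∑ k ∈ s, I.dv k * g k ≤ I.int lo hi g := by
  unfold L8In.int
  refine Finset.sum_le_sum_of_subset_of_nonneg (fun k hk => ?_) (fun k _ _ => hg k)
  obtain ⟨h1, h2⟩ := hs k hk
  exact Finset.mem_filter.2 ⟨Finset.mem_range.2 (Nat.lt_succ_iff.2 h1), h2⟩

theorem l8qv_dv_nonneg {I : L8In} (ha : 0 ≤ I.a) (hP : SkAdm I.a I.P0) (k : ℕ) : 0 ≤ I.dv k := by
  rw [l8qv_dv]
  exact sub_nonneg.2 (l8qv_vl_mono ha hP (Nat.le_succ k))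

/-- **(D1) in integral form** from (D1) on the chain -/
theorem l8qv_D1 {I : L8In} {zs c3 Lq Cc η Y : ℝ} (ha : I.a = 4) (hP : SkAdm I.a I.P0) (hzs : zs ≤ 1) (hLq : 1 ≤ Lq) (hCc : 1 ≤ Cc)
    (geo : L8qGeo I zs c3 Lq) (hfine : I.Fine η) (hη0 : 0 ≤ η) (hηzs : η ≤ zs) (hY : 0 < Y) (hUY : I.U ≤ 2 * Y)
    (cap : ∀ r, I.U ≤ r → r ≤ I.a → I.band r (fun k => I.f k ^ 2) ≤ Cc * r * (Y ^ 4 / r ^ 2))
    (hsmall : 8 * ((Lq + 1) * η) ^ 2 ≤ Y ^ 4) (hη2 : η ≤ 4 * Y) {ρ : ℝ} (hρ1 : 2 * Y ≤ ρ) (hρ2 : ρ ≤ zs)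
    (hint : IntervalIntegrable (fun z => (l8pSv I z - I.p.q I.F I.𝔹 z) ^ 2) volume ρ (min (2 * ρ) zs)) :
    ∫ z in ρ..(min (2 * ρ) zs), (l8pSv I z - I.p.q I.F I.𝔹 z) ^ 2 ≤ (3 * Cc + 1) * Y ^ 4 / ρ := by
  have ha0 : 0 ≤ I.a := by rw [ha]; norm_num
  have hρ0 : 0 < ρ := by linarith
  have hvl := l8qv_vl_mono ha0 hP
  set β := min (2 * ρ) zs with hβ
  have hρβ : ρ ≤ β := le_min (by linarith) hρ2
  have hβzs : β ≤ zs := min_le_right _ _
  have hβ2 : β ≤ 2 * ρ := min_le_left _ _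
  set E := (Lq + 1) * η with hE
  have hE0 : 0 ≤ E := by positivity
  have hdv := l8qv_dv_nonneg ha0 hP
  have h1 := l8qv_band_int hvl (l8qv_vl_zero I) (n := I.n) hρ0.le hρβ (by
      rw [l8qv_vl_succ, l8qv_v_top, ha]; linarith) hint (G := fun k => 2 * I.f k ^ 2 + 2 * E ^ 2) (fun k => by positivity) (by
    intro k hk z hz hz1 hz2
    rw [l8qv_vl_succ] at hz
    have hidx := l8qv_idx ha0 hP hk hz.1.le hz.2
    have hS : l8pSv I z = I.S k := by unfold l8pSv; rw [hidx]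
    have hd := hfine.dv_le k hk
    rw [l8qv_dv, l8qv_vl_succ] at hd
    have hz0 : 0 ≤ z := hρ0.le.trans hz1.le
    have hvk : I.v k ≤ 2 * zs := by linarith [hz.1]
    have q1 := hfine.q_link k hk
    have q2 := geo.qlipx (I.v k) ⟨hz0.trans hz.2.le, hvk⟩ z ⟨hz0, by linarith⟩
    rw [abs_of_nonneg (by linarith [hz.2] : 0 ≤ I.v k - z)] at q2
    have q3 : Lq * (I.v k - z) ≤ Lq * η := mul_le_mul_of_nonneg_left (by linarith [hz.1]) (by linarith)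
    have q4 : |I.q k - I.p.q I.F I.𝔹 z| ≤ E := by
      have : I.q k - I.p.q I.F I.𝔹 z = (I.q k - I.p.q I.F I.𝔹 (I.v k)) + (I.p.q I.F I.𝔹 (I.v k) - I.p.q I.F I.𝔹 z) := by ring
      rw [this]
      refine (abs_add_le _ _).trans ?_
      rw [hE]
      linarith
    have q5 : (I.q k - I.p.q I.F I.𝔹 z) ^ 2 ≤ E ^ 2 := sq_le_sq' (by linarith [(abs_le.1 q4).1]) (abs_le.1 q4).2
    show (l8pSv I z - I.p.q I.F I.𝔹 z) ^ 2 ≤ 2 * I.f k ^ 2 + 2 * E ^ 2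
    rw [hS]
    have e : I.S k - I.p.q I.F I.𝔹 z = I.f k + (I.q k - I.p.q I.F I.𝔹 z) := by unfold L8In.f; ring
    rw [e]
    nlinarith [sq_nonneg (I.f k - (I.q k - I.p.q I.F I.𝔹 z))])
  refine h1.trans ?_
  set s0 := (Finset.range (I.n + 1)).filter (fun k => ρ < l8pVl I (k + 1) ∧ l8pVl I k < β) with hs0
  have hmem : ∀ k ∈ s0, k ≤ I.n ∧ ρ < I.v k ∧ I.v k ≤ 4 * ρ := by
    intro k hk
    obtain ⟨h2, h3, h4⟩ := Finset.mem_filter.1 hk
    have hkn : k ≤ I.n := Nat.lt_succ_iff.1 (Finset.mem_range.1 h2)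
    rw [l8qv_vl_succ] at h3
    have hd := hfine.dv_le k hkn
    rw [l8qv_dv, l8qv_vl_succ] at hd
    exact ⟨hkn, h3, by linarith⟩
  have e1 : ∑ k ∈ s0, (l8pVl I (k + 1) - l8pVl I k) * (2 * I.f k ^ 2 + 2 * E ^ 2)
      = 2 * ∑ k ∈ s0, I.dv k * I.f k ^ 2 + 2 * E ^ 2 * ∑ k ∈ s0, I.dv k := by
    rw [Finset.mul_sum, Finset.mul_sum, ← Finset.sum_add_distrib]
    refine Finset.sum_congr rfl fun k _ => ?_
    rw [l8qv_dv]
    ring
  rw [e1]
  have hnn : ∀ k, 0 ≤ I.dv k * I.f k ^ 2 := fun k => mul_nonneg (hdv k) (by positivity)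
  have e2 : ∑ k ∈ s0, I.dv k * I.f k ^ 2 ≤ I.band ρ (fun k => I.f k ^ 2) + I.band (2 * ρ) (fun k => I.f k ^ 2) := by
    rw [← Finset.sum_filter_add_sum_filter_not s0 (fun k => I.v k ≤ 2 * ρ)]
    refine add_le_add ?_ ?_
    · refine l8qv_int_ge I ρ (2 * ρ) _ hnn _ fun k hk => ?_
      obtain ⟨h2, h3⟩ := Finset.mem_filter.1 hk
      obtain ⟨h4, h5, -⟩ := hmem k h2
      exact ⟨h4, h5.le, h3⟩
    · refine l8qv_int_ge I (2 * ρ) (2 * (2 * ρ)) _ hnn _ fun k hk => ?_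
      obtain ⟨h2, h3⟩ := Finset.mem_filter.1 hk
      obtain ⟨h4, -, h6⟩ := hmem k h2
      exact ⟨h4, (not_le.1 h3).le, by linarith⟩
  have e3 : ∑ k ∈ s0, I.dv k ≤ 4 := by
    calc ∑ k ∈ s0, I.dv k ≤ ∑ k ∈ Finset.range (I.n + 1), I.dv k :=
          Finset.sum_le_sum_of_subset_of_nonneg (Finset.filter_subset _ _) (fun k _ _ => hdv k)
      _ = ∑ k ∈ Finset.range (I.n + 1), (l8pVl I (k + 1) - l8pVl I k) := Finset.sum_congr rfl fun k _ => l8qv_dv I k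
      _ = l8pVl I (I.n + 1) - l8pVl I 0 := Finset.sum_range_sub _ _
      _ = 4 := by rw [l8qv_vl_succ, l8qv_v_top, l8qv_vl_zero, ha, sub_zero]
  have c1 := cap ρ (by linarith) (by rw [ha]; linarith)
  have c2 := cap (2 * ρ) (by linarith) (by rw [ha]; linarith)
  have hY4 : 0 < Y ^ 4 := by positivity
  have c1' : Cc * ρ * (Y ^ 4 / ρ ^ 2) = Cc * Y ^ 4 / ρ := by field_simp
  have c2' : Cc * (2 * ρ) * (Y ^ 4 / (2 * ρ) ^ 2) = Cc * Y ^ 4 / ρ / 2 := by field_simp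
  rw [c1'] at c1
  rw [c2'] at c2
  have e4 : 2 * E ^ 2 * ∑ k ∈ s0, I.dv k ≤ 2 * E ^ 2 * 4 := mul_le_mul_of_nonneg_left e3 (by positivity)
  have e5 : Y ^ 4 ≤ Y ^ 4 / ρ := by
    rw [le_div_iff₀ hρ0]
    nlinarith [hρ2.trans hzs]
  have e6 : (3 * Cc + 1) * Y ^ 4 / ρ = 3 * (Cc * Y ^ 4 / ρ) + Y ^ 4 / ρ := by ring
  rw [e6]
  nlinarith

theorem l8qv_Yc {I : L8In} (hU : 0 < I.U) (hZ : 1 ≤ I.Zc llDStar) : I.U ≤ I.Yc llDStar ∧ I.Yc llDStar ≤ I.x ^ (llDStar / 3) := by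
  constructor
  · unfold L8In.Yc
    exact le_mul_of_one_le_right hU.le hZ
  · unfold L8In.Yc L8In.Zc
    calc I.U * min I.Z (I.x ^ (llDStar / 3) / I.U) ≤ I.U * (I.x ^ (llDStar / 3) / I.U) :=
          mul_le_mul_of_nonneg_left (min_le_right _ _) hU.le
      _ = I.x ^ (llDStar / 3) := by field_simp

theorem l8qv_dev (𝔹 : LlBase) (F : LlFix) : L8qLeafDev 𝔹 F := by
  intro zs c3 Lq Cc hzs hzs1 hLq hCc
  have hC1 : (1 : ℝ) ≤ 3 * Cc + 1 := by linarith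
  obtain ⟨Cf, hCf, hfr⟩ := skw_leaf_inS1 zs Lq (3 * Cc + 1) 1 zs 1 hzs hLq hC1 one_pos hzs le_rfl le_rfl
  refine ⟨Cf, 3 * Cc + 1, hCf, hC1, fun eps K he he1 hK => ?_⟩
  have hδ : 0 < llDStar / 3 := by unfold llDStar; norm_num
  obtain ⟨N1, a1⟩ := l8p_hn_small eps (1 / 8) he (by norm_num)
  obtain ⟨N2, a2⟩ := l8p_hn_small (llDStar / 3) (zs / 32) hδ (by positivity)
  obtain ⟨N3, a3⟩ := l8p_hn_small 1 (min zs (1 / (4 * (Lq + 1)))) one_pos (lt_min hzs (by positivity))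
  refine ⟨max (max N1 N2) N3, 3, fun I hat geo hZc hxU cap => ?_⟩
  have hN1 : N1 ≤ I.p.N := ((le_max_left _ _).trans (le_max_left _ _)).trans hat.hN
  have hN2 : N2 ≤ I.p.N := ((le_max_right _ _).trans (le_max_left _ _)).trans hat.hN
  have hN3 : N3 ≤ I.p.N := (le_max_right _ _).trans hat.hN
  have hx0 : 0 < I.x := I.x_pos hat.ok
  have hx1 : I.x ≤ 1 := I.x_le_one hat.ok
  have b1 : I.x ^ eps ≤ 1 / 8 := a1 I.p hN1
  have b2 : I.x ^ (llDStar / 3) ≤ zs / 32 := a2 I.p hN2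
  have b3 : I.x ≤ min zs (1 / (4 * (Lq + 1))) := by
    have := a3 I.p hN3
    rwa [Real.rpow_one] at this
  have b3a : I.x ≤ zs := b3.trans (min_le_left _ _)
  have b3b : (Lq + 1) * I.x ≤ 1 / 4 := by
    have := b3.trans (min_le_right _ _)
    rw [le_div_iff₀ (by positivity)] at this
    linarith
  have fine : I.Fine (I.x ^ 3) := by
    have := hat.fine
    rwa [show (3 : ℝ) = ((3 : ℕ) : ℝ) by norm_num, Real.rpow_natCast] at this
  have ha : I.a = 4 := l8qv_a hat.siz.1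
  have ha0 : 0 < I.a := by rw [ha]; norm_num
  have hP : SkAdm I.a I.P0 := fine.adm.1
  have hm : 0 < I.m := by
    have h1 := hat.ok.m_lo
    have h2 := hat.ok.pt.N2
    omega
  have hU0 : 0 < I.U := hx0.trans_le hxU
  obtain ⟨hUY, hYx⟩ := l8qv_Yc hU0 hZc
  set Y := I.Yc llDStar with hY
  have hY0 : 0 < Y := hU0.trans_le hUY
  have hxY : I.x ≤ Y := hxU.trans hUY
  have hx3 : I.x ^ 3 ≤ I.x := by
    calc I.x ^ 3 ≤ I.x ^ 1 := pow_le_pow_of_le_one hx0.le hx1 (by norm_num)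
      _ = I.x := pow_one _
  set d : SkwD := l8qD I (l8qP eps K zs Lq Cf (3 * Cc + 1)) with hd
  have hsp : (I.sp false).Ok := by
    obtain ⟨Kc, -, -, hstr⟩ := l8p_leaf_str
    exact (hstr I hat.ok fine.adm).sp
  have hSl : ∀ k ≤ I.n, I.S k = (I.sp false).S k := by
    intro k hk
    have hk' : k ≤ (I.P false).length := by
      have : (I.P false).length = I.n := l8qv_len I
      omega
    exact (l8i_S I.m I.a ha0 (I.P false) hP k hk').symm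
  have hidn : ∀ z, l8pIdx I z ≤ I.n := by
    intro z
    rw [← l8qv_len I]
    exact List.length_filter_le _ _
  have hSv : ∀ z, d.S z = (I.sp false).S (l8pIdx I z) := fun z => hSl _ (hidn z)
  have hSm : MonotoneOn d.S (Icc 0 d.zmax) := fun u _ w _ h => by
    rw [hSv, hSv]
    exact L8P.l8s_S_mono _ hsp (l8qv_idx_mono I h)
  have hS0 : ∀ z ∈ Icc 0 d.zmax, 0 ≤ d.S z := fun z _ => by
    rw [hSv]
    exact L8P.l8s_S_nonneg _ _
  have hS1 : ∀ z ∈ Icc 0 d.zmax, d.S z ≤ 1 := fun z _ => by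
    rw [hSv]
    exact L8P.l8s_S_le_one _ hsp _
  have hGi : IntervalIntegrable d.G volume 0 d.zmax := intervalIntegrable_const
  have hfun : (fun z => skwF d z ^ 2 * d.G z) = fun z => (l8pSv I z - I.p.q I.F I.𝔹 z) ^ 2 := by
    funext z
    show (l8pSv I z - I.p.q I.F I.𝔹 z) ^ 2 * 1 = _
    rw [mul_one]
  have hD1 : ∀ ρ ∈ Icc (d.zlo / 4) d.zmax,
      ∫ z in ρ..(min (2 * ρ) d.zmax), skwF d z ^ 2 * d.G z ≤ (3 * Cc + 1) * (d.U * d.Z) ^ 4 / skwR ρ := by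
    intro ρ hρ
    have hρ1 : 2 * Y ≤ ρ := by
      have : d.zlo / 4 = 2 * Y := by
        show 8 * Y / 4 = 2 * Y
        ring
      rw [← this]
      exact hρ.1
    have hρ2 : ρ ≤ zs := hρ.2
    have hint := skw_is_fG_int d (Lq := Lq) (a := ρ) (b := min (2 * ρ) d.zmax) (by linarith) (le_min (by linarith) hρ2) (min_le_right _ _)
      hGi hSm hS0 hS1 geo.qlip (by linarith) geo.q0 geo.q1
    rw [hfun] at hint ⊢
    have hr : skwR ρ = ρ := min_eq_left (hρ2.trans hzs1)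
    rw [hr]
    show _ ≤ (3 * Cc + 1) * (Y * 1) ^ 4 / ρ
    rw [mul_one]
    refine l8qv_D1 ha hP hzs1 hLq hCc geo fine (by positivity) (hx3.trans b3a) hY0 (by linarith) cap ?_ (by linarith) hρ1 hρ2 hint
    have e1 : ((Lq + 1) * I.x ^ 3) ^ 2 = ((Lq + 1) * I.x) ^ 2 * I.x ^ 4 := by ring
    have e2 : ((Lq + 1) * I.x) ^ 2 ≤ (1 / 4) ^ 2 := pow_le_pow_left₀ (by positivity) b3b 2
    have e3 : I.x ^ 4 ≤ Y ^ 4 := pow_le_pow_left₀ hx0.le hxY 4
    have e4 : 0 ≤ I.x ^ 4 := by positivity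
    rw [e1]
    nlinarith
  have hzlo0 : 0 < d.zlo := by
    show 0 < 8 * Y
    positivity
  have hG0 : ∀ z ∈ Icc 0 d.zmax, 0 ≤ d.G z := fun _ _ => zero_le_one
  have hfr' := hfr d hY0 le_rfl hzlo0 le_rfl (by
      show min (Y * 1) 1 ≤ 1 * (8 * Y)
      have := min_le_left (Y * 1) 1
      linarith) hG0 (fun _ _ => le_rfl) hGi hSm hS0 hS1 geo.qlip geo.q00 geo.q0 geo.q1 hD1
  refine ⟨?_, hSl⟩
  exact
      { x0 := hx0
        xU := hxY
        U1 := hYx.trans (Real.rpow_le_one hx0.le hx1 hδ.le)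
        Z1 := le_rfl
        b0 := Real.rpow_pos_of_pos hx0 _
        b1 := b1
        t0 := pow_pos hx0 _
        t1 := pow_le_pow_of_le_one hx0.le hx1 (by
          show 12 ≤ K
          omega)
        A1 := le_rfl
        zlo0 := hzlo0
        zlo1 := by
          show 8 * Y ≤ zs / 4
          linarith
        zmax := le_rfl
        G0 := hG0
        GM := fun _ _ => le_rfl
        Gc := continuousOn_const
        Gi := hGi
        adj := by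
          intro κ l a l₁ a' l₂ hκ hl _ _ _ hl2 _ _ _ _ _ _ s _
          have hl20 : 0 < l₂ := lt_of_lt_of_le (by positivity) hl2
          show (1 : ℝ) ≤ 1 * ((∫ _t in a'..(a' + l₂), (1 : ℝ)) / l₂ + I.x ^ K)
          have e : (∫ _t in a'..(a' + l₂), (1 : ℝ)) = l₂ := by simp
          rw [e, div_self hl20.ne']
          have : 0 < I.x ^ K := pow_pos hx0 _
          linarith
        Smono := hSm
        S0 := hS0
        S1 := hS1
        qlip := geo.qlip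
        q0 := geo.q0
        q1 := geo.q1
        fr := hfr'
        D1 := hD1
        Hx0 := fun _ _ => le_max_left _ _
        Hxlip := fun z _ z' _ => by
          have := skw_in_max0_lip (z - zs / 2) (z' - zs / 2)
          have e : z - zs / 2 - (z' - zs / 2) = z - z' := by ring
          rw [e] at this
          exact this
        Hxr := fun z hz => by
          have hr : skwR z = z := min_eq_left (hz.2.trans hzs1)
          rw [hr]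
          show max 0 (z - zs / 2) ≤ 2 * z
          exact max_le (by linarith [hz.1]) (by linarith [hz.1]) }
theorem l8q_leaf_dev (𝔹 : LlBase) (F : LlFix) : L8qLeafDev 𝔹 F := l8qv_dev 𝔹 F

/-- the number of stages of mass `≤ v` on a sorted chain -/
theorem l8q_nb_spec (I : L8In) (ha0 : 0 ≤ I.a) (hP : SkAdm I.a I.P0) {v : ℝ} (hv : v < I.a) :
    l8pIdx I v ≤ I.P0.length ∧ (∀ j < l8pIdx I v, I.v j ≤ v) ∧ v < I.v (l8pIdx I v) := by
  classical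
  have hex : ∃ k, v < skMs I.a I.P0 k := ⟨I.P0.length, by rw [l8pg_ms_ge I.a le_rfl]; exact hv⟩
  have h1 : v < skMs I.a I.P0 (Nat.find hex) := Nat.find_spec hex
  have h2 : ∀ j < Nat.find hex, skMs I.a I.P0 j ≤ v := fun j hj => not_lt.1 (Nat.find_min hex hj)
  have h3 : Nat.find hex ≤ I.P0.length := Nat.find_min' hex (by rw [l8pg_ms_ge I.a le_rfl]; exact hv)
  have h4 : l8pIdx I v = Nat.find hex := l8pg_idx ha0 hP h3 h2 h1
  rw [h4]
  exact ⟨h3, h2, h1⟩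

theorem l8q_leaf_grid (𝔹 : LlBase) (F : LlFix) : L8qLeafGrid 𝔹 F := by
  intro π hzs hzs1
  refine ⟨0, 40, fun I hI hS => ?_⟩
  have fine : I.Fine (I.x ^ 40) := by
    have := hI.fine
    rwa [show (40 : ℝ) = ((40 : ℕ) : ℝ) by norm_num, Real.rpow_natCast] at this
  have ha : I.a = 4 := by
    have : I.a = if I.p.sm then (4 : ℝ) else I.p.ell := rfl
    rw [this, hI.siz.1]; simp
  have ha0 : 0 ≤ I.a := by rw [ha]; norm_num
  have hP : SkAdm I.a I.P0 := fine.adm.1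
  have hlen : I.P0.length = I.n := by simp [L8In.P0, L8In.n, llMat]
  have hv : ∀ k, I.v k ∈ Icc 0 I.a := fun k => l8pg_ms_mem ha0 hP k
  have hvm : Monotone I.v := l8pg_ms_mono ha0 hP
  have hVl0 : l8pVl I 0 = 0 := by simp [l8pVl]
  have hVls : ∀ k, l8pVl I (k + 1) = I.v k := fun k => by simp [l8pVl]
  have hdv : ∀ k, I.dv k = l8pVl I (k + 1) - l8pVl I k := fun k => by rw [hVls]; rfl
  have hVlm : Monotone (l8pVl I) := by
    apply monotone_nat_of_le_succ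
    intro k
    cases k with
    | zero => rw [hVl0, hVls]; exact (hv 0).1
    | succ k => rw [hVls, hVls]; exact hvm (Nat.le_succ k)
  have hVl00 : ∀ k, 0 ≤ l8pVl I k := fun k => by rw [← hVl0]; exact hVlm (Nat.zero_le k)
  obtain ⟨n1, n2, n3⟩ := l8q_nb_spec I ha0 hP (v := π.c.zs) (by rw [ha]; linarith)
  rw [hlen] at n1
  have hnb : l8qNb I π = l8pIdx I π.c.zs := rfl
  rw [← hnb] at n1 n2 n3
  have hzb : l8pVl I (l8qNb I π) ≤ π.c.zs := by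
    rcases Nat.eq_zero_or_pos (l8qNb I π) with h | h
    · rw [h, hVl0]; exact hzs.le
    · obtain ⟨j, hj⟩ : ∃ j, l8qNb I π = j + 1 := ⟨l8qNb I π - 1, by omega⟩
      rw [hj, hVls]
      exact n2 j (by omega)
  refine ⟨n1, hzb, ?_, hVlm, ?_, ?_, ?_, ?_, ?_⟩
  · have := fine.dv_le _ n1
    rw [hdv, hVls] at this
    linarith
  · intro k hk
    have := fine.dv_le k (hk.le.trans n1)
    rwa [hdv] at this
  · intro k hk z _ h1 h2
    rw [hVls] at h2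
    have e3 : l8pIdx I z = k := by
      refine l8pg_idx ha0 hP (by rw [hlen]; exact hk.trans n1) ?_ h2
      intro j hj
      refine le_trans ?_ h1
      obtain ⟨k', rfl⟩ : ∃ k', k = k' + 1 := ⟨k - 1, by omega⟩
      rw [hVls]
      exact hvm (by omega)
    unfold l8pSv
    rw [e3]
    exact hS k (hk.trans n1)
  · intro k _
    rw [intervalIntegral.integral_const, smul_eq_mul, mul_one, ← hdv]
    rfl
  · intro k _
    rw [div_one]
    show skwR (l8pVl I k) ≤ I.v k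
    rw [← hVls]
    exact (min_le_left _ _).trans (hVlm (Nat.le_succ k))
  · intro k hk
    rw [one_mul, hVls]
    show I.v k ≤ skwR (I.v k)
    exact le_min le_rfl ((n2 k hk).trans hzs1)

theorem l8q_leaf_d3 (𝔹 : LlBase) (F : LlFix) : L8qLeafD3 𝔹 F := by
  intro π c3 Lq hc8 hc3
  refine ⟨0, 0, fun I hat geo clk grid hZ hxU => ⟨fun k₁ k₂ h12 h2n hx1 => ?_, fun k₁ _ hlo => ?_⟩⟩
  · have hx0 : 0 < I.x := I.x_pos hat.ok
    have hv12 : l8pVl I k₁ ≤ l8pVl I k₂ := grid.zmono h12.le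
    have hv2 : l8pVl I k₂ ≤ π.c.zs := (grid.zmono h2n).trans grid.zbuf
    have c1 := clk.h k₁ ((h12.le.trans h2n).trans grid.nbn) hx1
    have c2 := clk.h k₂ (h2n.trans grid.nbn) (hx1.trans_le hv12)
    have d3 := geo.d3 _ ⟨(hx0.trans hx1).le, hv12.trans hv2⟩ _ ⟨((hx0.trans hx1).trans_le hv12).le, hv2⟩ hv12 hx1.le
    rw [← c1, ← c2] at d3
    rw [l8p_hd_hlen I h12.le]
    exact d3
  · have hx0 : 0 < I.x := I.x_pos hat.ok
    have hzlo : (l8qD I π).zlo = π.c1 * I.Yc llDStar := rfl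
    have hY : I.Yc llDStar = I.U * I.Zc llDStar := rfl
    have hU0 : 0 < I.U := hx0.trans_le hxU
    have hUY : I.U ≤ I.Yc llDStar := by rw [hY]; exact le_mul_of_one_le_right hU0.le hZ
    rw [hzlo] at hlo
    have e2 : 8 * I.Yc llDStar ≤ π.c1 * I.Yc llDStar := mul_le_mul_of_nonneg_right hc8 (hU0.le.trans hUY)
    linarith

theorem l8q_leaf_q (𝔹 : LlBase) (F : LlFix) : L8qLeafQ 𝔹 F := by
  intro π c3 Lq hLq hzs
  obtain ⟨N1, a1⟩ := l8p_hn_small 1 (min (1 / (2 * Lq)) π.c.zs) one_pos (lt_min (by positivity) hzs)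
  refine ⟨N1, 41, fun I hat geo grid k hk => ?_⟩
  have hx0 : 0 < I.x := I.x_pos hat.ok
  have hx1 : I.x ≤ 1 := I.x_le_one hat.ok
  have b0 : I.x ≤ min (1 / (2 * Lq)) π.c.zs := by
    have := a1 I.p hat.hN
    rwa [Real.rpow_one] at this
  have b1 : I.x ≤ 1 / (2 * Lq) := b0.trans (min_le_left _ _)
  have b2 : I.x ≤ π.c.zs := b0.trans (min_le_right _ _)
  have hLx : Lq * I.x ≤ 1 / 2 := by
    rw [le_div_iff₀ (by positivity)] at b1
    linarith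
  have hxh : I.x ≤ 1 / 2 := by nlinarith
  have fine : I.Fine (I.x ^ 41) := by
    have := hat.fine
    rwa [show (41 : ℝ) = ((41 : ℕ) : ℝ) by norm_num, Real.rpow_natCast] at this
  have hkn : k ≤ I.n := hk.trans grid.nbn
  have q1 := fine.q_link k hkn
  have e1 : l8pVl I (k + 1) = I.v k := by simp [l8pVl]
  have hdv : I.dv k = I.v k - l8pVl I k := rfl
  have d1 := fine.dv_le k hkn
  rw [hdv] at d1
  have hk0 : 0 ≤ l8pVl I k := by
    have : l8pVl I 0 = 0 := by simp [l8pVl]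
    rw [← this]
    exact grid.zmono (Nat.zero_le k)
  have hkz : l8pVl I k ≤ π.c.zs := (grid.zmono hk).trans grid.zbuf
  have hkv : l8pVl I k ≤ I.v k := by rw [← e1]; exact grid.zmono (Nat.le_succ k)
  have p40 : 0 < I.x ^ 40 := pow_pos hx0 40
  have e41 : I.x ^ 41 = I.x ^ 40 * I.x := pow_succ _ _
  have h41x : I.x ^ 41 ≤ I.x := by
    rw [e41]
    exact mul_le_of_le_one_left hx0.le (pow_le_one₀ hx0.le hx1)
  have q3 := geo.qlipx (I.v k) ⟨hk0.trans hkv, by linarith⟩ (l8pVl I k) ⟨hk0, by linarith⟩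
  rw [abs_of_nonneg (sub_nonneg.2 hkv)] at q3
  calc |I.q k - I.p.q I.F I.𝔹 (l8pVl I k)|
      ≤ |I.q k - I.p.q I.F I.𝔹 (I.v k)| + |I.p.q I.F I.𝔹 (I.v k) - I.p.q I.F I.𝔹 (l8pVl I k)| := abs_sub_le _ _ _
    _ ≤ I.x ^ 41 + Lq * (I.v k - l8pVl I k) := add_le_add q1 q3
    _ ≤ I.x ^ 41 + Lq * I.x ^ 41 := by
        have := mul_le_mul_of_nonneg_left d1 (by linarith : 0 ≤ Lq)
        linarith
    _ = I.x ^ 40 * (I.x + Lq * I.x) := by rw [e41]; ring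
    _ ≤ I.x ^ 40 * 1 := mul_le_mul_of_nonneg_left (by linarith) p40.le
    _ = I.x ^ 40 := mul_one _

theorem l8q_leaf_ivx (𝔹 : LlBase) (F : LlFix) : L8qLeafIvx 𝔹 F := by
  intro π S hπ
  have hCv := hπ.Sok.Cv
  have hCW := hπ.Sok.CW
  have hzw := hπ.zw0
  obtain ⟨N1, a1⟩ := l8p_hn_small 1 (1 / 16) one_pos (by norm_num)
  obtain ⟨N2, a2⟩ := l8p_hn_small 1 (1 / (4 * S.Cv * S.CW)) one_pos (by positivity)
  obtain ⟨N3, a3⟩ := l8p_hn_small 1 (π.zw / 2) one_pos (by positivity)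
  refine ⟨max N1 (max N2 N3), 7, fun I hI grid => ?_⟩
  have b1 := a1 I.p ((le_max_left _ _).trans hI.hN)
  have b2 := a2 I.p (((le_max_left _ _).trans (le_max_right _ _)).trans hI.hN)
  have b3 := a3 I.p (((le_max_right _ _).trans (le_max_right _ _)).trans hI.hN)
  rw [Real.rpow_one] at b1 b2 b3
  have hx0 : 0 < I.x := I.x_pos hI.ok
  have hx1 : I.x ≤ 1 := I.x_le_one hI.ok
  have fine : I.Fine (I.x ^ 7) := by
    have := hI.fine
    rwa [show (7 : ℝ) = ((7 : ℕ) : ℝ) by norm_num, Real.rpow_natCast] at this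
  have hm : 1 ≤ I.m := by have := hI.ok.m_lo; have := hI.ok.pt.N2; omega
  have hae : I.a = 4 := by
    show (if I.p.sm then 4 else I.p.ell) = 4
    rw [hI.siz.1]; rfl
  have ha0 : 0 < I.a := by rw [hae]; norm_num
  have hadm : SkAdm I.a I.P0 := fine.adm.1
  have hmx : (I.m : ℝ) * I.x ^ 6 ≤ 3 := by
    rw [show I.x ^ 6 = 1 / (I.p.N : ℝ) from l8p_str_x6 I.p]
    have hN' : (0 : ℝ) < I.p.N := by exact_mod_cast (by have := hI.ok.pt.N2; omega : 0 < I.p.N)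
    have h2 : (I.m : ℝ) ≤ 3 * I.p.N := by exact_mod_cast hI.ok.m_hi
    rw [mul_one_div, div_le_iff₀ hN']
    exact h2
  have hx40 : I.x ^ 40 ≤ π.zw / 2 := by
    calc I.x ^ 40 ≤ I.x ^ 1 := pow_le_pow_of_le_one hx0.le hx1 (by norm_num)
      _ = I.x := pow_one _
      _ ≤ π.zw / 2 := b3
  have htop : π.zw + I.x ^ 40 ≤ l8pVl I (l8qNb I π) := by
    have := grid.top
    have := hπ.zws
    linarith
  refine
    { cs0 := by norm_num
      sus := ?_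
      dhn := ?_
      Gm := measurable_const
      Gb := ⟨1, fun _ _ => le_rfl⟩
      zhibuf := ?_
      Czb1 := le_rfl
      zbufC := grid.zbuf.trans hπ.zs1
      top := Or.inl htop
      blo := ?_
      small := b2 }
  · have h := l8i_sus_h I.m hm I.a ha0 I.P0 hadm (δ := 3) (by norm_num) (fun e he => ?_)
    · norm_num at h
      norm_num
      exact h
    · obtain ⟨e', he', rfl⟩ := List.mem_map.1 he
      have d1 : e'.dh ≤ I.x ^ 7 := fine.dh_le e' he'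
      have d0 : 0 ≤ e'.dh := (hadm.2 _ he).2.2.2
      show I.a ^ 2 * ((I.m : ℝ) * e'.dh) ≤ 3
      rw [hae]
      have m0 : (0 : ℝ) ≤ I.m := Nat.cast_nonneg _
      have e1 : (I.m : ℝ) * e'.dh ≤ 3 / 16 := by
        calc (I.m : ℝ) * e'.dh ≤ I.m * I.x ^ 7 := mul_le_mul_of_nonneg_left d1 m0
          _ = (I.m * I.x ^ 6) * I.x := by ring
          _ ≤ 3 * (1 / 16) := mul_le_mul hmx b1 hx0.le (by norm_num)
          _ = 3 / 16 := by norm_num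
      linarith
  · show (I.P0.map SkInc.dh).getD I.P0.length 0 = 0
    rw [List.getD_eq_default _ _ (by simp)]
  · show π.zw ≤ l8pVl I (l8qNb I π)
    have : 0 ≤ I.x ^ 40 := by positivity
    linarith
  · show I.x ^ 10 ≤ I.x ^ π.eps
    rw [← Real.rpow_natCast]
    exact Real.rpow_le_rpow_of_exponent_ge hx0 hx1 (by have := hπ.eps1; norm_num; linarith)

theorem l8q_leaf_num (𝔹 : LlBase) : L8qLeafNum 𝔹 := by
  intro F0 pB pS h0 h1 π CW zr heps hc1 hCW hzr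
  have hD : 0 < llDStar / 3 := by unfold llDStar; norm_num
  obtain ⟨N1, a1⟩ := l8p_hn_small (llDStar / 3) (zr / (16 * π.c1)) hD (by positivity)
  obtain ⟨N2, a2⟩ := l8p_hn_small π.eps (1 / (4 * CW)) heps (by positivity)
  obtain ⟨N3, a3⟩ := l8p_hn_small 40 (min (1 / (2 * CW)) zr) (by norm_num) (lt_min (by positivity) hzr)
  obtain ⟨N4, a4⟩ := l8p_hn_small (llDStar / 3) (1 / (2 * CW)) hD (by positivity)
  refine ⟨max (max N1 N2) (max (max N3 N4) 4), 0, fun I hat hZ => ?_⟩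
  have b1 := a1 I.p (((le_max_left _ _).trans (le_max_left _ _)).trans hat.hN)
  have b2 := a2 I.p (((le_max_right _ _).trans (le_max_left _ _)).trans hat.hN)
  have b3 := a3 I.p ((((le_max_left _ _).trans (le_max_left _ _)).trans (le_max_right _ _)).trans hat.hN)
  have b4 := a4 I.p ((((le_max_right _ _).trans (le_max_left _ _)).trans (le_max_right _ _)).trans hat.hN)
  have hN4 : 4 ≤ I.p.N := ((le_max_right _ _).trans (le_max_right _ _)).trans hat.hN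
  clear a1 a2 a3 a4
  have hx0 : 0 < I.x := I.x_pos hat.ok
  have hx1 : I.x ≤ 1 := I.x_le_one hat.ok
  have hsS : I.F.sS = pB.sStar := by rw [hat.hF]; rfl
  have heta : I.F.eta = pB.eta := by rw [hat.hF]; rfl
  have hpS : I.F.pS = pS := by rw [hat.hF]; rfl
  have hl0 : 0 < I.lam := lt_of_lt_of_le (Real.rpow_pos_of_pos hx0 _) hat.ok.pt.lam_lo
  have hlhi : I.lam ≤ I.x ^ pS := hpS ▸ hat.ok.pt.lam_hi
  have hl1 : I.lam ≤ 1 := hlhi.trans (Real.rpow_le_one hx0.le hx1 h0.le)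
  have t1 := pB.tau_le
  have t2 := pB.eta_le
  have t3 := pB.tau_pos
  have t4 := pB.eta_pos
  have hs : pB.sStar = 1 / 2 - pB.tau := rfl
  obtain ⟨t, ht⟩ : ∃ t, t = I.x * I.lam ^ (-(pB.sStar / 2)) := ⟨_, rfl⟩
  have ht0 : 0 < t := by rw [ht]; exact mul_pos hx0 (Real.rpow_pos_of_pos hl0 _)
  have hUdef : I.U = min 1 t := by rw [ht, ← hsS]; rfl
  have hU0 : 0 < I.U := by rw [hUdef]; exact lt_min one_pos ht0
  have hY : I.Yc llDStar = I.U * I.Zc llDStar := rfl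
  have hUY : I.U ≤ I.Yc llDStar := by rw [hY]; exact le_mul_of_one_le_right hU0.le hZ
  have hYk : I.Yc llDStar ≤ I.x ^ (llDStar / 3) := by
    rw [hY]
    calc I.U * I.Zc llDStar ≤ I.U * (I.x ^ (llDStar / 3) / I.U) := mul_le_mul_of_nonneg_left (min_le_right _ _) hU0.le
      _ = I.x ^ (llDStar / 3) := mul_div_cancel₀ _ hU0.ne'
  have hCW2 : 1 / (2 * CW) ≤ 1 / 2 := by
    rw [div_le_div_iff₀ (by positivity) (by norm_num)]
    linarith
  have hCW1 : 1 / (2 * CW) ≤ 1 / CW := by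
    rw [div_le_div_iff₀ (by positivity) (by positivity)]
    linarith
  have hYs : I.Yc llDStar ≤ 1 / (2 * CW) := hYk.trans b4
  have hU : I.U = t := by
    rw [hUdef]
    apply min_eq_right
    by_contra hc
    rw [not_le] at hc
    rw [hUdef, min_eq_left hc.le] at hUY
    linarith
  have hxU : I.x ≤ I.U := by
    rw [hU, ht]
    exact le_mul_of_one_le_right hx0.le (Real.one_le_rpow_of_pos_of_le_one_of_nonpos hl0 hl1 (by linarith))
  have hlam1 : I.lam1 = I.lam ^ (1 + pB.eta) := by rw [← heta]; rfl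
  have hg0 : I.g0 = I.lam ^ ((3 * pB.sStar - 1 - pB.eta) / 2) := by rw [← heta, ← hsS]; rfl
  have hc' : 0 < (3 * pB.sStar - 1 - pB.eta) / 2 := by rw [hs]; linarith
  have hg00 : 0 < I.g0 := by rw [hg0]; exact Real.rpow_pos_of_pos hl0 _
  have hbs : 4 * CW * I.x ^ π.eps ≤ 1 := by
    have : I.x ^ π.eps ≤ 1 / (4 * CW) := b2
    rw [le_div_iff₀ (by positivity)] at this
    linarith
  have h40 : I.x ^ 40 ≤ min (1 / (2 * CW)) zr := by
    have : I.x ^ (40 : ℝ) ≤ min (1 / (2 * CW)) zr := b3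
    rwa [show (40 : ℝ) = ((40 : ℕ) : ℝ) by norm_num, Real.rpow_natCast] at this
  refine
    { x0 := hx0
      g0a := ?_
      g0b := ?_
      g0c := hg00
      lam1a := ?_
      lam1b := by rw [hlam1]; exact Real.rpow_le_one hl0.le hl1 (by linarith)
      Lg := ?_
      xU := hxU
      Yc0 := hU0.le.trans hUY
      zlox := (hxU.trans hUY).trans (le_mul_of_one_le_left (hU0.le.trans hUY) hc1)
      zloreg := ?_
      bs := hbs
      ts := h40.trans (min_le_left _ _)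
      tz := h40.trans (min_le_right _ _)
      small := ⟨?_, hYs.trans hCW1, ((hxU.trans hUY).trans hYs).trans hCW1⟩ }
  · have e0 : I.x ^ 3 / Real.sqrt I.lam1 = I.g0 * I.U ^ 3 := by
      have e1 : Real.sqrt I.lam1 = I.lam ^ ((1 + pB.eta) / 2) := by
        rw [hlam1, Real.sqrt_eq_rpow, ← Real.rpow_mul hl0.le]
        congr 1
        ring
      have e2 : (I.lam ^ (-(pB.sStar / 2))) ^ 3 = I.lam ^ (-(3 * pB.sStar / 2)) := by
        rw [← Real.rpow_natCast, ← Real.rpow_mul hl0.le]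
        congr 1
        push_cast
        ring
      rw [e1, hg0, hU, ht, mul_pow, e2, div_eq_mul_inv, ← Real.rpow_neg hl0.le]
      have e3 : I.lam ^ ((3 * pB.sStar - 1 - pB.eta) / 2) * (I.x ^ 3 * I.lam ^ (-(3 * pB.sStar / 2)))
          = I.x ^ 3 * (I.lam ^ ((3 * pB.sStar - 1 - pB.eta) / 2) * I.lam ^ (-(3 * pB.sStar / 2))) := by ring
      rw [e3, ← Real.rpow_add hl0]
      congr 2
      ring
    rw [e0]
    exact mul_le_mul_of_nonneg_left (pow_le_pow_left₀ hU0.le hUY 3) hg00.le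
  · rw [hg0]
    calc I.lam ^ ((3 * pB.sStar - 1 - pB.eta) / 2) ≤ (I.x ^ pS) ^ ((3 * pB.sStar - 1 - pB.eta) / 2) :=
          Real.rpow_le_rpow hl0.le hlhi hc'.le
      _ = I.x ^ (pS * (3 * pB.sStar - 1 - pB.eta) / 2) := by
          rw [← Real.rpow_mul hx0.le]
          congr 1
          ring
  · rw [hlam1]
    calc I.x ^ 14 = I.x ^ (14 : ℝ) := by rw [← Real.rpow_natCast]; norm_num
      _ ≤ I.x ^ (12 * (1 + pB.eta)) := Real.rpow_le_rpow_of_exponent_ge hx0 hx1 (by linarith)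
      _ = (I.x ^ (12 : ℝ)) ^ (1 + pB.eta) := by rw [← Real.rpow_mul hx0.le]
      _ ≤ I.lam ^ (1 + pB.eta) := Real.rpow_le_rpow (Real.rpow_nonneg hx0.le _) hat.ok.pt.lam_lo (by linarith)
  · have hN : (4 : ℝ) ≤ I.p.N := by exact_mod_cast hN4
    have e : Real.log (1 / I.x) = 1 / 6 * Real.log I.p.N := by
      rw [one_div, Real.log_inv]
      show -Real.log ((I.p.N : ℝ) ^ (-(1 / 6) : ℝ)) = _
      rw [Real.log_rpow (by linarith)]
      ring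
    have h4 : Real.log 4 ≤ Real.log I.p.N := Real.log_le_log (by norm_num) hN
    have h2 : Real.log 4 = 2 * Real.log 2 := by
      rw [show (4 : ℝ) = 2 ^ 2 by norm_num, Real.log_pow]; norm_num
    have := Real.log_two_gt_d9
    rw [e]
    linarith
  · have : I.Yc llDStar ≤ zr / (16 * π.c1) := hYk.trans b1
    rw [le_div_iff₀ (by positivity)] at this
    linarith
  · show I.x ^ π.eps ≤ 1 / CW
    rw [le_div_iff₀ (by positivity)]
    have : 0 ≤ I.x ^ π.eps := Real.rpow_nonneg hx0.le _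
    nlinarith

/-- **INSTL** -/
theorem l8q_inst (T : ℝ) (hT : 1 < T) : L8qInst llBase T :=
  l8q_inst_of (l8q_leaf_geo T hT) (l8q_leaf_clk T hT) (l8q_leaf_dev llBase) (l8q_leaf_grid llBase) (l8q_leaf_d3 llBase)
    (l8q_leaf_q llBase) (l8q_leaf_ivx llBase) l8p_leaf_str (l8q_leaf_num llBase) skw_low

end Claimed.Agent.R286
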