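import Claimed.Agent.R286.PM.InstD2
import Claimed.Agent.R286.PM.InstL
import Claimed.Agent.R286.PM.InstIv9

/-!
# Row 286 (S0533), folder PM, file InstD2L : LEAF D2L of `l8q_core_low` = the six (D2) fields of `L8In.RndC false` in the LOW REGION of the smoothed size paths      (owner helper145; prefix `l8q_d2`)

    l8q_d2 : L8qD2 llBase T        (0 sorry here; stands on `skp_raw`, `skp_ref` of PM/Contract.lean, `skp_tail_qx` of PM/Tail.lean and on the abstract lemmas `l8p_d2_*` of PM/InstD2.lean)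

Twin of `l8p_d2_dir`.   What is new:
* the RAW lines are asked at ALL cuts `k ≤ I.n`, the instance `l8qI I π` stops at `nb = l8qNb I π` (last cut of the buffer interval `[0, zs]`): beyond it `v_k ≥ zs - x^40 ≥ zs / 2` (`l8q_d2_big`, from `L8qOk.top`)
  and the observables are bounded by `3/2` (`l8q_d2_triv`), so `A ≥ 3 / zs` is enough;
* the REFINED lines are asked for `v_k ≤ zw / 4`: then `k ≤ nb` and `v_(k-1) ≤ zw`, so `l8qE` is the envelope `Y_c` / `min(r, 𝔥)` of `l8p_d2_one`;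
* smallness of `U := Y_c ≤ x^(δ_*/3)` replaces `Y ≤ x^κ`.

LAST SECTION: **IV9-LOW** = the three (D9) fields `n9 d9_W d9_Q` of `L8pIv` in the low region (`lw9_in_low_of`, `lw9_in_low` with FREE top `M Y_c`, `lw9_d9_low : L8qEnv → L8qD2 → Lw9D9Low`): twin of par. 4 of PM/InstIv9.lean (150).
-/

set_option autoImplicit false

namespace Claimed.Agent.R286

open MeasureTheory Set Filter

/-- even moments of a bounded observable -/
theorem l8q_d2_triv {α : Type} [MeasurableSpace α] (μ : Measure α) [IsProbabilityMeasure μ] {f : α → ℝ} {c : ℝ} (hc : ∀ x, |f x| ≤ c) (n : ℕ) :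
    ∫ x, f x ^ (2 * n) ∂μ ≤ c ^ (2 * n) := by
  have h1 : ∀ x, f x ^ (2 * n) ≤ c ^ (2 * n) := fun x => by
    rw [← (even_two_mul n).pow_abs]
    exact pow_le_pow_left₀ (abs_nonneg _) (hc x) _
  calc ∫ x, f x ^ (2 * n) ∂μ ≤ ∫ _, c ^ (2 * n) ∂μ :=
        integral_mono_of_nonneg (ae_of_all _ fun x => (even_two_mul n).pow_nonneg _) (integrable_const _) (ae_of_all _ h1)
    _ = c ^ (2 * n) := by simp

/-- the cuts beyond the buffer interval have macroscopic mass -/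
theorem l8q_d2_big {I : L8In} {π : L8qPar} {S : SkpS} {Cc : ℝ} (hπ : π.Ok S) (hok : L8qOk I π S Cc) (hxs : I.x ^ 40 ≤ π.c.zs / 2) {k : ℕ}
    (hk : l8qNb I π < k) : π.c.zs / 2 ≤ I.v k := by
  have hP : (I.sp false).Ok := hok.pm.sp
  have hzs : 0 < π.c.zs := by linarith [hπ.zw0, hπ.zws]
  have h1 : π.c.zs / 2 ≤ l8pVl I (l8qNb I π) := by linarith [hok.top]
  have hnb : l8qNb I π ≠ 0 := by
    intro h0
    rw [h0] at h1
    simp only [l8pVl, if_true] at h1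
    linarith
  have h2 : l8pVl I (l8qNb I π) = I.v (l8qNb I π - 1) := by simp [l8pVl, hnb]
  have h3 : I.v (l8qNb I π - 1) ≤ I.v k := hP.v_mono (by omega)
  linarith

theorem l8q_d2_vl_le {I : L8In} (hP : (I.sp false).Ok) (k : ℕ) : l8pVl I k ≤ I.v k := by
  unfold l8pVl
  split_ifs with h
  · exact hP.v_nonneg k
  · exact hP.v_mono (Nat.sub_le k 1)

/-- **D2L** at one instance, from the bounds of `skp_raw` (orders `2 pm`, `pm`) and `skp_ref` (order `pm`) at `l8qI I π` -/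
theorem l8q_d2_inst {I : L8In} {π : L8qPar} {S : SkpS} {Cc : ℝ} (hπ : π.Ok S) (hIok : I.Ok) (hok : L8qOk I π S Cc) {pm : ℕ} (hpm : 1 ≤ pm)
    {Cm Ar A : ℝ} (hCm : 0 ≤ Cm) (hAr : 0 ≤ Ar) (hxs : I.x ^ 40 ≤ π.c.zs / 2)
    (hX : ∀ k ≤ l8qNb I π, ∫ ω, (I.sp false).nX k ω ^ (2 * pm) ∂(I.sp false).μ ≤ (Cm * (skwR (l8pVl I k) + π.c1 * I.Yc llDStar)) ^ (2 * pm))
    (hL : ∀ k ≤ l8qNb I π, ∫ ω, (I.sp false).L k ω ^ (2 * pm) ∂(I.sp false).μ ≤ (Cm * (skwR (l8pVl I k) + π.c1 * I.Yc llDStar)) ^ (2 * pm))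
    (hQ : ∀ k ≤ l8qNb I π, ∫ η, (I.sp false).Q η ^ (2 * pm) ∂((I.sp false).fork k) ≤ (Cm * (skwR (l8pVl I k) + π.c1 * I.Yc llDStar)) ^ (2 * pm))
    (hrX : ∀ k ≤ l8qNb I π, π.c1 * I.Yc llDStar ≤ l8pVl I k → ∫ ω, ((I.sp false).nX k ω - (l8qD I π).q (l8pVl I k)) ^ (2 * pm) ∂(I.sp false).μ
      ≤ (Ar * skwE (l8qD I π) (l8qH I π) (l8pVl I k)) ^ (2 * pm))
    (hrL : ∀ k ≤ l8qNb I π, π.c1 * I.Yc llDStar ≤ l8pVl I k → ∫ ω, (2 * (I.sp false).L k ω - (l8qD I π).q (l8pVl I k)) ^ (2 * pm) ∂(I.sp false).μ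
      ≤ (Ar * skwE (l8qD I π) (l8qH I π) (l8pVl I k)) ^ (2 * pm))
    (hrQ : ∀ k ≤ l8qNb I π, π.c1 * I.Yc llDStar ≤ l8pVl I k → ∫ η, ((I.sp false).Q η - (l8qD I π).q (l8pVl I k)) ^ (2 * pm) ∂((I.sp false).fork k)
      ≤ (Ar * skwE (l8qD I π) (l8qH I π) (l8pVl I k)) ^ (2 * pm))
    (hA1 : Cm * (S.Cv + 2 * π.c1) ≤ A) (hA2 : (4 * Cm + S.Cq) * π.c1 + 1 ≤ A) (hA3 : Ar + S.CW ≤ A) (hA4 : 3 / π.c.zs ≤ A) :
    L8pD2 I false (l8qE I π) A (I.Yc llDStar) (π.zw / 4) pm := by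
  have hS := hπ.Sok
  have hJ := hok.pm
  have hP : (I.sp false).Ok := hJ.sp
  have := hP.prob
  have hfk : ∀ k, IsProbabilityMeasure ((I.sp false).fork k) := fun k => (I.sp false).l8s_fork_prob hP k
  have hx0 : 0 < I.x := I.x_pos hIok
  have hx1 : I.x ≤ 1 := I.x_le_one hIok
  have hc1 : 0 < π.c1 := by linarith [hπ.c1]
  have hzs : 0 < π.c.zs := by linarith [hπ.zw0, hπ.zws]
  have hU0 : 0 < I.U := hx0.trans_le hok.xU
  obtain ⟨Y, hYd⟩ : ∃ Y : ℝ, Y = I.Yc llDStar := ⟨_, rfl⟩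
  have hUY : I.U ≤ Y := by
    have : I.U * 1 ≤ I.U * I.Zc llDStar := mul_le_mul_of_nonneg_left hok.Zc1 hU0.le
    rw [hYd]
    simpa [L8In.Yc] using this
  have hY0 : 0 < Y := hU0.trans_le hUY
  have hxY : I.x ^ 40 ≤ Y := by
    have : I.x ^ 40 ≤ I.x ^ 1 := pow_le_pow_of_le_one hx0.le hx1 (by norm_num)
    rw [pow_one] at this
    exact this.trans (hok.xU.trans hUY)
  rw [← hYd] at hX hL hQ hrX hrL hrQ ⊢
  have hCv : 0 ≤ S.Cv := by linarith [hS.Cv]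
  have hCq : 0 ≤ S.Cq := by linarith [hS.Cq]
  have hA0 : 0 ≤ A := le_trans (by positivity) hA2
  have hv0 : ∀ k, 0 ≤ I.v k := fun k => hP.v_nonneg k
  have hxb : I.x ≤ I.x ^ π.eps := by
    have := Real.rpow_le_rpow_of_exponent_ge hx0 hx1 hπ.eps1
    rwa [Real.rpow_one] at this
  -- the raw scale
  have hconv : ∀ k ≤ l8qNb I π, Cm * (skwR (l8pVl I k) + π.c1 * Y) ≤ A * (I.v k + Y) := by
    intro k hk
    have h1 : skwR (l8pVl I k) + π.c1 * Y ≤ S.Cv * I.v k + 2 * (π.c1 * Y) := by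
      rw [hYd]
      exact l8p_d2_R_le hS hJ (k := k) hk
    have h2 : S.Cv * I.v k + 2 * (π.c1 * Y) ≤ (S.Cv + 2 * π.c1) * (I.v k + Y) := by
      have := hv0 k
      nlinarith [mul_nonneg hCv hY0.le, mul_nonneg hc1.le this]
    calc Cm * (skwR (l8pVl I k) + π.c1 * Y) ≤ Cm * ((S.Cv + 2 * π.c1) * (I.v k + Y)) :=
          mul_le_mul_of_nonneg_left (h1.trans h2) hCm
      _ = Cm * (S.Cv + 2 * π.c1) * (I.v k + Y) := by ring
      _ ≤ A * (I.v k + Y) := mul_le_mul_of_nonneg_right hA1 (add_nonneg (hv0 k) hY0.le)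
  have hsc0 : ∀ k ≤ l8qNb I π, 0 ≤ Cm * (skwR (l8pVl I k) + π.c1 * Y) := by
    intro k hk
    have hmem := l8p_d2_z_mem hJ (k := k) hk
    have : 0 ≤ skwR (l8pVl I k) := le_min hmem.1 zero_le_one
    positivity
  have hB0 : ∀ k, 0 ≤ A * (I.v k + Y) := fun k => mul_nonneg hA0 (add_nonneg (hv0 k) hY0.le)
  -- beyond the buffer interval
  have hbig : ∀ k, l8qNb I π < k → 3 / 2 ≤ A * (I.v k + Y) := by
    intro k hk
    have h1 := l8q_d2_big hπ hok hxs hk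
    have h2 : 3 / π.c.zs * (π.c.zs / 2) = 3 / 2 := by field_simp
    calc (3 : ℝ) / 2 = 3 / π.c.zs * (π.c.zs / 2) := h2.symm
      _ ≤ A * (I.v k + Y) := mul_le_mul hA4 (by linarith) (by positivity) hA0
  have hlow : ∀ c, 0 ≤ c → c ≤ 2 * Cm → (2 * c + S.Cq) * (π.c1 * Y) + I.x ^ 40 ≤ A * Y := by
    intro c _ hc
    have h1 : (2 * c + S.Cq) * (π.c1 * Y) ≤ (4 * Cm + S.Cq) * (π.c1 * Y) :=
      mul_le_mul_of_nonneg_right (by linarith) (by positivity)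
    have h2 := mul_le_mul_of_nonneg_right hA2 hY0.le
    nlinarith
  -- the refined region lies in the buffer interval
  have hle : ∀ k, I.v k ≤ π.zw / 4 → k ≤ l8qNb I π := by
    intro k hk
    by_contra hcon
    have h1 := l8q_d2_big hπ hok hxs (not_le.1 hcon)
    linarith [hπ.zw0, hπ.zws]
  have hE : ∀ k, I.v k ≤ π.zw / 4 → l8qE I π k = if l8pVl I k < π.c1 * Y then Y else skwE (l8qD I π) (l8qH I π) (l8pVl I k) := by
    intro k hk
    have h1 : l8pVl I k ≤ π.zw := by linarith [l8q_d2_vl_le hP k, hπ.zw0]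
    unfold l8qE
    rw [if_pos h1, hYd]
  have he0 : ∀ k, I.v k ≤ π.zw / 4 → 0 ≤ A * l8qE I π k := by
    intro k hk
    refine mul_nonneg hA0 ?_
    rw [hE k hk]
    split_ifs with hz
    · exact hY0.le
    · exact le_trans (by have := hS.CW; positivity) (l8p_d2_E_lo hS hJ hxb (k := k) (hle k hk) (by rw [hYd] at hz; exact not_lt.1 hz))
  have bX : ∀ k, L8Bd ((I.sp false).nX k) := (I.sp false).l8s_W_bd_nX hP
  have bL : ∀ k, L8Bd ((I.sp false).L k) := (I.sp false).l8s_L_bd hP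
  have bQ : L8Bd (I.sp false).Q := skp_ref_Q_bd _ hP
  have tX : ∀ k ω, |(I.sp false).nX k ω| ≤ 3 / 2 := by
    intro k ω
    have h1 := (I.sp false).l8s_nX_le_one hP k ω
    have h2 : 0 ≤ (I.sp false).nX k ω := Finset.sum_nonneg fun i _ => sq_nonneg _
    rw [abs_of_nonneg h2]
    linarith
  have tL : ∀ k ω, |(I.sp false).L k ω| ≤ 3 / 2 := (I.sp false).l8s_L_abs_le hP
  have tQ : ∀ η, |(I.sp false).Q η| ≤ 3 / 2 := fun η => ((I.sp false).l8s_fork_Q_bd_aux hP).2 η |>.trans (by norm_num)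
  -- the refined bounds at the order `pm`
  have rX : ∀ k, I.v k ≤ π.zw / 4 → ∫ ω, ((I.sp false).nX k ω - I.q k) ^ (2 * pm) ∂(I.sp false).μ ≤ (A * l8qE I π k) ^ (2 * pm) := fun k hk => by
    rw [hE k hk]
    subst hYd
    exact l8p_d2_one hS hJ hxb hpm hCm hAr (I.sp false).μ (bX k) (k := k) (hle k hk) (hX k (hle k hk)) (hrX k (hle k hk))
      (hok.qlink k (hle k hk)) (hlow Cm hCm (by linarith)) hA3
  have rL : ∀ k, I.v k ≤ π.zw / 4 → ∫ ω, (2 * (I.sp false).L k ω - I.q k) ^ (2 * pm) ∂(I.sp false).μ ≤ (A * l8qE I π k) ^ (2 * pm) := fun k hk => by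
    rw [hE k hk]
    subst hYd
    exact l8p_d2_one hS hJ hxb hpm (Cm := 2 * Cm) (by positivity) hAr (I.sp false).μ (f := fun ω => 2 * (I.sp false).L k ω)
      ((bL k).const_mul 2) (k := k) (hle k hk) (by
        have := l8p_d2_two (hL k (hle k hk))
        rwa [← mul_assoc] at this) (hrL k (hle k hk)) (hok.qlink k (hle k hk)) (hlow (2 * Cm) (by positivity) le_rfl) hA3
  have rQ : ∀ k, I.v k ≤ π.zw / 4 → ∫ η, ((I.sp false).Q η - I.q k) ^ (2 * pm) ∂((I.sp false).fork k) ≤ (A * l8qE I π k) ^ (2 * pm) := fun k hk => by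
    have := hfk k
    rw [hE k hk]
    subst hYd
    exact l8p_d2_one hS hJ hxb hpm hCm hAr ((I.sp false).fork k) bQ (k := k) (hle k hk) (hQ k (hle k hk)) (hrQ k (hle k hk))
      (hok.qlink k (hle k hk)) (hlow Cm hCm (by linarith)) hA3
  refine ⟨?_, ?_, ?_, ?_, ?_, ?_⟩
  · intro r hr1 hr2 k _
    rcases le_or_gt k (l8qNb I π) with hk | hk
    · exact l8p_d2_lyap _ (bX k) hr1 hr2 (hB0 k) (l8p_d2_mono (hsc0 k hk) (hconv k hk) (hX k hk))
    · exact l8p_d2_mono (by norm_num) (hbig k hk) (l8q_d2_triv _ (tX k) r)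
  · intro r hr1 hr2 k _
    rcases le_or_gt k (l8qNb I π) with hk | hk
    · exact l8p_d2_lyap _ (bL k) hr1 hr2 (hB0 k) (l8p_d2_mono (hsc0 k hk) (hconv k hk) (hL k hk))
    · exact l8p_d2_mono (by norm_num) (hbig k hk) (l8q_d2_triv _ (tL k) r)
  · intro r hr1 hr2 k _ k₁ k₂ h1 h2
    have := hfk k
    have h3 := skp_tail_qx (I.sp false) hP h1 h2 0 r
    simp only [sub_zero] at h3
    refine h3.trans ?_
    rcases le_or_gt k (l8qNb I π) with hk | hk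
    · exact l8p_d2_lyap _ bQ hr1 hr2 (hB0 k) (l8p_d2_mono (hsc0 k hk) (hconv k hk) (hQ k hk))
    · exact l8p_d2_mono (by norm_num) (hbig k hk) (l8q_d2_triv _ tQ r)
  · intro r hr1 hr2 k _ hv
    exact l8p_d2_lyap _ (l8k_bd_sub (bX k) (l8k_bd_const _)) hr1 hr2 (he0 k hv) (rX k hv)
  · intro r hr1 hr2 k _ hv
    exact l8p_d2_lyap _ (l8k_bd_sub ((bL k).const_mul 2) (l8k_bd_const _)) hr1 hr2 (he0 k hv) (rL k hv)
  · intro r hr1 hr2 k _ hv k₁ k₂ h1 h2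
    have := hfk k
    exact (skp_tail_qx (I.sp false) hP h1 h2 (I.q k) r).trans
      (l8p_d2_lyap _ (l8k_bd_sub bQ (l8k_bd_const _)) hr1 hr2 (he0 k hv) (rQ k hv))

/-- **D2L: (D2), untilted, low region of the smoothed size paths.**      TEX[LL:prop:statistics-pointwise] (low-region variant, LL 08 l.356-380) -/
theorem l8q_d2 (T : ℝ) (_hT : 1 < T) : L8qD2 llBase T := by
  intro F0 hF pB pS h0 h1 ε pm hε
  refine ⟨ε / 4, by positivity, fun π S Cc hπ _ heps => ?_⟩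
  have hS := hπ.Sok
  rcases Nat.eq_zero_or_pos pm with hpm | hpm
  · subst hpm
    refine ⟨0, 0, 0, fun I _ _ C _ => ⟨?_, ?_, ?_, ?_, ?_, ?_⟩⟩ <;>
    · intro r hr1 hr2
      omega
  obtain ⟨C1, hC1, H1⟩ := skp_raw S hS (2 * pm) (by omega)
  obtain ⟨C2, hC2, H2⟩ := skp_raw S hS pm hpm
  obtain ⟨C3, hC3, H3⟩ := skp_ref S hS pm (ε / 2) hpm (by positivity)
  obtain ⟨Cm, hCmd⟩ : ∃ Cm : ℝ, Cm = C1 + C2 + C3 := ⟨_, rfl⟩
  have hCm1 : C1 ≤ Cm := by linarith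
  have hCm2 : C2 ≤ Cm := by linarith
  have hCm3 : C3 ≤ Cm := by linarith
  have hCm0 : 0 < Cm := by linarith
  have hzs : 0 < π.c.zs := by linarith [hπ.zw0, hπ.zws]
  obtain ⟨Na, hNa⟩ := skw_llb_small 1 (1 / Cm) one_pos (by positivity)
  obtain ⟨Nb, hNb⟩ := skw_llb_small π.eps (1 / Cm) hπ.eps0 (by positivity)
  obtain ⟨Nc, hNc⟩ := skw_llb_small (llDStar / 3) (1 / Cm) (by unfold llDStar; norm_num) (by positivity)
  obtain ⟨Nd, hNd⟩ := skw_llb_small 40 (π.c.zs / 2) (by norm_num) (by positivity)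
  refine ⟨Cm * (S.Cv + 2 * π.c1) + ((4 * Cm + S.Cq) * π.c1 + 1) + (Cm + S.CW) + 3 / π.c.zs, max (max Na Nb) (max Nc Nd), 0,
    fun I hI hok C hC => ?_⟩
  have hJ := hok.pm
  have hx0 : 0 < I.x := I.x_pos hI.ok
  have hx1 : I.x ≤ 1 := I.x_le_one hI.ok
  have hc1 : 0 < π.c1 := by linarith [hπ.c1]
  have hCv : 0 ≤ S.Cv := by linarith [hS.Cv]
  have hCq : 0 ≤ S.Cq := by linarith [hS.Cq]
  have hCW : 0 ≤ S.CW := by linarith [hS.CW]
  have hinv : ∀ c : ℝ, 1 ≤ c → c ≤ Cm → 1 / Cm ≤ 1 / c := fun c hc hcm => one_div_le_one_div_of_le (by linarith) hcm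
  have sx : I.x ≤ 1 / Cm := by
    have := hNa I.p (((le_max_left _ _).trans (le_max_left _ _)).trans hI.hN)
    rwa [Real.rpow_one] at this
  have sb : I.x ^ π.eps ≤ 1 / Cm := hNb I.p (((le_max_right _ _).trans (le_max_left _ _)).trans hI.hN)
  have hU0 : 0 < I.U := hx0.trans_le hok.xU
  have sU : I.Yc llDStar ≤ 1 / Cm := by
    have h2 : I.Yc llDStar ≤ I.x ^ (llDStar / 3) := by
      have h3 : I.U * I.Zc llDStar ≤ I.U * (I.x ^ (llDStar / 3) / I.U) := mul_le_mul_of_nonneg_left (min_le_right _ _) hU0.le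
      rwa [mul_div_cancel₀ _ hU0.ne'] at h3
    exact h2.trans (hNc I.p (((le_max_left _ _).trans (le_max_right _ _)).trans hI.hN))
  have hxs : I.x ^ 40 ≤ π.c.zs / 2 := by
    have h2 : I.x ^ (40 : ℝ) ≤ π.c.zs / 2 := hNd I.p (((le_max_right _ _).trans (le_max_right _ _)).trans hI.hN)
    have h3 : I.x ^ (40 : ℝ) = I.x ^ 40 := by
      rw [← Real.rpow_natCast]
      norm_num
    rwa [h3] at h2
  have hxe : 1 ≤ I.x ^ (-ε) := Real.one_le_rpow_of_pos_of_le_one_of_nonpos hx0 hx1 (by linarith)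
  have hsmall : SkwSmall C3 (l8qD I π) := ⟨sb.trans (hinv C3 hC3 hCm3), sU.trans (hinv C3 hC3 hCm3), sx.trans (hinv C3 hC3 hCm3)⟩
  -- the loss of `skp_ref`
  have hloss : C3 * I.x ^ (-(ε / 2)) / (I.x ^ π.eps) ^ 2 ≤ Cm * I.x ^ (-ε) := by
    have e1 : (I.x ^ π.eps) ^ 2 = I.x ^ (2 * π.eps) := by
      rw [← Real.rpow_natCast, ← Real.rpow_mul hx0.le]
      congr 1
      push_cast
      ring
    rw [e1, mul_div_assoc, ← Real.rpow_sub hx0]
    have e2 : I.x ^ (-(ε / 2) - 2 * π.eps) ≤ I.x ^ (-ε) := Real.rpow_le_rpow_of_exponent_ge hx0 hx1 (by linarith)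
    exact mul_le_mul hCm3 e2 (Real.rpow_nonneg hx0.le _) hCm0.le
  have hCpos : 0 ≤ C := le_trans (by positivity) hC
  have hCA : C ≤ C * I.x ^ (-ε) := le_mul_of_one_le_right hCpos hxe
  have hraw1 := fun k (hk : k ≤ l8qNb I π) => H1 _ _ (l8qI I π) hJ (sx.trans (hinv C1 hC1 hCm1)) k hk
  have hraw2 := fun k (hk : k ≤ l8qNb I π) => H2 _ _ (l8qI I π) hJ (sx.trans (hinv C2 hC2 hCm2)) k hk
  have href := fun k (hk : k ≤ l8qNb I π) (hz : π.c1 * I.Yc llDStar ≤ l8pVl I k) => H3 _ _ (l8qI I π) hJ hsmall k hk hz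
  have hsc : ∀ k ≤ l8qNb I π, 0 ≤ skwR (l8pVl I k) + π.c1 * I.Yc llDStar := by
    intro k hk
    have hmem := l8p_d2_z_mem hJ (k := k) hk
    have h3 : 0 ≤ skwR (l8pVl I k) := le_min hmem.1 zero_le_one
    have h4 : 0 < π.c1 * I.Yc llDStar := hJ.wh.zlo0
    linarith
  have p1 : 0 ≤ Cm * (S.Cv + 2 * π.c1) := by positivity
  have p2 : 0 ≤ (4 * Cm + S.Cq) * π.c1 + 1 := by positivity
  have p3 : 0 ≤ 3 / π.c.zs := by positivity
  refine l8q_d2_inst hπ hI.ok hok hpm (Cm := Cm) (Ar := C3 * I.x ^ (-(ε / 2)) / (I.x ^ π.eps) ^ 2) hCm0.le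
    (by have := Real.rpow_nonneg hx0.le (-(ε / 2)); have := Real.rpow_nonneg hx0.le π.eps; positivity) hxs ?_ ?_ ?_ ?_ ?_ ?_ ?_ ?_ ?_ ?_
  · intro k hk
    exact l8p_d2_mono (mul_nonneg (by linarith) (hsc k hk)) (mul_le_mul_of_nonneg_right hCm1 (hsc k hk)) (hraw1 k hk).1
  · intro k hk
    exact l8p_d2_mono (mul_nonneg (by linarith) (hsc k hk)) (mul_le_mul_of_nonneg_right hCm2 (hsc k hk)) (hraw2 k hk).2.1
  · intro k hk
    exact l8p_d2_mono (mul_nonneg (by linarith) (hsc k hk)) (mul_le_mul_of_nonneg_right hCm2 (hsc k hk)) (hraw2 k hk).2.2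
  · intro k hk hz
    exact (href k hk hz).1
  · intro k hk hz
    exact (href k hk hz).2.1
  · intro k hk hz
    exact (href k hk hz).2.2
  · refine le_trans ?_ (hC.trans hCA)
    linarith
  · refine le_trans ?_ (hC.trans hCA)
    linarith
  · have h5 : Cm + S.CW ≤ C := by
      refine le_trans ?_ hC
      linarith
    have h8 : S.CW ≤ S.CW * I.x ^ (-ε) := le_mul_of_one_le_right hCW hxe
    have h9 : (Cm + S.CW) * I.x ^ (-ε) ≤ C * I.x ^ (-ε) := mul_le_mul_of_nonneg_right h5 (by linarith)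
    nlinarith
  · refine le_trans ?_ (hC.trans hCA)
    linarith

/-! ## IV9-LOW : the lower band (D9) in the low region of the size paths (twin of PM/InstIv9.lean, par. 4) -/

/-- **`Lw9In` at one instance of the low region of a size path** (scale `Y_c`, FREE top `M Y_c`) -/
theorem lw9_in_low_of {I : L8In} {π : L8qPar} {S : SkpS} {Cc κ0 v1 A M vt : ℝ} {e : ℕ → ℝ} (hπ : π.Ok S) (hI : I.Ok) (hok : L8qOk I π S Cc)
    (hκ0 : 0 < κ0) (hp : Lw9Path I.𝔹 I.F I.p κ0 v1) (hv1 : v1 ≤ 1 / 2) (hll : I.lam1 ≤ I.lam) (hA : 1 ≤ A) (hM : 4 ≤ M)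
    (htop : M * I.Yc llDStar + I.x ^ 40 ≤ v1) (hx2 : I.x ≤ 1 / 2) (hs : ∀ k ≤ I.n, I.S k ≤ A * (I.v k + I.Yc llDStar))
    (hd2 : L8pD2 I false e A (I.Yc llDStar) vt 1) :
    Lw9In I A M (I.Yc llDStar) κ0 (1 / 4) (S.K.cA1 1) (I.x ^ 40) := by
  have hx0 : 0 < I.x := I.x_pos hI
  have hx1 : I.x ≤ 1 := I.x_le_one hI
  have hP : (I.sp false).Ok := hok.pm.sp
  have hU0 : 0 < I.U := lt_of_lt_of_le hx0 hok.xU
  have hUY : I.U ≤ I.Yc llDStar := (l8qv_Yc hU0 hok.Zc1).1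
  have hl0 : 0 < I.lam1 := lt_of_lt_of_le (pow_pos hx0 14) hok.pm.lam1a
  have hact : ∀ k ≤ I.n, I.act false k := fun k hk => ⟨hk, fun h => absurd h (by simp)⟩
  exact
  { ok := hI
    sp := hP
    adm := hok.fine.adm
    cs0 := by norm_num
    c00 := zero_le_one.trans (hπ.Sok.cA1 1)
    sus := hok.ivx.sus
    pin := hok.pm.pin 1 le_rfl
    mesh := hok.fine.dv_le
    cell := lw9_cell hI hP hκ0.le hp hok.fine hok.xU hll hl0.le (pow_le_pow_of_le_one hx0.le hx1 (by norm_num)) htop (by linarith)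
    κ0 := hκ0
    A1 := hA
    M4 := hM
    xY := hok.xU.trans hUY
    U0 := hU0
    lam0 := hl0
    lam1 := hok.pm.lam1b
    top := htop.trans hv1
    μ40 := le_rfl
    x2 := hx2
    s_le := hs
    raw_X := fun k hk => by
      have h := hd2.raw_X 1 le_rfl le_rfl k (hact k hk)
      simpa only [L8In.mo, mul_one] using h
    raw_B := fun k hk => by
      have h := hd2.raw_Q 1 le_rfl le_rfl k (hact k hk) (I.n + 1) (I.n + 1) (by omega) (by omega)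
      have hn : (I.sp false).n < I.n + 1 := by rw [l8p_iv8_n]; exact Nat.lt_succ_self _
      have e1 : (I.sp false).QX (I.n + 1) (I.n + 1) = (I.sp false).Q := funext fun p => by
        unfold L8P.QX L8P.Q
        exact Finset.sum_congr rfl fun i _ => by rw [l8k_X_term hP hn, l8k_X_term hP hn]
      rw [e1] at h
      rw [← (I.sp false).l8s_fork_Q_sq hP k]
      simpa only [L8In.moF, mul_one] using h }

/-- **PRODUCER of `Lw9In` on the low region of the size paths**: slope `κ₀` fixed FIRST; top `M` free AFTER `π, S, Cc` -/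
theorem lw9_in_low {𝔹 : LlBase} {T : ℝ} (he : L8qEnv 𝔹 T) (h2 : L8qD2 𝔹 T) (F0 : LlFix) (hF : L8Fix 𝔹 T F0) (pB : LLParB) (pS : ℝ)
    (h0 : 0 < pS) (h1 : pS ≤ 1) :
    ∃ κ0 : ℝ, 0 < κ0 ∧ ∀ ε : ℝ, 0 < ε → ∃ eps0 : ℝ, 0 < eps0 ∧ ∀ (π : L8qPar) (S : SkpS) (Cc : ℝ), π.Ok S → 1 ≤ Cc → π.eps ≤ eps0 →
      ∀ M : ℝ, 4 ≤ M → ∃ (C0 : ℝ) (N0 : ℕ) (Kf : ℝ), 1 ≤ C0 ∧ ∀ I : L8In, L8qAt 𝔹 (F0.wExp pB.sStar pB.eta pS) N0 Kf I → L8qOk I π S Cc →
        Lw9In I (C0 * I.x ^ (-ε)) M (I.Yc llDStar) κ0 (1 / 4) (S.K.cA1 1) (I.x ^ 40) := by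
  have h3 : LlSec3 𝔹 (F0.wExp pB.sStar pB.eta pS) := (hF.2.2 _ _ _ (llc_expOk pB h0 h1)).sec3
  obtain ⟨κ0, v1, hκ0, -, hv10, hv1, Np, hpath⟩ := lw9_path h3
  refine ⟨κ0, hκ0, fun ε hε => ?_⟩
  obtain ⟨e0, he0, H⟩ := (he F0 hF pB pS h0 h1 ε hε).and (h2 F0 hF pB pS h0 h1 ε 1 hε)
  refine ⟨e0, he0, fun π S Cc hπ hCc heps M hM => ?_⟩
  obtain ⟨C1, N1, K1, H⟩ := H π S Cc hπ hCc heps
  obtain ⟨Na, hNa⟩ := skw_llb_small (llDStar / 3) (v1 / (2 * M)) (by unfold llDStar; norm_num) (by positivity)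
  obtain ⟨Nb, hNb⟩ := skw_llb_small 1 (v1 / 2) one_pos (by positivity)
  refine ⟨max C1 1, max (max Na Nb) (max N1 Np), K1, le_max_right _ _, fun I hI hok => ?_⟩
  have hx0 : 0 < I.x := I.x_pos hI.ok
  have hx1 : I.x ≤ 1 := I.x_le_one hI.ok
  have hU0 : 0 < I.U := lt_of_lt_of_le hx0 hok.xU
  have hNN : ∀ N', N' ≤ max (max Na Nb) (max N1 Np) → N' ≤ I.p.N := fun N' h => h.trans hI.hN
  have sκ : I.x ^ (llDStar / 3) ≤ v1 / (2 * M) := hNa I.p (hNN _ ((le_max_left _ _).trans (le_max_left _ _)))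
  have sx : I.x ≤ v1 / 2 := by
    have := hNb I.p (hNN _ ((le_max_right _ _).trans (le_max_left _ _)))
    rwa [Real.rpow_one] at this
  obtain ⟨a1, a2⟩ := H I (hI.mono ((le_max_left _ _).trans (le_max_right _ _)) le_rfl) hok (max C1 1) (le_max_left _ _)
  have hpt : I.p.Ok (F0.wExp pB.sStar pB.eta pS) := hI.hF ▸ hI.ok.pt
  have hp : Lw9Path I.𝔹 I.F I.p κ0 v1 := by
    rw [hI.hF, hI.hB]
    exact hpath I.p hpt (hNN _ ((le_max_right _ _).trans (le_max_right _ _)))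
  have hll : I.lam1 ≤ I.lam := by
    show I.p.lam1 I.F ≤ I.p.lam
    rw [hI.hF]
    exact lw9_lam1_le h3.ok hpt
  have hxe : 1 ≤ I.x ^ (-ε) := Real.one_le_rpow_of_pos_of_le_one_of_nonpos hx0 hx1 (by linarith)
  have hA : 1 ≤ max C1 1 * I.x ^ (-ε) := by
    have : (1 : ℝ) ≤ max C1 1 := le_max_right _ _
    nlinarith
  have htop : M * I.Yc llDStar + I.x ^ 40 ≤ v1 := by
    have b1 : M * I.Yc llDStar ≤ v1 / 2 := by
      have : I.Yc llDStar ≤ v1 / (2 * M) := (l8qv_Yc hU0 hok.Zc1).2.trans sκ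
      rw [le_div_iff₀ (by positivity)] at this
      linarith
    have b2 : I.x ^ 40 ≤ v1 / 2 := by
      calc I.x ^ 40 ≤ I.x ^ 1 := pow_le_pow_of_le_one hx0.le hx1 (by norm_num)
        _ = I.x := pow_one _
        _ ≤ _ := sx
    linarith
  exact lw9_in_low_of hπ hI.ok hok hκ0 hp hv1 hll hA hM htop (by linarith) a1.s_le a2

/-- the (D9) contract on the low region of the size paths -/
def Lw9D9Low (𝔹 : LlBase) (T : ℝ) : Prop :=
  ∀ F0, L8Fix 𝔹 T F0 → ∀ (pB : LLParB) (pS : ℝ), 0 < pS → pS ≤ 1 → ∀ ε : ℝ, 0 < ε →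
    L8qCons 𝔹 (F0.wExp pB.sStar pB.eta pS) fun I _ C => Lw9D9 I (C * I.x ^ (-ε)) (I.Yc llDStar)

theorem lw9_low_eqns_cite : True := by
  have := @Lw9D9Low.eq_1
  trivial

/-- TEX[LL:lem:statistics-lower-band] TEX[LL:eq:D9] **IV9-LOW: (D9) on the low region of the size paths** -/
theorem lw9_d9_low {𝔹 : LlBase} {T : ℝ} (he : L8qEnv 𝔹 T) (h2 : L8qD2 𝔹 T) : Lw9D9Low 𝔹 T := by
  intro F0 hF pB pS h0 h1 ε hε
  obtain ⟨κ0, hκ0, H⟩ := lw9_in_low he h2 F0 hF pB pS h0 h1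
  obtain ⟨e0, he0, H⟩ := H (ε / 2) (by positivity)
  refine ⟨e0, he0, fun π S Cc hπ hCc heps => ?_⟩
  obtain ⟨C0, N0, Kf, hC0, H⟩ := H π S Cc hπ hCc heps 4 le_rfl
  refine ⟨lw9K 4 κ0 (1 / 4) (S.K.cA1 1) * C0 ^ 2, N0, Kf, fun I hI hok C hC => ?_⟩
  have hin := H I hI hok
  have hx0 : 0 < I.x := I.x_pos hI.ok
  refine (lw9_inst hin).mono ?_ hin.Y0.le hin.U0
  have e : (C0 * I.x ^ (-(ε / 2))) ^ 2 = C0 ^ 2 * I.x ^ (-ε) := by
    rw [mul_pow, ← Real.rpow_natCast (I.x ^ (-(ε / 2))) 2, ← Real.rpow_mul hx0.le]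
    congr 2
    push_cast
    ring
  rw [e, ← mul_assoc]
  exact mul_le_mul_of_nonneg_right hC (Real.rpow_nonneg hx0.le _)

/-! ## three pure real loss lemmas for IV7-LOW (ask of 223) -/

/-- the common scale `w = u^(-e/4)` of the loss lemmas -/
theorem l8q7_loss_aux {u eps e : ℝ} (hu : 0 < u) (hu1 : u ≤ 1) (heps : 0 < eps) (he : 0 < e) (h8 : 8 * eps ≤ e) :
    ∃ w : ℝ, 1 ≤ w ∧ u ^ (-e) = w ^ 4 ∧ 1 / (u ^ eps) ^ 2 ≤ w ∧ 1 / u ^ eps ≤ w ∧ Real.log (1 / u) ≤ 4 / e * w := by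
  refine ⟨u ^ (-(e / 4)), Real.one_le_rpow_of_pos_of_le_one_of_nonpos hu hu1 (by linarith), ?_, ?_, ?_, ?_⟩
  · rw [← Real.rpow_natCast (u ^ (-(e / 4))) 4, ← Real.rpow_mul hu.le]
    congr 1
    push_cast
    ring
  · have e1 : 1 / (u ^ eps) ^ 2 = u ^ (-(2 * eps)) := by
      rw [one_div, ← Real.rpow_natCast (u ^ eps) 2, ← Real.rpow_mul hu.le, ← Real.rpow_neg hu.le]
      congr 1
      push_cast
      ring
    rw [e1]
    exact Real.rpow_le_rpow_of_exponent_ge hu hu1 (by linarith)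
  · rw [one_div, ← Real.rpow_neg hu.le]
    exact Real.rpow_le_rpow_of_exponent_ge hu hu1 (by linarith)
  · have h := Real.log_le_rpow_div (x := 1 / u) (by positivity) (by positivity : 0 < e / 4)
    rw [one_div, Real.inv_rpow hu.le, ← Real.rpow_neg hu.le] at h
    rw [one_div]
    refine h.trans (le_of_eq ?_)
    field_simp

theorem l8q7_loss_pow {w : ℝ} (hw : 1 ≤ w) : w ≤ w ^ 4 ∧ w ^ 2 ≤ w ^ 4 ∧ w ^ 3 ≤ w ^ 4 ∧ 1 ≤ w ^ 4 :=
  ⟨by simpa using pow_le_pow_right₀ hw (by norm_num : 1 ≤ 4), pow_le_pow_right₀ hw (by norm_num), pow_le_pow_right₀ hw (by norm_num), one_le_pow₀ hw⟩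

/-- loss `b⁻²`, `b = u^eps` -/
theorem l8q7_loss1 {u eps e c c' : ℝ} (hu : 0 < u) (hu1 : u ≤ 1) (heps : 0 < eps) (he : 0 < e) (h8 : 8 * eps ≤ e) (hc : 0 ≤ c) (hc' : 0 ≤ c') :
    c / (u ^ eps) ^ 2 + c' ≤ (c + c') * u ^ (-e) := by
  obtain ⟨w, hw, e4, a2, -, -⟩ := l8q7_loss_aux hu hu1 heps he h8
  obtain ⟨p1, -, -, p0⟩ := l8q7_loss_pow hw
  rw [e4]
  have b1 : c / (u ^ eps) ^ 2 ≤ c * w ^ 4 := by
    rw [div_eq_mul_one_div]
    exact mul_le_mul_of_nonneg_left (a2.trans p1) hc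
  have b2 : c' ≤ c' * w ^ 4 := le_mul_of_one_le_right hc' p0
  linarith

/-- loss `b⁻¹`, `b = u^eps` -/
theorem l8q7_loss1' {u eps e c c' : ℝ} (hu : 0 < u) (hu1 : u ≤ 1) (heps : 0 < eps) (he : 0 < e) (h8 : 8 * eps ≤ e) (hc : 0 ≤ c) (hc' : 0 ≤ c') :
    c / u ^ eps + c' ≤ (c + c') * u ^ (-e) := by
  obtain ⟨w, hw, e4, -, a1, -⟩ := l8q7_loss_aux hu hu1 heps he h8
  obtain ⟨p1, -, -, p0⟩ := l8q7_loss_pow hw
  rw [e4]
  have b1 : c / u ^ eps ≤ c * w ^ 4 := by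
    rw [div_eq_mul_one_div]
    exact mul_le_mul_of_nonneg_left (a1.trans p1) hc
  have b2 : c' ≤ c' * w ^ 4 := le_mul_of_one_le_right hc' p0
  linarith

/-- loss `skwL / b²` -/
theorem l8q7_loss2 {u eps e c c' : ℝ} (K : ℕ) (hu : 0 < u) (hu1 : u ≤ 1) (heps : 0 < eps) (he : 0 < e) (h8 : 8 * eps ≤ e) (hc : 0 ≤ c) (hc' : 0 ≤ c') :
    c * (1 + Real.log (1 / u ^ K)) / (u ^ eps) ^ 2 + c' ≤ (c * (1 + 4 * K / e) + c') * u ^ (-e) := by
  obtain ⟨w, hw, e4, a2, -, al⟩ := l8q7_loss_aux hu hu1 heps he h8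
  obtain ⟨-, p2, -, p0⟩ := l8q7_loss_pow hw
  rw [e4]
  have hw0 : 0 ≤ w := by linarith
  have el : Real.log (1 / u ^ K) = K * Real.log (1 / u) := by
    rw [← one_div_pow, Real.log_pow]
  have l0 : 0 ≤ Real.log (1 / u) := Real.log_nonneg (by rw [le_div_iff₀ hu]; linarith)
  have b0 : 1 + Real.log (1 / u ^ K) ≤ (1 + 4 * K / e) * w := by
    rw [el]
    have := mul_le_mul_of_nonneg_left al (Nat.cast_nonneg K : (0 : ℝ) ≤ K)
    have e1 : (K : ℝ) * (4 / e * w) = 4 * K / e * w := by ring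
    linarith
  have b00 : 0 ≤ 1 + Real.log (1 / u ^ K) := by
    rw [el]
    positivity
  have b1 : c * (1 + Real.log (1 / u ^ K)) / (u ^ eps) ^ 2 ≤ c * (1 + 4 * K / e) * w ^ 4 := by
    rw [div_eq_mul_one_div]
    have hk : 0 ≤ 1 + 4 * (K : ℝ) / e := by positivity
    calc c * (1 + Real.log (1 / u ^ K)) * (1 / (u ^ eps) ^ 2) ≤ c * ((1 + 4 * K / e) * w) * w :=
          mul_le_mul (mul_le_mul_of_nonneg_left b0 hc) a2 (by positivity) (by positivity)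
      _ = c * (1 + 4 * K / e) * w ^ 2 := by ring
      _ ≤ c * (1 + 4 * K / e) * w ^ 4 := mul_le_mul_of_nonneg_left p2 (by positivity)
  have b2 : c' ≤ c' * w ^ 4 := le_mul_of_one_le_right hc' p0
  linarith

/-- loss `(n' + 2)² (1 + Lg⁴) / b²`, `Lg = 1`, `n' ≲ log (1/x)` -/
theorem l8q7_loss3 {u eps e c c' : ℝ} (n : ℕ) (hn : (n : ℝ) ≤ 1 + 9 * Real.log (1 / u)) (hu : 0 < u) (hu1 : u ≤ 1) (heps : 0 < eps) (he : 0 < e)
    (h8 : 8 * eps ≤ e) (hc : 0 ≤ c) (hc' : 0 ≤ c') :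
    c * (((n : ℝ) + 2) ^ 2 * (1 + 1 ^ 4)) / (u ^ eps) ^ 2 + c' ≤ (c * (2 * (3 + 36 / e) ^ 2) + c') * u ^ (-e) := by
  obtain ⟨w, hw, e4, a2, -, al⟩ := l8q7_loss_aux hu hu1 heps he h8
  obtain ⟨-, -, p3, p0⟩ := l8q7_loss_pow hw
  rw [e4]
  have hw0 : 0 ≤ w := by linarith
  have b0 : (n : ℝ) + 2 ≤ (3 + 36 / e) * w := by
    have e1 : 9 * (4 / e * w) = 36 / e * w := by ring
    nlinarith
  have b00 : (0 : ℝ) ≤ (n : ℝ) + 2 := by positivity
  have b01 : ((n : ℝ) + 2) ^ 2 ≤ ((3 + 36 / e) * w) ^ 2 := pow_le_pow_left₀ b00 b0 2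
  have b1 : c * (((n : ℝ) + 2) ^ 2 * (1 + 1 ^ 4)) / (u ^ eps) ^ 2 ≤ c * (2 * (3 + 36 / e) ^ 2) * w ^ 4 := by
    rw [div_eq_mul_one_div]
    calc c * (((n : ℝ) + 2) ^ 2 * (1 + 1 ^ 4)) * (1 / (u ^ eps) ^ 2) ≤ c * (((3 + 36 / e) * w) ^ 2 * (1 + 1 ^ 4)) * w :=
          mul_le_mul (mul_le_mul_of_nonneg_left (mul_le_mul_of_nonneg_right b01 (by norm_num)) hc) a2 (by positivity) (by positivity)
      _ = c * (2 * (3 + 36 / e) ^ 2) * w ^ 3 := by ring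
      _ ≤ c * (2 * (3 + 36 / e) ^ 2) * w ^ 4 := mul_le_mul_of_nonneg_left p3 (by positivity)
  have b2 : c' ≤ c' * w ^ 4 := le_mul_of_one_le_right hc' p0
  linarith

end Claimed.Agent.R286
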