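import Claimed.Agent.R286.PM.Inst
import Claimed.Agent.R286.W.InstS

/-!
# Row 286 (S0533), folder PM, file InstEnv : LEAF ENV of `l8p_core_dir` = THE DETERMINISTIC ENVELOPE ON THE DIRECT SWEEP      (helper237; prefix `l8pe_` / `L8pe`)

    l8p_env_dir : L8pEnvDir llBase T        (contract in PM/Inst.lean, sec. 3; 0 sorry; valid for every base: `l8pe_env`)

TEX[LL:prop:statistics-pointwise] (last display)   TEX[LL:lem:statistics-widths] (i)   TEX[LL:eq:D1]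
Everything is per instance: `L8peCtx I π S cv` = `π.Ok`, `I.Ok`, direct sweep, `L8pOk I π S cv` and ONE smallness `(CW + Lq + 2) x ≤ 1`.   Explicit constants:
* `lo3`     `x³ ≤ e_k`;      `low`  `v_k ≤ Y ⟹ e_k = Y`;      `hi`  `Y ≤ v_k ⟹ e_k ≤ v_k / cv`;
* `s_le`    `S_k ≤ (Cf + Cq)(c1 + 1/cv)(v_k + Y)`;
* `f_low`, `f_high`   `|f_k| ≤ ((Cf + 2 Cq) c1 + 1) e_k` below `zlo`, `≤ (2 CW² + 1) x^(-eps) e_k` above.   Cuts with an EMPTY cell: `S(z_k - x^40) ≤ S_k ≤ S(z_k)` (`dS_le_S`, `S_le_dS`: no case distinction);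
* `d1`      (D1) on the chain BY THE DEFINITION of `I.Z` (`bud_le : bud ≤ Y⁴`, `dy_choice`: a dyadic mass in `[r, 2r]`, `f² ≤ A_v` from `D² ≥ 0`);
* `bud`     Riemann sum of `e²` against `SkwConcl.budget`: `cell` (one cell, width comparison within the mesh), `cells_le` (disjoint cells above `z₁`), `tail` (`skw_leaf_inTail`), `mass_le`, `bud_low`, `bud_high`;
* `L_le`    `1 + log(1/x^K) ≤ (1 + K/ε) x^(-ε)`.
Reusable by the low variant (ENVL): nothing here reads the plateau except `plat.len_hi` (`zmax ≤ Cp`).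
-/

set_option autoImplicit false
set_option linter.unusedSectionVars false
namespace Claimed.Agent.R286
open MeasureTheory Set Filter

/-- the first `k` stages have mass `≤ v`  ⟹  at least `k` stages of mass `≤ v` -/
theorem l8pe_idx_ge {a : ℝ} {P : SkStp} (hP : SkAdm a P) {k : ℕ} (hk : k ≤ P.length) {v : ℝ}
    (h : k = 0 ∨ skMs a P (k - 1) ≤ v) : k ≤ (P.filter fun e => decide (e.m ≤ v)).length := by
  rcases h with h | h
  · omega
  rcases Nat.eq_zero_or_pos k with h0 | h0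
  · omega
  have h1 : (P.take k).filter (fun e => decide (e.m ≤ v)) = P.take k := by
    rw [List.filter_eq_self]
    intro e he
    simp only [decide_eq_true_eq]
    refine le_trans ?_ h
    obtain ⟨i, hi, rfl⟩ := List.getElem_of_mem he
    rw [List.length_take] at hi
    have hik : i < k := lt_of_lt_of_le hi (min_le_left _ _)
    have hiP : i < P.length := lt_of_lt_of_le hi (min_le_right _ _)
    rw [List.getElem_take]
    have hk1 : k - 1 < P.length := by omega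
    have e1 : skMs a P (k - 1) = (P[k - 1]'hk1).m := by
      unfold skMs
      rw [List.getD_eq_getElem _ _ (by simpa using hk1)]
      simp
    rw [e1]
    rcases Nat.lt_or_ge i (k - 1) with h2 | h2
    · exact List.pairwise_iff_getElem.1 hP.1 i (k - 1) hiP hk1 h2
    · have : i = k - 1 := by omega
      subst this
      exact le_rfl
  have h2 : ((P.take k).filter fun e => decide (e.m ≤ v)).length ≤ (P.filter fun e => decide (e.m ≤ v)).length :=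
    ((List.take_sublist k P).filter _).length_le
  rw [h1, List.length_take, min_eq_left hk] at h2
  exact h2

/-- the stage `k` has mass `> v`  ⟹  at most `k` stages of mass `≤ v` -/
theorem l8pe_idx_le {a : ℝ} {P : SkStp} (hP : SkAdm a P) {k : ℕ} {v : ℝ} (h : v < skMs a P k) :
    (P.filter fun e => decide (e.m ≤ v)).length ≤ k := by
  rcases Nat.lt_or_ge k P.length with hk | hk
  · have e1 : skMs a P k = (P[k]'hk).m := by
      unfold skMs
      rw [List.getD_eq_getElem _ _ (by simpa using hk)]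
      simp
    have h1 : (P.drop k).filter (fun e => decide (e.m ≤ v)) = [] := by
      rw [List.filter_eq_nil_iff]
      intro e he
      simp only [decide_eq_true_eq, not_le]
      refine lt_of_lt_of_le h ?_
      rw [e1]
      obtain ⟨i, hi, rfl⟩ := List.getElem_of_mem he
      rw [List.length_drop] at hi
      rw [List.getElem_drop]
      rcases Nat.eq_zero_or_pos i with h0 | h0
      · subst h0; simp
      · exact List.pairwise_iff_getElem.1 hP.1 k (k + i) hk (by omega) (by omega)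
    have h2 : P.filter (fun e => decide (e.m ≤ v)) = (P.take k).filter fun e => decide (e.m ≤ v) := by
      conv_lhs => rw [← List.take_append_drop k P]
      rw [List.filter_append, h1, List.append_nil]
    rw [h2]
    exact (List.length_filter_le _ _).trans (by rw [List.length_take]; exact min_le_left _ _)
  · exact (List.length_filter_le _ _).trans hk

/-- everything ENV reads at one instance; `sm` = the only smallness of `x` -/
structure L8peCtx (I : L8In) (π : L8pPar) (S : SkpS) (cv : ℝ) : Prop where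
  par : π.Ok S cv
  ok : I.Ok
  dir : l8Dir I.p
  inst : L8pOk I π S cv
  sm : (S.CW + S.c.Lq + 2) * I.x ≤ 1

namespace L8peCtx

variable {I : L8In} {π : L8pPar} {S : SkpS} {cv : ℝ} (X : L8peCtx I π S cv)
include X

theorem x0 : 0 < I.x := I.x_pos X.ok
theorem x1 : I.x ≤ 1 := I.x_le_one X.ok
theorem U0 : 0 < I.U := X.x0.trans_le X.inst.xU
theorem UY : I.U ≤ I.Y := by
  have := X.inst.Z1
  have h := X.U0
  unfold L8In.Y
  nlinarith
theorem Y0 : 0 < I.Y := X.U0.trans_le X.UY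
theorem xY : I.x ≤ I.Y := X.inst.xU.trans X.UY
theorem c18 : 8 ≤ π.c1 := by
  have h1 := X.par.c1
  have h2 := X.par.cv1
  have h3 := X.par.cv0
  by_contra h
  push Not at h
  nlinarith
theorem wh : SkwHyp π.c (l8pD I π) := by
  have := X.inst.pm.wh
  rw [X.par.Sc] at this
  exact this
theorem CW1 : 1 ≤ S.CW := X.par.Sok.CW
theorem Lq1 : 1 ≤ S.c.Lq := X.par.Sok.c.Lq
theorem zlo_eq : (l8pD I π).zlo = π.c1 * I.Y := rfl
theorem zlo16 : 16 * (π.c1 * I.Y) ≤ 1 := (X.inst.pm.zloreg).trans X.par.Sok.zreg1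
theorem spOk : (I.sp false).Ok := X.inst.pm.sp
theorem adm : SkAdm I.a I.P0 := X.inst.fine.adm.1
theorem v_eq : (I.sp false).v = I.v := rfl
theorem v_mono : Monotone I.v := X.spOk.v_mono
theorem v_nonneg (k : ℕ) : 0 ≤ I.v k := X.spOk.v_nonneg k
theorem n_eq : I.P0.length = I.n := by simp [L8In.P0, L8In.n, llMat]
theorem spn : (I.sp false).n = I.n := X.n_eq
theorem v_top {k : ℕ} (hk : I.n ≤ k) : I.v k = I.a := X.spOk.v_term k (by rw [X.spn]; exact hk)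
theorem a_eq : I.a = I.p.ell := by
  have := X.dir.1
  simp [L8In.a, LlPt.a, this]
theorem Vl_le (k : ℕ) : l8pVl I k ≤ I.v k := by
  unfold l8pVl
  split_ifs with h
  · exact X.v_nonneg k
  · exact X.v_mono (Nat.sub_le k 1)
theorem Vl_succ (k : ℕ) : l8pVl I (k + 1) = I.v k := by simp [l8pVl]
theorem dv_eq (k : ℕ) : I.dv k = I.v k - l8pVl I k := rfl
theorem dv_nonneg (k : ℕ) : 0 ≤ I.dv k := by rw [X.dv_eq]; linarith [X.Vl_le k]
theorem zc_mem (k : ℕ) : l8pZc I π k ∈ Icc 0 (l8pD I π).zmax := (X.inst.vz k).1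
theorem V_zc (k : ℕ) : l8pV I π (l8pZc I π k) = l8pVl I k := (X.inst.vz k).2
theorem V_zc_succ (k : ℕ) : l8pV I π (l8pZc I π (k + 1)) = I.v k := by rw [X.V_zc, X.Vl_succ]
theorem zc_mono : Monotone (l8pZc I π) := X.inst.pm.zmono
theorem zmax0 : 0 ≤ (l8pD I π).zmax := (X.zc_mem 0).1.trans (X.zc_mem 0).2
theorem V_mono : StrictMonoOn (l8pV I π) (Icc 0 (l8pD I π).zmax) := X.inst.vc.mono
theorem zc_top : l8pZc I π (I.n + 1) = (l8pD I π).zmax := by
  have h1 := X.V_zc_succ I.n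
  rw [X.v_top le_rfl, X.a_eq] at h1
  have h2 : l8pV I π (l8pD I π).zmax = I.p.ell := X.inst.vc.vmax
  exact X.V_mono.injOn (X.zc_mem _) ⟨X.zmax0, le_rfl⟩ (h1.trans h2.symm)
theorem mesh {k : ℕ} (hk : k ≤ I.n) : l8pZc I π (k + 1) - l8pZc I π k ≤ I.x ^ 40 := by
  rcases hk.lt_or_eq with h | h
  · exact X.inst.pm.zmesh k h
  · subst h
    rw [X.zc_top]
    exact X.inst.top

theorem smCW : S.CW * I.x ≤ 1 := by
  have := X.sm; have := X.x0; have := X.Lq1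
  nlinarith
theorem smLq : (1 + S.c.Lq) * I.x ≤ 1 := by
  have := X.sm; have := X.x0; have := X.CW1
  nlinarith
theorem sm2 : 2 * I.x ≤ 1 := by
  have := X.sm; have := X.x0; have := X.CW1; have := X.Lq1
  nlinarith
theorem xpow_le {j : ℕ} (hj : 1 ≤ j) : I.x ^ j ≤ I.x := by
  calc I.x ^ j ≤ I.x ^ 1 := pow_le_pow_of_le_one X.x0.le X.x1 hj
    _ = I.x := pow_one _
theorem xpow_le' {i j : ℕ} (hj : i ≤ j) : I.x ^ j ≤ I.x ^ i := pow_le_pow_of_le_one X.x0.le X.x1 hj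
/-- `x³ ≤ x²/CW` -/
theorem x3 : I.x ^ 3 ≤ I.x ^ 2 / S.CW := by
  have h0 : 0 < S.CW := by linarith [X.CW1]
  rw [le_div_iff₀ h0]
  have := X.smCW
  have h2 : 0 ≤ I.x ^ 2 := by positivity
  nlinarith
theorem zlo0 : 0 < π.c1 * I.Y := by
  have := X.c18; have := X.Y0
  positivity
/-- `4 x ≤ zlo/2` -/
theorem x_zlo : 4 * I.x ≤ π.c1 * I.Y / 2 := by
  have := X.c18; have := X.xY; have := X.x0
  nlinarith
theorem R_lo {z : ℝ} (hz : π.c1 * I.Y / 2 ≤ z) : I.x ≤ skwR z := by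
  have := X.x_zlo; have := X.x0
  exact le_min (by linarith) X.x1
theorem b_eq : (l8pD I π).b = I.x ^ π.eps := rfl
theorem b_lo : I.x ≤ I.x ^ π.eps := by
  have := Real.rpow_le_rpow_of_exponent_ge X.x0 X.x1 X.par.eps1
  rwa [Real.rpow_one] at this
theorem b0 : 0 < I.x ^ π.eps := Real.rpow_pos_of_pos X.x0 _
theorem b1 : I.x ^ π.eps ≤ 1 := Real.rpow_le_one X.x0.le X.x1 X.par.eps0.le
/-- the width is at least `x²/CW` -/
theorem hh_lo {z : ℝ} (hz : z ∈ Icc (π.c1 * I.Y / 2) (l8pD I π).zmax) : I.x ^ 2 / S.CW ≤ l8pH I π z := by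
  have h0 : 0 < S.CW := by linarith [X.CW1]
  refine le_trans ?_ (X.inst.wfull.lower z hz)
  apply div_le_div_of_nonneg_right _ h0.le
  have hR := X.R_lo hz.1
  have hR1 := skw_gk_R_le_one z
  have hx := X.x0
  have hR0 : 0 < skwR z := hx.trans_le hR
  refine le_min ?_ ?_
  · rw [X.b_eq]
    have := X.b_lo
    nlinarith
  · rw [le_div_iff₀ hR0]
    have hU : I.x ≤ (l8pD I π).U := X.inst.xU
    have h2 : I.x ^ 2 ≤ (l8pD I π).U ^ 2 := pow_le_pow_left₀ hx.le hU 2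
    have h3 : 0 ≤ I.x ^ 2 := by positivity
    nlinarith
theorem hh_nonneg {z : ℝ} (hz : z ∈ Icc (π.c1 * I.Y / 2) (l8pD I π).zmax) : 0 ≤ l8pH I π z := by
  have h0 : 0 < S.CW := by linarith [X.CW1]
  have := X.x0
  exact le_trans (by positivity) (X.hh_lo hz)
/-- comparison of the width at two points within the mesh -/
theorem hh_cmp {z z' : ℝ} (hz : z ∈ Icc (π.c1 * I.Y / 2) (l8pD I π).zmax) (hz' : z' ∈ Icc (π.c1 * I.Y / 2) (l8pD I π).zmax)
    (h : |z - z'| ≤ I.x ^ 40) : l8pH I π z' ≤ 2 * S.CW * l8pH I π z := by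
  have h0 : 0 < S.CW := by linarith [X.CW1]
  have h1 := X.inst.wfull.qlip z hz z' hz'
  have h2 := X.hh_lo hz
  have h3 : I.x ^ 40 ≤ I.x ^ 3 := X.xpow_le' (by norm_num)
  have h4 := X.x3
  have h5 : l8pH I π z + |z - z'| ≤ 2 * l8pH I π z := by linarith
  calc l8pH I π z' ≤ S.CW * (l8pH I π z + |z - z'|) := h1
    _ ≤ S.CW * (2 * l8pH I π z) := mul_le_mul_of_nonneg_left h5 h0.le
    _ = 2 * S.CW * l8pH I π z := by ring
theorem Z_eq : (l8pD I π).Z = I.Z := rfl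
/-- the envelope in `z` is at least `x³` -/
theorem E_lo {z : ℝ} (hz : z ∈ Icc (π.c1 * I.Y / 2) (l8pD I π).zmax) : I.x ^ 3 ≤ skwE (l8pD I π) (l8pH I π) z := by
  have hx := X.x0
  refine le_min ?_ ?_
  · exact (X.xpow_le (by norm_num)).trans (X.R_lo hz.1)
  · have h1 := X.hh_lo hz
    have h2 := X.x3
    have h3 : (1 : ℝ) ≤ (l8pD I π).Z ^ 2 := one_le_pow₀ X.inst.Z1
    have h4 := X.hh_nonneg hz
    nlinarith
theorem E_nonneg {z : ℝ} (hz : z ∈ Icc (π.c1 * I.Y / 2) (l8pD I π).zmax) : 0 ≤ skwE (l8pD I π) (l8pH I π) z := by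
  have := X.x0
  exact le_trans (by positivity) (X.E_lo hz)
theorem E_cmp {z z' : ℝ} (hz : z ∈ Icc (π.c1 * I.Y / 2) (l8pD I π).zmax) (hz' : z' ∈ Icc (π.c1 * I.Y / 2) (l8pD I π).zmax)
    (h : |z - z'| ≤ I.x ^ 40) (hzz : z' ≤ z) : skwE (l8pD I π) (l8pH I π) z' ≤ 2 * S.CW * skwE (l8pD I π) (l8pH I π) z := by
  have h0 := X.CW1
  have h1 := X.hh_cmp hz hz' h
  have hZ : 0 ≤ (l8pD I π).Z ^ 2 := by positivity
  have hR0 : 0 ≤ skwR z := (X.x0.le).trans (X.R_lo hz.1)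
  unfold skwE
  rw [mul_min_of_nonneg _ _ (by linarith : (0 : ℝ) ≤ 2 * S.CW)]
  refine le_min ?_ ?_
  · refine (min_le_left _ _).trans ((skw_gk_R_mono hzz).trans ?_)
    nlinarith
  · refine (min_le_right _ _).trans ?_
    calc (l8pD I π).Z ^ 2 * l8pH I π z' ≤ (l8pD I π).Z ^ 2 * (2 * S.CW * l8pH I π z) := mul_le_mul_of_nonneg_left h1 hZ
      _ = 2 * S.CW * ((l8pD I π).Z ^ 2 * l8pH I π z) := by ring

/-! ### the mean -/
theorem S_eq {k : ℕ} (hk : k ≤ I.n) : I.S k = (I.sp false).S k := X.inst.Slink k hk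
theorem S_mono {j k : ℕ} (hjk : j ≤ k) (hk : k ≤ I.n) : I.S j ≤ I.S k := by
  rw [X.S_eq hk, X.S_eq (hjk.trans hk)]
  exact (I.sp false).l8s_S_mono X.spOk hjk
theorem S_nonneg {k : ℕ} (hk : k ≤ I.n) : 0 ≤ I.S k := by
  rw [X.S_eq hk]; exact (I.sp false).l8s_S_nonneg k
theorem dS_eq (z : ℝ) : (l8pD I π).S z = I.S (l8pIdx I (l8pV I π z)) := rfl
theorem idx_le (v : ℝ) : l8pIdx I v ≤ I.n := by
  rw [← X.n_eq]; exact List.length_filter_le _ _
theorem S_le_dS {k : ℕ} (hk : k ≤ I.n) {z : ℝ} (hz : z ∈ Icc 0 (l8pD I π).zmax) (h : l8pZc I π k ≤ z) :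
    I.S k ≤ (l8pD I π).S z := by
  rw [X.dS_eq]
  refine X.S_mono ?_ (X.idx_le _)
  refine l8pe_idx_ge X.adm (by rw [X.n_eq]; exact hk) ?_
  rcases Nat.eq_zero_or_pos k with h0 | h0
  · exact Or.inl h0
  · right
    have h1 := X.V_mono.monotoneOn (X.zc_mem k) hz h
    rw [X.V_zc] at h1
    have h2 : l8pVl I k = skMs I.a I.P0 (k - 1) := by
      unfold l8pVl
      rw [if_neg (by omega)]; rfl
    rwa [h2] at h1
theorem dS_le_S {k : ℕ} (hk : k ≤ I.n) {z : ℝ} (hz : z ∈ Icc 0 (l8pD I π).zmax) (h : z < l8pZc I π (k + 1)) :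
    (l8pD I π).S z ≤ I.S k := by
  rw [X.dS_eq]
  refine X.S_mono ?_ hk
  refine l8pe_idx_le X.adm ?_
  have h1 := X.V_mono hz (X.zc_mem (k + 1)) h
  rwa [X.V_zc_succ] at h1

/-! ### the pointwise fields -/
theorem e_lowc {k : ℕ} (h : l8pZc I π k < π.c1 * I.Y) : l8pE I π k = I.Y := if_pos h
theorem e_hic {k : ℕ} (h : π.c1 * I.Y ≤ l8pZc I π k) : l8pE I π k = skwE (l8pD I π) (l8pH I π) (l8pZc I π k) := if_neg (not_lt.2 h)
theorem zc_mem' {k : ℕ} (h : π.c1 * I.Y ≤ l8pZc I π k) : l8pZc I π k ∈ Icc (π.c1 * I.Y / 2) (l8pD I π).zmax :=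
  ⟨by linarith [X.zlo0], (X.zc_mem k).2⟩

theorem lo3 (k : ℕ) : I.x ^ 3 ≤ l8pE I π k := by
  rcases lt_or_ge (l8pZc I π k) (π.c1 * I.Y) with h | h
  · rw [X.e_lowc h]
    exact (X.xpow_le (by norm_num)).trans X.xY
  · rw [X.e_hic h]
    exact X.E_lo (X.zc_mem' h)

theorem e_pos (k : ℕ) : 0 < l8pE I π k := lt_of_lt_of_le (pow_pos X.x0 3) (X.lo3 k)

theorem R_le_V {z : ℝ} (hz : z ∈ Icc 0 (l8pD I π).zmax) : skwR z ≤ l8pV I π z / cv := by
  rw [le_div_iff₀ X.par.cv0]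
  have : cv * skwR z ≤ l8pV I π z := X.inst.vc.lower z hz
  linarith

theorem V_le_R {z : ℝ} (hz : z ∈ Icc 0 (l8pD I π).zmax) : l8pV I π z ≤ skwR z / cv := X.inst.vc.upper z hz

theorem low {k : ℕ} (h : I.v k ≤ I.Y) : l8pE I π k = I.Y := by
  apply X.e_lowc
  have h1 := X.inst.vc.lower _ (X.zc_mem k)
  have h1' : cv * skwR (l8pZc I π k) ≤ l8pV I π (l8pZc I π k) := h1
  rw [X.V_zc] at h1'
  have h2 := X.Vl_le k
  have h3 := X.par.c1
  have h4 := X.zlo16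
  have h5 := X.zlo0
  have hc1 : 0 < π.c1 := by linarith [X.c18]
  have hR0 : 0 ≤ skwR (l8pZc I π k) := le_min (X.zc_mem k).1 zero_le_one
  have h6 : 8 * skwR (l8pZc I π k) ≤ π.c1 * I.Y := by
    calc 8 * skwR (l8pZc I π k) ≤ cv * π.c1 * skwR (l8pZc I π k) := mul_le_mul_of_nonneg_right h3 hR0
      _ = π.c1 * (cv * skwR (l8pZc I π k)) := by ring
      _ ≤ π.c1 * I.Y := mul_le_mul_of_nonneg_left (by linarith) hc1.le
  have h7 : skwR (l8pZc I π k) < 1 := by linarith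
  have h8 : skwR (l8pZc I π k) = l8pZc I π k := by
    unfold skwR at h7 ⊢
    rcases min_choice (l8pZc I π k) 1 with h | h
    · exact h
    · rw [h] at h7; exact absurd h7 (lt_irrefl _)
  rw [h8] at h6
  linarith

theorem cvi : 1 ≤ 1 / cv := by
  rw [le_div_iff₀ X.par.cv0]; linarith [X.par.cv1]

theorem hi {k : ℕ} (h : I.Y ≤ I.v k) : l8pE I π k ≤ 1 / cv * I.v k := by
  have hv := X.v_nonneg k
  have hc := X.cvi
  rcases lt_or_ge (l8pZc I π k) (π.c1 * I.Y) with h' | h'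
  · rw [X.e_lowc h']
    nlinarith
  · rw [X.e_hic h']
    refine (min_le_left _ _).trans ((X.R_le_V (X.zc_mem k)).trans ?_)
    rw [X.V_zc, div_eq_mul_inv, mul_comm, one_div]
    exact mul_le_mul_of_nonneg_left (X.Vl_le k) (inv_nonneg.2 X.par.cv0.le)

theorem zlo_le_zn : π.c1 * I.Y ≤ l8pZc I π I.n := by
  have h1 : S.zreg ≤ l8pZc I π I.n := X.inst.pm.zreg
  have h2 : 16 * (π.c1 * I.Y) ≤ S.zreg := X.inst.pm.zloreg
  linarith [X.zlo0]

theorem dq_le {z : ℝ} (hz : z ∈ Icc 0 (l8pZc I π I.n)) : (l8pD I π).q z ≤ S.Cq * skwR z := X.inst.pm.qr z hz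

theorem dq_nonneg {z : ℝ} (hz : z ∈ Icc 0 (l8pD I π).zmax) : 0 ≤ (l8pD I π).q z := X.wh.q0 z hz

theorem dS_le {z : ℝ} (hz : z ∈ Icc (π.c1 * I.Y / 4) (l8pZc I π I.n)) : (l8pD I π).S z ≤ (π.c.Cf + S.Cq) * skwR z := by
  have h0 := X.zlo0
  have h1 := X.wh.fr z ⟨hz.1, hz.2.trans (X.zc_mem _).2⟩
  have h2 := X.dq_le ⟨by linarith [hz.1], hz.2⟩
  have h3 := le_abs_self (skwF (l8pD I π) z)
  unfold skwF at h3 h1
  linarith

theorem Cfq : 0 ≤ π.c.Cf + S.Cq := by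
  have h1 : 1 ≤ S.c.Cf := X.par.Sok.c.Cf
  rw [X.par.Sc] at h1
  linarith [X.par.Sok.Cq]

theorem S_low {k : ℕ} (hk : k ≤ I.n) (h : l8pZc I π k < π.c1 * I.Y) : I.S k ≤ (π.c.Cf + S.Cq) * (π.c1 * I.Y) := by
  have h0 := X.zlo0
  have hz : π.c1 * I.Y ∈ Icc 0 (l8pD I π).zmax := ⟨h0.le, X.zlo_le_zn.trans (X.zc_mem _).2⟩
  refine (X.S_le_dS hk hz h.le).trans ((X.dS_le ⟨by linarith, X.zlo_le_zn⟩).trans ?_)
  exact mul_le_mul_of_nonneg_left (min_le_left _ _) X.Cfq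

theorem zc_le_zn {k : ℕ} (hk : k ≤ I.n) : l8pZc I π k ≤ l8pZc I π I.n := X.zc_mono hk

theorem s_le {k : ℕ} (hk : k ≤ I.n) : I.S k ≤ (π.c.Cf + S.Cq) * (π.c1 + 1 / cv) * (I.v k + I.Y) := by
  have hv := X.v_nonneg k
  have hY := X.Y0
  have hc := X.cvi
  have hc1 := X.c18
  have hq := X.Cfq
  rcases lt_or_ge (l8pZc I π k) (π.c1 * I.Y) with h | h
  · refine (X.S_low hk h).trans ?_
    rw [mul_assoc]
    apply mul_le_mul_of_nonneg_left _ hq
    nlinarith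
  · have h0 := X.zlo0
    refine (X.S_le_dS hk (X.zc_mem k) le_rfl).trans ((X.dS_le ⟨by linarith, X.zc_le_zn hk⟩).trans ?_)
    rw [mul_assoc]
    apply mul_le_mul_of_nonneg_left _ hq
    refine (X.R_le_V (X.zc_mem k)).trans ?_
    rw [X.V_zc]
    have h1 := X.Vl_le k
    have h2 : l8pVl I k / cv ≤ I.v k / cv := div_le_div_of_nonneg_right h1 X.par.cv0.le
    have h3 : I.v k / cv = 1 / cv * I.v k := by ring
    nlinarith

theorem ql {k : ℕ} (hk : k ≤ I.n) : |I.q k - (l8pD I π).q (l8pZc I π k)| ≤ I.x ^ 40 := X.inst.qlink k hk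

theorem f_low {k : ℕ} (hk : k ≤ I.n) (h : l8pZc I π k < π.c1 * I.Y) :
    |I.f k| ≤ ((π.c.Cf + 2 * S.Cq) * π.c1 + 1) * l8pE I π k := by
  rw [X.e_lowc h]
  have h1 := X.S_low hk h
  have h2 := X.S_nonneg hk
  have h3 := abs_le.1 (X.ql hk)
  have h4 := X.dq_nonneg (X.zc_mem k)
  have h5 := X.dq_le ⟨(X.zc_mem k).1, X.zc_le_zn hk⟩
  have hCq : 0 ≤ S.Cq := by linarith [X.par.Sok.Cq]
  have h6 : S.Cq * skwR (l8pZc I π k) ≤ S.Cq * (π.c1 * I.Y) :=
    mul_le_mul_of_nonneg_left ((min_le_left _ _).trans h.le) hCq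
  have h7 : I.x ^ 40 ≤ I.Y := (X.xpow_le (by norm_num)).trans X.xY
  unfold L8In.f
  rw [abs_le]
  constructor <;> nlinarith

theorem f_high {k : ℕ} (hk : k ≤ I.n) (h : π.c1 * I.Y ≤ l8pZc I π k) :
    |I.f k| ≤ (2 * S.CW ^ 2 + 1) / I.x ^ π.eps * l8pE I π k := by
  rw [X.e_hic h]
  have hx := X.x0
  have hb0 := X.b0
  have hb1 := X.b1
  have hCW := X.CW1
  have hz := X.zc_mem' h
  set z := l8pZc I π k with hzdef
  set E := skwE (l8pD I π) (l8pH I π) z with hE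
  have hE3 : I.x ^ 3 ≤ E := X.E_lo hz
  have hx40 : I.x ^ 40 ≤ I.x := X.xpow_le (by norm_num)
  have hzlo := X.x_zlo
  -- the point below
  have hz' : z - I.x ^ 40 ∈ Icc (π.c1 * I.Y / 2) (l8pD I π).zmax := ⟨by linarith [X.zlo0], by linarith [hz.2, pow_pos hx 40]⟩
  have hz'0 : z - I.x ^ 40 ∈ Icc 0 (l8pD I π).zmax := ⟨by linarith [hz'.1, X.zlo0], hz'.2⟩
  have habs : |z - (z - I.x ^ 40)| ≤ I.x ^ 40 := by
    rw [sub_sub_cancel, abs_of_pos (pow_pos hx 40)]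
  have hEc := X.E_cmp hz hz' habs (by linarith [pow_pos hx 40])
  have hd1 := X.inst.wfull.dev z hz
  have hd2 := X.inst.wfull.dev _ hz'
  have hq := abs_le.1 (X.ql hk)
  have hql := abs_le.1 (X.wh.qlip z (X.zc_mem k) _ hz'0)
  rw [sub_sub_cancel, abs_of_pos (pow_pos hx 40)] at hql
  have hLq : π.c.Lq = S.c.Lq := by rw [X.par.Sc]
  rw [hLq] at hql
  have hS1 := X.S_le_dS hk (X.zc_mem k) le_rfl
  have hS2 := X.dS_le_S hk hz'0 (lt_of_lt_of_le (by linarith [pow_pos hx 40]) (X.zc_mono (Nat.le_succ k)))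
  rw [← hzdef] at hq hS1
  -- the additive errors
  have herr : (1 + S.c.Lq) * I.x ^ 40 ≤ E := by
    have e1 : (1 + S.c.Lq) * I.x ^ 40 = (1 + S.c.Lq) * I.x * I.x ^ 39 := by ring
    have e2 : I.x ^ 39 ≤ I.x ^ 3 := X.xpow_le' (by norm_num)
    have e3 : 0 ≤ I.x ^ 39 := by positivity
    have e4 := X.smLq
    rw [e1]
    nlinarith
  have hE0 : 0 ≤ E := le_trans (by positivity) hE3
  rw [X.b_eq] at hd1 hd2
  have hd1' := abs_le.1 hd1
  have hd2' := abs_le.1 hd2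
  unfold skwF at hd1' hd2'
  -- constants
  have k1 : S.CW * E / I.x ^ π.eps ≤ 2 * S.CW ^ 2 * E / I.x ^ π.eps := by
    apply div_le_div_of_nonneg_right _ hb0.le
    exact mul_le_mul_of_nonneg_right (by nlinarith) hE0
  have k2 : S.CW * skwE (l8pD I π) (l8pH I π) (z - I.x ^ 40) / I.x ^ π.eps ≤ 2 * S.CW ^ 2 * E / I.x ^ π.eps := by
    apply div_le_div_of_nonneg_right _ hb0.le
    calc S.CW * skwE (l8pD I π) (l8pH I π) (z - I.x ^ 40) ≤ S.CW * (2 * S.CW * E) := mul_le_mul_of_nonneg_left hEc (by linarith)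
      _ = 2 * S.CW ^ 2 * E := by ring
  have k3 : E ≤ E / I.x ^ π.eps := by
    rw [le_div_iff₀ hb0]; nlinarith
  have k4 : (2 * S.CW ^ 2 + 1) / I.x ^ π.eps * E = 2 * S.CW ^ 2 * E / I.x ^ π.eps + E / I.x ^ π.eps := by ring
  rw [k4]
  have hLq0 : 0 ≤ S.c.Lq := by linarith [X.Lq1]
  have hx40' : 0 < I.x ^ 40 := pow_pos hx 40
  unfold L8In.f
  rw [abs_le]
  constructor
  · nlinarith
  · nlinarith

/-! ### (D1) on the chain, by the definition of `Z` -/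
theorem a1 : 1 ≤ I.a := by rw [X.a_eq]; exact X.ok.pt.ell1
theorem a2 : I.a ≤ 2 := by
  rw [X.a_eq]
  refine X.ok.pt.ell2.trans ?_
  calc (2 : ℝ) ^ (1 / 6 : ℝ) ≤ (2 : ℝ) ^ (1 : ℝ) := Real.rpow_le_rpow_of_exponent_le (by norm_num) (by norm_num)
    _ = 2 := Real.rpow_one 2
theorem B_eq {k : ℕ} (hk : k ≤ I.n) : I.B k = (I.sp false).B k :=
  (l8i_B I.m I.a (by linarith [X.a1]) I.P0 X.adm k (by rw [X.n_eq]; exact hk)).symm
theorem f_sq_le_A {k : ℕ} (hk : k ≤ I.n) : I.f k ^ 2 ≤ I.A k := by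
  have h1 := (bud_bm_sq_L2_parts (I.sp false) X.spOk k).1
  unfold L8P.D2 at h1
  rw [← X.B_eq hk, ← X.S_eq hk] at h1
  unfold L8In.f L8In.A
  nlinarith
theorem A_nonneg {k : ℕ} (hk : k ≤ I.n) : 0 ≤ I.A k := (sq_nonneg _).trans (X.f_sq_le_A hk)
theorem int_A_nonneg (lo hi : ℝ) : 0 ≤ I.int lo hi I.A := by
  unfold L8In.int
  refine Finset.sum_nonneg fun k hk => ?_
  have hk' : k ≤ I.n := Nat.lt_succ_iff.1 (Finset.mem_range.1 (Finset.mem_filter.1 hk).1)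
  exact mul_nonneg (X.dv_nonneg k) (X.A_nonneg hk')
theorem dy_pos (j : ℕ) : 0 < L8In.dy j := by unfold L8In.dy; positivity
theorem bud_term_nonneg (j : ℕ) :
    0 ≤ (if I.U ≤ L8In.dy j then L8In.dy j * I.int (L8In.dy j / 4) (4 * L8In.dy j) I.A else 0) := by
  split_ifs
  · exact mul_nonneg (X.dy_pos j).le (X.int_A_nonneg _ _)
  · exact le_rfl
theorem bud_nonneg : 0 ≤ I.bud := Finset.sum_nonneg fun j _ => X.bud_term_nonneg j
theorem bud_le : I.bud ≤ I.Y ^ 4 := by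
  have hU := X.U0
  have hb := X.bud_nonneg
  have h0 : 0 ≤ I.bud / I.U ^ 4 := by positivity
  have h1 : (I.Z - 1) ^ 4 = I.bud / I.U ^ 4 := by
    have : I.Z - 1 = (I.bud / I.U ^ 4) ^ (1 / 4 : ℝ) := by unfold L8In.Z; ring
    rw [this, ← Real.rpow_natCast, ← Real.rpow_mul h0]
    norm_num
  have h2 : (I.Z - 1) ^ 4 ≤ I.Z ^ 4 := pow_le_pow_left₀ (by linarith [X.inst.Z1]) (by linarith) 4
  have h3 : I.bud = I.U ^ 4 * (I.Z - 1) ^ 4 := by
    rw [h1]; field_simp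
  rw [h3]
  unfold L8In.Y
  rw [mul_pow]
  exact mul_le_mul_of_nonneg_left h2 (by positivity)
theorem dy_succ (j : ℕ) : L8In.dy j = 2 * L8In.dy (j + 1) := by
  unfold L8In.dy; rw [pow_succ]; ring
theorem dy_anti {i j : ℕ} (h : i ≤ j) : L8In.dy j ≤ L8In.dy i := by
  unfold L8In.dy
  exact mul_le_mul_of_nonneg_left (pow_le_pow_of_le_one (by norm_num) (by norm_num) h) (by norm_num)
theorem dy_small : L8In.dy (I.p.N + 3) < I.x := by
  have hN : 2 ≤ I.p.N := X.ok.pt.N2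
  have hN0 : (0 : ℝ) < I.p.N := by exact_mod_cast (by omega : 0 < I.p.N)
  have hN1 : (1 : ℝ) ≤ I.p.N := by exact_mod_cast (by omega : 1 ≤ I.p.N)
  have h1 : (I.p.N : ℝ) ^ (-1 : ℝ) ≤ I.x := by
    show (I.p.N : ℝ) ^ (-1 : ℝ) ≤ (I.p.N : ℝ) ^ (-(1 / 6) : ℝ)
    exact Real.rpow_le_rpow_of_exponent_le hN1 (by norm_num)
  rw [Real.rpow_neg_one] at h1
  refine lt_of_lt_of_le ?_ h1
  have h2 : (I.p.N : ℝ) < 2 ^ I.p.N := by exact_mod_cast Nat.lt_two_pow_self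
  have h3 : L8In.dy (I.p.N + 3) = ((2 : ℝ) ^ I.p.N * 2)⁻¹ := by
    unfold L8In.dy
    rw [pow_add, inv_pow, inv_pow, mul_inv]
    norm_num
    ring
  rw [h3]
  apply inv_strictAnti₀ hN0
  have : (0 : ℝ) < 2 ^ I.p.N := by positivity
  linarith
/-- the dyadic mass attached to a band -/
theorem dy_choice {r : ℝ} (h1 : I.U ≤ r) (h2 : r ≤ I.a) : ∃ j, j < I.p.N + 3 ∧ r ≤ L8In.dy j ∧ L8In.dy j ≤ 2 * r := by
  have hr : I.x ≤ r := X.inst.xU.trans h1
  have hex : ∃ j, L8In.dy (j + 1) < r := ⟨I.p.N + 2, lt_of_lt_of_le X.dy_small hr⟩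
  classical
  let j := Nat.find hex
  have hj : L8In.dy (j + 1) < r := Nat.find_spec hex
  have hj' : r ≤ L8In.dy j := by
    rcases Nat.eq_zero_or_pos j with h0 | h0
    · rw [h0]
      have : L8In.dy 0 = 4 := by unfold L8In.dy; norm_num
      rw [this]; linarith [X.a2]
    · have := Nat.find_min hex (m := j - 1) (by omega)
      rw [Nat.sub_add_cancel h0] at this
      exact not_lt.1 this
  refine ⟨j, ?_, hj', ?_⟩
  · by_contra hc
    push Not at hc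
    have := X.dy_anti hc
    linarith [X.dy_small]
  · rw [X.dy_succ j]; linarith
theorem d1 {r : ℝ} (h1 : I.U ≤ r) (h2 : r ≤ I.a) : I.band r (fun k => I.f k ^ 2) ≤ r * (I.Y ^ 4 / r ^ 2) := by
  have hr : 0 < r := X.U0.trans_le h1
  obtain ⟨j, hj, hj1, hj2⟩ := X.dy_choice h1 h2
  have hu := X.dy_pos j
  have e1 : I.band r (fun k => I.f k ^ 2) ≤ I.int (L8In.dy j / 4) (4 * L8In.dy j) I.A := by
    unfold L8In.band L8In.int
    calc ∑ k ∈ (Finset.range (I.n + 1)).filter (fun k => r ≤ I.v k ∧ I.v k ≤ 2 * r), I.dv k * I.f k ^ 2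
        ≤ ∑ k ∈ (Finset.range (I.n + 1)).filter (fun k => r ≤ I.v k ∧ I.v k ≤ 2 * r), I.dv k * I.A k := by
          refine Finset.sum_le_sum fun k hk => ?_
          have hk' : k ≤ I.n := Nat.lt_succ_iff.1 (Finset.mem_range.1 (Finset.mem_filter.1 hk).1)
          exact mul_le_mul_of_nonneg_left (X.f_sq_le_A hk') (X.dv_nonneg k)
      _ ≤ ∑ k ∈ (Finset.range (I.n + 1)).filter (fun k => L8In.dy j / 4 ≤ I.v k ∧ I.v k ≤ 4 * L8In.dy j), I.dv k * I.A k := by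
          refine Finset.sum_le_sum_of_subset_of_nonneg ?_ ?_
          · intro k hk
            rw [Finset.mem_filter] at hk ⊢
            exact ⟨hk.1, by linarith [hk.2.1], by linarith [hk.2.2]⟩
          · intro k hk _
            have hk' : k ≤ I.n := Nat.lt_succ_iff.1 (Finset.mem_range.1 (Finset.mem_filter.1 hk).1)
            exact mul_nonneg (X.dv_nonneg k) (X.A_nonneg hk')
  have e2 : L8In.dy j * I.int (L8In.dy j / 4) (4 * L8In.dy j) I.A ≤ I.bud := by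
    have := Finset.single_le_sum (f := fun j => if I.U ≤ L8In.dy j then L8In.dy j * I.int (L8In.dy j / 4) (4 * L8In.dy j) I.A else 0)
      (fun i _ => X.bud_term_nonneg i) (Finset.mem_range.2 hj)
    simp only [if_pos (h1.trans hj1)] at this
    exact this
  have e3 := X.bud_le
  have e4 := X.int_A_nonneg (L8In.dy j / 4) (4 * L8In.dy j)
  have e5 : r * I.int (L8In.dy j / 4) (4 * L8In.dy j) I.A ≤ I.Y ^ 4 := by nlinarith
  have e6 : r * (I.Y ^ 4 / r ^ 2) = I.Y ^ 4 / r := by field_simp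
  rw [e6, le_div_iff₀ hr]
  nlinarith

/-! ### the budget -/
theorem G_nonneg {z : ℝ} (hz : z ∈ Icc 0 (l8pD I π).zmax) : 0 ≤ (l8pD I π).G z := X.wh.G0 z hz
theorem dv_int (k : ℕ) : I.dv k = ∫ z in (l8pZc I π k)..(l8pZc I π (k + 1)), (l8pD I π).G z := by
  have h := X.inst.vc.mass _ (X.zc_mem k) _ (X.zc_mem (k + 1))
  have h' : ∫ z in (l8pZc I π k)..(l8pZc I π (k + 1)), (l8pD I π).G z
      = l8pV I π (l8pZc I π (k + 1)) - l8pV I π (l8pZc I π k) := h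
  rw [h', X.V_zc_succ, X.V_zc, X.dv_eq]
theorem hh_le {z : ℝ} (hz : z ∈ Icc (π.c1 * I.Y / 2) (l8pD I π).zmax) : l8pH I π z ≤ S.CW := by
  have h1 := X.inst.wfull.upper z hz
  have h2 := skw_gk_R_le_one z
  have h3 := X.CW1
  nlinarith
theorem F_int {α β : ℝ} (h1 : π.c1 * I.Y / 2 ≤ α) (h2 : α ≤ β) (h3 : β ≤ (l8pD I π).zmax) :
    IntervalIntegrable (fun z => (l8pD I π).G z * l8pH I π z ^ 2) volume α β :=
  skw_gd_int X.wh (l8pH I π) S.CW (a0 := π.c1 * I.Y / 2) (b0 := (l8pD I π).zmax) (by linarith [X.zlo0]) le_rfl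
    X.inst.wfull.meas (fun z hz => by rw [abs_of_nonneg (X.hh_nonneg hz)]; exact X.hh_le hz) h1 h2 h3
theorem G_int {α β : ℝ} (h1 : 0 ≤ α) (h2 : α ≤ β) (h3 : β ≤ (l8pD I π).zmax) :
    IntervalIntegrable (l8pD I π).G volume α β := by
  apply X.wh.Gi.mono_set
  rw [uIcc_of_le h2, uIcc_of_le X.zmax0]
  exact Icc_subset_Icc h1 h3
theorem F_nonneg {z : ℝ} (hz : z ∈ Icc 0 (l8pD I π).zmax) : 0 ≤ (l8pD I π).G z * l8pH I π z ^ 2 :=
  mul_nonneg (X.G_nonneg hz) (sq_nonneg _)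
/-- one cell -/
theorem cell {k : ℕ} (hk : k ≤ I.n) (h : π.c1 * I.Y ≤ l8pZc I π k) :
    I.dv k * l8pH I π (l8pZc I π k) ^ 2
      ≤ 4 * S.CW ^ 2 * ∫ z in (l8pZc I π k)..(l8pZc I π (k + 1)), (l8pD I π).G z * l8pH I π z ^ 2 := by
  have hle : l8pZc I π k ≤ l8pZc I π (k + 1) := X.zc_mono (Nat.le_succ k)
  have h0 := X.zlo0
  rw [X.dv_int k, ← intervalIntegral.integral_mul_const, ← intervalIntegral.integral_const_mul]
  refine intervalIntegral.integral_mono_on hle ((X.G_int (X.zc_mem k).1 hle (X.zc_mem _).2).mul_const _)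
    ((X.F_int (by linarith) hle (X.zc_mem _).2).const_mul _) ?_
  intro z hz
  have hz1 : z ∈ Icc (π.c1 * I.Y / 2) (l8pD I π).zmax := ⟨by linarith [hz.1], hz.2.trans (X.zc_mem _).2⟩
  have hz0 : z ∈ Icc 0 (l8pD I π).zmax := ⟨by linarith [hz1.1], hz1.2⟩
  have hm := X.mesh hk
  have habs : |z - l8pZc I π k| ≤ I.x ^ 40 := by
    rw [abs_of_nonneg (by linarith [hz.1])]; linarith [hz.2]
  have hc := X.hh_cmp hz1 (X.zc_mem' h) habs
  have hn := X.hh_nonneg (X.zc_mem' h)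
  have hsq : l8pH I π (l8pZc I π k) ^ 2 ≤ (2 * S.CW * l8pH I π z) ^ 2 := pow_le_pow_left₀ hn hc 2
  calc (l8pD I π).G z * l8pH I π (l8pZc I π k) ^ 2 ≤ (l8pD I π).G z * (2 * S.CW * l8pH I π z) ^ 2 :=
        mul_le_mul_of_nonneg_left hsq (X.G_nonneg hz0)
    _ = 4 * S.CW ^ 2 * ((l8pD I π).G z * l8pH I π z ^ 2) := by ring
/-- disjoint cells above `z₁` -/
theorem cells_le {z₁ : ℝ} (h1 : π.c1 * I.Y ≤ z₁) (h2 : z₁ ≤ (l8pD I π).zmax) (s : Finset ℕ) (hs : s ⊆ Finset.range (I.n + 1))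
    (hz : ∀ k ∈ s, z₁ ≤ l8pZc I π k) :
    ∑ k ∈ s, ∫ z in (l8pZc I π k)..(l8pZc I π (k + 1)), (l8pD I π).G z * l8pH I π z ^ 2
      ≤ ∫ z in z₁..(l8pD I π).zmax, (l8pD I π).G z * l8pH I π z ^ 2 := by
  have h0 := X.zlo0
  set t : ℕ → ℝ := fun k => max (l8pZc I π k) z₁ with ht
  have htm : Monotone t := fun i j hij => max_le_max_right _ (X.zc_mono hij)
  have htlo : ∀ k, z₁ ≤ t k := fun k => le_max_right _ _
  have hthi : ∀ k, t k ≤ (l8pD I π).zmax := fun k => max_le (X.zc_mem k).2 h2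
  have hint : ∀ k, IntervalIntegrable (fun z => (l8pD I π).G z * l8pH I π z ^ 2) volume (t k) (t (k + 1)) :=
    fun k => X.F_int (by linarith [htlo k]) (htm (Nat.le_succ k)) (hthi _)
  have hsum := intervalIntegral.sum_integral_adjacent_intervals (μ := volume) (a := t) (n := I.n + 1) (fun k _ => hint k)
  have ht0 : t 0 = z₁ := by
    have : l8pZc I π 0 = 0 := X.inst.pm.z0
    simp only [ht, this]
    exact max_eq_right (by linarith)
  have htn : t (I.n + 1) = (l8pD I π).zmax := by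
    simp only [ht, X.zc_top]
    exact max_eq_left h2
  rw [ht0, htn] at hsum
  rw [← hsum]
  calc ∑ k ∈ s, ∫ z in (l8pZc I π k)..(l8pZc I π (k + 1)), (l8pD I π).G z * l8pH I π z ^ 2
      = ∑ k ∈ s, ∫ z in (t k)..(t (k + 1)), (l8pD I π).G z * l8pH I π z ^ 2 := by
        refine Finset.sum_congr rfl fun k hk => ?_
        have e1 : t k = l8pZc I π k := max_eq_left (hz k hk)
        have e2 : t (k + 1) = l8pZc I π (k + 1) := max_eq_left ((hz k hk).trans (X.zc_mono (Nat.le_succ k)))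
        rw [e1, e2]
    _ ≤ ∑ k ∈ Finset.range (I.n + 1), ∫ z in (t k)..(t (k + 1)), (l8pD I π).G z * l8pH I π z ^ 2 := by
        refine Finset.sum_le_sum_of_subset_of_nonneg hs fun k _ _ => ?_
        refine intervalIntegral.integral_nonneg (htm (Nat.le_succ k)) fun z hz' => ?_
        exact X.F_nonneg ⟨by linarith [hz'.1, htlo k], hz'.2.trans (hthi _)⟩
theorem L_nonneg : 0 ≤ skwL (l8pD I π) := by linarith [skw_gd_L_one X.wh]
theorem Cp1 : 1 ≤ π.c.Cp := by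
  have := X.par.Sok.c.Cp
  rwa [X.par.Sc] at this
/-- the tail of the budget -/
theorem tail {z₁ : ℝ} (h1 : π.c1 * I.Y ≤ z₁) (h2 : z₁ ≤ (l8pD I π).zmax) :
    ∫ z in z₁..(l8pD I π).zmax, (l8pD I π).G z * l8pH I π z ^ 2
      ≤ 2 * (π.c.Cp * (S.CW * skwL (l8pD I π) * I.U ^ 4)) / z₁ := by
  have h0 := X.zlo0
  have hM : 0 ≤ S.CW * skwL (l8pD I π) * I.U ^ 4 :=
    mul_nonneg (mul_nonneg (by linarith [X.CW1]) X.L_nonneg) (pow_nonneg X.U0.le 4)
  have hCp := X.Cp1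
  refine skw_leaf_inTail (fun z => (l8pD I π).G z * l8pH I π z ^ 2) (π.c1 * I.Y) (l8pD I π).zmax _ h0 (h1.trans h2)
    (mul_nonneg (by linarith) hM) (fun z hz => X.F_nonneg ⟨by linarith [hz.1], hz.2⟩)
    (X.F_int (by linarith) (h1.trans h2) le_rfl) ?_ z₁ ⟨h1, h2⟩
  intro ρ hρ
  have hb := X.inst.wfull.budget ρ hρ
  have hρ0 : 0 < ρ := lt_of_lt_of_le h0 hρ.1
  have hR := skw_gk_R_pos hρ0
  have hρR : ρ ≤ π.c.Cp * skwR ρ := by
    unfold skwR
    rcases le_total ρ 1 with h | h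
    · rw [min_eq_left h]; nlinarith
    · rw [min_eq_right h, mul_one]; exact hρ.2.trans X.inst.plat.len_hi
  have hb' : ∫ z in ρ..(min (2 * ρ) (l8pD I π).zmax), (l8pD I π).G z * l8pH I π z ^ 2
      ≤ S.CW * skwL (l8pD I π) * I.U ^ 4 / skwR ρ := hb
  calc ρ * ∫ z in ρ..(min (2 * ρ) (l8pD I π).zmax), (l8pD I π).G z * l8pH I π z ^ 2
      ≤ ρ * (S.CW * skwL (l8pD I π) * I.U ^ 4 / skwR ρ) := mul_le_mul_of_nonneg_left hb' hρ0.le
    _ = ρ / skwR ρ * (S.CW * skwL (l8pD I π) * I.U ^ 4) := by ring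
    _ ≤ π.c.Cp * (S.CW * skwL (l8pD I π) * I.U ^ 4) := by
        apply mul_le_mul_of_nonneg_right _ hM
        rw [div_le_iff₀ hR]; exact hρR
/-- mass of the cuts of mass `≤ w` -/
theorem mass_le {w : ℝ} (hw : 0 ≤ w) (s : Finset ℕ) (hs : s ⊆ Finset.range (I.n + 1)) (hv : ∀ k ∈ s, I.v k ≤ w) :
    ∑ k ∈ s, I.dv k ≤ w := by
  have hVm : ∀ k, l8pVl I k ≤ l8pVl I (k + 1) := fun k => by rw [X.Vl_succ]; exact X.Vl_le k
  have hsum := Finset.sum_range_sub (fun k => min (l8pVl I k) w) (I.n + 1)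
  have h0 : l8pVl I 0 = 0 := by simp [l8pVl]
  calc ∑ k ∈ s, I.dv k = ∑ k ∈ s, (min (l8pVl I (k + 1)) w - min (l8pVl I k) w) := by
        refine Finset.sum_congr rfl fun k hk => ?_
        have e1 := hv k hk
        rw [X.Vl_succ, min_eq_left e1, min_eq_left ((X.Vl_le k).trans e1), X.dv_eq]
    _ ≤ ∑ k ∈ Finset.range (I.n + 1), (min (l8pVl I (k + 1)) w - min (l8pVl I k) w) := by
        refine Finset.sum_le_sum_of_subset_of_nonneg hs fun k _ _ => ?_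
        exact sub_nonneg.2 (min_le_min_right _ (hVm k))
    _ = min (l8pVl I (I.n + 1)) w - min (l8pVl I 0) w := hsum
    _ ≤ w := by
        rw [h0, min_eq_left hw, sub_zero]; exact min_le_right _ _

theorem dv_le {k : ℕ} (hk : k ≤ I.n) : I.dv k ≤ I.x ^ 40 := X.inst.fine.dv_le k hk
theorem x40 : 2 * I.x ^ 40 ≤ I.x := by
  have e1 : 2 * I.x ^ 40 = 2 * I.x * I.x ^ 39 := by ring
  have e2 : I.x ^ 39 ≤ I.x := X.xpow_le (by norm_num)
  have e3 := X.sm2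
  have e4 := X.x0
  have e5 : 0 ≤ I.x ^ 39 := by positivity
  rw [e1]; nlinarith
/-- low part of a band -/
theorem bud_low {r : ℝ} (h1 : I.Y ≤ r) (s : Finset ℕ) (hs : s ⊆ Finset.range (I.n + 1))
    (hv : ∀ k ∈ s, r ≤ I.v k ∧ I.v k ≤ 2 * r) (hz : ∀ k ∈ s, l8pZc I π k < π.c1 * I.Y) :
    ∑ k ∈ s, I.dv k * l8pE I π k ^ 2 ≤ 8 * π.c1 ^ 2 / cv ^ 2 * (I.Y ^ 4 / r) := by
  have hY := X.Y0
  have hr : 0 < r := hY.trans_le h1
  have hcv := X.par.cv0
  have h0 := X.zlo0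
  set w : ℝ := 2 * (π.c1 * I.Y) / cv with hw
  have hw0 : 0 < w := by positivity
  have hrw : ∀ k ∈ s, r ≤ w := by
    intro k hk
    have hk' : k ≤ I.n := Nat.lt_succ_iff.1 (Finset.mem_range.1 (hs hk))
    refine (hv k hk).1.trans ?_
    rw [← X.V_zc_succ k]
    refine (X.V_le_R (X.zc_mem _)).trans ?_
    apply div_le_div_of_nonneg_right _ hcv.le
    refine (min_le_left _ _).trans ?_
    have e1 := X.mesh hk'
    have e2 := hz k hk
    have e3 := X.x40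
    have e4 := X.x_zlo
    have e5 := X.x0
    linarith
  have hterm : ∀ k ∈ s, I.dv k * l8pE I π k ^ 2 ≤ I.Y ^ 2 * w ^ 2 / r ^ 2 * I.dv k := by
    intro k hk
    rw [X.e_lowc (hz k hk), mul_comm]
    apply mul_le_mul_of_nonneg_right _ (X.dv_nonneg k)
    rw [le_div_iff₀ (by positivity)]
    have : r ^ 2 ≤ w ^ 2 := pow_le_pow_left₀ hr.le (hrw k hk) 2
    exact mul_le_mul_of_nonneg_left this (by positivity)
  refine (Finset.sum_le_sum hterm).trans ?_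
  rw [← Finset.mul_sum]
  have hm := X.mass_le (w := 2 * r) (by linarith) s hs fun k hk => (hv k hk).2
  calc I.Y ^ 2 * w ^ 2 / r ^ 2 * ∑ k ∈ s, I.dv k ≤ I.Y ^ 2 * w ^ 2 / r ^ 2 * (2 * r) :=
        mul_le_mul_of_nonneg_left hm (by positivity)
    _ = 8 * π.c1 ^ 2 / cv ^ 2 * (I.Y ^ 4 / r) := by
        rw [hw]; field_simp; ring
/-- high part of a band -/
theorem bud_high {r : ℝ} (h1 : I.Y ≤ r) (h2 : r ≤ I.a) (s : Finset ℕ) (hs : s ⊆ Finset.range (I.n + 1))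
    (hv : ∀ k ∈ s, r ≤ I.v k) (hz : ∀ k ∈ s, π.c1 * I.Y ≤ l8pZc I π k) :
    ∑ k ∈ s, I.dv k * l8pE I π k ^ 2 ≤ 16 * S.CW ^ 3 * π.c.Cp / cv * skwL (l8pD I π) * (I.Y ^ 4 / r) := by
  have hY := X.Y0
  have hr : 0 < r := hY.trans_le h1
  have hcv := X.par.cv0
  have h0 := X.zlo0
  have hCW := X.CW1
  have hZ : 0 ≤ I.Z ^ 4 := by positivity
  set z₁ : ℝ := max (π.c1 * I.Y) (cv * r / 2) with hz1
  have hz1lo : π.c1 * I.Y ≤ z₁ := le_max_left _ _
  have hz1r : cv * r / 2 ≤ z₁ := le_max_right _ _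
  have hz1pos : 0 < z₁ := h0.trans_le hz1lo
  -- `cv r ≤ zmax`
  have hzm : cv * r ≤ (l8pD I π).zmax := by
    have e1 := X.V_le_R (z := (l8pD I π).zmax) ⟨X.zmax0, le_rfl⟩
    have e2 : l8pV I π (l8pD I π).zmax = I.p.ell := X.inst.vc.vmax
    rw [e2, ← X.a_eq, le_div_iff₀ hcv] at e1
    have e3 : skwR (l8pD I π).zmax ≤ (l8pD I π).zmax := min_le_left _ _
    nlinarith
  have hz1hi : z₁ ≤ (l8pD I π).zmax := max_le (X.zlo_le_zn.trans (X.zc_mem _).2) (by nlinarith)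
  have hzz : ∀ k ∈ s, z₁ ≤ l8pZc I π k := by
    intro k hk
    have hk' : k ≤ I.n := Nat.lt_succ_iff.1 (Finset.mem_range.1 (hs hk))
    refine max_le (hz k hk) ?_
    have e1 := X.V_le_R (X.zc_mem k)
    rw [X.V_zc, le_div_iff₀ hcv] at e1
    have e2 : skwR (l8pZc I π k) ≤ l8pZc I π k := min_le_left _ _
    have e3 := X.dv_le hk'
    rw [X.dv_eq] at e3
    have e4 := hv k hk
    have e5 := X.x40
    have e6 := X.xY
    have e7 : r / 2 ≤ l8pVl I k := by linarith [X.x0]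
    nlinarith
  have hterm : ∀ k ∈ s, I.dv k * l8pE I π k ^ 2
      ≤ I.Z ^ 4 * (4 * S.CW ^ 2) * ∫ z in (l8pZc I π k)..(l8pZc I π (k + 1)), (l8pD I π).G z * l8pH I π z ^ 2 := by
    intro k hk
    have hk' : k ≤ I.n := Nat.lt_succ_iff.1 (Finset.mem_range.1 (hs hk))
    have e1 := X.cell hk' (hz k hk)
    have e2 : l8pE I π k ≤ I.Z ^ 2 * l8pH I π (l8pZc I π k) := by
      rw [X.e_hic (hz k hk)]; exact min_le_right _ _
    have e3 : l8pE I π k ^ 2 ≤ (I.Z ^ 2 * l8pH I π (l8pZc I π k)) ^ 2 := pow_le_pow_left₀ (X.e_pos k).le e2 2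
    calc I.dv k * l8pE I π k ^ 2 ≤ I.dv k * (I.Z ^ 2 * l8pH I π (l8pZc I π k)) ^ 2 :=
          mul_le_mul_of_nonneg_left e3 (X.dv_nonneg k)
      _ = I.Z ^ 4 * (I.dv k * l8pH I π (l8pZc I π k) ^ 2) := by ring
      _ ≤ I.Z ^ 4 * (4 * S.CW ^ 2 * ∫ z in (l8pZc I π k)..(l8pZc I π (k + 1)), (l8pD I π).G z * l8pH I π z ^ 2) :=
          mul_le_mul_of_nonneg_left e1 hZ
      _ = _ := by ring
  refine (Finset.sum_le_sum hterm).trans ?_
  rw [← Finset.mul_sum]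
  have hc := (X.cells_le hz1lo hz1hi s hs hzz).trans (X.tail hz1lo hz1hi)
  have hM : 0 ≤ π.c.Cp * (S.CW * skwL (l8pD I π) * I.U ^ 4) :=
    mul_nonneg (by linarith [X.Cp1]) (mul_nonneg (mul_nonneg (by linarith) X.L_nonneg) (pow_nonneg X.U0.le 4))
  have hdiv : 2 * (π.c.Cp * (S.CW * skwL (l8pD I π) * I.U ^ 4)) / z₁
      ≤ 2 * (π.c.Cp * (S.CW * skwL (l8pD I π) * I.U ^ 4)) / (cv * r / 2) :=
    div_le_div_of_nonneg_left (by linarith) (by positivity) hz1r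
  calc I.Z ^ 4 * (4 * S.CW ^ 2) * ∑ k ∈ s, ∫ z in (l8pZc I π k)..(l8pZc I π (k + 1)), (l8pD I π).G z * l8pH I π z ^ 2
      ≤ I.Z ^ 4 * (4 * S.CW ^ 2) * (2 * (π.c.Cp * (S.CW * skwL (l8pD I π) * I.U ^ 4)) / (cv * r / 2)) :=
        mul_le_mul_of_nonneg_left (hc.trans hdiv) (by positivity)
    _ = 16 * S.CW ^ 3 * π.c.Cp / cv * skwL (l8pD I π) * (I.Y ^ 4 / r) := by
        unfold L8In.Y; field_simp; ring
theorem bud {r : ℝ} (h1 : I.Y ≤ r) (h2 : r ≤ I.a) :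
    I.band r (fun k => l8pE I π k ^ 2)
      ≤ (8 * π.c1 ^ 2 / cv ^ 2 + 16 * S.CW ^ 3 * π.c.Cp / cv * skwL (l8pD I π)) * (r * (I.Y ^ 2 / r) ^ 2) := by
  have hr : 0 < r := X.Y0.trans_le h1
  have e0 : r * (I.Y ^ 2 / r) ^ 2 = I.Y ^ 4 / r := by field_simp
  rw [e0, add_mul]
  unfold L8In.band L8In.int
  rw [← Finset.sum_filter_add_sum_filter_not _ (fun k => l8pZc I π k < π.c1 * I.Y)]
  refine add_le_add (X.bud_low h1 _ ?_ ?_ ?_) (X.bud_high h1 h2 _ ?_ ?_ ?_)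
  · exact (Finset.filter_subset _ _).trans (Finset.filter_subset _ _)
  · intro k hk
    exact (Finset.mem_filter.1 (Finset.mem_filter.1 hk).1).2
  · intro k hk
    exact (Finset.mem_filter.1 hk).2
  · exact (Finset.filter_subset _ _).trans (Finset.filter_subset _ _)
  · intro k hk
    exact (Finset.mem_filter.1 (Finset.mem_filter.1 hk).1).2.1
  · intro k hk
    exact not_lt.1 (Finset.mem_filter.1 hk).2
/-- the logarithmic loss -/
theorem L_le {ε : ℝ} (hε : 0 < ε) : skwL (l8pD I π) ≤ (1 + π.K / ε) * I.x ^ (-ε) := by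
  have hx := X.x0
  have h1 : (l8pD I π).tiny = I.x ^ π.K := rfl
  have h2 : Real.log (1 / I.x ^ π.K) = π.K * Real.log I.x⁻¹ := by
    rw [one_div, ← inv_pow, Real.log_pow]
  have h3 : Real.log I.x⁻¹ ≤ I.x⁻¹ ^ ε / ε := Real.log_le_rpow_div (inv_nonneg.2 hx.le) hε
  have h4 : I.x⁻¹ ^ ε = I.x ^ (-ε) := by rw [Real.inv_rpow hx.le, Real.rpow_neg hx.le]
  have h5 : 1 ≤ I.x ^ (-ε) := Real.one_le_rpow_of_pos_of_le_one_of_nonpos hx X.x1 (by linarith)
  unfold skwL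
  rw [h1, h2]
  rw [h4] at h3
  have h6 : (π.K : ℝ) * Real.log I.x⁻¹ ≤ π.K * (I.x ^ (-ε) / ε) := mul_le_mul_of_nonneg_left h3 (Nat.cast_nonneg _)
  have h7 : (1 + π.K / ε) * I.x ^ (-ε) = I.x ^ (-ε) + π.K * (I.x ^ (-ε) / ε) := by ring
  rw [h7]; linarith

end L8peCtx

/-- **ENV** for every base -/
theorem l8pe_env (𝔹 : LlBase) (T : ℝ) : L8pEnvDir 𝔹 T := by
  intro F0 _ pB pS _ _ κ ε _ hε
  refine ⟨ε, hε, fun π S cv hπ heps => ?_⟩
  have hCW : 1 ≤ S.CW := hπ.Sok.CW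
  have hLq : 1 ≤ S.c.Lq := hπ.Sok.c.Lq
  have hCq : 1 ≤ S.Cq := hπ.Sok.Cq
  have hCf : 1 ≤ π.c.Cf := by have := hπ.Sok.c.Cf; rwa [hπ.Sc] at this
  have hCp : 1 ≤ π.c.Cp := by have := hπ.Sok.c.Cp; rwa [hπ.Sc] at this
  have hcv := hπ.cv0
  have hM : 0 < S.CW + S.c.Lq + 2 := by linarith
  obtain ⟨N0, hN0⟩ := skw_llb_small 1 (1 / (S.CW + S.c.Lq + 2)) one_pos (by positivity)
  have hc1 : 0 ≤ π.c1 := by
    have h1 := hπ.c1; have h2 := hπ.cv1
    by_contra h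
    push Not at h
    nlinarith
  set a1 : ℝ := 1 / cv with ha1
  set a2 : ℝ := (π.c.Cf + S.Cq) * (π.c1 + 1 / cv) with ha2
  set a3 : ℝ := (π.c.Cf + 2 * S.Cq) * π.c1 + 1 with ha3
  set a4 : ℝ := 2 * S.CW ^ 2 + 1 with ha4
  set a5 : ℝ := 8 * π.c1 ^ 2 / cv ^ 2 with ha5
  set a6 : ℝ := 16 * S.CW ^ 3 * π.c.Cp / cv with ha6
  have p1 : 0 ≤ a1 := by positivity
  have p2 : 0 ≤ a2 := by positivity
  have p3 : 0 ≤ a3 := by positivity
  have p4 : 0 ≤ a4 := by positivity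
  have p5 : 0 ≤ a5 := by positivity
  have p6 : 0 ≤ a6 := by positivity
  have pK : 0 ≤ 1 + (π.K : ℝ) / ε := by positivity
  refine ⟨1 + a1 + a2 + a3 + a4 + a5 + a6 * (1 + π.K / ε), N0, 0, fun I hat hok C hC => ?_⟩
  have hsm : (S.CW + S.c.Lq + 2) * I.x ≤ 1 := by
    have := hN0 I.p hat.hN
    rw [Real.rpow_one, le_div_iff₀ hM] at this
    have e : I.x = I.p.x := rfl
    rw [e]; linarith
  have X : L8peCtx I π S cv := ⟨hπ, hat.ok, hat.dir, hok, hsm⟩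
  have hx := X.x0
  set t : ℝ := I.x ^ (-ε) with ht
  have ht1 : 1 ≤ t := Real.one_le_rpow_of_pos_of_le_one_of_nonpos hx X.x1 (by linarith)
  have p7 : 0 ≤ a6 * (1 + (π.K : ℝ) / ε) := mul_nonneg p6 pK
  have hK : ∀ K : ℝ, 0 ≤ K → K ≤ 1 + a1 + a2 + a3 + a4 + a5 + a6 * (1 + π.K / ε) → K * t ≤ C * t ∧ K ≤ C * t := by
    intro K hK0 hK1
    have e1 : K * t ≤ C * t := mul_le_mul_of_nonneg_right (hK1.trans hC) (by linarith)
    exact ⟨e1, le_trans (by nlinarith) e1⟩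
  have hb : 1 / I.x ^ π.eps ≤ t := by
    rw [one_div, ← Real.rpow_neg hx.le]
    exact Real.rpow_le_rpow_of_exponent_ge hx X.x1 (by linarith)
  refine ⟨?_, ?_, ?_, ?_, ?_, ?_, ?_⟩
  · intro k _
    have e : I.x ^ (4 : ℝ) = I.x ^ 4 := by
      rw [show (4 : ℝ) = ((4 : ℕ) : ℝ) by norm_num, Real.rpow_natCast]
    rw [e]
    exact (X.xpow_le' (by norm_num)).trans (X.lo3 k)
  · intro k _ h
    exact X.low h
  · intro k _ h
    exact (X.hi h).trans (mul_le_mul_of_nonneg_right (hK a1 p1 (by linarith)).2 (X.v_nonneg k))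
  · intro r h1 h2
    have hr : 0 < r := X.Y0.trans_le h1
    refine (X.bud h1 h2).trans ?_
    rw [mul_assoc (C * t)]
    apply mul_le_mul_of_nonneg_right _ (by positivity)
    have e1 := X.L_le hε
    have e2 : a6 * skwL (l8pD I π) ≤ a6 * ((1 + π.K / ε) * t) := mul_le_mul_of_nonneg_left e1 p6
    have e3 := (hK (a5 + a6 * (1 + π.K / ε)) (by linarith) (by linarith)).1
    have e4 : a5 ≤ a5 * t := by nlinarith
    calc a5 + a6 * skwL (l8pD I π) ≤ a5 * t + a6 * ((1 + π.K / ε) * t) := add_le_add e4 e2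
      _ = (a5 + a6 * (1 + π.K / ε)) * t := by ring
      _ ≤ C * t := e3
  · intro k hk _
    have he := (X.e_pos k).le
    rcases lt_or_ge (l8pZc I π k) (π.c1 * I.Y) with h | h
    · exact (X.f_low hk h).trans (mul_le_mul_of_nonneg_right (hK a3 p3 (by linarith)).2 he)
    · refine (X.f_high hk h).trans (mul_le_mul_of_nonneg_right ?_ he)
      have e1 : a4 / I.x ^ π.eps = a4 * (1 / I.x ^ π.eps) := by ring
      rw [e1]
      exact (mul_le_mul_of_nonneg_left hb p4).trans (hK a4 p4 (by linarith)).1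
  · intro r h1 h2
    have hr : 0 < r := X.U0.trans_le h1
    refine (X.d1 h1 h2).trans ?_
    rw [mul_assoc (C * t)]
    have e1 := (hK 1 zero_le_one (by linarith)).2
    have e2 : 0 ≤ r * (I.Y ^ 4 / r ^ 2) := by have := X.Y0; positivity
    nlinarith
  · intro k hk
    refine (X.s_le hk).trans (mul_le_mul_of_nonneg_right (hK a2 p2 (by linarith)).2 ?_)
    linarith [X.v_nonneg k, X.Y0]

theorem l8p_env_dir (T : ℝ) (_hT : 1 < T) : L8pEnvDir llBase T := l8pe_env llBase T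
end Claimed.Agent.R286
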