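import Claimed.Agent.R286.PM.InstDef
import Claimed.Agent.R286.PM.InstEnv

/-!
# Row 286 (S0533), folder PM, file InstDefE : LEAF DEF OF `l8p_core_dir`, PART 2: THE ENVELOPE COMPARISON AND THE FINAL GLUE      (owner helper247; prefix `l8pd_`, namespace `L8peCtx`)

    l8p_def_dir : L8pDefDir llBase T      <=      l8pd_path (PM/InstDef.lean: the explicit majorant `l8pdM` of the path defect and of its local Lipschitz constant in `log λ`)
                                                  +  the ENVELOPE comparison  `b · l8pdM(v') ≤ K Λ · λ R² e`   (this file; per instance, from `L8pOk` only)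
                                                  +  the LINK `L8pDefLk I (x^40)` (hypothesis of the contract; producer `l8p_lk_dir`).

Notation at the cut `k`:  `z = l8pZc I π k`, `v' = l8pVl I k = V(z)` (LEFT end of the mass cell), `R = max(v_k, Y)`, `e = l8pE I π k`, `b = x^eps`, `Λ = 1 + log(2/x)`, `r = min(z,1)`, `T = λ R² e`.
* `z < c₁ Y`:  `e = Y`, `R² e ≥ Y³`;  mask `≤ 2 λ Y³`;  `H_lo ≤ λ U³ Λ`;  no `H_e` (`z < ξ_*/4 ≤ ξ_* - E_b`).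
* `z ≥ c₁ Y`:  `v' ≥ cv r ≥ 8 Y > x` (no mask);  `𝔥 ≥ min(b r, U²/r)/C_W` gives `R² e ≥ cv² b U³ / C_W`;
  ramp `ξ_* - E_b ≤ z < ξ_*`: `𝔥 ≥ H_x ≥ 2 min(E,b) ≥ 2 b E`;   join `z = ξ_*`: `𝔥 ≥ E/2`, `Hw(p_top) ≤ (1 + (1-p_top)^(-1/2)) E`;   plateau `z > ξ_*`: `Hw(v'/ℓ) = hpl(z) = 𝔥(z) ≤ C_p`.
TEX[LL:prop:statistics-pointwise]
-/

set_option autoImplicit false

namespace Claimed.Agent.R286

open MeasureTheory Set Filter

noncomputable section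

namespace L8peCtx

variable {I : L8In} {π : L8pPar} {S : SkpS} {cv : ℝ} (X : L8peCtx I π S cv)
include X

theorem cOk : π.c.Ok := by
  have := X.par.Sok.c
  rwa [X.par.Sc] at this

theorem zs0 : 0 < π.c.zs := X.cOk.zs

theorem zs_mem : π.c.zs ∈ Icc 0 (l8pD I π).zmax := ⟨X.zs0.le, X.wh.zmax⟩

theorem ell0 : 0 < I.p.ell := by linarith [X.ok.pt.ell1]

theorem V_zs : l8pV I π π.c.zs = I.p.ell * I.𝔹.pTop I.F.T := by
  have := X.inst.vc.vs
  rw [X.inst.zs]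
  exact this

/-- LL-XI at the cuts -/
theorem xi_zc (k : ℕ) : I.p.xi I.F I.𝔹 (l8pVl I k) = min (l8pZc I π k) π.c.zs := by
  have h := X.inst.Kz _ (X.zc_mem k)
  rw [X.V_zc k] at h
  unfold LlPt.K at h
  have hl : (I.p.ell ^ 2)⁻¹ ≠ 0 := inv_ne_zero (pow_ne_zero _ X.ell0.ne')
  exact mul_left_cancel₀ hl h

/-- the plateau in the two coordinates -/
theorem plat_iff (k : ℕ) : I.𝔹.pTop I.F.T ≤ l8pVl I k / I.p.ell ↔ π.c.zs ≤ l8pZc I π k := by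
  rw [le_div_iff₀ X.ell0, mul_comm, ← X.V_zs, ← X.V_zc k]
  exact X.V_mono.le_iff_le X.zs_mem (X.zc_mem k)

theorem R0 (z : ℝ) (hz : 0 ≤ z) : 0 ≤ skwR z := le_min hz zero_le_one

theorem Vl_lo (k : ℕ) : cv * skwR (l8pZc I π k) ≤ l8pVl I k := by
  have := X.inst.vc.lower _ (X.zc_mem k)
  rw [← X.V_zc k]
  exact this

theorem Vl_nonneg (k : ℕ) : 0 ≤ l8pVl I k :=
  (mul_nonneg X.par.cv0.le (X.R0 _ (X.zc_mem k).1)).trans (X.Vl_lo k)

theorem Rm_lo (k : ℕ) : cv * skwR (l8pZc I π k) ≤ max (I.v k) I.Y := (X.Vl_lo k).trans ((X.Vl_le k).trans (le_max_left _ _))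

theorem Rm_pos (k : ℕ) : 0 < max (I.v k) I.Y := X.Y0.trans_le (le_max_right _ _)

theorem lam0 : 0 < I.lam := skw_llc_lam_pos X.ok.pt

/-- `T = λ R² e > 0` -/
theorem T_pos (k : ℕ) : 0 < I.lam * max (I.v k) I.Y ^ 2 * l8pE I π k :=
  mul_pos (mul_pos X.lam0 (pow_pos (X.Rm_pos k) 2)) (X.e_pos k)

/-- in the low case `R² e ≥ Y³` -/
theorem low_Y3 {k : ℕ} (h : l8pZc I π k < π.c1 * I.Y) : I.Y ^ 3 ≤ max (I.v k) I.Y ^ 2 * l8pE I π k := by
  rw [X.e_lowc h]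
  have h1 : I.Y ^ 2 ≤ max (I.v k) I.Y ^ 2 := pow_le_pow_left₀ X.Y0.le (le_max_right _ _) 2
  have h2 := X.Y0.le
  nlinarith

/-- in the high case `r(z) ≥ c₁ Y ≥ 8 Y` -/
theorem high_r {k : ℕ} (h : π.c1 * I.Y ≤ l8pZc I π k) : π.c1 * I.Y ≤ skwR (l8pZc I π k) :=
  le_min h (by have := X.zlo16; have := X.zlo0; linarith)

theorem high_r8 {k : ℕ} (h : π.c1 * I.Y ≤ l8pZc I π k) : 8 * I.Y ≤ skwR (l8pZc I π k) := by
  have h1 := X.high_r h
  have h2 := X.c18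
  have h3 := X.Y0
  nlinarith

/-- in the high case the left end of the cell is above the mask -/
theorem high_x {k : ℕ} (h : π.c1 * I.Y ≤ l8pZc I π k) : I.x < l8pVl I k := by
  have h1 := X.high_r h
  have h2 := X.Vl_lo k
  have h3 := X.par.c1
  have h4 := X.Y0
  have h5 := X.xY
  have h6 : cv * (π.c1 * I.Y) ≤ cv * skwR (l8pZc I π k) := mul_le_mul_of_nonneg_left h1 X.par.cv0.le
  nlinarith

/-! ### the mask -/

theorem dM1_le (k : ℕ) : l8pdM1 I.F I.p (l8pVl I k) ≤ 2 * (I.lam * max (I.v k) I.Y ^ 2 * l8pE I π k) := by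
  unfold l8pdM1
  split_ifs with h
  · have hz : l8pZc I π k < π.c1 * I.Y := by
      by_contra hc
      exact absurd h (not_le.2 (X.high_x (not_lt.1 hc)))
    have h1 := X.low_Y3 hz
    have h2 : l8pVl I k ≤ I.Y := h.trans X.xY
    have h3 := X.Vl_nonneg k
    have h4 := X.UY
    have h5 := X.U0.le
    have h6 : l8pVl I k ^ 3 ≤ I.Y ^ 3 := pow_le_pow_left₀ h3 h2 3
    have h7 : I.p.U I.F ^ 2 ≤ I.Y ^ 2 := pow_le_pow_left₀ h5 h4 2
    have h8 : l8pVl I k * I.p.U I.F ^ 2 ≤ I.Y * I.Y ^ 2 := mul_le_mul h2 h7 (by positivity) X.Y0.le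
    have h9 : l8pVl I k ^ 3 + l8pVl I k * I.p.U I.F ^ 2 ≤ 2 * (max (I.v k) I.Y ^ 2 * l8pE I π k) := by nlinarith
    have := mul_le_mul_of_nonneg_left h9 X.lam0.le
    calc I.p.lam * (l8pVl I k ^ 3 + l8pVl I k * I.p.U I.F ^ 2) ≤ I.lam * (2 * (max (I.v k) I.Y ^ 2 * l8pE I π k)) := this
      _ = _ := by ring
  · exact mul_nonneg (by norm_num) (X.T_pos k).le

/-! ### `H_lo` -/

theorem Z2 : 1 ≤ I.Z ^ 2 := one_le_pow₀ X.inst.Z1

/-- `e ≥ min(r, 𝔥)` -/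
theorem E_ge {z w : ℝ} (h0 : 0 ≤ l8pH I π z) (h1 : w ≤ skwR z) (h2 : w ≤ l8pH I π z) : w ≤ skwE (l8pD I π) (l8pH I π) z := by
  unfold skwE
  refine le_min h1 (h2.trans ?_)
  have e : (l8pD I π).Z = I.Z := rfl
  rw [e]
  have := X.Z2
  nlinarith

/-- the basic lower bound `cv² b U³ ≤ C_W R² e` -/
theorem bU3_le (k : ℕ) : cv ^ 2 * (I.x ^ π.eps * I.U ^ 3) ≤ S.CW * (max (I.v k) I.Y ^ 2 * l8pE I π k) := by
  have hb0 := X.b0
  have hb1 := X.b1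
  have hU := X.U0
  have hCW := X.CW1
  have hcv0 := X.par.cv0
  have hcv1 := X.par.cv1
  have hcv2 : cv ^ 2 ≤ 1 := pow_le_one₀ hcv0.le hcv1
  have hQ : 0 ≤ max (I.v k) I.Y ^ 2 * l8pE I π k := mul_nonneg (by positivity) (X.e_pos k).le
  rcases lt_or_ge (l8pZc I π k) (π.c1 * I.Y) with h | h
  · have h1 := X.low_Y3 h
    have h2 : I.U ^ 3 ≤ I.Y ^ 3 := pow_le_pow_left₀ hU.le X.UY 3
    have h3 : I.x ^ π.eps * I.U ^ 3 ≤ I.U ^ 3 := mul_le_of_le_one_left (by positivity) hb1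
    have h4 : cv ^ 2 * (I.x ^ π.eps * I.U ^ 3) ≤ I.x ^ π.eps * I.U ^ 3 := mul_le_of_le_one_left (by positivity) hcv2
    nlinarith
  · have hm := X.zc_mem' h
    have hR := X.Rm_lo k
    rw [X.e_hic h] at hQ ⊢
    have hr8 := X.high_r8 h
    set z := l8pZc I π k with hz
    set r := skwR z with hr
    have hrU : I.U ≤ r := by have := X.UY; have := X.Y0; linarith
    have hr0 : 0 < r := hU.trans_le hrU
    have hH : min (I.x ^ π.eps * r) (I.U ^ 2 / r) / S.CW ≤ l8pH I π z := X.inst.wfull.lower z hm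
    have hU3 : I.U ^ 3 ≤ r ^ 3 := pow_le_pow_left₀ hU.le hrU 3
    have he : I.x ^ π.eps * I.U ^ 3 / (S.CW * r ^ 2) ≤ skwE (l8pD I π) (l8pH I π) z := by
      refine X.E_ge (X.hh_nonneg hm) ?_ (le_trans ?_ hH)
      · rw [div_le_iff₀ (by positivity)]
        have h1 : I.x ^ π.eps * I.U ^ 3 ≤ 1 * r ^ 3 := mul_le_mul hb1 hU3 (by positivity) zero_le_one
        have h2 : r ^ 3 ≤ S.CW * r ^ 3 := le_mul_of_one_le_left (by positivity) hCW
        calc I.x ^ π.eps * I.U ^ 3 ≤ S.CW * r ^ 3 := by linarith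
          _ = r * (S.CW * r ^ 2) := by ring
      · rw [div_le_div_iff₀ (by positivity) (by positivity)]
        have h3 : I.x ^ π.eps * I.U ^ 3 ≤ min (I.x ^ π.eps * r) (I.U ^ 2 / r) * r ^ 2 := by
          rw [min_mul_of_nonneg _ _ (by positivity)]
          refine le_min ?_ ?_
          · calc I.x ^ π.eps * I.U ^ 3 ≤ I.x ^ π.eps * r ^ 3 := mul_le_mul_of_nonneg_left hU3 hb0.le
              _ = I.x ^ π.eps * r * r ^ 2 := by ring
          · have e1 : I.U ^ 2 / r * r ^ 2 = I.U ^ 2 * r := by field_simp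
            rw [e1]
            have h4 : I.x ^ π.eps * I.U ≤ 1 * r := mul_le_mul hb1 hrU hU.le zero_le_one
            calc I.x ^ π.eps * I.U ^ 3 = I.U ^ 2 * (I.x ^ π.eps * I.U) := by ring
              _ ≤ I.U ^ 2 * (1 * r) := mul_le_mul_of_nonneg_left h4 (by positivity)
              _ = I.U ^ 2 * r := by ring
        calc I.x ^ π.eps * I.U ^ 3 * S.CW ≤ min (I.x ^ π.eps * r) (I.U ^ 2 / r) * r ^ 2 * S.CW :=
              mul_le_mul_of_nonneg_right h3 (by linarith)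
          _ = min (I.x ^ π.eps * r) (I.U ^ 2 / r) * (S.CW * r ^ 2) := by ring
    have hR2 : (cv * r) ^ 2 ≤ max (I.v k) I.Y ^ 2 := pow_le_pow_left₀ (by positivity) hR 2
    have h5 : (cv * r) ^ 2 * (I.x ^ π.eps * I.U ^ 3 / (S.CW * r ^ 2)) ≤ max (I.v k) I.Y ^ 2 * skwE (l8pD I π) (l8pH I π) z :=
      mul_le_mul hR2 he (by positivity) (by positivity)
    have e2 : S.CW * ((cv * r) ^ 2 * (I.x ^ π.eps * I.U ^ 3 / (S.CW * r ^ 2))) = cv ^ 2 * (I.x ^ π.eps * I.U ^ 3) := by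
      field_simp
    rw [← e2]
    exact mul_le_mul_of_nonneg_left h5 (by linarith)

theorem lam1_le (hF : I.F.Ok) : 0 ≤ I.p.lam1 I.F ∧ I.p.lam1 I.F ≤ I.lam := by
  have := ll04h_lam1 X.ok.pt hF.pS0.le hF.eta0.le
  exact ⟨this.1, this.2.1⟩

omit X in
/-- from a bound of the bracket to a bound of `λ₁ ·` bracket -/
theorem l8pd_scale {a W K Q l1 l : ℝ} (h : a * W ≤ K * Q) (h0 : 0 ≤ l1) (h1 : l1 ≤ l) (hKQ : 0 ≤ K * Q) : a * (l1 * W) ≤ K * (l * Q) := by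
  calc a * (l1 * W) = l1 * (a * W) := by ring
    _ ≤ l1 * (K * Q) := mul_le_mul_of_nonneg_left h h0
    _ ≤ l * (K * Q) := mul_le_mul_of_nonneg_right h1 hKQ
    _ = K * (l * Q) := by ring

theorem dM2_le (hF : I.F.Ok) (k : ℕ) : cv ^ 2 * (I.x ^ π.eps * l8pdM2 I.F I.p (l8pVl I k)) ≤
    S.CW * (1 + Real.log (2 / I.x)) * (I.lam * max (I.v k) I.Y ^ 2 * l8pE I π k) := by
  have hΛ : 0 ≤ 1 + Real.log (2 / I.x) := by have := l8pd_log_nonneg X.ok.pt; have e : I.x = I.p.x := rfl; rw [e]; linarith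
  have hCW := X.CW1
  unfold l8pdM2
  split_ifs with h
  · have h1 := X.bU3_le k
    obtain ⟨l0, l1⟩ := X.lam1_le hF
    have hQ : 0 ≤ max (I.v k) I.Y ^ 2 * l8pE I π k := mul_nonneg (by positivity) (X.e_pos k).le
    have h2 : cv ^ 2 * (I.x ^ π.eps * I.U ^ 3 * (1 + Real.log (2 / I.x))) ≤ S.CW * (1 + Real.log (2 / I.x)) * (max (I.v k) I.Y ^ 2 * l8pE I π k) := by
      have := mul_le_mul_of_nonneg_right h1 hΛ
      calc _ = cv ^ 2 * (I.x ^ π.eps * I.U ^ 3) * (1 + Real.log (2 / I.x)) := by ring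
        _ ≤ S.CW * (max (I.v k) I.Y ^ 2 * l8pE I π k) * (1 + Real.log (2 / I.x)) := this
        _ = _ := by ring
    have h3 := l8pd_scale h2 l0 l1 (mul_nonneg (mul_nonneg (by linarith) hΛ) hQ)
    calc cv ^ 2 * (I.x ^ π.eps * (I.p.lam1 I.F * I.p.U I.F ^ 3 * (1 + Real.log (2 / I.p.x))))
        = cv ^ 2 * (I.p.lam1 I.F * (I.x ^ π.eps * I.U ^ 3 * (1 + Real.log (2 / I.x)))) := by
          have e1 : I.p.U I.F = I.U := rfl
          have e2 : I.p.x = I.x := rfl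
          rw [e1, e2]; ring
      _ ≤ S.CW * (1 + Real.log (2 / I.x)) * (I.lam * (max (I.v k) I.Y ^ 2 * l8pE I π k)) := h3
      _ = _ := by ring
  · rw [mul_zero, mul_zero]
    exact mul_nonneg (mul_nonneg (by linarith) hΛ) (X.T_pos k).le

/-! ### `H_e` -/

theorem E_eq : (l8pD I π).E = I.p.Eb I.F I.𝔹 := rfl

theorem Eb0 : 0 < I.p.Eb I.F I.𝔹 := X.inst.plat.E0
theorem Eb1 : I.p.Eb I.F I.𝔹 ≤ 1 := X.inst.plat.E2
theorem Ebz : I.p.Eb I.F I.𝔹 ≤ π.c.zs / 4 := X.inst.plat.E1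

theorem zlo_zs : π.c1 * I.Y ≤ π.c.zs / 4 := X.wh.zlo1

/-- `r₀ = min(ξ_*, 1)` -/
theorem r0_pos : 0 < skwR π.c.zs := lt_min X.zs0 one_pos

omit X in
theorem l8pd_R_mono {z z' : ℝ} (h : z ≤ z') : skwR z ≤ skwR z' := min_le_min_right _ h

omit X in
theorem l8pd_R_le_one (z : ℝ) : skwR z ≤ 1 := min_le_right _ _

/-- the width on the active side dominates the two endpoint functions -/
theorem H_act {z : ℝ} (hz : z ≤ π.c.zs) : max (skwE1 π.c (l8pD I π) z) (skwE2 π.c (l8pD I π) z) ≤ l8pH I π z := by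
  unfold l8pH skwH
  rw [if_pos hz, ← X.inst.plat.Hx z]
  exact le_max_right _ _

theorem H_plat {z : ℝ} (hz : π.c.zs < z) : l8pH I π z = (l8pD I π).hpl z := by
  unfold l8pH skwH
  rw [if_neg (not_le.2 hz)]

/-- bridge between the two notations of the plateau width -/
theorem Hw_eq (hU0 : I.U ≤ I.F.U0) {w : ℝ} (h1 : I.𝔹.pTop I.F.T ≤ w) (h2 : w ≤ 1) :
    l8pdHw I.𝔹 I.F I.p w = ((l8pIn I π).pf (l8pProf I π)).hw w := by
  have hUt : I.p.Ut I.F = I.U := min_eq_right hU0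
  have hU := X.U0
  have hE := X.Eb0
  unfold l8pdHw ll04hR SkwPF.hw SkwPF.dm SkwPF.dp
  rw [hUt, max_comm]
  have e1 : ((l8pIn I π).pf (l8pProf I π)).U = I.U := rfl
  have e2 : ((l8pIn I π).pf (l8pProf I π)).E = I.p.Eb I.F I.𝔹 := rfl
  have e3 : ((l8pIn I π).pf (l8pProf I π)).ptop = I.𝔹.pTop I.F.T := rfl
  rw [e1, e2, e3]
  have p1 : 0 < w - I.𝔹.pTop I.F.T + I.U ^ 4 / I.p.Eb I.F I.𝔹 ^ 2 := by
    have : 0 < I.U ^ 4 / I.p.Eb I.F I.𝔹 ^ 2 := by positivity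
    linarith
  have p2 : 0 < 1 - w + I.U ^ 4 / 1 ^ 2 := by
    have : 0 < I.U ^ 4 / 1 ^ 2 := by positivity
    linarith
  rw [skw_llc_rpow p1, skw_llc_rpow p2]
  congr 1
  · rw [mul_one_div]
  · rw [mul_one_div, one_pow, div_one]

theorem Vl_le_ell (k : ℕ) : l8pVl I k ≤ I.p.ell := by
  have h1 : l8pV I π (l8pD I π).zmax = I.p.ell := X.inst.vc.vmax
  rw [← X.V_zc k, ← h1]
  exact X.V_mono.monotoneOn (X.zc_mem k) ⟨X.zmax0, le_rfl⟩ (X.zc_mem k).2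

/-- on the open plateau the majorant IS the width -/
theorem Hw_plat (hU0 : I.U ≤ I.F.U0) {k : ℕ} (hz : π.c.zs < l8pZc I π k) : l8pdHw I.𝔹 I.F I.p (l8pVl I k / I.p.ell) = l8pH I π (l8pZc I π k) := by
  have h1 : I.𝔹.pTop I.F.T ≤ l8pVl I k / I.p.ell := (X.plat_iff k).2 hz.le
  have h2 : l8pVl I k / I.p.ell ≤ 1 := (div_le_one X.ell0).2 (X.Vl_le_ell k)
  rw [X.Hw_eq hU0 h1 h2, X.H_plat hz]
  have e : l8pVl I k = I.p.ell * ((l8pIn I π).pf (l8pProf I π)).wof (l8pZc I π k) := by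
    rw [← X.V_zc k]
    unfold l8pV skwInV
    have e0 : (l8pProf I π).zs = π.c.zs := X.inst.zs.symm
    rw [e0, if_neg (not_le.2 hz)]
    rfl
  have e' : l8pVl I k / I.p.ell = ((l8pIn I π).pf (l8pProf I π)).wof (l8pZc I π k) := by
    rw [e]; field_simp [X.ell0.ne']
  rw [e']
  rfl

/-- the majorant at the join -/
theorem Hw_join (hB : LlBaseProfile I.𝔹 I.F.T) (hF : I.F.Ok) :
    l8pdHw I.𝔹 I.F I.p (I.𝔹.pTop I.F.T) ≤ (1 + (1 - I.𝔹.pTop I.F.T) ^ (-(1 / 2) : ℝ)) * I.p.Eb I.F I.𝔹 := by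
  have hUt : 0 < I.p.Ut I.F := lt_min hF.U00 X.U0
  have hUt1 : I.p.Ut I.F ≤ 1 := (min_le_right _ _).trans (min_le_left _ _)
  have hE := X.Eb0
  have hp : 0 < 1 - I.𝔹.pTop I.F.T := by
    have := X.inst.vc.mono
    have h1 := X.V_zs
    have h2 : l8pV I π (l8pD I π).zmax = I.p.ell := X.inst.vc.vmax
    have h3 : π.c.zs < (l8pD I π).zmax := by
      have := X.inst.plat.len_lo
      have h4 : 0 < 2 / π.c.Cp := by have := X.Cp1; positivity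
      linarith
    have h5 := X.V_mono X.zs_mem ⟨X.zmax0, le_rfl⟩ h3
    rw [h1, h2] at h5
    have := X.ell0
    nlinarith
  have hc : 0 ≤ (1 - I.𝔹.pTop I.F.T) ^ (-(1 / 2) : ℝ) := Real.rpow_nonneg hp.le _
  unfold l8pdHw
  rw [sub_self, ll04h_R_zero hUt hE]
  refine max_le ?_ (by nlinarith)
  refine (ll04h_R_le' one_pos hp).trans ?_
  have h6 := (ll04h_Eb hB hUt hUt1).1
  nlinarith

/-- **the bracket of `H_e` against the envelope** -/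
theorem dM3_le (hB : LlBaseProfile I.𝔹 I.F.T) (hF : I.F.Ok) (hU0 : I.U ≤ I.F.U0) (k : ℕ) :
    cv ^ 2 * skwR π.c.zs ^ 3 * (I.x ^ π.eps * l8pdM3 I.𝔹 I.F I.p (l8pVl I k)) ≤
      (π.c.Cp + 2 * (1 + (1 - I.𝔹.pTop I.F.T) ^ (-(1 / 2) : ℝ)) + 3) * (I.lam * max (I.v k) I.Y ^ 2 * l8pE I π k) := by
  have hb0 := X.b0
  have hb1 := X.b1
  have hcv0 := X.par.cv0
  have hr0 := X.r0_pos
  have hr01 : skwR π.c.zs ≤ 1 := l8pd_R_le_one _
  have hCp := X.Cp1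
  have hE0 := X.Eb0
  have hE1 := X.Eb1
  have hEz := X.Ebz
  have hzs := X.zs0
  have hzl := X.zlo_zs
  have hcj : 0 ≤ (1 - I.𝔹.pTop I.F.T) ^ (-(1 / 2) : ℝ) := Real.rpow_nonneg (by
    by_contra hc
    have h1 := X.V_zs
    have h2 := X.Vl_le_ell (I.n + 1)
    have h3 : π.c.zs ≤ l8pZc I π (I.n + 1) := by rw [X.zc_top]; exact X.wh.zmax
    have h4 := (X.plat_iff (I.n + 1)).2 h3
    have h5 : l8pVl I (I.n + 1) / I.p.ell ≤ 1 := (div_le_one X.ell0).2 h2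
    linarith) _
  set Cj : ℝ := 1 + (1 - I.𝔹.pTop I.F.T) ^ (-(1 / 2) : ℝ) with hCj
  have hCj1 : 1 ≤ Cj := by linarith
  set b : ℝ := I.x ^ π.eps with hb
  set r0 : ℝ := skwR π.c.zs with hr0d
  set Q : ℝ := max (I.v k) I.Y ^ 2 * l8pE I π k with hQd
  have hQ : 0 ≤ Q := mul_nonneg (by positivity) (X.e_pos k).le
  obtain ⟨l0, l1⟩ := X.lam1_le hF
  -- reduction to the bracket
  have fin : ∀ W K : ℝ, 0 ≤ K → K ≤ π.c.Cp + 2 * Cj + 3 → cv ^ 2 * r0 ^ 3 * (b * W) ≤ K * Q →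
      cv ^ 2 * r0 ^ 3 * (b * (I.p.lam1 I.F * W)) ≤ (π.c.Cp + 2 * Cj + 3) * (I.lam * max (I.v k) I.Y ^ 2 * l8pE I π k) := by
    intro W K hK hKK h
    calc cv ^ 2 * r0 ^ 3 * (b * (I.p.lam1 I.F * W)) = I.p.lam1 I.F * (cv ^ 2 * r0 ^ 3 * (b * W)) := by ring
      _ ≤ I.p.lam1 I.F * (K * Q) := mul_le_mul_of_nonneg_left h l0
      _ ≤ I.lam * (K * Q) := mul_le_mul_of_nonneg_right l1 (mul_nonneg hK hQ)
      _ ≤ I.lam * ((π.c.Cp + 2 * Cj + 3) * Q) := mul_le_mul_of_nonneg_left (mul_le_mul_of_nonneg_right hKK hQ) X.lam0.le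
      _ = _ := by rw [hQd]; ring
  -- a lower bound of the envelope gives a lower bound of `Q`
  have low : ∀ w : ℝ, 0 ≤ w → π.c1 * I.Y ≤ l8pZc I π k → w ≤ skwR (l8pZc I π k) → w ≤ l8pH I π (l8pZc I π k) →
      (cv * skwR (l8pZc I π k)) ^ 2 * w ≤ Q := by
    intro w hw h h1 h2
    have hm := X.zc_mem' h
    have he := X.E_ge (X.hh_nonneg hm) h1 h2
    have hR2 : (cv * skwR (l8pZc I π k)) ^ 2 ≤ max (I.v k) I.Y ^ 2 :=
      pow_le_pow_left₀ (mul_nonneg hcv0.le (X.R0 _ (X.zc_mem k).1)) (X.Rm_lo k) 2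
    rw [hQd, X.e_hic h]
    exact mul_le_mul hR2 he hw (by positivity)
  unfold l8pdM3
  split_ifs with h1 h2
  · -- plateau and join
    have hz : π.c.zs ≤ l8pZc I π k := (X.plat_iff k).1 h1
    have hhi : π.c1 * I.Y ≤ l8pZc I π k := by linarith
    have hm := X.zc_mem' hhi
    have hrr : r0 ≤ skwR (l8pZc I π k) := l8pd_R_mono hz
    have hH0 := X.hh_nonneg hm
    have hsq : (cv * r0) ^ 2 ≤ (cv * skwR (l8pZc I π k)) ^ 2 := pow_le_pow_left₀ (by positivity) (mul_le_mul_of_nonneg_left hrr hcv0.le) 2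
    rcases hz.lt_or_eq with hz' | hz'
    · rw [X.Hw_plat hU0 hz']
      set H : ℝ := l8pH I π (l8pZc I π k) with hH
      have hHC : H ≤ π.c.Cp := by
        rw [hH, X.H_plat hz']
        exact X.inst.plat.hup _ ⟨hz, (X.zc_mem k).2⟩
      refine fin H π.c.Cp (by linarith) (by linarith) ?_
      have hw1 : r0 * H / π.c.Cp ≤ skwR (l8pZc I π k) := by
        rw [div_le_iff₀ (by linarith)]
        calc r0 * H ≤ r0 * π.c.Cp := mul_le_mul_of_nonneg_left hHC hr0.le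
          _ ≤ skwR (l8pZc I π k) * π.c.Cp := mul_le_mul_of_nonneg_right hrr (by linarith)
      have hw2 : r0 * H / π.c.Cp ≤ H := by
        rw [div_le_iff₀ (by linarith)]
        nlinarith
      have h3 := low (r0 * H / π.c.Cp) (by positivity) hhi hw1 hw2
      have h4 : (cv * r0) ^ 2 * (r0 * H / π.c.Cp) ≤ Q := le_trans (mul_le_mul_of_nonneg_right hsq (by positivity)) h3
      have h5 : cv ^ 2 * r0 ^ 3 * H = π.c.Cp * ((cv * r0) ^ 2 * (r0 * H / π.c.Cp)) := by field_simp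
      have h6 : cv ^ 2 * r0 ^ 3 * (b * H) ≤ cv ^ 2 * r0 ^ 3 * H :=
        mul_le_mul_of_nonneg_left (mul_le_of_le_one_left hH0 hb1) (by positivity)
      calc cv ^ 2 * r0 ^ 3 * (b * H) ≤ cv ^ 2 * r0 ^ 3 * H := h6
        _ = π.c.Cp * ((cv * r0) ^ 2 * (r0 * H / π.c.Cp)) := h5
        _ ≤ π.c.Cp * Q := mul_le_mul_of_nonneg_left h4 (by linarith)
    · -- the join
      have e1 : l8pVl I k / I.p.ell = I.𝔹.pTop I.F.T := by
        rw [← X.V_zc k, ← hz', X.V_zs]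
        field_simp [X.ell0.ne']
      rw [e1]
      refine fin _ (2 * Cj) (by linarith) (by linarith) ?_
      have hj := X.Hw_join hB hF
      have hHj : I.p.Eb I.F I.𝔹 / 2 ≤ l8pH I π (l8pZc I π k) := by
        refine le_trans ?_ (X.H_act hz'.ge)
        refine le_max_of_le_left ?_
        unfold skwE1
        rw [← hz', sub_self, sub_zero]
        exact le_max_right _ _
      have hw1 : r0 * (I.p.Eb I.F I.𝔹 / 2) ≤ skwR (l8pZc I π k) := by nlinarith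
      have hw2 : r0 * (I.p.Eb I.F I.𝔹 / 2) ≤ l8pH I π (l8pZc I π k) := by nlinarith
      have h3 := low (r0 * (I.p.Eb I.F I.𝔹 / 2)) (by positivity) hhi hw1 hw2
      have h4 : (cv * r0) ^ 2 * (r0 * (I.p.Eb I.F I.𝔹 / 2)) ≤ Q := le_trans (mul_le_mul_of_nonneg_right hsq (by positivity)) h3
      have hW0 : 0 ≤ l8pdHw I.𝔹 I.F I.p (I.𝔹.pTop I.F.T) := by
        rw [← e1]
        exact l8pd_Hw_nonneg X.ok.pt hF ((div_le_one X.ell0).2 (X.Vl_le_ell k))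
      calc cv ^ 2 * r0 ^ 3 * (b * l8pdHw I.𝔹 I.F I.p (I.𝔹.pTop I.F.T)) ≤ cv ^ 2 * r0 ^ 3 * (1 * (Cj * I.p.Eb I.F I.𝔹)) :=
            mul_le_mul_of_nonneg_left (mul_le_mul hb1 hj hW0 zero_le_one) (by positivity)
        _ = 2 * Cj * ((cv * r0) ^ 2 * (r0 * (I.p.Eb I.F I.𝔹 / 2))) := by ring
        _ ≤ 2 * Cj * Q := mul_le_mul_of_nonneg_left h4 (by linarith)
  · -- the ramp
    have hz : l8pZc I π k < π.c.zs := by
      by_contra hc
      exact h1 ((X.plat_iff k).2 (not_lt.1 hc))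
    rw [X.xi_zc k, min_eq_left hz.le, ← X.inst.zs] at h2
    have hhi : π.c1 * I.Y ≤ l8pZc I π k := by linarith
    refine fin _ 3 (by norm_num) (by linarith) ?_
    set z : ℝ := l8pZc I π k with hzd
    have hrr : 3 / 4 * r0 ≤ skwR z := by
      rw [hr0d]
      unfold skwR
      refine le_min ?_ ?_
      · have := min_le_left π.c.zs 1
        linarith
      · have := min_le_right π.c.zs 1
        linarith
    have hr1 : skwR z ≤ 1 := l8pd_R_le_one _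
    have hrp : 0 < skwR z := by linarith
    have hbE : b * I.p.Eb I.F I.𝔹 ≤ min (I.p.Eb I.F I.𝔹) b := by
      refine le_min ?_ ?_
      · exact mul_le_of_le_one_left hE0.le hb1
      · exact mul_le_of_le_one_right hb0.le hE1
    have hH2 : 2 * (b * I.p.Eb I.F I.𝔹) ≤ l8pH I π z := by
      refine le_trans ?_ (X.H_act hz.le)
      refine le_max_of_le_right ?_
      unfold skwE2
      refine le_max_of_le_right ?_
      have e1 : (l8pD I π).E = I.p.Eb I.F I.𝔹 := rfl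
      have e2 : (l8pD I π).b = b := rfl
      rw [e1, e2, max_eq_left (by linarith)]
      linarith
    have hbE1 : b * I.p.Eb I.F I.𝔹 ≤ 1 := by nlinarith
    have hbE0 : 0 < b * I.p.Eb I.F I.𝔹 := by positivity
    have hw1 : skwR z * (b * I.p.Eb I.F I.𝔹) ≤ skwR z := mul_le_of_le_one_right hrp.le hbE1
    have hw2 : skwR z * (b * I.p.Eb I.F I.𝔹) ≤ l8pH I π z := by nlinarith
    have h3 := low (skwR z * (b * I.p.Eb I.F I.𝔹)) (by positivity) hhi hw1 hw2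
    have h4 : (3 / 4 * r0) ^ 3 ≤ skwR z ^ 3 := pow_le_pow_left₀ (by positivity) hrr 3
    have h5 : cv ^ 2 * (b * I.p.Eb I.F I.𝔹) * (3 / 4 * r0) ^ 3 ≤ cv ^ 2 * (b * I.p.Eb I.F I.𝔹) * skwR z ^ 3 :=
      mul_le_mul_of_nonneg_left h4 (by positivity)
    have h6 : cv ^ 2 * (b * I.p.Eb I.F I.𝔹) * skwR z ^ 3 = (cv * skwR z) ^ 2 * (skwR z * (b * I.p.Eb I.F I.𝔹)) := by ring
    have h7 : cv ^ 2 * r0 ^ 3 * (b * I.p.Eb I.F I.𝔹) = 64 / 27 * (cv ^ 2 * (b * I.p.Eb I.F I.𝔹) * (3 / 4 * r0) ^ 3) := by ring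
    rw [h7]
    have h8 : cv ^ 2 * (b * I.p.Eb I.F I.𝔹) * (3 / 4 * r0) ^ 3 ≤ Q := by linarith
    linarith
  · rw [mul_zero, mul_zero]
    exact mul_nonneg (by linarith) (X.T_pos k).le

/-! ### assembly at one instance -/

theorem Lam1 : 1 ≤ 1 + Real.log (2 / I.x) := by
  have := l8pd_log_nonneg X.ok.pt
  have e : I.x = I.p.x := rfl
  rw [e]; linarith

theorem dM_nonneg (hF : I.F.Ok) (k : ℕ) : 0 ≤ l8pdM I.𝔹 I.F I.p (l8pVl I k) := by
  unfold l8pdM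
  have h1 := l8pd_M1_nonneg X.ok.pt (X.Vl_nonneg k)
  have h2 := l8pd_M2_nonneg X.ok.pt (l8pVl I k)
  have h3 := l8pd_M3_nonneg (𝔹 := I.𝔹) X.ok.pt hF X.Eb0.le ((div_le_one X.ell0).2 (X.Vl_le_ell k))
  linarith

/-- **ENVELOPE**: the majorant of the path defect against `T = λ R² e` -/
theorem dM_le (hB : LlBaseProfile I.𝔹 I.F.T) (hF : I.F.Ok) (hU0 : I.U ≤ I.F.U0) (k : ℕ) :
    cv ^ 2 * skwR π.c.zs ^ 3 * (I.x ^ π.eps * l8pdM I.𝔹 I.F I.p (l8pVl I k)) ≤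
      (S.CW + π.c.Cp + 2 * (1 + (1 - I.𝔹.pTop I.F.T) ^ (-(1 / 2) : ℝ)) + 5) * (1 + Real.log (2 / I.x)) *
        (I.lam * max (I.v k) I.Y ^ 2 * l8pE I π k) := by
  have hT := (X.T_pos k).le
  have hΛ := X.Lam1
  have hb0 := X.b0
  have hb1 := X.b1
  have hcv0 := X.par.cv0
  have hcv2 : cv ^ 2 ≤ 1 := pow_le_one₀ hcv0.le X.par.cv1
  have hr0 := X.r0_pos
  have hr3 : skwR π.c.zs ^ 3 ≤ 1 := pow_le_one₀ hr0.le (l8pd_R_le_one _)
  have hCW := X.CW1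
  have m1 := l8pd_M1_nonneg X.ok.pt (X.Vl_nonneg k)
  have a1 := X.dM1_le k
  have a2 := X.dM2_le hF k
  have a3 := X.dM3_le hB hF hU0 k
  set T : ℝ := I.lam * max (I.v k) I.Y ^ 2 * l8pE I π k with hTd
  set Λ : ℝ := 1 + Real.log (2 / I.x) with hΛd
  set K3 : ℝ := π.c.Cp + 2 * (1 + (1 - I.𝔹.pTop I.F.T) ^ (-(1 / 2) : ℝ)) + 3 with hK3
  set b : ℝ := I.x ^ π.eps with hb
  set r3 : ℝ := skwR π.c.zs ^ 3 with hr3d
  have hr30 : 0 < r3 := pow_pos hr0 3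
  have hK3T : 0 ≤ K3 * T := le_trans (mul_nonneg (by positivity) (mul_nonneg hb0.le
    (l8pd_M3_nonneg (𝔹 := I.𝔹) X.ok.pt hF X.Eb0.le ((div_le_one X.ell0).2 (X.Vl_le_ell k))))) a3
  have b1 : cv ^ 2 * r3 * (b * l8pdM1 I.F I.p (l8pVl I k)) ≤ 2 * Λ * T := by
    have e1 : cv ^ 2 * r3 * b ≤ 1 := by
      have : cv ^ 2 * r3 ≤ 1 := mul_le_one₀ hcv2 hr30.le hr3
      exact mul_le_one₀ this hb0.le hb1
    calc cv ^ 2 * r3 * (b * l8pdM1 I.F I.p (l8pVl I k)) = cv ^ 2 * r3 * b * l8pdM1 I.F I.p (l8pVl I k) := by ring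
      _ ≤ 1 * l8pdM1 I.F I.p (l8pVl I k) := mul_le_mul_of_nonneg_right e1 m1
      _ ≤ 2 * T := by linarith
      _ ≤ 2 * Λ * T := by nlinarith
  have b2 : cv ^ 2 * r3 * (b * l8pdM2 I.F I.p (l8pVl I k)) ≤ S.CW * Λ * T := by
    have e0 : 0 ≤ S.CW * Λ * T := mul_nonneg (mul_nonneg (by linarith) (by linarith)) hT
    calc cv ^ 2 * r3 * (b * l8pdM2 I.F I.p (l8pVl I k)) = r3 * (cv ^ 2 * (b * l8pdM2 I.F I.p (l8pVl I k))) := by ring
      _ ≤ r3 * (S.CW * Λ * T) := mul_le_mul_of_nonneg_left a2 hr30.le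
      _ ≤ 1 * (S.CW * Λ * T) := mul_le_mul_of_nonneg_right hr3 e0
      _ = _ := one_mul _
  have b3 : cv ^ 2 * r3 * (b * l8pdM3 I.𝔹 I.F I.p (l8pVl I k)) ≤ K3 * Λ * T := by
    calc _ ≤ K3 * T := a3
      _ ≤ (K3 * T) * Λ := le_mul_of_one_le_right hK3T hΛ
      _ = _ := by ring
  unfold l8pdM
  calc cv ^ 2 * r3 * (b * (l8pdM1 I.F I.p (l8pVl I k) + l8pdM2 I.F I.p (l8pVl I k) + l8pdM3 I.𝔹 I.F I.p (l8pVl I k)))
      = cv ^ 2 * r3 * (b * l8pdM1 I.F I.p (l8pVl I k)) + cv ^ 2 * r3 * (b * l8pdM2 I.F I.p (l8pVl I k))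
          + cv ^ 2 * r3 * (b * l8pdM3 I.𝔹 I.F I.p (l8pVl I k)) := by ring
    _ ≤ 2 * Λ * T + S.CW * Λ * T + K3 * Λ * T := by linarith
    _ = _ := by rw [hK3]; ring

/-- the error of the link is below the target -/
theorem tiny_le (k : ℕ) : I.x ^ 40 ≤ I.lam * max (I.v k) I.Y ^ 2 * l8pE I π k := by
  have hx := X.x0
  have h1 : I.x ^ 12 ≤ I.lam := by
    have := X.ok.pt.lam_lo
    rw [show (12 : ℝ) = ((12 : ℕ) : ℝ) by norm_num, Real.rpow_natCast] at this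
    exact this
  have h2 : I.x ^ 2 ≤ max (I.v k) I.Y ^ 2 := pow_le_pow_left₀ hx.le (X.xY.trans (le_max_right _ _)) 2
  have h3 := X.lo3 k
  calc I.x ^ 40 ≤ I.x ^ 17 := X.xpow_le' (by norm_num)
    _ = I.x ^ 12 * I.x ^ 2 * I.x ^ 3 := by ring
    _ ≤ I.lam * max (I.v k) I.Y ^ 2 * l8pE I π k := mul_le_mul (mul_le_mul h1 h2 (by positivity) X.lam0.le) h3 (by positivity) (mul_nonneg X.lam0.le (by positivity))

/-- the logarithm is a subpower -/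
theorem Lam_le {δ : ℝ} (hδ : 0 < δ) : 1 + Real.log (2 / I.x) ≤ (2 + 1 / δ) * I.x ^ (-δ) := by
  have hx := X.x0
  have h1 : Real.log (2 / I.x) = Real.log 2 + Real.log I.x⁻¹ := by
    rw [div_eq_mul_inv, Real.log_mul (by norm_num) (inv_ne_zero hx.ne')]
  have h2 : Real.log 2 ≤ 1 := by
    have := Real.log_le_sub_one_of_pos (show (0 : ℝ) < 2 by norm_num)
    linarith
  have h3 : Real.log I.x⁻¹ ≤ I.x⁻¹ ^ δ / δ := Real.log_le_rpow_div (inv_nonneg.2 hx.le) hδ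
  have h4 : I.x⁻¹ ^ δ = I.x ^ (-δ) := by rw [Real.inv_rpow hx.le, Real.rpow_neg hx.le]
  have h5 : 1 ≤ I.x ^ (-δ) := Real.one_le_rpow_of_pos_of_le_one_of_nonpos hx X.x1 (by linarith)
  rw [h4] at h3
  have h6 : (2 + 1 / δ) * I.x ^ (-δ) = 2 * I.x ^ (-δ) + I.x ^ (-δ) / δ := by ring
  rw [h1, h6]
  linarith

/-- **DEF at one instance** -/
theorem def_le (hB : LlBaseProfile I.𝔹 I.F.T) (hF : I.F.Ok) (hU0 : I.U ≤ I.F.U0) {ε Cq : ℝ} (hε : 0 < ε) (heps : π.eps ≤ ε / 2) (hCq : 0 ≤ Cq)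
    (hlk : L8pDefLk I (I.x ^ 40)) {k : ℕ} (hk : k ≤ I.n)
    (hP : L8pdLip I.F I.p (fun q => q.d I.F I.𝔹 (l8pVl I k)) (Cq * l8pdM I.𝔹 I.F I.p (l8pVl I k)) ∧
      (l8pVl I k = I.p.x → L8pdLip I.F I.p (fun q => q.hS I.F I.𝔹 (l8pVl I k)) (Cq * l8pdM I.𝔹 I.F I.p (l8pVl I k)))) :
    |I.d k| + |I.dd k| ≤ (2 * Cq * ((S.CW + π.c.Cp + 2 * (1 + (1 - I.𝔹.pTop I.F.T) ^ (-(1 / 2) : ℝ)) + 5) * (2 + 2 / ε) / (cv ^ 2 * skwR π.c.zs ^ 3)) + 2)
      * I.x ^ (-ε) * I.lam * max (I.v k) I.Y ^ 2 * l8pE I π k := by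
  have hx := X.x0
  obtain ⟨d1, d2⟩ := hlk k hk _ hP.1 hP.2
  have hM := X.dM_le hB hF hU0 k
  have hM0 := X.dM_nonneg hF k
  have ht := X.tiny_le k
  have hT := (X.T_pos k).le
  have hΛ := X.Lam_le (δ := ε / 2) (by positivity)
  have hΛ1 := X.Lam1
  have hA : 0 < cv ^ 2 * skwR π.c.zs ^ 3 := mul_pos (pow_pos X.par.cv0 2) (pow_pos X.r0_pos 3)
  set T : ℝ := I.lam * max (I.v k) I.Y ^ 2 * l8pE I π k with hTd
  set M : ℝ := l8pdM I.𝔹 I.F I.p (l8pVl I k) with hMd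
  set A : ℝ := cv ^ 2 * skwR π.c.zs ^ 3 with hAd
  set Kt : ℝ := S.CW + π.c.Cp + 2 * (1 + (1 - I.𝔹.pTop I.F.T) ^ (-(1 / 2) : ℝ)) + 5 with hKt
  set s : ℝ := I.x ^ (-(ε / 2)) with hs
  set t : ℝ := I.x ^ (-ε) with htd
  have hs0 : 0 < s := Real.rpow_pos_of_pos hx _
  have hss : s * s = t := by
    rw [hs, htd, ← Real.rpow_add hx]; congr 1; ring
  have ht1 : 1 ≤ t := Real.one_le_rpow_of_pos_of_le_one_of_nonpos hx X.x1 (by linarith)
  have hbs : 1 ≤ I.x ^ π.eps * s := by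
    rw [hs, ← Real.rpow_add hx]
    exact Real.one_le_rpow_of_pos_of_le_one_of_nonpos hx X.x1 (by linarith)
  have hKt0 : 0 ≤ Kt := by
    have h1 := X.CW1
    have h2 := X.Cp1
    have h3 : 0 ≤ Kt * (1 + Real.log (2 / I.x)) * T := le_trans (mul_nonneg hA.le (mul_nonneg X.b0.le hM0)) hM
    by_contra hc
    push Not at hc
    have h4 : 0 < T := X.T_pos k
    have : Kt * (1 + Real.log (2 / I.x)) * T < 0 := mul_neg_of_neg_of_pos (mul_neg_of_neg_of_pos hc (by linarith)) h4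
    linarith
  have e22 : (2 : ℝ) + 1 / (ε / 2) = 2 + 2 / ε := by field_simp
  rw [e22] at hΛ
  have hAM : A * M ≤ Kt * (2 + 2 / ε) * (t * T) := by
    calc A * M ≤ A * M * (I.x ^ π.eps * s) := le_mul_of_one_le_right (mul_nonneg hA.le hM0) hbs
      _ = A * (I.x ^ π.eps * M) * s := by ring
      _ ≤ Kt * (1 + Real.log (2 / I.x)) * T * s := mul_le_mul_of_nonneg_right hM hs0.le
      _ = Kt * T * s * (1 + Real.log (2 / I.x)) := by ring
      _ ≤ Kt * T * s * ((2 + 2 / ε) * s) := mul_le_mul_of_nonneg_left hΛ (mul_nonneg (mul_nonneg hKt0 hT) hs0.le)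
      _ = Kt * (2 + 2 / ε) * (s * s * T) := by ring
      _ = _ := by rw [hss]
  have hM' : M ≤ Kt * (2 + 2 / ε) / A * (t * T) := by
    rw [div_mul_eq_mul_div, le_div_iff₀ hA]
    linarith
  have hfin : |I.d k| + |I.dd k| ≤ 2 * (Cq * M) + 2 * T := by linarith
  have h8 : Cq * M ≤ Cq * (Kt * (2 + 2 / ε) / A * (t * T)) := mul_le_mul_of_nonneg_left hM' hCq
  have h9 : T ≤ t * T := le_mul_of_one_le_left hT ht1
  calc |I.d k| + |I.dd k| ≤ 2 * (Cq * (Kt * (2 + 2 / ε) / A * (t * T))) + 2 * (t * T) := by linarith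
    _ = (2 * Cq * (Kt * (2 + 2 / ε) / A) + 2) * t * T := by ring
    _ = _ := by rw [hTd]; ring

end L8peCtx

/-- **DEF** for every base: PATH (`l8pd_path`) + ENVELOPE (`L8peCtx.def_le`); the LINK is the hypothesis `L8pDefLk` of the contract -/
theorem l8pd_def (𝔹 : LlBase) (T : ℝ) : L8pDefDir 𝔹 T := by
  intro F0 hF pB pS h0 h1 κ ε hκ hε
  have hE : LlExpOk pB.sStar pB.eta pS := llc_expOk pB h0 h1
  have top := hF.2.2 _ _ _ hE
  have hFok := top.sec3.ok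
  have hT : (F0.wExp pB.sStar pB.eta pS).T = T := hF.1
  have hB : LlBaseProfile 𝔹 (F0.wExp pB.sStar pB.eta pS).T := by rw [hT]; exact hF.2.1
  have hz : 2 * (F0.wExp pB.sStar pB.eta pS).z0 ≤ 𝔹.xiS (F0.wExp pB.sStar pB.eta pS).T := by
    have a := top.small.z0s
    have b := hFok.z00
    linarith
  obtain ⟨Cq, U1, Np, hCq, hU1, HP⟩ := l8pd_path 𝔹 _ hE hB top.sec3 hz
  refine ⟨ε / 2, by positivity, fun π S cv hπ heps => ?_⟩
  have hCW : 1 ≤ S.CW := hπ.Sok.CW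
  have hLq : 1 ≤ S.c.Lq := hπ.Sok.c.Lq
  have hM : 0 < S.CW + S.c.Lq + 2 := by linarith
  obtain ⟨N1, hN1⟩ := skw_llb_small 1 (1 / (S.CW + S.c.Lq + 2)) one_pos (by positivity)
  obtain ⟨N2, hN2⟩ := skw_llb_small κ (min U1 (F0.wExp pB.sStar pB.eta pS).U0) hκ (lt_min hU1 hFok.U00)
  refine ⟨2 * Cq * ((S.CW + π.c.Cp + 2 * (1 + (1 - 𝔹.pTop (F0.wExp pB.sStar pB.eta pS).T) ^ (-(1 / 2) : ℝ)) + 5) * (2 + 2 / ε) / (cv ^ 2 * skwR π.c.zs ^ 3)) + 2,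
    max Np (max N1 N2), 0, fun I hat hok C hC hlk k hk _ => ?_⟩
  have hNp : Np ≤ I.p.N := (le_max_left _ _).trans hat.hN
  have hN1' : N1 ≤ I.p.N := ((le_max_left _ _).trans (le_max_right _ _)).trans hat.hN
  have hN2' : N2 ≤ I.p.N := ((le_max_right _ _).trans (le_max_right _ _)).trans hat.hN
  have hsm : (S.CW + S.c.Lq + 2) * I.x ≤ 1 := by
    have := hN1 I.p hN1'
    rw [Real.rpow_one, le_div_iff₀ hM] at this
    have e : I.x = I.p.x := rfl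
    rw [e]; linarith
  have X : L8peCtx I π S cv := ⟨hπ, hat.ok, hat.dir, hok, hsm⟩
  have hU : I.U ≤ min U1 (F0.wExp pB.sStar pB.eta pS).U0 := X.UY.trans (hat.hY.trans (hN2 I.p hN2'))
  have hB' : LlBaseProfile I.𝔹 I.F.T := by rw [hat.hF, hat.hB]; exact hB
  have hF' : I.F.Ok := by rw [hat.hF]; exact hFok
  have hU0 : I.U ≤ I.F.U0 := by rw [hat.hF]; exact hU.trans (min_le_right _ _)
  have HP' : ∀ p : LlPt, p.Ok I.F → Np ≤ p.N → l8Dir p → p.U I.F ≤ U1 → ∀ v ∈ Icc 0 p.ell,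
      L8pdLip I.F p (fun q => q.d I.F I.𝔹 v) (Cq * l8pdM I.𝔹 I.F p v) ∧ (v = p.x → L8pdLip I.F p (fun q => q.hS I.F I.𝔹 v) (Cq * l8pdM I.𝔹 I.F p v)) := by
    rw [hat.hF, hat.hB]; exact HP
  have hP := HP' I.p hat.ok.pt hNp hat.dir (hU.trans (min_le_left _ _)) (l8pVl I k) ⟨X.Vl_nonneg k, X.Vl_le_ell k⟩
  have hmain := X.def_le hB' hF' hU0 hε heps hCq hlk hk hP
  have e1 : I.𝔹.pTop I.F.T = 𝔹.pTop (F0.wExp pB.sStar pB.eta pS).T := by rw [hat.hF, hat.hB]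
  rw [e1] at hmain
  refine hmain.trans ?_
  have ht : 0 ≤ I.x ^ (-ε) := Real.rpow_nonneg X.x0.le _
  have h2 : 0 ≤ max (I.v k) I.Y ^ 2 := by positivity
  exact mul_le_mul_of_nonneg_right (mul_le_mul_of_nonneg_right (mul_le_mul_of_nonneg_right (mul_le_mul_of_nonneg_right hC ht) X.lam0.le) h2) (X.e_pos k).le

/-- **DEF on the direct sweep** (leaf of `l8p_core_dir`, PM/InstZ.lean) -/
theorem l8p_def_dir (T : ℝ) (_hT : 1 < T) : L8pDefDir llBase T := l8pd_def llBase T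

end

end Claimed.Agent.R286
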