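import Claimed.Agent.R286.PM.InstL
import Claimed.Agent.R286.PM.InstEnv

/-!
# Row 286 (S0533), folder PM, file InstEnvL : LEAF ENVL of `l8q_core_low` = THE DETERMINISTIC ENVELOPE, LOW REGION OF THE SIZE PATHS      (helper237; prefix `l8qe_` / `L8qe`)

    l8q_env : L8qEnv llBase T        (contract in PM/InstL.lean, sec. 2; 0 sorry; valid for every base: `l8qe_env`)

TEX[LL:prop:statistics-pointwise] (last display)   TEX[LL:lem:statistics-widths] (i), low-region variant   TEX[LL:cor:statistics-cap]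
Twin of PM/InstEnv.lean: coordinate `z` = mass, `G = 1`, `(U, Z) := (Y_c, 1)`, cuts `zc k = v_(k-1) = l8pVl I k`, working interval `[zlo, zw]`, buffer `[0, zs]`.
Per instance: `L8qeCtx I π S Cc` = `π.Ok`, `I.Ok`, `L8qOk I π S Cc` and ONE smallness `(CW + Lq + 2) x ≤ 1`.
* `lo3`, `low`, `hi` pointwise;   `s_le` (three regions: below `zlo`, buffer, above the buffer where `S ≤ 1 ≤ v / zreg`);   `f_low`, `f_high` (sandwich `S(v - x^40) ≤ S_k ≤ S(v)` at `v = v_(k-1)`);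
* `d1` = the cap `L8qOk.cap` (Cor. 8.10, helper163);   `bud`: `cell`, `cells_le` (cells clamped to `[z₁, zw]`), `tail` (`skw_leaf_inTail` on `[zlo, zw]`), `mass_le`, `bud_low`, `bud_high`.
-/

set_option autoImplicit false
set_option linter.unusedSectionVars false
namespace Claimed.Agent.R286
open MeasureTheory Set Filter

/-- everything ENVL reads at one instance; `sm` = the only smallness of `x` -/
structure L8qeCtx (I : L8In) (π : L8qPar) (S : SkpS) (Cc : ℝ) : Prop where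
  par : π.Ok S
  ok : I.Ok
  inst : L8qOk I π S Cc
  sm : (S.CW + S.c.Lq + 2) * I.x ≤ 1

namespace L8qeCtx

variable {I : L8In} {π : L8qPar} {S : SkpS} {Cc : ℝ} (X : L8qeCtx I π S Cc)
include X

theorem x0 : 0 < I.x := I.x_pos X.ok
theorem x1 : I.x ≤ 1 := I.x_le_one X.ok
theorem U0 : 0 < I.U := X.x0.trans_le X.inst.xU
theorem UY : I.U ≤ I.Yc llDStar := by
  have := X.inst.Zc1
  have h := X.U0
  unfold L8In.Yc
  nlinarith
theorem Y0 : 0 < I.Yc llDStar := X.U0.trans_le X.UY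
theorem xY : I.x ≤ I.Yc llDStar := X.inst.xU.trans X.UY
theorem c18 : 8 ≤ π.c1 := X.par.c1
theorem wh : SkwHyp π.c (l8qD I π) := by
  have := X.inst.pm.wh
  rw [X.par.Sc] at this
  exact this
theorem CW1 : 1 ≤ S.CW := X.par.Sok.CW
theorem Lq1 : 1 ≤ S.c.Lq := X.par.Sok.c.Lq
theorem zlo16 : 16 * (π.c1 * I.Yc llDStar) ≤ 1 := (X.inst.pm.zloreg).trans X.par.Sok.zreg1
theorem spOk : (I.sp false).Ok := X.inst.pm.sp
theorem adm : SkAdm I.a I.P0 := X.inst.fine.adm.1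
theorem v_mono : Monotone I.v := X.spOk.v_mono
theorem v_nonneg (k : ℕ) : 0 ≤ I.v k := X.spOk.v_nonneg k
theorem n_eq : I.P0.length = I.n := by simp [L8In.P0, L8In.n, llMat]
theorem spn : (I.sp false).n = I.n := X.n_eq
theorem v_top {k : ℕ} (hk : I.n ≤ k) : I.v k = I.a := X.spOk.v_term k (by rw [X.spn]; exact hk)
theorem a1 : 1 ≤ I.a := X.inst.pm.a1
theorem Vl_le (k : ℕ) : l8pVl I k ≤ I.v k := by
  unfold l8pVl
  split_ifs with h
  · exact X.v_nonneg k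
  · exact X.v_mono (Nat.sub_le k 1)
theorem Vl_succ (k : ℕ) : l8pVl I (k + 1) = I.v k := by simp [l8pVl]
theorem Vl_zero : l8pVl I 0 = 0 := by simp [l8pVl]
theorem Vl_nonneg (k : ℕ) : 0 ≤ l8pVl I k := by
  unfold l8pVl
  split_ifs with h
  · exact le_rfl
  · exact X.v_nonneg _
theorem Vl_mono : Monotone (l8pVl I) := X.inst.pm.zmono
theorem dv_eq (k : ℕ) : I.dv k = I.v k - l8pVl I k := rfl
theorem dv_nonneg (k : ℕ) : 0 ≤ I.dv k := by rw [X.dv_eq]; linarith [X.Vl_le k]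
theorem dv_le {k : ℕ} (hk : k ≤ I.n) : I.dv k ≤ I.x ^ 40 := X.inst.fine.dv_le k hk
theorem zs_eq : (l8qD I π).zmax = π.c.zs := rfl
theorem zs1 : π.c.zs ≤ 1 := X.par.zs1
theorem zw0 : 0 < π.zw := X.par.zw0
theorem zws : 2 * π.zw ≤ π.c.zs := X.par.zws

theorem smCW : S.CW * I.x ≤ 1 := by
  have := X.sm; have := X.x0; have := X.Lq1
  nlinarith
theorem smLq : (1 + S.c.Lq) * I.x ≤ 1 := by
  have := X.sm; have := X.x0; have := X.CW1
  nlinarith
theorem sm2 : 2 * I.x ≤ 1 := by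
  have := X.sm; have := X.x0; have := X.CW1; have := X.Lq1
  nlinarith
theorem xpow_le {j : ℕ} (hj : 1 ≤ j) : I.x ^ j ≤ I.x := by
  calc I.x ^ j ≤ I.x ^ 1 := pow_le_pow_of_le_one X.x0.le X.x1 hj
    _ = I.x := pow_one _
theorem xpow_le' {i j : ℕ} (hj : i ≤ j) : I.x ^ j ≤ I.x ^ i := pow_le_pow_of_le_one X.x0.le X.x1 hj
theorem x3 : I.x ^ 3 ≤ I.x ^ 2 / S.CW := by
  have h0 : 0 < S.CW := by linarith [X.CW1]
  rw [le_div_iff₀ h0]
  have := X.smCW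
  have h2 : 0 ≤ I.x ^ 2 := by positivity
  nlinarith
theorem x40 : 2 * I.x ^ 40 ≤ I.x := by
  have e1 : 2 * I.x ^ 40 = 2 * I.x * I.x ^ 39 := by ring
  have e2 : I.x ^ 39 ≤ I.x := X.xpow_le (by norm_num)
  have e3 := X.sm2
  have e4 := X.x0
  have e5 : 0 ≤ I.x ^ 39 := by positivity
  rw [e1]; nlinarith
theorem zlo0 : 0 < π.c1 * I.Yc llDStar := by
  have := X.c18; have := X.Y0
  positivity
theorem x_zlo : 4 * I.x ≤ π.c1 * I.Yc llDStar / 2 := by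
  have := X.c18; have := X.xY; have := X.x0
  nlinarith
theorem R_lo {z : ℝ} (hz : π.c1 * I.Yc llDStar / 2 ≤ z) : I.x ≤ skwR z := by
  have := X.x_zlo; have := X.x0
  exact le_min (by linarith) X.x1
theorem b_eq : (l8qD I π).b = I.x ^ π.eps := rfl
theorem b_lo : I.x ≤ I.x ^ π.eps := by
  have := Real.rpow_le_rpow_of_exponent_ge X.x0 X.x1 X.par.eps1
  rwa [Real.rpow_one] at this
theorem b0 : 0 < I.x ^ π.eps := Real.rpow_pos_of_pos X.x0 _
theorem b1 : I.x ^ π.eps ≤ 1 := Real.rpow_le_one X.x0.le X.x1 X.par.eps0.le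
theorem hh_lo {z : ℝ} (hz : z ∈ Icc (π.c1 * I.Yc llDStar / 2) π.c.zs) : I.x ^ 2 / S.CW ≤ l8qH I π z := by
  have h0 : 0 < S.CW := by linarith [X.CW1]
  refine le_trans ?_ (X.inst.wfull.lower z hz)
  apply div_le_div_of_nonneg_right _ h0.le
  have hR := X.R_lo hz.1
  have hR1 := skw_gk_R_le_one z
  have hx := X.x0
  have hR0 : 0 < skwR z := hx.trans_le hR
  refine le_min ?_ ?_
  · rw [X.b_eq]
    have := X.b_lo
    nlinarith
  · rw [le_div_iff₀ hR0]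
    have hU : I.x ≤ (l8qD I π).U := X.xY
    have h2 : I.x ^ 2 ≤ (l8qD I π).U ^ 2 := pow_le_pow_left₀ hx.le hU 2
    have h3 : 0 ≤ I.x ^ 2 := by positivity
    nlinarith
theorem hh_nonneg {z : ℝ} (hz : z ∈ Icc (π.c1 * I.Yc llDStar / 2) π.c.zs) : 0 ≤ l8qH I π z := by
  have h0 : 0 < S.CW := by linarith [X.CW1]
  have := X.x0
  exact le_trans (by positivity) (X.hh_lo hz)
theorem hh_cmp {z z' : ℝ} (hz : z ∈ Icc (π.c1 * I.Yc llDStar / 2) π.c.zs) (hz' : z' ∈ Icc (π.c1 * I.Yc llDStar / 2) π.c.zs)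
    (h : |z - z'| ≤ I.x ^ 40) : l8qH I π z' ≤ 2 * S.CW * l8qH I π z := by
  have h0 : 0 < S.CW := by linarith [X.CW1]
  have h1 := X.inst.wfull.qlip z hz z' hz'
  have h2 := X.hh_lo hz
  have h3 : I.x ^ 40 ≤ I.x ^ 3 := X.xpow_le' (by norm_num)
  have h4 := X.x3
  have h5 : l8qH I π z + |z - z'| ≤ 2 * l8qH I π z := by linarith
  calc l8qH I π z' ≤ S.CW * (l8qH I π z + |z - z'|) := h1
    _ ≤ S.CW * (2 * l8qH I π z) := mul_le_mul_of_nonneg_left h5 h0.le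
    _ = 2 * S.CW * l8qH I π z := by ring
theorem E_eq (z : ℝ) : skwE (l8qD I π) (l8qH I π) z = min (skwR z) (l8qH I π z) := by
  show min (skwR z) ((1 : ℝ) ^ 2 * l8qH I π z) = _
  rw [one_pow, one_mul]
theorem E_lo {z : ℝ} (hz : z ∈ Icc (π.c1 * I.Yc llDStar / 2) π.c.zs) : I.x ^ 3 ≤ skwE (l8qD I π) (l8qH I π) z := by
  rw [X.E_eq]
  refine le_min ?_ ?_
  · exact (X.xpow_le (by norm_num)).trans (X.R_lo hz.1)
  · exact X.x3.trans (X.hh_lo hz)
theorem E_cmp {z z' : ℝ} (hz : z ∈ Icc (π.c1 * I.Yc llDStar / 2) π.c.zs) (hz' : z' ∈ Icc (π.c1 * I.Yc llDStar / 2) π.c.zs)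
    (h : |z - z'| ≤ I.x ^ 40) (hzz : z' ≤ z) : skwE (l8qD I π) (l8qH I π) z' ≤ 2 * S.CW * skwE (l8qD I π) (l8qH I π) z := by
  have h0 := X.CW1
  have h1 := X.hh_cmp hz hz' h
  have hR0 : 0 ≤ skwR z := (X.x0.le).trans (X.R_lo hz.1)
  rw [X.E_eq, X.E_eq, mul_min_of_nonneg _ _ (by linarith : (0 : ℝ) ≤ 2 * S.CW)]
  refine le_min ?_ ?_
  · refine (min_le_left _ _).trans ((skw_gk_R_mono hzz).trans ?_)
    nlinarith
  · exact (min_le_right _ _).trans h1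

/-! ### the mean -/
theorem S_eq {k : ℕ} (hk : k ≤ I.n) : I.S k = (I.sp false).S k := X.inst.Slink k hk
theorem S_mono {j k : ℕ} (hjk : j ≤ k) (hk : k ≤ I.n) : I.S j ≤ I.S k := by
  rw [X.S_eq hk, X.S_eq (hjk.trans hk)]
  exact (I.sp false).l8s_S_mono X.spOk hjk
theorem S_nonneg {k : ℕ} (hk : k ≤ I.n) : 0 ≤ I.S k := by
  rw [X.S_eq hk]; exact (I.sp false).l8s_S_nonneg k
theorem S_le_one {k : ℕ} (hk : k ≤ I.n) : I.S k ≤ 1 := by
  rw [X.S_eq hk]; exact (I.sp false).l8s_S_le_one X.spOk k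
theorem dS_eq (z : ℝ) : (l8qD I π).S z = I.S (l8pIdx I z) := rfl
theorem idx_le (v : ℝ) : l8pIdx I v ≤ I.n := by
  rw [← X.n_eq]; exact List.length_filter_le _ _
theorem idx_ge {k : ℕ} (hk : k ≤ I.n) {z : ℝ} (h : l8pVl I k ≤ z) : k ≤ l8pIdx I z := by
  refine l8pe_idx_ge X.adm (by rw [X.n_eq]; exact hk) ?_
  rcases Nat.eq_zero_or_pos k with h0 | h0
  · exact Or.inl h0
  · right
    have h2 : l8pVl I k = skMs I.a I.P0 (k - 1) := by
      unfold l8pVl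
      rw [if_neg (by omega)]; rfl
    rwa [h2] at h
theorem S_le_dS {k : ℕ} (hk : k ≤ I.n) {z : ℝ} (h : l8pVl I k ≤ z) : I.S k ≤ (l8qD I π).S z := by
  rw [X.dS_eq]
  exact X.S_mono (X.idx_ge hk h) (X.idx_le _)
theorem dS_le_S {k : ℕ} (hk : k ≤ I.n) {z : ℝ} (h : z < I.v k) : (l8qD I π).S z ≤ I.S k := by
  rw [X.dS_eq]
  exact X.S_mono (l8pe_idx_le X.adm h) hk
theorem le_nb {k : ℕ} (hk : k ≤ I.n) (h : l8pVl I k ≤ π.c.zs) : k ≤ l8qNb I π := X.idx_ge hk h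

/-! ### the pointwise fields -/
theorem e_lowc {k : ℕ} (h : l8pVl I k < π.c1 * I.Yc llDStar) : l8qE I π k = I.Yc llDStar := if_pos h
theorem e_midc {k : ℕ} (h : π.c1 * I.Yc llDStar ≤ l8pVl I k) (h' : l8pVl I k ≤ π.zw) :
    l8qE I π k = skwE (l8qD I π) (l8qH I π) (l8pVl I k) := by
  unfold l8qE
  rw [if_neg (not_lt.2 h), if_pos h']
theorem e_topc {k : ℕ} (h : π.c1 * I.Yc llDStar ≤ l8pVl I k) (h' : π.zw < l8pVl I k) : l8qE I π k = skwR (l8pVl I k) := by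
  unfold l8qE
  rw [if_neg (not_lt.2 h), if_neg (not_le.2 h')]
theorem zc_mem' {k : ℕ} (h : π.c1 * I.Yc llDStar ≤ l8pVl I k) (h' : l8pVl I k ≤ π.zw) :
    l8pVl I k ∈ Icc (π.c1 * I.Yc llDStar / 2) π.c.zs :=
  ⟨by linarith [X.zlo0], by linarith [X.zws, X.zw0]⟩
theorem lo3 (k : ℕ) : I.x ^ 3 ≤ l8qE I π k := by
  rcases lt_or_ge (l8pVl I k) (π.c1 * I.Yc llDStar) with h | h
  · rw [X.e_lowc h]
    exact (X.xpow_le (by norm_num)).trans X.xY
  · rcases le_or_gt (l8pVl I k) π.zw with h' | h'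
    · rw [X.e_midc h h']
      exact X.E_lo (X.zc_mem' h h')
    · rw [X.e_topc h h']
      exact (X.xpow_le (by norm_num)).trans (X.R_lo (by linarith [X.zlo0]))
theorem e_pos (k : ℕ) : 0 < l8qE I π k := lt_of_lt_of_le (pow_pos X.x0 3) (X.lo3 k)
theorem low {k : ℕ} (h : I.v k ≤ I.Yc llDStar) : l8qE I π k = I.Yc llDStar := by
  apply X.e_lowc
  have := X.Vl_le k; have := X.c18; have := X.Y0
  nlinarith
theorem hi {k : ℕ} (h : I.Yc llDStar ≤ I.v k) : l8qE I π k ≤ I.v k := by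
  rcases lt_or_ge (l8pVl I k) (π.c1 * I.Yc llDStar) with h1 | h1
  · rw [X.e_lowc h1]; exact h
  · rcases le_or_gt (l8pVl I k) π.zw with h' | h'
    · rw [X.e_midc h1 h']
      exact (min_le_left _ _).trans ((min_le_left _ _).trans (X.Vl_le k))
    · rw [X.e_topc h1 h']
      exact (min_le_left _ _).trans (X.Vl_le k)
theorem zbuf_le : l8pVl I (l8qNb I π) ≤ π.c.zs := X.inst.pm.zbuf
theorem zreg_le : S.zreg ≤ l8pVl I (l8qNb I π) := X.inst.pm.zreg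
theorem zlo_le_zb : π.c1 * I.Yc llDStar ≤ l8pVl I (l8qNb I π) := by
  have h2 : 16 * (π.c1 * I.Yc llDStar) ≤ S.zreg := X.inst.pm.zloreg
  linarith [X.zlo0, X.zreg_le]
theorem dq_le {z : ℝ} (hz : z ∈ Icc 0 (l8pVl I (l8qNb I π))) : (l8qD I π).q z ≤ S.Cq * skwR z := X.inst.pm.qr z hz
theorem dq_nonneg {z : ℝ} (hz : z ∈ Icc 0 π.c.zs) : 0 ≤ (l8qD I π).q z := X.wh.q0 z hz
theorem dS_le {z : ℝ} (hz : z ∈ Icc (π.c1 * I.Yc llDStar / 4) (l8pVl I (l8qNb I π))) :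
    (l8qD I π).S z ≤ (π.c.Cf + S.Cq) * skwR z := by
  have h0 := X.zlo0
  have h1 := X.wh.fr z ⟨hz.1, hz.2.trans X.zbuf_le⟩
  have h2 := X.dq_le ⟨by linarith [hz.1], hz.2⟩
  have h3 := le_abs_self (skwF (l8qD I π) z)
  unfold skwF at h3 h1
  linarith
theorem Cfq : 0 ≤ π.c.Cf + S.Cq := by
  have h1 : 1 ≤ S.c.Cf := X.par.Sok.c.Cf
  rw [X.par.Sc] at h1
  linarith [X.par.Sok.Cq]
theorem S_low {k : ℕ} (hk : k ≤ I.n) (h : l8pVl I k < π.c1 * I.Yc llDStar) :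
    I.S k ≤ (π.c.Cf + S.Cq) * (π.c1 * I.Yc llDStar) := by
  have h0 := X.zlo0
  refine (X.S_le_dS hk h.le).trans ((X.dS_le ⟨by linarith, X.zlo_le_zb⟩).trans ?_)
  exact mul_le_mul_of_nonneg_left (min_le_left _ _) X.Cfq
theorem s_le {k : ℕ} (hk : k ≤ I.n) : I.S k ≤ ((π.c.Cf + S.Cq) * π.c1 + 1 / S.zreg) * (I.v k + I.Yc llDStar) := by
  have hv := X.v_nonneg k
  have hY := X.Y0
  have hc1 := X.c18
  have hq := X.Cfq
  have hzr := X.par.Sok.zreg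
  have hzi : 0 < 1 / S.zreg := by positivity
  rcases lt_or_ge (l8pVl I k) (π.c1 * I.Yc llDStar) with h | h
  · refine (X.S_low hk h).trans ?_
    have e1 : 0 ≤ (π.c.Cf + S.Cq) * π.c1 := mul_nonneg hq (by linarith)
    nlinarith
  · rcases le_or_gt (l8pVl I k) (l8pVl I (l8qNb I π)) with h' | h'
    · have h0 := X.zlo0
      refine (X.S_le_dS hk le_rfl).trans ((X.dS_le ⟨by linarith, h'⟩).trans ?_)
      have e1 : skwR (l8pVl I k) ≤ I.v k := (min_le_left _ _).trans (X.Vl_le k)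
      have e2 : (π.c.Cf + S.Cq) * skwR (l8pVl I k) ≤ (π.c.Cf + S.Cq) * I.v k := mul_le_mul_of_nonneg_left e1 hq
      have e3 : (π.c.Cf + S.Cq) * I.v k ≤ (π.c.Cf + S.Cq) * π.c1 * I.v k := by
        have : 0 ≤ (π.c.Cf + S.Cq) * I.v k := mul_nonneg hq hv
        nlinarith
      have e4 : 0 ≤ (π.c.Cf + S.Cq) * π.c1 := mul_nonneg hq (by linarith)
      nlinarith
    · refine (X.S_le_one hk).trans ?_
      have e1 : S.zreg ≤ I.v k := by linarith [X.zreg_le, X.Vl_le k]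
      have e2 : 1 ≤ 1 / S.zreg * I.v k := by
        rw [one_div, ← div_eq_inv_mul, le_div_iff₀ hzr]; linarith
      have e4 : 0 ≤ (π.c.Cf + S.Cq) * π.c1 := mul_nonneg hq (by linarith)
      nlinarith
theorem ql {k : ℕ} (hk : k ≤ l8qNb I π) : |I.q k - (l8qD I π).q (l8pVl I k)| ≤ I.x ^ 40 := X.inst.qlink k hk
theorem f_low {k : ℕ} (hk : k ≤ I.n) (h : l8pVl I k < π.c1 * I.Yc llDStar) :
    |I.f k| ≤ ((π.c.Cf + 2 * S.Cq) * π.c1 + 1) * l8qE I π k := by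
  rw [X.e_lowc h]
  have hzb := X.zlo_le_zb
  have hnb : k ≤ l8qNb I π := X.le_nb hk (by linarith [X.zbuf_le])
  have h1 := X.S_low hk h
  have h2 := X.S_nonneg hk
  have h3 := abs_le.1 (X.ql hnb)
  have h4 := X.dq_nonneg (z := l8pVl I k) ⟨X.Vl_nonneg k, by linarith [X.zbuf_le]⟩
  have h5 := X.dq_le (z := l8pVl I k) ⟨X.Vl_nonneg k, by linarith⟩
  have hCq : 0 ≤ S.Cq := by linarith [X.par.Sok.Cq]
  have h6 : S.Cq * skwR (l8pVl I k) ≤ S.Cq * (π.c1 * I.Yc llDStar) :=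
    mul_le_mul_of_nonneg_left ((min_le_left _ _).trans h.le) hCq
  have h7 : I.x ^ 40 ≤ I.Yc llDStar := (X.xpow_le (by norm_num)).trans X.xY
  unfold L8In.f
  rw [abs_le]
  constructor <;> nlinarith
theorem f_high {k : ℕ} (hk : k ≤ I.n) (h : π.c1 * I.Yc llDStar ≤ l8pVl I k) (h' : l8pVl I k ≤ π.zw) :
    |I.f k| ≤ (2 * S.CW ^ 2 + 1) / I.x ^ π.eps * l8qE I π k := by
  rw [X.e_midc h h']
  have hx := X.x0
  have hb0 := X.b0
  have hb1 := X.b1
  have hCW := X.CW1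
  have hz := X.zc_mem' h h'
  have hnb : k ≤ l8qNb I π := X.le_nb hk hz.2
  set z := l8pVl I k with hzdef
  set E := skwE (l8qD I π) (l8qH I π) z with hE
  have hE3 : I.x ^ 3 ≤ E := X.E_lo hz
  have hx40 : I.x ^ 40 ≤ I.x := X.xpow_le (by norm_num)
  have hzlo := X.x_zlo
  have hz' : z - I.x ^ 40 ∈ Icc (π.c1 * I.Yc llDStar / 2) π.c.zs := ⟨by linarith [X.zlo0], by linarith [hz.2, pow_pos hx 40]⟩
  have hz0 : z ∈ Icc 0 π.c.zs := ⟨by linarith [hz.1, X.zlo0], hz.2⟩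
  have hz'0 : z - I.x ^ 40 ∈ Icc 0 π.c.zs := ⟨by linarith [hz'.1, X.zlo0], hz'.2⟩
  have habs : |z - (z - I.x ^ 40)| ≤ I.x ^ 40 := by
    rw [sub_sub_cancel, abs_of_pos (pow_pos hx 40)]
  have hEc := X.E_cmp hz hz' habs (by linarith [pow_pos hx 40])
  have hd1 := X.inst.wfull.dev z hz
  have hd2 := X.inst.wfull.dev _ hz'
  have hq := abs_le.1 (X.ql hnb)
  have hql := abs_le.1 (X.wh.qlip z hz0 _ hz'0)
  rw [sub_sub_cancel, abs_of_pos (pow_pos hx 40)] at hql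
  have hLq : π.c.Lq = S.c.Lq := by rw [X.par.Sc]
  rw [hLq] at hql
  have hS1 := X.S_le_dS (π := π) hk (le_refl (l8pVl I k))
  have hS2 := X.dS_le_S (π := π) hk (z := z - I.x ^ 40) (lt_of_lt_of_le (by linarith [pow_pos hx 40]) (X.Vl_le k))
  rw [← hzdef] at hq hS1
  have herr : (1 + S.c.Lq) * I.x ^ 40 ≤ E := by
    have e1 : (1 + S.c.Lq) * I.x ^ 40 = (1 + S.c.Lq) * I.x * I.x ^ 39 := by ring
    have e2 : I.x ^ 39 ≤ I.x ^ 3 := X.xpow_le' (by norm_num)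
    have e3 : 0 ≤ I.x ^ 39 := by positivity
    have e4 := X.smLq
    rw [e1]
    nlinarith
  have hE0 : 0 ≤ E := le_trans (by positivity) hE3
  rw [X.b_eq] at hd1 hd2
  have hd1' := abs_le.1 hd1
  have hd2' := abs_le.1 hd2
  unfold skwF at hd1' hd2'
  have k1 : S.CW * E / I.x ^ π.eps ≤ 2 * S.CW ^ 2 * E / I.x ^ π.eps := by
    apply div_le_div_of_nonneg_right _ hb0.le
    exact mul_le_mul_of_nonneg_right (by nlinarith) hE0
  have k2 : S.CW * skwE (l8qD I π) (l8qH I π) (z - I.x ^ 40) / I.x ^ π.eps ≤ 2 * S.CW ^ 2 * E / I.x ^ π.eps := by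
    apply div_le_div_of_nonneg_right _ hb0.le
    calc S.CW * skwE (l8qD I π) (l8qH I π) (z - I.x ^ 40) ≤ S.CW * (2 * S.CW * E) := mul_le_mul_of_nonneg_left hEc (by linarith)
      _ = 2 * S.CW ^ 2 * E := by ring
  have k3 : E ≤ E / I.x ^ π.eps := by
    rw [le_div_iff₀ hb0]; nlinarith
  have k4 : (2 * S.CW ^ 2 + 1) / I.x ^ π.eps * E = 2 * S.CW ^ 2 * E / I.x ^ π.eps + E / I.x ^ π.eps := by ring
  rw [k4]
  have hLq0 : 0 ≤ S.c.Lq := by linarith [X.Lq1]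
  have hx40' : 0 < I.x ^ 40 := pow_pos hx 40
  unfold L8In.f
  rw [abs_le]
  constructor
  · nlinarith
  · nlinarith

/-! ### the budget -/
theorem G_eq (z : ℝ) : (l8qD I π).G z = 1 := rfl
theorem dv_int (k : ℕ) : I.dv k = ∫ z in (l8pVl I k)..(l8pVl I (k + 1)), (l8qD I π).G z := by
  have : (l8qD I π).G = fun _ => (1 : ℝ) := rfl
  rw [this, intervalIntegral.integral_const, X.Vl_succ, X.dv_eq]
  simp
theorem hh_le {z : ℝ} (hz : z ∈ Icc (π.c1 * I.Yc llDStar / 2) π.c.zs) : l8qH I π z ≤ S.CW := by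
  have h1 := X.inst.wfull.upper z hz
  have h2 := skw_gk_R_le_one z
  have h3 := X.CW1
  nlinarith
theorem F_int {α β : ℝ} (h1 : π.c1 * I.Yc llDStar / 2 ≤ α) (h2 : α ≤ β) (h3 : β ≤ π.c.zs) :
    IntervalIntegrable (fun z => (l8qD I π).G z * l8qH I π z ^ 2) volume α β :=
  skw_gd_int X.wh (l8qH I π) S.CW (a0 := π.c1 * I.Yc llDStar / 2) (b0 := π.c.zs) (by linarith [X.zlo0]) le_rfl
    X.inst.wfull.meas (fun z hz => by rw [abs_of_nonneg (X.hh_nonneg hz)]; exact X.hh_le hz) h1 h2 h3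
theorem F_nonneg (z : ℝ) : 0 ≤ (l8qD I π).G z * l8qH I π z ^ 2 := by
  rw [X.G_eq, one_mul]; exact sq_nonneg _
/-- one cell -/
theorem cell {k : ℕ} (hk : k ≤ I.n) (h : π.c1 * I.Yc llDStar ≤ l8pVl I k) (h' : I.v k ≤ π.zw) :
    I.dv k * l8qH I π (l8pVl I k) ^ 2
      ≤ 4 * S.CW ^ 2 * ∫ z in (l8pVl I k)..(l8pVl I (k + 1)), (l8qD I π).G z * l8qH I π z ^ 2 := by
  have hle : l8pVl I k ≤ l8pVl I (k + 1) := X.Vl_mono (Nat.le_succ k)
  have h0 := X.zlo0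
  have hzs : l8pVl I (k + 1) ≤ π.c.zs := by rw [X.Vl_succ]; linarith [X.zws, X.zw0]
  have hVk : l8pVl I k ≤ π.zw := (X.Vl_le k).trans h'
  rw [X.dv_int (π := π) k, ← intervalIntegral.integral_mul_const, ← intervalIntegral.integral_const_mul]
  refine intervalIntegral.integral_mono_on hle ?_ ((X.F_int (by linarith) hle hzs).const_mul _) ?_
  · have : (fun z => (l8qD I π).G z * l8qH I π (l8pVl I k) ^ 2) = fun _ => 1 * l8qH I π (l8pVl I k) ^ 2 := rfl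
    rw [this]; exact intervalIntegrable_const
  intro z hz
  have hz1 : z ∈ Icc (π.c1 * I.Yc llDStar / 2) π.c.zs := ⟨by linarith [hz.1], hz.2.trans hzs⟩
  have hm := X.dv_le hk
  rw [X.dv_eq, ← X.Vl_succ k] at hm
  have habs : |z - l8pVl I k| ≤ I.x ^ 40 := by
    rw [abs_of_nonneg (by linarith [hz.1])]; linarith [hz.2]
  have hc := X.hh_cmp hz1 (X.zc_mem' h hVk) habs
  have hn := X.hh_nonneg (X.zc_mem' h hVk)
  have hsq : l8qH I π (l8pVl I k) ^ 2 ≤ (2 * S.CW * l8qH I π z) ^ 2 := pow_le_pow_left₀ hn hc 2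
  rw [X.G_eq, one_mul, one_mul]
  calc l8qH I π (l8pVl I k) ^ 2 ≤ (2 * S.CW * l8qH I π z) ^ 2 := hsq
    _ = 4 * S.CW ^ 2 * l8qH I π z ^ 2 := by ring
/-- disjoint cells inside `[z₁, zw]` -/
theorem cells_le {z₁ : ℝ} (h1 : π.c1 * I.Yc llDStar ≤ z₁) (h2 : z₁ ≤ π.zw) (s : Finset ℕ) (hs : s ⊆ Finset.range (I.n + 1))
    (hz : ∀ k ∈ s, z₁ ≤ l8pVl I k ∧ I.v k ≤ π.zw) :
    ∑ k ∈ s, ∫ z in (l8pVl I k)..(l8pVl I (k + 1)), (l8qD I π).G z * l8qH I π z ^ 2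
      ≤ ∫ z in z₁..π.zw, (l8qD I π).G z * l8qH I π z ^ 2 := by
  have h0 := X.zlo0
  set t : ℕ → ℝ := fun k => min (max (l8pVl I k) z₁) π.zw with ht
  have htm : Monotone t := fun i j hij => min_le_min_right _ (max_le_max_right _ (X.Vl_mono hij))
  have htlo : ∀ k, z₁ ≤ t k := fun k => le_min (le_max_right _ _) h2
  have hthi : ∀ k, t k ≤ π.zw := fun k => min_le_right _ _
  have hint : ∀ k, IntervalIntegrable (fun z => (l8qD I π).G z * l8qH I π z ^ 2) volume (t k) (t (k + 1)) :=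
    fun k => X.F_int (by linarith [htlo k]) (htm (Nat.le_succ k)) (by linarith [hthi (k + 1), X.zws, X.zw0])
  have hsum := intervalIntegral.sum_integral_adjacent_intervals (μ := volume) (a := t) (n := I.n + 1) (fun k _ => hint k)
  have ht0 : t 0 = z₁ := by
    simp only [ht, X.Vl_zero]
    rw [max_eq_right (by linarith), min_eq_left h2]
  have htn : t (I.n + 1) = π.zw := by
    simp only [ht, X.Vl_succ, X.v_top le_rfl]
    apply min_eq_right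
    refine le_trans ?_ (le_max_left _ _)
    linarith [X.a1, X.zws, X.zs1, X.zw0]
  rw [ht0, htn] at hsum
  rw [← hsum]
  calc ∑ k ∈ s, ∫ z in (l8pVl I k)..(l8pVl I (k + 1)), (l8qD I π).G z * l8qH I π z ^ 2
      = ∑ k ∈ s, ∫ z in (t k)..(t (k + 1)), (l8qD I π).G z * l8qH I π z ^ 2 := by
        refine Finset.sum_congr rfl fun k hk => ?_
        obtain ⟨a1, a2⟩ := hz k hk
        have e1 : t k = l8pVl I k := by
          simp only [ht]
          rw [max_eq_left a1, min_eq_left ((X.Vl_le k).trans a2)]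
        have e2 : t (k + 1) = l8pVl I (k + 1) := by
          simp only [ht]
          rw [max_eq_left (a1.trans (X.Vl_mono (Nat.le_succ k))), min_eq_left (by rw [X.Vl_succ]; exact a2)]
        rw [e1, e2]
    _ ≤ ∑ k ∈ Finset.range (I.n + 1), ∫ z in (t k)..(t (k + 1)), (l8qD I π).G z * l8qH I π z ^ 2 := by
        refine Finset.sum_le_sum_of_subset_of_nonneg hs fun k _ _ => ?_
        exact intervalIntegral.integral_nonneg (htm (Nat.le_succ k)) fun z _ => X.F_nonneg z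
theorem L_nonneg : 0 ≤ skwL (l8qD I π) := by linarith [skw_gd_L_one X.wh]
/-- the tail of the budget -/
theorem tail {z₁ : ℝ} (h1 : π.c1 * I.Yc llDStar ≤ z₁) (h2 : z₁ ≤ π.zw) :
    ∫ z in z₁..π.zw, (l8qD I π).G z * l8qH I π z ^ 2 ≤ 2 * (S.CW * skwL (l8qD I π) * I.Yc llDStar ^ 4) / z₁ := by
  have h0 := X.zlo0
  have hM : 0 ≤ S.CW * skwL (l8qD I π) * I.Yc llDStar ^ 4 :=
    mul_nonneg (mul_nonneg (by linarith [X.CW1]) X.L_nonneg) (pow_nonneg X.Y0.le 4)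
  refine skw_leaf_inTail (fun z => (l8qD I π).G z * l8qH I π z ^ 2) (π.c1 * I.Yc llDStar) π.zw _ h0 (h1.trans h2)
    hM (fun z _ => X.F_nonneg z) (X.F_int (by linarith) (h1.trans h2) (by linarith [X.zws, X.zw0])) ?_ z₁ ⟨h1, h2⟩
  intro ρ hρ
  have hb := X.inst.wfull.budget ρ hρ
  have hρ0 : 0 < ρ := lt_of_lt_of_le h0 hρ.1
  have hR : skwR ρ = ρ := min_eq_left (by linarith [hρ.2, X.zws, X.zs1, X.zw0])
  rw [hR] at hb
  have hb' : ∫ z in ρ..(min (2 * ρ) π.zw), (l8qD I π).G z * l8qH I π z ^ 2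
      ≤ S.CW * skwL (l8qD I π) * I.Yc llDStar ^ 4 / ρ := hb
  calc ρ * ∫ z in ρ..(min (2 * ρ) π.zw), (l8qD I π).G z * l8qH I π z ^ 2
      ≤ ρ * (S.CW * skwL (l8qD I π) * I.Yc llDStar ^ 4 / ρ) := mul_le_mul_of_nonneg_left hb' hρ0.le
    _ = S.CW * skwL (l8qD I π) * I.Yc llDStar ^ 4 := by field_simp
/-- mass of the cuts of mass `≤ w` -/
theorem mass_le {w : ℝ} (hw : 0 ≤ w) (s : Finset ℕ) (hs : s ⊆ Finset.range (I.n + 1)) (hv : ∀ k ∈ s, I.v k ≤ w) :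
    ∑ k ∈ s, I.dv k ≤ w := by
  have hsum := Finset.sum_range_sub (fun k => min (l8pVl I k) w) (I.n + 1)
  calc ∑ k ∈ s, I.dv k = ∑ k ∈ s, (min (l8pVl I (k + 1)) w - min (l8pVl I k) w) := by
        refine Finset.sum_congr rfl fun k hk => ?_
        have e1 := hv k hk
        rw [X.Vl_succ, min_eq_left e1, min_eq_left ((X.Vl_le k).trans e1), X.dv_eq]
    _ ≤ ∑ k ∈ Finset.range (I.n + 1), (min (l8pVl I (k + 1)) w - min (l8pVl I k) w) := by
        refine Finset.sum_le_sum_of_subset_of_nonneg hs fun k _ _ => ?_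
        exact sub_nonneg.2 (min_le_min_right _ (X.Vl_mono (Nat.le_succ k)))
    _ = min (l8pVl I (I.n + 1)) w - min (l8pVl I 0) w := hsum
    _ ≤ w := by
        rw [X.Vl_zero, min_eq_left hw, sub_zero]; exact min_le_right _ _
/-- low part of a band -/
theorem bud_low {r : ℝ} (h1 : I.Yc llDStar ≤ r) (s : Finset ℕ) (hs : s ⊆ Finset.range (I.n + 1))
    (hv : ∀ k ∈ s, r ≤ I.v k ∧ I.v k ≤ 2 * r) (hz : ∀ k ∈ s, l8pVl I k < π.c1 * I.Yc llDStar) :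
    ∑ k ∈ s, I.dv k * l8qE I π k ^ 2 ≤ 8 * π.c1 ^ 2 * (I.Yc llDStar ^ 4 / r) := by
  have hY := X.Y0
  have hr : 0 < r := hY.trans_le h1
  have h0 := X.zlo0
  set w : ℝ := 2 * (π.c1 * I.Yc llDStar) with hw
  have hw0 : 0 < w := by positivity
  have hrw : ∀ k ∈ s, r ≤ w := by
    intro k hk
    have hk' : k ≤ I.n := Nat.lt_succ_iff.1 (Finset.mem_range.1 (hs hk))
    refine (hv k hk).1.trans ?_
    have e1 := X.dv_le hk'
    rw [X.dv_eq] at e1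
    have e2 := hz k hk
    have e3 := X.x40
    have e4 := X.x_zlo
    have e5 := X.x0
    linarith
  have hterm : ∀ k ∈ s, I.dv k * l8qE I π k ^ 2 ≤ I.Yc llDStar ^ 2 * w ^ 2 / r ^ 2 * I.dv k := by
    intro k hk
    rw [X.e_lowc (hz k hk), mul_comm]
    apply mul_le_mul_of_nonneg_right _ (X.dv_nonneg k)
    rw [le_div_iff₀ (by positivity)]
    have : r ^ 2 ≤ w ^ 2 := pow_le_pow_left₀ hr.le (hrw k hk) 2
    exact mul_le_mul_of_nonneg_left this (by positivity)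
  refine (Finset.sum_le_sum hterm).trans ?_
  rw [← Finset.mul_sum]
  have hm := X.mass_le (w := 2 * r) (by linarith) s hs fun k hk => (hv k hk).2
  calc I.Yc llDStar ^ 2 * w ^ 2 / r ^ 2 * ∑ k ∈ s, I.dv k ≤ I.Yc llDStar ^ 2 * w ^ 2 / r ^ 2 * (2 * r) :=
        mul_le_mul_of_nonneg_left hm (by positivity)
    _ = 8 * π.c1 ^ 2 * (I.Yc llDStar ^ 4 / r) := by
        rw [hw]; field_simp; ring
/-- high part of a band -/
theorem bud_high {r : ℝ} (h1 : I.Yc llDStar ≤ r) (h2 : r ≤ π.zw / 4) (s : Finset ℕ) (hs : s ⊆ Finset.range (I.n + 1))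
    (hv : ∀ k ∈ s, r ≤ I.v k ∧ I.v k ≤ 2 * r) (hz : ∀ k ∈ s, π.c1 * I.Yc llDStar ≤ l8pVl I k) :
    ∑ k ∈ s, I.dv k * l8qE I π k ^ 2 ≤ 16 * S.CW ^ 3 * skwL (l8qD I π) * (I.Yc llDStar ^ 4 / r) := by
  have hY := X.Y0
  have hr : 0 < r := hY.trans_le h1
  have h0 := X.zlo0
  have hCW := X.CW1
  have hL := X.L_nonneg
  rcases s.eq_empty_or_nonempty with he | ⟨k0, hk0⟩
  · rw [he, Finset.sum_empty]; positivity
  have hvw : ∀ k ∈ s, I.v k ≤ π.zw := fun k hk => by linarith [(hv k hk).2, X.zw0]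
  have hzlow : π.c1 * I.Yc llDStar ≤ π.zw := (hz k0 hk0).trans ((X.Vl_le k0).trans (hvw k0 hk0))
  set z₁ : ℝ := max (π.c1 * I.Yc llDStar) (r / 2) with hz1
  have hz1lo : π.c1 * I.Yc llDStar ≤ z₁ := le_max_left _ _
  have hz1r : r / 2 ≤ z₁ := le_max_right _ _
  have hz1hi : z₁ ≤ π.zw := max_le hzlow (by linarith [X.zw0])
  have hzz : ∀ k ∈ s, z₁ ≤ l8pVl I k ∧ I.v k ≤ π.zw := by
    intro k hk
    have hk' : k ≤ I.n := Nat.lt_succ_iff.1 (Finset.mem_range.1 (hs hk))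
    refine ⟨max_le (hz k hk) ?_, hvw k hk⟩
    have e3 := X.dv_le hk'
    rw [X.dv_eq] at e3
    have e4 := (hv k hk).1
    have e5 := X.x40
    have e6 := X.xY
    linarith [X.x0]
  have hterm : ∀ k ∈ s, I.dv k * l8qE I π k ^ 2
      ≤ 4 * S.CW ^ 2 * ∫ z in (l8pVl I k)..(l8pVl I (k + 1)), (l8qD I π).G z * l8qH I π z ^ 2 := by
    intro k hk
    have hk' : k ≤ I.n := Nat.lt_succ_iff.1 (Finset.mem_range.1 (hs hk))
    have e1 := X.cell hk' (hz k hk) (hvw k hk)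
    have e2 : l8qE I π k ≤ l8qH I π (l8pVl I k) := by
      rw [X.e_midc (hz k hk) ((X.Vl_le k).trans (hvw k hk)), X.E_eq]; exact min_le_right _ _
    have e3 : l8qE I π k ^ 2 ≤ l8qH I π (l8pVl I k) ^ 2 := pow_le_pow_left₀ (X.e_pos k).le e2 2
    exact (mul_le_mul_of_nonneg_left e3 (X.dv_nonneg k)).trans e1
  refine (Finset.sum_le_sum hterm).trans ?_
  rw [← Finset.mul_sum]
  have hc := (X.cells_le hz1lo hz1hi s hs hzz).trans (X.tail hz1lo hz1hi)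
  have hM : 0 ≤ S.CW * skwL (l8qD I π) * I.Yc llDStar ^ 4 :=
    mul_nonneg (mul_nonneg (by linarith) hL) (pow_nonneg hY.le 4)
  have hdiv : 2 * (S.CW * skwL (l8qD I π) * I.Yc llDStar ^ 4) / z₁ ≤ 2 * (S.CW * skwL (l8qD I π) * I.Yc llDStar ^ 4) / (r / 2) :=
    div_le_div_of_nonneg_left (by linarith) (by positivity) hz1r
  calc 4 * S.CW ^ 2 * ∑ k ∈ s, ∫ z in (l8pVl I k)..(l8pVl I (k + 1)), (l8qD I π).G z * l8qH I π z ^ 2
      ≤ 4 * S.CW ^ 2 * (2 * (S.CW * skwL (l8qD I π) * I.Yc llDStar ^ 4) / (r / 2)) :=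
        mul_le_mul_of_nonneg_left (hc.trans hdiv) (by positivity)
    _ = 16 * S.CW ^ 3 * skwL (l8qD I π) * (I.Yc llDStar ^ 4 / r) := by
        field_simp; ring
theorem bud {r : ℝ} (h1 : I.Yc llDStar ≤ r) (h2 : r ≤ π.zw / 4) :
    I.band r (fun k => l8qE I π k ^ 2)
      ≤ (8 * π.c1 ^ 2 + 16 * S.CW ^ 3 * skwL (l8qD I π)) * (r * (I.Yc llDStar ^ 2 / r) ^ 2) := by
  have hr : 0 < r := X.Y0.trans_le h1
  have e0 : r * (I.Yc llDStar ^ 2 / r) ^ 2 = I.Yc llDStar ^ 4 / r := by field_simp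
  rw [e0, add_mul]
  unfold L8In.band L8In.int
  rw [← Finset.sum_filter_add_sum_filter_not _ (fun k => l8pVl I k < π.c1 * I.Yc llDStar)]
  refine add_le_add (X.bud_low h1 _ ?_ ?_ ?_) (X.bud_high h1 h2 _ ?_ ?_ ?_)
  · exact (Finset.filter_subset _ _).trans (Finset.filter_subset _ _)
  · intro k hk
    exact (Finset.mem_filter.1 (Finset.mem_filter.1 hk).1).2
  · intro k hk
    exact (Finset.mem_filter.1 hk).2
  · exact (Finset.filter_subset _ _).trans (Finset.filter_subset _ _)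
  · intro k hk
    exact (Finset.mem_filter.1 (Finset.mem_filter.1 hk).1).2
  · intro k hk
    exact not_lt.1 (Finset.mem_filter.1 hk).2
/-- the logarithmic loss -/
theorem L_le {ε : ℝ} (hε : 0 < ε) : skwL (l8qD I π) ≤ (1 + π.K / ε) * I.x ^ (-ε) := by
  have hx := X.x0
  have h1 : (l8qD I π).tiny = I.x ^ π.K := rfl
  have h2 : Real.log (1 / I.x ^ π.K) = π.K * Real.log I.x⁻¹ := by
    rw [one_div, ← inv_pow, Real.log_pow]
  have h3 : Real.log I.x⁻¹ ≤ I.x⁻¹ ^ ε / ε := Real.log_le_rpow_div (inv_nonneg.2 hx.le) hε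
  have h4 : I.x⁻¹ ^ ε = I.x ^ (-ε) := by rw [Real.inv_rpow hx.le, Real.rpow_neg hx.le]
  have h5 : 1 ≤ I.x ^ (-ε) := Real.one_le_rpow_of_pos_of_le_one_of_nonpos hx X.x1 (by linarith)
  unfold skwL
  rw [h1, h2]
  rw [h4] at h3
  have h6 : (π.K : ℝ) * Real.log I.x⁻¹ ≤ π.K * (I.x ^ (-ε) / ε) := mul_le_mul_of_nonneg_left h3 (Nat.cast_nonneg _)
  have h7 : (1 + π.K / ε) * I.x ^ (-ε) = I.x ^ (-ε) + π.K * (I.x ^ (-ε) / ε) := by ring
  rw [h7]; linarith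

end L8qeCtx

/-- **ENVL** for every base -/
theorem l8qe_env (𝔹 : LlBase) (T : ℝ) : L8qEnv 𝔹 T := by
  intro F0 _ pB pS _ _ ε hε
  refine ⟨ε, hε, fun π S Cc hπ hCc heps => ?_⟩
  have hCW : 1 ≤ S.CW := hπ.Sok.CW
  have hLq : 1 ≤ S.c.Lq := hπ.Sok.c.Lq
  have hCq : 1 ≤ S.Cq := hπ.Sok.Cq
  have hCf : 1 ≤ π.c.Cf := by have := hπ.Sok.c.Cf; rwa [hπ.Sc] at this
  have hzr := hπ.Sok.zreg
  have hM : 0 < S.CW + S.c.Lq + 2 := by linarith
  obtain ⟨N0, hN0⟩ := skw_llb_small 1 (1 / (S.CW + S.c.Lq + 2)) one_pos (by positivity)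
  have hc1 : 0 ≤ π.c1 := by linarith [hπ.c1]
  set a2 : ℝ := (π.c.Cf + S.Cq) * π.c1 + 1 / S.zreg with ha2
  set a3 : ℝ := (π.c.Cf + 2 * S.Cq) * π.c1 + 1 with ha3
  set a4 : ℝ := 2 * S.CW ^ 2 + 1 with ha4
  set a5 : ℝ := 8 * π.c1 ^ 2 with ha5
  set a6 : ℝ := 16 * S.CW ^ 3 with ha6
  have p2 : 0 ≤ a2 := by positivity
  have p3 : 0 ≤ a3 := by positivity
  have p4 : 0 ≤ a4 := by positivity
  have p5 : 0 ≤ a5 := by positivity
  have p6 : 0 ≤ a6 := by positivity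
  have pK : 0 ≤ 1 + (π.K : ℝ) / ε := by positivity
  refine ⟨1 + Cc + a2 + a3 + a4 + a5 + a6 * (1 + π.K / ε), N0, 0, fun I hat hok C hC => ?_⟩
  have hsm : (S.CW + S.c.Lq + 2) * I.x ≤ 1 := by
    have := hN0 I.p hat.hN
    rw [Real.rpow_one, le_div_iff₀ hM] at this
    have e : I.x = I.p.x := rfl
    rw [e]; linarith
  have X : L8qeCtx I π S Cc := ⟨hπ, hat.ok, hok, hsm⟩
  have hx := X.x0
  set t : ℝ := I.x ^ (-ε) with ht
  have ht1 : 1 ≤ t := Real.one_le_rpow_of_pos_of_le_one_of_nonpos hx X.x1 (by linarith)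
  have p7 : 0 ≤ a6 * (1 + (π.K : ℝ) / ε) := mul_nonneg p6 pK
  have hK : ∀ K : ℝ, 0 ≤ K → K ≤ 1 + Cc + a2 + a3 + a4 + a5 + a6 * (1 + π.K / ε) → K * t ≤ C * t ∧ K ≤ C * t := by
    intro K hK0 hK1
    have e1 : K * t ≤ C * t := mul_le_mul_of_nonneg_right (hK1.trans hC) (by linarith)
    exact ⟨e1, le_trans (by nlinarith) e1⟩
  have hb : 1 / I.x ^ π.eps ≤ t := by
    rw [one_div, ← Real.rpow_neg hx.le]
    exact Real.rpow_le_rpow_of_exponent_ge hx X.x1 (by linarith)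
  refine ⟨?_, ?_, ?_, ?_, ?_, ?_, ?_⟩
  · intro k _
    have e : I.x ^ (4 : ℝ) = I.x ^ 4 := by
      rw [show (4 : ℝ) = ((4 : ℕ) : ℝ) by norm_num, Real.rpow_natCast]
    rw [e]
    exact (X.xpow_le' (by norm_num)).trans (X.lo3 k)
  · intro k _ h
    exact X.low h
  · intro k _ h
    have e1 := (hK 1 zero_le_one (by linarith)).2
    have e2 := X.v_nonneg k
    refine (X.hi h).trans ?_
    nlinarith
  · intro r h1 h2
    have hr : 0 < r := X.Y0.trans_le h1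
    refine (X.bud h1 h2).trans ?_
    rw [mul_assoc (C * t)]
    apply mul_le_mul_of_nonneg_right _ (by positivity)
    have e1 := X.L_le hε
    have e2 : a6 * skwL (l8qD I π) ≤ a6 * ((1 + π.K / ε) * t) := mul_le_mul_of_nonneg_left e1 p6
    have e3 := (hK (a5 + a6 * (1 + π.K / ε)) (by linarith) (by linarith)).1
    have e4 : a5 ≤ a5 * t := by nlinarith
    calc a5 + a6 * skwL (l8qD I π) ≤ a5 * t + a6 * ((1 + π.K / ε) * t) := add_le_add e4 e2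
      _ = (a5 + a6 * (1 + π.K / ε)) * t := by ring
      _ ≤ C * t := e3
  · intro k hk hv
    have he := (X.e_pos k).le
    rcases lt_or_ge (l8pVl I k) (π.c1 * I.Yc llDStar) with h | h
    · exact (X.f_low hk h).trans (mul_le_mul_of_nonneg_right (hK a3 p3 (by linarith)).2 he)
    · refine (X.f_high hk h (by linarith [X.Vl_le k, X.zw0])).trans (mul_le_mul_of_nonneg_right ?_ he)
      have e1 : a4 / I.x ^ π.eps = a4 * (1 / I.x ^ π.eps) := by ring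
      rw [e1]
      exact (mul_le_mul_of_nonneg_left hb p4).trans (hK a4 p4 (by linarith)).1
  · intro r h1 h2
    have hr : 0 < r := X.U0.trans_le h1
    refine (hok.cap r h1 h2).trans ?_
    rw [mul_assoc, mul_assoc (C * t)]
    have e1 := (hK Cc (by linarith) (by linarith)).2
    have e2 : 0 ≤ r * (I.Yc llDStar ^ 4 / r ^ 2) := by have := X.Y0; positivity
    exact mul_le_mul_of_nonneg_right e1 e2
  · intro k hk
    refine (X.s_le hk).trans (mul_le_mul_of_nonneg_right (hK a2 p2 (by linarith)).2 ?_)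
    linarith [X.v_nonneg k, X.Y0]

theorem l8q_env (T : ℝ) (_hT : 1 < T) : L8qEnv llBase T := l8qe_env llBase T
end Claimed.Agent.R286
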