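import Claimed.Agent.R286.LL.PathsClkF
import Claimed.Agent.R286.LL.PathsSwC
import Claimed.Agent.R286.LL.PathsClkE
import Claimed.Agent.R286.L08.FineC
import Claimed.Agent.R286.PM.InstEnvL

/-!
# Row 286 (S0533), folder PM, file InstDefL : LEAF DEFL OF `l8q_core_low`: THE DEFECT BOUND ON THE LOW REGION OF THE SIZE PATHS      (helper103: path part; helper117: envelope + glue; prefix `l8qd_`)

LL 08 l.356-380 ("the defect bounds are the low size-path bounds of (P8)"); LL 03 l.481-490 ("Size derivatives").      TEX[LL:prop:statistics-pointwise] TEX[LL:paths:parameter-regularity]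
PART 1 (103, 0 sorry): THE MASK IN THE SIZE COORDINATE.   For `v ≤ x`:  `h_*(v) = ℓ⁻² ∫_0^{ℓ² K(v)} ĝ(ξ) dξ + β q(v)`  in NORMALISED time (`l8qd_hS_eq`; `ĝ = gapN`, `β = b_∘ - b(0) = c_b λ U² (1 + c_1 γ_0)` does not move with `θ`: `l8qd_b_zero`),
so only `Ref` (`gap_lo`, `gap_hi`, `K_lo0`, `K_hi0`, `gam_ftc`) and `RegT` (`gap0`, `K0`, `q0`) are used (no `ξ`-derivative of the gap), `e^{-cM} ≤ x^12 ≤ λ`:
    `l8qd_mask` :  `|h_*^{θ'}(v) - h_*^{θ}(v)| ≤ C λ (v³ + v U²) |θ' - θ|`,   `v ∈ [0,x]`, `θ, θ' ∈ [0, log 2]`.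
Above the mask (`x ≤ v ≤ v_1`): `d = H_lo` (`LlSec3.seed`), which does not move with `θ` for `v ≤ 1` (`lcf_siz_Hlo`).
PART 2 (117, 0 sorry): PATH MAJORANT, ENVELOPE, GLUE.   `l8qdM` = majorant of `|d(v)|` and of its local `θ`-Lipschitz constant for `v ≤ 1` (mask: (P4) + `l8qd_mask`; above the mask `d = H_lo + χ_lin H_lin` is free of `θ`: `lcf_d_eq`): `l8qd_path`;
`l8qd_maj` : `M(v') + x⁴⁰ ≤ (5 + log(2/x)) λ Y_c² max(v', Y_c)`;   `l8qd_env_lo` : `x^eps Y_c² max(v', Y_c) ≤ C_W c_1 max(v, Y_c)² e`  (`SkwConcl.lower`);   `l8qd_def : L8qDef 𝔹 T` for every base, from the link `L8qDefLk` (hypothesis of the contract; producer `l8q_lk`, 103);   `l8q_def`.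
-/

set_option autoImplicit false

namespace Claimed.Agent.R286

open MeasureTheory Set Filter

/-- abstract pair bound for `a⁻¹ ∫_0^{aK} g + β q` -/
theorem l8qd_pair {a a' K K' q q' β lam U v δ C Cβ : ℝ} {g g' : ℝ → ℝ}
    (ha : 1 ≤ a) (ha2 : a ≤ 2) (ha' : 1 ≤ a') (ha2' : a' ≤ 2) (haa : |a' - a| ≤ δ)
    (hC : 0 ≤ C) (hv : 0 ≤ v) (hlam : 0 ≤ lam) (hCβ : 0 ≤ Cβ)
    (hK0 : 0 ≤ K) (hK : K ≤ C * v) (hK0' : 0 ≤ K') (hK' : K' ≤ C * v) (hKK : |K' - K| ≤ C * v * δ)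
    (hqq : |q' - q| ≤ C * v * δ) (hβ : |β| ≤ Cβ * lam * U ^ 2)
    (hg : ContinuousOn g (Ici 0)) (hg' : ContinuousOn g' (Ici 0))
    (hb' : ∀ ξ ∈ Icc 0 (2 * C * v), |g' ξ| ≤ C * lam * ξ ^ 2)
    (hd : ∀ ξ ∈ Icc 0 (2 * C * v), |g' ξ - g ξ| ≤ C * lam * ξ ^ 2 * δ) :
    |(a'⁻¹ * (∫ ξ in (0 : ℝ)..(a' * K'), g' ξ) + β * q') - (a⁻¹ * (∫ ξ in (0 : ℝ)..(a * K), g ξ) + β * q)|
      ≤ (28 * C ^ 4 + Cβ * C) * lam * (v ^ 3 + v * U ^ 2) * δ := by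
  have hδ : 0 ≤ δ := (abs_nonneg _).trans haa
  obtain ⟨X, hX⟩ : ∃ X, X = a * K := ⟨_, rfl⟩
  obtain ⟨X', hX'⟩ : ∃ X', X' = a' * K' := ⟨_, rfl⟩
  obtain ⟨R, hR⟩ : ∃ R, R = 2 * C * v := ⟨_, rfl⟩
  rw [← hX, ← hX']
  rw [← hR] at hb' hd
  have hR0 : 0 ≤ R := by rw [hR]; positivity
  have hX0 : 0 ≤ X := by rw [hX]; positivity
  have hX0' : 0 ≤ X' := by rw [hX']; positivity
  have hXR : X ≤ R := by rw [hX, hR]; nlinarith
  have hXR' : X' ≤ R := by rw [hX', hR]; nlinarith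
  have hXX : |X' - X| ≤ 3 * C * v * δ := by
    have e : X' - X = (a' - a) * K' + a * (K' - K) := by rw [hX, hX']; ring
    rw [e]
    refine (abs_add_le _ _).trans ?_
    rw [abs_mul, abs_mul, abs_of_nonneg hK0', abs_of_nonneg (by linarith : 0 ≤ a)]
    have t1 : |a' - a| * K' ≤ δ * (C * v) := mul_le_mul haa hK' hK0' hδ
    have t2 : a * |K' - K| ≤ 2 * (C * v * δ) := mul_le_mul ha2 hKK (abs_nonneg _) (by norm_num)
    linarith
  -- integrability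
  have ii : ∀ (f : ℝ → ℝ), ContinuousOn f (Ici 0) → ∀ y z, 0 ≤ y → 0 ≤ z → IntervalIntegrable f volume y z := by
    intro f hf y z hy hz
    refine (hf.mono ?_).intervalIntegrable
    intro t ht
    exact (le_min hy hz).trans ht.1
  obtain ⟨B, hB⟩ : ∃ B, B = C * lam * R ^ 2 := ⟨_, rfl⟩
  have hB0 : 0 ≤ B := by rw [hB]; positivity
  have hbB : ∀ ξ ∈ Icc 0 R, |g' ξ| ≤ B := by
    intro ξ hξ
    refine (hb' ξ hξ).trans ?_
    rw [hB]
    exact mul_le_mul_of_nonneg_left (pow_le_pow_left₀ hξ.1 hξ.2 2) (by positivity)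
  have hdB : ∀ ξ ∈ Icc 0 R, |g' ξ - g ξ| ≤ B * δ := by
    intro ξ hξ
    refine (hd ξ hξ).trans ?_
    rw [hB]
    exact mul_le_mul_of_nonneg_right (mul_le_mul_of_nonneg_left (pow_le_pow_left₀ hξ.1 hξ.2 2) (by positivity)) hδ
  have sub : ∀ y z, 0 ≤ y → y ≤ R → 0 ≤ z → z ≤ R → ∀ t ∈ Set.uIoc y z, t ∈ Icc 0 R := by
    intro y z hy hy' hz hz' t ht
    rw [Set.uIoc] at ht
    exact ⟨(le_min hy hz).trans ht.1.le, ht.2.trans (max_le hy' hz')⟩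
  have J1 : |∫ ξ in (0 : ℝ)..X', g' ξ| ≤ B * R := by
    have := intervalIntegral.norm_integral_le_of_norm_le_const (a := 0) (b := X') (f := g') (C := B)
      (fun t ht => by rw [Real.norm_eq_abs]; exact hbB t (sub 0 X' le_rfl hR0 hX0' hXR' t ht))
    rw [Real.norm_eq_abs, sub_zero, abs_of_nonneg hX0'] at this
    exact this.trans (mul_le_mul_of_nonneg_left hXR' hB0)
  have J2 : |∫ ξ in X..X', g' ξ| ≤ B * (3 * C * v * δ) := by
    have := intervalIntegral.norm_integral_le_of_norm_le_const (a := X) (b := X') (f := g') (C := B)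
      (fun t ht => by rw [Real.norm_eq_abs]; exact hbB t (sub X X' hX0 hXR hX0' hXR' t ht))
    rw [Real.norm_eq_abs] at this
    exact this.trans (mul_le_mul_of_nonneg_left hXX hB0)
  have J3 : |∫ ξ in (0 : ℝ)..X, (g' ξ - g ξ)| ≤ B * δ * R := by
    have := intervalIntegral.norm_integral_le_of_norm_le_const (a := 0) (b := X) (f := fun ξ => g' ξ - g ξ) (C := B * δ)
      (fun t ht => by rw [Real.norm_eq_abs]; exact hdB t (sub 0 X le_rfl hR0 hX0 hXR t ht))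
    rw [Real.norm_eq_abs, sub_zero, abs_of_nonneg hX0] at this
    exact this.trans (mul_le_mul_of_nonneg_left hXR (by positivity))
  have eJ : (∫ ξ in (0 : ℝ)..X', g' ξ) - (∫ ξ in (0 : ℝ)..X, g ξ) = (∫ ξ in X..X', g' ξ) + ∫ ξ in (0 : ℝ)..X, (g' ξ - g ξ) := by
    rw [intervalIntegral.integral_sub (ii g' hg' 0 X le_rfl hX0) (ii g hg 0 X le_rfl hX0),
      ← intervalIntegral.integral_interval_sub_left (ii g' hg' 0 X' le_rfl hX0') (ii g' hg' 0 X le_rfl hX0)]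
    ring
  obtain ⟨J', hJ'⟩ : ∃ J', J' = ∫ ξ in (0 : ℝ)..X', g' ξ := ⟨_, rfl⟩
  obtain ⟨J, hJ⟩ : ∃ J, J = ∫ ξ in (0 : ℝ)..X, g ξ := ⟨_, rfl⟩
  rw [← hJ', ← hJ] at eJ
  rw [← hJ'] at J1
  rw [← hJ', ← hJ]
  have hJJ : |J' - J| ≤ B * (3 * C * v * δ) + B * δ * R := by
    rw [eJ]; exact (abs_add_le _ _).trans (add_le_add J2 J3)
  have hinv : |a'⁻¹ - a⁻¹| ≤ δ := by
    have e : a'⁻¹ - a⁻¹ = (a - a') / (a * a') := by field_simp
    rw [e, abs_div, abs_sub_comm, abs_of_pos (by positivity : 0 < a * a')]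
    refine (div_le_self (abs_nonneg _) ?_).trans haa
    nlinarith
  have hainv : |a⁻¹| ≤ 1 := by
    rw [abs_of_pos (by positivity)]
    exact inv_le_one_of_one_le₀ ha
  have e : (a'⁻¹ * J' + β * q') - (a⁻¹ * J + β * q) = (a'⁻¹ - a⁻¹) * J' + a⁻¹ * (J' - J) + β * (q' - q) := by ring
  rw [e]
  have t1 : |(a'⁻¹ - a⁻¹) * J'| ≤ δ * (B * R) := by
    rw [abs_mul]; exact mul_le_mul hinv J1 (abs_nonneg _) hδ
  have t2 : |a⁻¹ * (J' - J)| ≤ 1 * (B * (3 * C * v * δ) + B * δ * R) := by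
    rw [abs_mul]; exact mul_le_mul hainv hJJ (abs_nonneg _) (by norm_num)
  have t3 : |β * (q' - q)| ≤ (Cβ * lam * U ^ 2) * (C * v * δ) := by
    rw [abs_mul]; exact mul_le_mul hβ hqq (abs_nonneg _) (by positivity)
  refine (abs_add_le _ _).trans (add_le_add ((abs_add_le _ _).trans (add_le_add t1 t2)) t3) |>.trans ?_
  rw [hB, hR]
  have p1 : 0 ≤ C ^ 4 * lam * v * U ^ 2 * δ := by positivity
  have p2 : 0 ≤ Cβ * C * lam * v ^ 3 * δ := by positivity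
  nlinarith [p1, p2]


/-! ## the mask of a smoothed size path -/

theorem l8qd_exp_mem {θ : ℝ} (hθ : θ ∈ Icc 0 (Real.log 2)) : 1 ≤ Real.exp (θ / 6) ∧ Real.exp (θ / 6) ≤ (2 : ℝ) ^ (1 / 6 : ℝ) := by
  constructor
  · exact Real.one_le_exp (by have := hθ.1; positivity)
  · rw [Real.rpow_def_of_pos (by norm_num : (0 : ℝ) < 2)]
    apply Real.exp_le_exp.2
    have := hθ.2
    linarith

theorem l8qd_wTh_ok {F : LlFix} {p : LlPt} (hp : p.Ok F) {θ : ℝ} (hθ : θ ∈ Icc 0 (Real.log 2)) : (p.wTh θ).Ok F :=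
  ⟨hp.N2, (l8qd_exp_mem hθ).1, (l8qd_exp_mem hθ).2, hp.lam_lo, hp.lam_hi, hp.g0, hp.gu, hp.chiL, hp.chiE, hp.sm_fin⟩

/-- `ℓ² = e^{θ/3} ∈ [1,2]`, Lipschitz -/
theorem l8qd_ell_sq {θ θ' : ℝ} (hθ : θ ∈ Icc 0 (Real.log 2)) (hθ' : θ' ∈ Icc 0 (Real.log 2)) :
    1 ≤ Real.exp (θ / 6) ^ 2 ∧ Real.exp (θ / 6) ^ 2 ≤ 2 ∧ |Real.exp (θ' / 6) ^ 2 - Real.exp (θ / 6) ^ 2| ≤ |θ' - θ| := by
  have e : ∀ t : ℝ, Real.exp (t / 6) ^ 2 = Real.exp (t / 3) := fun t => by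
    rw [← Real.exp_nat_mul]; congr 1; push_cast; ring
  have up : ∀ t ∈ Icc 0 (Real.log 2), Real.exp (t / 3) ≤ 2 := fun t ht => by
    calc Real.exp (t / 3) ≤ Real.exp (Real.log 2) := Real.exp_le_exp.2 (by have := ht.1; have := ht.2; linarith)
      _ = 2 := Real.exp_log (by norm_num)
  have key : ∀ s t : ℝ, s ∈ Icc 0 (Real.log 2) → t ∈ Icc 0 (Real.log 2) → s ≤ t → |Real.exp (t / 3) - Real.exp (s / 3)| ≤ |t - s| := by
    intro s t hs ht hst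
    rw [abs_of_nonneg (sub_nonneg.2 (Real.exp_le_exp.2 (by linarith))), abs_of_nonneg (by linarith)]
    have h1 : Real.exp (s / 3) ≥ Real.exp (t / 3) * (1 - (t / 3 - s / 3)) := by
      have h2 : Real.exp (s / 3) = Real.exp (t / 3) * Real.exp (-(t / 3 - s / 3)) := by
        rw [← Real.exp_add]; congr 1; ring
      rw [h2]
      have h3 := Real.add_one_le_exp (-(t / 3 - s / 3))
      exact mul_le_mul_of_nonneg_left (by linarith) (Real.exp_pos _).le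
    have h4 := up t ht
    nlinarith
  rw [e, e]
  refine ⟨Real.one_le_exp (by have := hθ.1; positivity), up θ hθ, ?_⟩
  rcases le_total θ θ' with h | h
  · exact key θ θ' hθ hθ' h
  · rw [abs_sub_comm, abs_sub_comm θ' θ]; exact key θ' θ hθ' hθ h

theorem l8qd_gap_eq (F : LlFix) (𝔹 : LlBase) (p : LlPt) (hl : p.ell ≠ 0) (t : ℝ) :
    p.gap F 𝔹 t = p.gapN F 𝔹 (p.ell ^ 2 * t) := by
  unfold LlPt.gap LlPt.gapN LlPt.b0 LlPt.Gam1
  rw [mul_zero, one_div, ← div_eq_inv_mul, mul_div_mul_left _ _ (pow_ne_zero 2 hl)]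

theorem l8qd_gapN_eq (F : LlFix) (𝔹 : LlBase) (p : LlPt) (hl : p.ell ≠ 0) (ξ : ℝ) :
    p.gapN F 𝔹 ξ = p.gap F 𝔹 (ξ / p.ell ^ 2) := by
  rw [l8qd_gap_eq F 𝔹 p hl, mul_div_cancel₀ _ (pow_ne_zero 2 hl)]

theorem l8qd_gapN_cont {F : LlFix} {𝔹 : LlBase} {p : LlPt} {c C v0 : ℝ} (hR : p.Ref F 𝔹 c C v0) (hl : 0 < p.ell) :
    ContinuousOn (p.gapN F 𝔹) (Ici 0) := by
  have h1 : ContinuousOn (p.gap F 𝔹) (Ici 0) := by
    unfold LlPt.gap; exact continuousOn_const.sub (continuousOn_const.mul hR.g1_cont)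
  have h2 : p.gapN F 𝔹 = fun ξ => p.gap F 𝔹 (ξ / p.ell ^ 2) := funext (l8qd_gapN_eq F 𝔹 p hl.ne')
  rw [h2]
  have hm : MapsTo (fun ξ : ℝ => ξ / p.ell ^ 2) (Ici 0) (Ici 0) := fun ξ hξ => by
    have h0 : (0 : ℝ) ≤ ξ := hξ
    show (0 : ℝ) ≤ ξ / p.ell ^ 2
    positivity
  exact h1.comp (continuous_id.div_const _).continuousOn hm

/-- `h_* = ℓ⁻² ∫_0^{ℓ² K} ĝ + (b_∘ - b) q` -/
theorem l8qd_hS_eq {F : LlFix} {𝔹 : LlBase} {p : LlPt} {c C v0 : ℝ} (hR : p.Ref F 𝔹 c C v0) (hl : 0 < p.ell) {v : ℝ} (hK : 0 ≤ p.K F 𝔹 v) :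
    p.hS F 𝔹 v = (p.ell ^ 2)⁻¹ * (∫ ξ in (0 : ℝ)..(p.ell ^ 2 * p.K F 𝔹 v), p.gapN F 𝔹 ξ) + (p.b0 F 𝔹 - p.b F 𝔹 v) * p.q F 𝔹 v := by
  have hq : p.q F 𝔹 v = ∫ s in (0 : ℝ)..p.K F 𝔹 v, p.Gam1 F 𝔹 s := by
    have := hR.gam_ftc 0 (p.K F 𝔹 v) le_rfl hK
    rw [hR.gam_zero, sub_zero] at this
    exact this
  have hI : IntervalIntegrable (p.Gam1 F 𝔹) volume 0 (p.K F 𝔹 v) :=
    (hR.g1_cont.mono (fun t ht => by rw [uIcc_of_le hK] at ht; exact ht.1)).intervalIntegrable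
  have h1 : ∫ s in (0 : ℝ)..p.K F 𝔹 v, p.gap F 𝔹 s = p.K F 𝔹 v - p.b0 F 𝔹 * p.q F 𝔹 v := by
    unfold LlPt.gap
    rw [intervalIntegral.integral_sub intervalIntegrable_const (hI.const_mul _), intervalIntegral.integral_const_mul, ← hq]
    simp
  have h2 : ∫ s in (0 : ℝ)..p.K F 𝔹 v, p.gap F 𝔹 s = (p.ell ^ 2)⁻¹ * ∫ ξ in (0 : ℝ)..(p.ell ^ 2 * p.K F 𝔹 v), p.gapN F 𝔹 ξ := by
    have := intervalIntegral.integral_comp_mul_left (a := 0) (b := p.K F 𝔹 v) (p.gapN F 𝔹) (pow_ne_zero 2 hl.ne')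
    rw [mul_zero, smul_eq_mul] at this
    rw [← this]
    exact intervalIntegral.integral_congr (fun s _ => l8qd_gap_eq F 𝔹 p hl.ne' s)
  rw [← h2, h1]
  unfold LlPt.hS
  ring

/-- the offset of the matrix clock at the mass `0` -/
theorem l8qd_b_zero {F : LlFix} (hF : F.Ok) (𝔹 : LlBase) (p : LlPt) :
    p.b0 F 𝔹 - p.b F 𝔹 0 = F.cb * p.lam * p.U F ^ 2 * (1 + F.c1 * p.gam0) := by
  have hG : p.G F 0 = 0 := by
    unfold LlPt.G
    rw [if_pos hF.vb0.le, zero_div, hF.G0_zero 0 (by norm_num), mul_zero]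
  have hphi : F.phi 0 = 0 := hF.phi_supp 0 (fun h => by have := h.1; norm_num at this)
  have hD : p.dySum F 0 = 0 := by
    unfold LlPt.dySum
    apply finsum_eq_zero_of_forall_eq_zero
    intro h
    split_ifs
    · rw [zero_div, hphi, mul_zero]
    · rfl
  unfold LlPt.b
  rw [hG, hD]
  ring


/-- **MASK, size path**: `|h_*^{θ'}(v) - h_*^{θ}(v)| ≤ C λ (v³ + v U²) |θ' - θ|` for `v ≤ x`.      LL 03 l.481-490 ("Size derivatives") -/
theorem l8qd_mask (𝔹 : LlBase) (F : LlFix) (hB : LlBaseProfile 𝔹 F.T) (h3 : LlSec3 𝔹 F) :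
    ∃ (C : ℝ) (N0 : ℕ), 0 ≤ C ∧ ∀ p : LlPt, p.Ok F → N0 ≤ p.N → p.sm = true →
      ∀ θ ∈ Icc 0 (Real.log 2), ∀ θ' ∈ Icc 0 (Real.log 2), ∀ v ∈ Icc 0 p.x,
        |(p.wTh θ').hS F 𝔹 v - (p.wTh θ).hS F 𝔹 v| ≤ C * (p.lam * (v ^ 3 + v * p.U F ^ 2)) * |θ' - θ| := by
  have hF := h3.ok
  obtain ⟨c, C, v0, hc, hv0, Nr, hRef⟩ := h3.ref
  obtain ⟨v0', ξ0, hv0', hξ0, hT⟩ := h3.regT
  obtain ⟨c', C', hc', Nt, hRegT⟩ := hT 0
  obtain ⟨Np, hph⟩ := l8f_ph h3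
  obtain ⟨Cm, hCm⟩ : ∃ Cm, Cm = max (max C C') 1 := ⟨_, rfl⟩
  have hCm1 : 1 ≤ Cm := by rw [hCm]; exact le_max_right _ _
  have hCC : C ≤ Cm := by rw [hCm]; exact (le_max_left _ _).trans (le_max_left _ _)
  have hCC' : C' ≤ Cm := by rw [hCm]; exact (le_max_right _ _).trans (le_max_left _ _)
  have hCm0 : 0 < Cm := by linarith
  obtain ⟨x0, hx0, -, hexp⟩ := lsw_num_exp c' 12 hc'
  have hξS := hB.xi_pos
  obtain ⟨Nx, hNx⟩ := lce_x_small (min (min (min v0 v0') (min ξ0 (𝔹.xiS F.T) / (2 * Cm))) (x0 / 2))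
    (lt_min (lt_min (lt_min hv0 hv0') (div_pos (lt_min hξ0 hξS) (by positivity))) (by positivity))
  obtain ⟨Cβ, hCβ⟩ : ∃ Cβ, Cβ = F.cb * (1 + 4 * F.c1) := ⟨_, rfl⟩
  have hCβ0 : 0 ≤ Cβ := by
    rw [hCβ]; have := hF.cb0; have := hF.c10; positivity
  refine ⟨28 * Cm ^ 4 + Cβ * Cm, max (max Nr Nt) (max Np Nx), by positivity, ?_⟩
  intro p hp hN hsm θ hθ θ' hθ' v hv
  have hNr : Nr ≤ p.N := ((le_max_left _ _).trans (le_max_left _ _)).trans hN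
  have hNt : Nt ≤ p.N := ((le_max_right _ _).trans (le_max_left _ _)).trans hN
  have hNp : Np ≤ p.N := ((le_max_left _ _).trans (le_max_right _ _)).trans hN
  have hNx' : Nx ≤ p.N := ((le_max_right _ _).trans (le_max_right _ _)).trans hN
  have hxs := hNx p hNx'
  have hxp : 0 < p.x := lce_x_pos hp.N2
  have hx_v0 : p.x ≤ v0 := hxs.trans (((min_le_left _ _).trans (min_le_left _ _)).trans (min_le_left _ _))
  have hx_v0' : p.x ≤ v0' := hxs.trans (((min_le_left _ _).trans (min_le_left _ _)).trans (min_le_right _ _))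
  have hx_ξ : 2 * Cm * p.x ≤ min ξ0 (𝔹.xiS F.T) := by
    have := hxs.trans ((min_le_left _ _).trans (min_le_right _ _))
    rw [le_div_iff₀ (by positivity)] at this
    linarith
  have hx_x0 : p.x < x0 := by
    have := hxs.trans (min_le_right _ _)
    linarith
  have hlam0 : 0 < p.lam := lt_of_lt_of_le (Real.rpow_pos_of_pos hxp _) hp.lam_lo
  have hE : Real.exp (-c' * p.M) ≤ p.lam := (hexp p.x ⟨hxp, hx_x0⟩).trans hp.lam_lo
  have hP := l8qd_wTh_ok hp hθ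
  have hP' := l8qd_wTh_ok hp hθ'
  have R := hRef (p.wTh θ) hP hNr
  have R' := hRef (p.wTh θ') hP' hNr
  have T := hRegT p hp hNt hsm θ hθ θ' hθ'
  obtain ⟨Jm, -, hJ⟩ := hph p.N hNp
  have Ph := hJ (p.wTh θ) hP rfl
  have Ph' := hJ (p.wTh θ') hP' rfl
  have hδ : 0 ≤ |θ' - θ| := abs_nonneg _
  have hU0 : 0 ≤ p.U F ^ 2 := sq_nonneg _
  rcases hv.1.eq_or_lt with h0 | hvp
  · -- `v = 0`
    have z : ∀ P : LlPt, P.K F 𝔹 0 = 0 → P.Gam F 𝔹 0 = 0 → P.hS F 𝔹 0 = 0 := by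
      intro P h1 h2
      unfold LlPt.hS LlPt.q
      rw [h1, h2]; ring
    rw [← h0, z _ Ph.K0 R.gam_zero, z _ Ph'.K0 R'.gam_zero, sub_self, abs_zero]
    have : (0 : ℝ) ≤ p.lam * ((0 : ℝ) ^ 3 + 0 * p.U F ^ 2) := by simp
    positivity
  have hl : 0 < (p.wTh θ).ell := Real.exp_pos _
  have hl' : 0 < (p.wTh θ').ell := Real.exp_pos _
  have hvv0 : v ≤ v0 := hv.2.trans hx_v0
  have hvv0' : v ≤ v0' := hv.2.trans hx_v0'
  have hK0 : 0 ≤ (p.wTh θ).K F 𝔹 v := (mul_nonneg hc.le hvp.le).trans (R.K_lo0 v hvp hvv0)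
  have hK0' : 0 ≤ (p.wTh θ').K F 𝔹 v := (mul_nonneg hc.le hvp.le).trans (R'.K_lo0 v hvp hvv0)
  have hβe : ∀ t : ℝ, (p.wTh t).b0 F 𝔹 - (p.wTh t).b F 𝔹 0 = F.cb * p.lam * p.U F ^ 2 * (1 + F.c1 * p.gam0) :=
    fun t => l8qd_b_zero hF 𝔹 (p.wTh t)
  rw [l8qd_hS_eq R hl hK0, l8qd_hS_eq R' hl' hK0', Ph.bx v hv, Ph'.bx v hv, hβe, hβe]
  obtain ⟨a1, a2, -⟩ := l8qd_ell_sq hθ hθ'
  obtain ⟨a1', a2', a3⟩ := l8qd_ell_sq hθ' hθ
  have a3' := (l8qd_ell_sq hθ hθ').2.2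
  have key := l8qd_pair (a := (p.wTh θ).ell ^ 2) (a' := (p.wTh θ').ell ^ 2) (K := (p.wTh θ).K F 𝔹 v) (K' := (p.wTh θ').K F 𝔹 v)
    (q := (p.wTh θ).q F 𝔹 v) (q' := (p.wTh θ').q F 𝔹 v) (β := F.cb * p.lam * p.U F ^ 2 * (1 + F.c1 * p.gam0)) (lam := p.lam) (U := p.U F)
    (v := v) (δ := |θ' - θ|) (C := Cm) (Cβ := Cβ) (g := (p.wTh θ).gapN F 𝔹) (g' := (p.wTh θ').gapN F 𝔹)
    a1 a2 a1' a2' a3' hCm0.le hvp.le hlam0.le hCβ0 hK0
    ((R.K_hi0 v hvp hvv0).trans (mul_le_mul_of_nonneg_right hCC hvp.le)) hK0'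
    ((R'.K_hi0 v hvp hvv0).trans (mul_le_mul_of_nonneg_right hCC hvp.le))
    ((T.K0 v hvp hvv0').trans (mul_le_mul_of_nonneg_right (mul_le_mul_of_nonneg_right hCC' hvp.le) hδ))
    ((T.q0 v hvp hvv0').trans (mul_le_mul_of_nonneg_right (mul_le_mul_of_nonneg_right hCC' hvp.le) hδ))
    ?_ (l8qd_gapN_cont R hl) (l8qd_gapN_cont R' hl') ?_ ?_
  · refine key.trans (le_of_eq ?_)
    ring
  · -- `β`
    have hg := hp.g0
    have hc1 := hF.c10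
    have h1 : |1 + F.c1 * p.gam0| ≤ 1 + 4 * F.c1 := by
      rw [abs_le]
      constructor <;> nlinarith [hg.1, hg.2]
    rw [abs_mul, abs_of_nonneg (by have := hF.cb0; positivity : 0 ≤ F.cb * p.lam * p.U F ^ 2), hCβ]
    calc F.cb * p.lam * p.U F ^ 2 * |1 + F.c1 * p.gam0| ≤ F.cb * p.lam * p.U F ^ 2 * (1 + 4 * F.c1) :=
          mul_le_mul_of_nonneg_left h1 (by have := hF.cb0; positivity)
      _ = _ := by ring
  · -- size of the gap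
    intro ξ hξ
    have hξx : ξ ≤ 𝔹.xiS F.T := by
      have : 2 * Cm * v ≤ 2 * Cm * p.x := mul_le_mul_of_nonneg_left hv.2 (by positivity)
      exact (hξ.2.trans this).trans (hx_ξ.trans (min_le_right _ _))
    rw [l8qd_gapN_eq F 𝔹 _ hl'.ne']
    obtain ⟨t, ht⟩ : ∃ t, t = ξ / (p.wTh θ').ell ^ 2 := ⟨_, rfl⟩
    rw [← ht]
    have ht0 : 0 ≤ t := by rw [ht]; exact div_nonneg hξ.1 (by positivity)
    have htξ : t ≤ ξ := by rw [ht]; exact div_le_self hξ.1 a1'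
    have e : (p.wTh θ').ell ^ 2 * t = ξ := by rw [ht]; exact mul_div_cancel₀ _ (pow_ne_zero 2 hl'.ne')
    have g1 := R'.gap_lo t ht0
    have g2 := R'.gap_hi t ht0 (by rw [e]; exact hξx)
    have g0 : 0 ≤ (p.wTh θ').gap F 𝔹 t := by
      refine le_trans ?_ g1
      have : 0 ≤ min (t ^ 2) 1 := le_min (sq_nonneg _) zero_le_one
      have hl0 : 0 ≤ (p.wTh θ').lam := hlam0.le
      positivity
    rw [abs_of_nonneg g0]
    refine g2.trans ?_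
    have e2 : (p.wTh θ').lam = p.lam := rfl
    rw [e2]
    have h1 : t ^ 2 ≤ ξ ^ 2 := pow_le_pow_left₀ ht0 htξ 2
    have hC0 : 0 ≤ C := hc.le.trans (R.b0_lo.trans R.b0_hi)
    calc C * p.lam * t ^ 2 ≤ C * p.lam * ξ ^ 2 := mul_le_mul_of_nonneg_left h1 (by positivity)
      _ ≤ Cm * p.lam * ξ ^ 2 := mul_le_mul_of_nonneg_right (mul_le_mul_of_nonneg_right hCC hlam0.le) (sq_nonneg _)
  · -- difference of the gaps
    intro ξ hξ
    have hξ0 : ξ ≤ ξ0 := by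
      have : 2 * Cm * v ≤ 2 * Cm * p.x := mul_le_mul_of_nonneg_left hv.2 (by positivity)
      exact (hξ.2.trans this).trans (hx_ξ.trans (min_le_left _ _))
    refine (T.gap0 ξ ⟨hξ.1, hξ0⟩).trans ?_
    have h1 : C' * Real.exp (-c' * p.M) ≤ Cm * p.lam :=
      (mul_le_mul_of_nonneg_right hCC' (Real.exp_pos _).le).trans (mul_le_mul_of_nonneg_left hE hCm0.le)
    exact mul_le_mul_of_nonneg_right (mul_le_mul_of_nonneg_right h1 (sq_nonneg _)) hδ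

/-! ## PART 2 (117): the path majorant as `L8qdLip`, the envelope, the glue -/

theorem l8qd_wTh_self {p : LlPt} (hl : 0 < p.ell) : p.wTh (6 * Real.log p.ell) = p := by
  unfold LlPt.wTh
  have e : Real.exp (6 * Real.log p.ell / 6) = p.ell := by
    rw [mul_div_cancel_left₀ _ (by norm_num : (6 : ℝ) ≠ 0), Real.exp_log hl]
  rw [e]

theorem l8qd_th_mem {F : LlFix} {p : LlPt} {θ : ℝ} (h : (p.wTh θ).Ok F) : θ ∈ Icc 0 (Real.log 2) := by
  have h1 : 1 ≤ Real.exp (θ / 6) := h.ell1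
  have h2 : Real.exp (θ / 6) ≤ (2 : ℝ) ^ (1 / 6 : ℝ) := h.ell2
  rw [← Real.exp_zero, Real.exp_le_exp] at h1
  rw [Real.rpow_def_of_pos (by norm_num : (0 : ℝ) < 2), Real.exp_le_exp] at h2
  exact ⟨by linarith, by linarith⟩

/-- **the majorant** of `|d(v)|` and of its local Lipschitz constant in `θ`, low region of a size path: mask, `H_lo`, `H_lin` -/
noncomputable def l8qdM (F : LlFix) (p : LlPt) (v : ℝ) : ℝ :=
  (if v ≤ p.x then p.lam * (v ^ 3 + v * p.U F ^ 2) else 0)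
    + (if p.x ≤ v then p.lam1 F * p.U F ^ 3 * (1 + Real.log (2 / p.x)) + p.x ^ 3 * v else 0)

theorem l8qd_eqns_cite : True := by
  have := @l8qdM.eq_1
  trivial

/-- the mask: value ((P4)) and local Lipschitz constant (`l8qd_mask`) of `h_*(v)`, `v ≤ x` -/
theorem l8qd_hS_lip (𝔹 : LlBase) (F : LlFix) (hB : LlBaseProfile 𝔹 F.T) (h3 : LlSec3 𝔹 F) :
    ∃ (C : ℝ) (N0 : ℕ), 1 ≤ C ∧ ∀ p : LlPt, p.Ok F → N0 ≤ p.N → p.sm = true → ∀ v ∈ Icc 0 p.x,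
      L8qdLip F p (fun q => q.hS F 𝔹 v) (C * (p.lam * (v ^ 3 + v * p.U F ^ 2))) := by
  obtain ⟨Cm, Nm, hCm, hmask⟩ := l8qd_mask 𝔹 F hB h3
  obtain ⟨c4, C4, v4, -, hv4, N4, hp4⟩ := h3.p4
  obtain ⟨ca, Ca, -, Na, hadm⟩ := h3.adm
  obtain ⟨Np, hph⟩ := l8f_ph h3
  obtain ⟨Nx, hNx⟩ := lce_x_small v4 hv4
  refine ⟨Cm + |C4| + 1, max (max Nm N4) (max (max Na Np) Nx), by linarith [abs_nonneg C4], fun p hp hN hsm v hv => ?_⟩
  have hNm : Nm ≤ p.N := ((le_max_left _ _).trans (le_max_left _ _)).trans hN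
  have hN4 : N4 ≤ p.N := ((le_max_right _ _).trans (le_max_left _ _)).trans hN
  have hNa : Na ≤ p.N := (((le_max_left _ _).trans (le_max_left _ _)).trans (le_max_right _ _)).trans hN
  have hNp : Np ≤ p.N := (((le_max_right _ _).trans (le_max_left _ _)).trans (le_max_right _ _)).trans hN
  have hNx' : Nx ≤ p.N := ((le_max_right _ _).trans (le_max_right _ _)).trans hN
  obtain ⟨Jm, -, hph⟩ := hph p.N hNp
  have ph := hph p hp rfl
  have hl : 0 < p.ell := lt_of_lt_of_le one_pos hp.ell1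
  have hlam : 0 < p.lam := lt_of_lt_of_le (Real.rpow_pos_of_pos ph.x0 _) hp.lam_lo
  have hQ : 0 ≤ p.lam * (v ^ 3 + v * p.U F ^ 2) := by
    have := hv.1
    positivity
  refine ⟨?_, 1, one_pos, fun θ' _ hOk => ?_⟩
  · show |p.hS F 𝔹 v| ≤ _
    rcases eq_or_lt_of_le hv.1 with h0 | h0
    · have e : p.hS F 𝔹 v = 0 := by
        rw [← h0]
        unfold LlPt.hS LlPt.q
        rw [ph.K0, ph.gam0]; ring
      rw [e, abs_zero]
      exact mul_nonneg (by linarith [abs_nonneg C4]) hQ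
    · have hva : v ∈ Icc 0 p.a := ⟨hv.1, (hv.2.trans ph.x1.le).trans ph.a1⟩
      have a1 : 0 ≤ p.hS F 𝔹 v := ((hadm p hp hNa).2.2.2.2.2.1 v hva).2.2.2.1
      have a2 : p.hS F 𝔹 v ≤ C4 * p.lam * (v ^ 3 + v * p.U F ^ 2) := (hp4 p hp hN4).2 v ⟨h0, hv.2.trans (hNx p hNx')⟩
      rw [abs_of_nonneg a1]
      calc p.hS F 𝔹 v ≤ C4 * (p.lam * (v ^ 3 + v * p.U F ^ 2)) := by rw [← mul_assoc]; exact a2
        _ ≤ (Cm + |C4| + 1) * (p.lam * (v ^ 3 + v * p.U F ^ 2)) :=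
          mul_le_mul_of_nonneg_right (by linarith [le_abs_self C4]) hQ
  · have hθ0 : 6 * Real.log p.ell ∈ Icc 0 (Real.log 2) := l8qd_th_mem (F := F) (p := p) (by rw [l8qd_wTh_self hl]; exact hp)
    have := hmask p hp hNm hsm _ hθ0 θ' (l8qd_th_mem hOk) v hv
    rw [l8qd_wTh_self hl] at this
    refine this.trans (mul_le_mul_of_nonneg_right (mul_le_mul_of_nonneg_right (by linarith [abs_nonneg C4]) hQ) (abs_nonneg _))

/-- **PATH, low region of a size path**: `d = -h_*` on the mask, `d = H_lo + χ_lin H_lin` (free of `θ`) for `x ≤ v ≤ 1` -/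
theorem l8qd_path (𝔹 : LlBase) (F : LlFix) (hB : LlBaseProfile 𝔹 F.T) (h3 : LlSec3 𝔹 F) :
    ∃ (C : ℝ) (N0 : ℕ), 1 ≤ C ∧ ∀ p : LlPt, p.Ok F → N0 ≤ p.N → p.sm = true → ∀ v ∈ Icc (0 : ℝ) 1,
      L8qdLip F p (fun q => q.d F 𝔹 v) (C * l8qdM F p v) ∧ (v = p.x → L8qdLip F p (fun q => q.hS F 𝔹 v) (C * l8qdM F p v)) := by
  obtain ⟨C, N0, hC, H⟩ := l8qd_hS_lip 𝔹 F hB h3
  refine ⟨C, N0, hC, fun p hp hN hsm v hv => ?_⟩
  have hx : 0 < p.x := Real.rpow_pos_of_pos (by have := hp.N2; positivity) _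
  have hlam : 0 < p.lam := lt_of_lt_of_le (Real.rpow_pos_of_pos hx _) hp.lam_lo
  have hU : 0 < p.U F := lt_min one_pos (mul_pos hx (Real.rpow_pos_of_pos hlam _))
  have hl1 : 0 < p.lam1 F := Real.rpow_pos_of_pos hlam _
  have hx1 : p.x ≤ 1 := by
    have hN1 : (1 : ℝ) ≤ p.N := by
      have := hp.N2
      exact_mod_cast (by omega : 1 ≤ p.N)
    exact Real.rpow_le_one_of_one_le_of_nonpos hN1 (by norm_num)
  have hL : 0 ≤ Real.log (2 / p.x) := Real.log_nonneg (by rw [le_div_iff₀ hx]; linarith)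
  have hM1 : 0 ≤ p.lam * (v ^ 3 + v * p.U F ^ 2) := by
    have := hv.1
    positivity
  have hM2 : 0 ≤ p.lam1 F * p.U F ^ 3 * (1 + Real.log (2 / p.x)) + p.x ^ 3 * v := by
    have := hv.1
    positivity
  have hC0 : 0 ≤ C := by linarith
  rcases lt_or_ge v p.x with hvx | hvx
  · -- the mask
    refine ⟨?_, fun h => absurd h hvx.ne⟩
    have eM : l8qdM F p v = p.lam * (v ^ 3 + v * p.U F ^ 2) := by
      unfold l8qdM
      rw [if_pos hvx.le, if_neg (not_le.2 hvx), add_zero]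
    rw [eM]
    obtain ⟨a, h, hh, Hh⟩ := H p hp hN hsm v ⟨hv.1, hvx.le⟩
    have ed : ∀ q : LlPt, q.x = p.x → q.d F 𝔹 v = -q.hS F 𝔹 v := fun q hq => by
      rw [lcf_d_eq, if_pos (by rw [hq]; exact hvx)]
    refine ⟨?_, h, hh, fun θ' h1 h2 => ?_⟩
    · show |p.d F 𝔹 v| ≤ _
      rw [ed p rfl, abs_neg]; exact a
    · show |(p.wTh θ').d F 𝔹 v - p.d F 𝔹 v| ≤ _
      rw [ed p rfl, ed (p.wTh θ') rfl, ← neg_sub', abs_neg]
      exact Hh θ' h1 h2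
  · -- above the mask
    have hchiE : p.chiE = 0 := (hp.sm_fin hsm).2
    have eM : p.lam1 F * p.U F ^ 3 * (1 + Real.log (2 / p.x)) + p.x ^ 3 * v ≤ l8qdM F p v := by
      unfold l8qdM
      rw [if_pos hvx]
      split_ifs
      · linarith
      · linarith
    have ed : ∀ q : LlPt, q.x = p.x → q.lam = p.lam → q.chiL = p.chiL → q.chiE = p.chiE → 1 ≤ q.ell →
        q.d F 𝔹 v = p.lam1 F * p.U F ^ 3 * Real.log (v / p.x) + p.chiL * (p.x ^ 3 * max 0 (v - 4 * F.vb)) := by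
      intro q h1 h2 h3 h4 h5
      rw [lcf_d_eq, if_neg (by rw [h1]; exact not_lt.2 hvx), h4, hchiE, zero_mul, add_zero, h3]
      unfold LlPt.Hlo LlPt.Hlin LlPt.lam1 LlPt.U
      rw [h1, h2, min_eq_left (hv.2.trans h5)]
    refine ⟨⟨?_, 1, one_pos, fun θ' _ hOk => ?_⟩, fun hvx' => ?_⟩
    · show |p.d F 𝔹 v| ≤ _
      rw [ed p rfl rfl rfl rfl hp.ell1]
      have a1 : 0 ≤ Real.log (v / p.x) := Real.log_nonneg ((one_le_div hx).2 hvx)
      have a2 : Real.log (v / p.x) ≤ Real.log (2 / p.x) :=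
        Real.log_le_log (div_pos (hx.trans_le hvx) hx) (div_le_div_of_nonneg_right (by linarith [hv.2]) hx.le)
      have a3 : 0 ≤ max 0 (v - 4 * F.vb) := le_max_left _ _
      have a4 : max 0 (v - 4 * F.vb) ≤ v := max_le hv.1 (by linarith [h3.ok.vb0])
      have a5 : 0 ≤ p.chiL * (p.x ^ 3 * max 0 (v - 4 * F.vb)) := mul_nonneg hp.chiL.1 (by positivity)
      have a6 : p.chiL * (p.x ^ 3 * max 0 (v - 4 * F.vb)) ≤ 1 * (p.x ^ 3 * v) :=
        mul_le_mul hp.chiL.2 (mul_le_mul_of_nonneg_left a4 (by positivity)) (by positivity) zero_le_one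
      have a7 : p.lam1 F * p.U F ^ 3 * Real.log (v / p.x) ≤ p.lam1 F * p.U F ^ 3 * (1 + Real.log (2 / p.x)) :=
        mul_le_mul_of_nonneg_left (by linarith) (by positivity)
      rw [abs_of_nonneg (add_nonneg (by positivity) a5)]
      calc _ ≤ p.lam1 F * p.U F ^ 3 * (1 + Real.log (2 / p.x)) + p.x ^ 3 * v := by linarith
        _ ≤ l8qdM F p v := eM
        _ ≤ C * l8qdM F p v := le_mul_of_one_le_left (hM2.trans eM) hC
    · show |(p.wTh θ').d F 𝔹 v - p.d F 𝔹 v| ≤ _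
      rw [ed p rfl rfl rfl rfl hp.ell1, ed (p.wTh θ') rfl rfl rfl rfl hOk.ell1, sub_self, abs_zero]
      exact mul_nonneg (mul_nonneg hC0 (hM2.trans eM)) (abs_nonneg _)
    · obtain ⟨a, h, hh, Hh⟩ := H p hp hN hsm v ⟨hv.1, hvx'.le⟩
      have eM' : p.lam * (v ^ 3 + v * p.U F ^ 2) ≤ l8qdM F p v := by
        unfold l8qdM
        rw [if_pos hvx'.le, if_pos hvx]
        linarith
      have hCC : C * (p.lam * (v ^ 3 + v * p.U F ^ 2)) ≤ C * l8qdM F p v := mul_le_mul_of_nonneg_left eM' hC0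
      exact ⟨a.trans hCC, h, hh, fun θ' h1 h2 => (Hh θ' h1 h2).trans (mul_le_mul_of_nonneg_right hCC (abs_nonneg _))⟩

/-- arithmetic of the envelope above `zlo` -/
theorem l8qd_env_ar {z Y b W e : ℝ} (hY : 0 < Y) (hYz : Y ≤ z) (hb0 : 0 < b) (hb1 : b ≤ 1) (hW : 1 ≤ W)
    (hlo : min (b * z) (Y ^ 2 / z) / W ≤ e) : b * Y ^ 2 / (W * z) ≤ min z (1 ^ 2 * e) := by
  have hz : 0 < z := hY.trans_le hYz
  have hW0 : 0 < W := by linarith
  have hYY : Y ^ 2 ≤ z ^ 2 := pow_le_pow_left₀ hY.le hYz 2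
  have h1 : b * Y ^ 2 / (W * z) ≤ z := by
    rw [div_le_iff₀ (by positivity)]
    have : b * Y ^ 2 ≤ 1 * z ^ 2 := mul_le_mul hb1 hYY (by positivity) zero_le_one
    nlinarith [mul_nonneg (sub_nonneg.2 hW) (sq_nonneg z)]
  have h2 : b * Y ^ 2 / (W * z) ≤ min (b * z) (Y ^ 2 / z) / W := by
    rw [le_div_iff₀ hW0]
    have e1 : b * Y ^ 2 / (W * z) * W = b * Y ^ 2 / z := by field_simp
    rw [e1]
    refine le_min ?_ ?_
    · rw [div_le_iff₀ hz]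
      nlinarith [mul_le_mul_of_nonneg_left hYY hb0.le]
    · exact div_le_div_of_nonneg_right (by nlinarith [sq_nonneg Y]) hz.le
  refine le_min h1 ?_
  rw [one_pow, one_mul]
  exact h2.trans hlo

/-- **lower bound of the right side of DEFL**: `x^eps Y_c² max(v', Y_c) / (C_W c_1) ≤ max(v, Y_c)² e` -/
theorem l8qd_env_lo {I : L8In} {π : L8qPar} {S : SkpS} {Cc : ℝ} (X : L8qeCtx I π S Cc) {k : ℕ} (hv : I.v k ≤ π.zw / 4) :
    I.x ^ π.eps * (I.Yc llDStar ^ 2 * max (l8pVl I k) (I.Yc llDStar)) / (S.CW * π.c1) ≤ max (I.v k) (I.Yc llDStar) ^ 2 * l8qE I π k := by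
  obtain ⟨z, hz⟩ : ∃ z, z = l8pVl I k := ⟨_, rfl⟩
  obtain ⟨Y, hYd⟩ : ∃ Y, Y = I.Yc llDStar := ⟨_, rfl⟩
  obtain ⟨b, hbd⟩ : ∃ b, b = I.x ^ π.eps := ⟨_, rfl⟩
  have hY : 0 < Y := hYd ▸ X.Y0
  have hb0 : 0 < b := hbd ▸ X.b0
  have hb1 : b ≤ 1 := hbd ▸ X.b1
  have hW := X.CW1
  have hc1 := X.c18
  have hzv : z ≤ I.v k := hz ▸ X.Vl_le k
  have hz0 : 0 ≤ z := hz ▸ X.Vl_nonneg k
  have hW0 : 0 < S.CW := by linarith
  have hc10 : 0 < π.c1 := by linarith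
  rw [← hz, ← hYd, ← hbd]
  rw [div_le_iff₀ (by positivity)]
  rcases lt_or_ge z (π.c1 * Y) with h | h
  · have e : l8qE I π k = Y := by
      unfold l8qE
      rw [if_pos (by rw [← hz, ← hYd]; exact h), hYd]
    rw [e]
    have h1 : max z Y ≤ π.c1 * Y := max_le h.le (by nlinarith)
    have h2 : Y ^ 2 ≤ max (I.v k) Y ^ 2 := pow_le_pow_left₀ hY.le (le_max_right _ _) 2
    calc b * (Y ^ 2 * max z Y) ≤ 1 * (Y ^ 2 * (π.c1 * Y)) :=
          mul_le_mul hb1 (mul_le_mul_of_nonneg_left h1 (by positivity)) (by positivity) zero_le_one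
      _ = Y ^ 2 * Y * (1 * π.c1) := by ring
      _ ≤ max (I.v k) Y ^ 2 * Y * (S.CW * π.c1) :=
          mul_le_mul (mul_le_mul_of_nonneg_right h2 hY.le) (mul_le_mul_of_nonneg_right hW hc10.le) (by positivity) (by positivity)
  · have hYz : Y ≤ z := le_trans (by nlinarith) h
    have hzp : 0 < z := hY.trans_le hYz
    have hzw : z ≤ π.zw := by linarith [X.zw0]
    have hzs : z ≤ π.c.zs := by linarith [X.zws, X.zw0]
    have hz1 : z ≤ 1 := hzs.trans X.zs1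
    have hR : skwR z = z := min_eq_left hz1
    have e : l8qE I π k = min z (1 ^ 2 * l8qH I π z) := by
      unfold l8qE
      rw [if_neg (by rw [← hz, ← hYd]; exact not_lt.2 h), if_pos (by rw [← hz]; exact hzw), ← hz]
      unfold skwE
      rw [hR]
      rfl
    have hlo := X.inst.wfull.lower z ⟨by show π.c1 * I.Yc llDStar / 2 ≤ z; rw [← hYd]; linarith [mul_pos hc10 hY], hzs⟩
    rw [hR] at hlo
    have hlo' : min (b * z) (Y ^ 2 / z) / S.CW ≤ l8qH I π z := by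
      rw [hbd, hYd]; exact hlo
    have key := l8qd_env_ar hY hYz hb0 hb1 hW hlo'
    rw [e, max_eq_left hYz]
    have h2 : z ^ 2 ≤ max (I.v k) Y ^ 2 := pow_le_pow_left₀ hz0 (hzv.trans (le_max_left _ _)) 2
    have h3 : 0 ≤ b * Y ^ 2 / (S.CW * z) := by positivity
    calc b * (Y ^ 2 * z) = z ^ 2 * (b * Y ^ 2 / (S.CW * z)) * (S.CW * 1) := by field_simp
      _ ≤ max (I.v k) Y ^ 2 * min z (1 ^ 2 * l8qH I π z) * (S.CW * π.c1) :=
          mul_le_mul (mul_le_mul h2 key h3 (by positivity)) (mul_le_mul_of_nonneg_left (by linarith) hW0.le) (by positivity)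
            (mul_nonneg (by positivity) (h3.trans key))

/-- **the majorant against the scale**: `M(v') + x⁴⁰ ≤ (5 + log(2/x)) λ Y_c² max(v', Y_c)` -/
theorem l8qd_maj {I : L8In} {π : L8qPar} {S : SkpS} {Cc : ℝ} (X : L8qeCtx I π S Cc) (hlam : I.x ≤ I.lam) (hlam1 : I.lam ≤ 1) (heta : 0 ≤ I.F.eta) (k : ℕ) :
    l8qdM I.F I.p (l8pVl I k) + I.x ^ 40 ≤ (5 + Real.log (2 / I.x)) * (I.lam * (I.Yc llDStar ^ 2 * max (l8pVl I k) (I.Yc llDStar))) := by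
  obtain ⟨z, hz⟩ : ∃ z, z = l8pVl I k := ⟨_, rfl⟩
  obtain ⟨Y, hYd⟩ : ∃ Y, Y = I.Yc llDStar := ⟨_, rfl⟩
  obtain ⟨L, hLd⟩ : ∃ L, L = Real.log (2 / I.x) := ⟨_, rfl⟩
  have hx := X.x0
  have hx1 := X.x1
  have hU := X.U0
  have hxU := X.inst.xU
  have hUY : I.U ≤ Y := hYd ▸ X.UY
  have hY : 0 < Y := hYd ▸ X.Y0
  have hz0 : 0 ≤ z := hz ▸ X.Vl_nonneg k
  have hl0 : 0 < I.lam := hx.trans_le hlam
  have hL : 0 ≤ L := by
    rw [hLd]; exact Real.log_nonneg (by rw [le_div_iff₀ hx]; linarith)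
  rw [← hz, ← hYd, ← hLd]
  obtain ⟨Q, hQ⟩ : ∃ Q, Q = I.lam * (Y ^ 2 * max z Y) := ⟨_, rfl⟩
  rw [← hQ]
  have hQ1 : I.lam * Y ^ 3 ≤ Q := by
    rw [hQ]
    have : Y ^ 2 * Y ≤ Y ^ 2 * max z Y := mul_le_mul_of_nonneg_left (le_max_right _ _) (by positivity)
    calc I.lam * Y ^ 3 = I.lam * (Y ^ 2 * Y) := by ring
      _ ≤ _ := mul_le_mul_of_nonneg_left this hl0.le
  have hQ2 : I.lam * (Y ^ 2 * z) ≤ Q := by
    rw [hQ]
    exact mul_le_mul_of_nonneg_left (mul_le_mul_of_nonneg_left (le_max_left _ _) (by positivity)) hl0.le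
  have hQ0 : 0 ≤ Q := le_trans (by positivity) hQ1
  have hU3 : I.U ^ 3 ≤ Y ^ 3 := pow_le_pow_left₀ hU.le hUY 3
  have hxY : I.x ≤ Y := hxU.trans hUY
  -- mask
  have p1 : (if z ≤ I.p.x then I.p.lam * (z ^ 3 + z * I.p.U I.F ^ 2) else 0) ≤ 2 * Q := by
    split_ifs with h
    · have h' : z ≤ I.U := h.trans hxU
      have a1 : z ^ 3 ≤ I.U ^ 3 := pow_le_pow_left₀ hz0 h' 3
      have a2 : z * I.U ^ 2 ≤ I.U * I.U ^ 2 := mul_le_mul_of_nonneg_right h' (by positivity)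
      have a3 : z ^ 3 + z * I.U ^ 2 ≤ 2 * Y ^ 3 := by nlinarith
      calc I.lam * (z ^ 3 + z * I.U ^ 2) ≤ I.lam * (2 * Y ^ 3) := mul_le_mul_of_nonneg_left a3 hl0.le
        _ = 2 * (I.lam * Y ^ 3) := by ring
        _ ≤ 2 * Q := by linarith
    · linarith
  -- above the mask
  have hl1 : I.p.lam1 I.F ≤ I.lam := by
    unfold LlPt.lam1
    calc I.p.lam ^ (1 + I.F.eta) ≤ I.p.lam ^ (1 : ℝ) := Real.rpow_le_rpow_of_exponent_ge hl0 hlam1 (by linarith)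
      _ = I.lam := Real.rpow_one _
  have hl10 : 0 ≤ I.p.lam1 I.F := Real.rpow_nonneg hl0.le _
  have hx3 : I.x ^ 3 ≤ I.lam * Y ^ 2 := by
    calc I.x ^ 3 = I.x * I.x ^ 2 := by ring
      _ ≤ I.lam * Y ^ 2 := mul_le_mul hlam (pow_le_pow_left₀ hx.le hxY 2) (by positivity) hl0.le
  have p2 : (if I.p.x ≤ z then I.p.lam1 I.F * I.p.U I.F ^ 3 * (1 + Real.log (2 / I.p.x)) + I.p.x ^ 3 * z else 0) ≤ (1 + L) * Q + Q := by
    split_ifs with h
    · have a1 : I.p.lam1 I.F * I.U ^ 3 ≤ I.lam * Y ^ 3 := mul_le_mul hl1 hU3 (by positivity) hl0.le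
      have a2 : I.p.lam1 I.F * I.U ^ 3 * (1 + L) ≤ Q * (1 + L) := mul_le_mul_of_nonneg_right (a1.trans hQ1) (by linarith)
      have a3 : I.x ^ 3 * z ≤ Q := by
        calc I.x ^ 3 * z ≤ I.lam * Y ^ 2 * z := mul_le_mul_of_nonneg_right hx3 hz0
          _ = I.lam * (Y ^ 2 * z) := by ring
          _ ≤ Q := hQ2
      have e1 : Real.log (2 / I.p.x) = L := hLd.symm
      rw [e1]
      calc I.p.lam1 I.F * I.p.U I.F ^ 3 * (1 + L) + I.p.x ^ 3 * z ≤ Q * (1 + L) + Q := add_le_add a2 a3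
        _ = _ := by ring
    · nlinarith
  have p3 : I.x ^ 40 ≤ Q := by
    calc I.x ^ 40 ≤ I.x ^ 4 := pow_le_pow_of_le_one hx.le hx1 (by norm_num)
      _ = I.x * I.x ^ 3 := by ring
      _ ≤ I.lam * Y ^ 3 := mul_le_mul hlam (pow_le_pow_left₀ hx.le hxY 3) (by positivity) hl0.le
      _ ≤ Q := hQ1
  unfold l8qdM
  calc _ ≤ 2 * Q + ((1 + L) * Q + Q) + Q := add_le_add (add_le_add p1 p2) p3
    _ = (5 + L) * Q := by ring

/-- `5 + log(2/x) ≤ (6 + 2/ε) x^{-ε/2}` -/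
theorem l8qd_log_le {x ε : ℝ} (hx : 0 < x) (hx1 : x ≤ 1) (hε : 0 < ε) : 5 + Real.log (2 / x) ≤ (6 + 2 / ε) * x ^ (-(ε / 2)) := by
  have ht1 : 1 ≤ x ^ (-(ε / 2)) := Real.one_le_rpow_of_pos_of_le_one_of_nonpos hx hx1 (by linarith)
  have h1 : Real.log (2 / x) = Real.log 2 + Real.log x⁻¹ := by
    rw [div_eq_mul_inv, Real.log_mul (by norm_num) (inv_ne_zero hx.ne')]
  have h2 : Real.log x⁻¹ ≤ x⁻¹ ^ (ε / 2) / (ε / 2) := Real.log_le_rpow_div (inv_nonneg.2 hx.le) (by positivity)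
  have h3 : x⁻¹ ^ (ε / 2) = x ^ (-(ε / 2)) := by rw [Real.inv_rpow hx.le, Real.rpow_neg hx.le]
  have h4 : Real.log 2 ≤ 1 := by linarith [Real.log_two_lt_d9]
  rw [h1]
  rw [h3] at h2
  have e : x ^ (-(ε / 2)) / (ε / 2) = 2 / ε * x ^ (-(ε / 2)) := by field_simp
  rw [e] at h2
  nlinarith

/-- **DEFL** for every base -/
theorem l8qd_def (𝔹 : LlBase) (T : ℝ) : L8qDef 𝔹 T := by
  intro F0 hF pB pS h0 h1 vl ε hε
  have hE := llc_expOk pB h0 h1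
  have h3 : LlSec3 𝔹 (F0.wExp pB.sStar pB.eta pS) := (hF.2.2 _ _ _ hE).sec3
  have hB : LlBaseProfile 𝔹 (F0.wExp pB.sStar pB.eta pS).T := by
    show LlBaseProfile 𝔹 F0.T
    rw [hF.1]; exact hF.2.1
  obtain ⟨Cp, Np, hCp, hpath⟩ := l8qd_path 𝔹 _ hB h3
  refine ⟨ε / 2, by positivity, fun π S Cc hπ hCc heps => ?_⟩
  have hCW : 1 ≤ S.CW := hπ.Sok.CW
  have hLq : 1 ≤ S.c.Lq := hπ.Sok.c.Lq
  have hc1 : 8 ≤ π.c1 := hπ.c1
  have hM : 0 < S.CW + S.c.Lq + 2 := by linarith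
  obtain ⟨N0, hN0⟩ := skw_llb_small 1 (1 / (S.CW + S.c.Lq + 2)) one_pos (by positivity)
  refine ⟨2 * Cp * (6 + 2 / ε) * (S.CW * π.c1), max N0 Np, 0, fun I hat hok C hC hlk k hk hv => ?_⟩
  have hsm : (S.CW + S.c.Lq + 2) * I.x ≤ 1 := by
    have := hN0 I.p ((le_max_left _ _).trans hat.hN)
    rw [Real.rpow_one, le_div_iff₀ hM] at this
    have e : I.x = I.p.x := rfl
    rw [e]; linarith
  have X : L8qeCtx I π S Cc := ⟨hπ, hat.ok, hok, hsm⟩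
  have hx := X.x0
  have hx1 := X.x1
  have hpS : I.F.pS = pS := by rw [hat.hF]; rfl
  have heta : 0 ≤ I.F.eta := by rw [hat.hF]; exact hE.e_lo.le
  have hlamE : I.lam = I.x ^ pS := by rw [← hpS]; exact (hat.ok.pt.sm_fin hat.siz.1).1
  have hlam : I.x ≤ I.lam := by
    rw [hlamE]
    calc I.x = I.x ^ (1 : ℝ) := (Real.rpow_one _).symm
      _ ≤ I.x ^ pS := Real.rpow_le_rpow_of_exponent_ge hx hx1 h1
  have hlam1 : I.lam ≤ 1 := by rw [hlamE]; exact Real.rpow_le_one hx.le hx1 h0.le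
  have hl0 : 0 < I.lam := hx.trans_le hlam
  have hvz : I.v k ≤ π.zw / 4 := hv.trans (min_le_left _ _)
  have hzv := X.Vl_le k
  have hz0 := X.Vl_nonneg k
  have hz1 : l8pVl I k ≤ 1 := by linarith [X.zws, X.zw0, X.zs1]
  -- the path majorant at the left end of the cell
  have hp : L8qdLip I.F I.p (fun q => q.d I.F I.𝔹 (l8pVl I k)) (Cp * l8qdM I.F I.p (l8pVl I k)) ∧
      (l8pVl I k = I.p.x → L8qdLip I.F I.p (fun q => q.hS I.F I.𝔹 (l8pVl I k)) (Cp * l8qdM I.F I.p (l8pVl I k))) := by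
    have hpt := hat.ok.pt
    rw [hat.hF] at hpt ⊢
    rw [hat.hB]
    exact hpath I.p hpt ((le_max_right _ _).trans hat.hN) hat.siz.1 _ ⟨hz0, hz1⟩
  obtain ⟨d1, d2⟩ := hlk k hk (hzv.trans (hv.trans (min_le_right _ _))) _ hp.1 hp.2
  have hmaj := l8qd_maj X hlam hlam1 heta k
  have henv := l8qd_env_lo X hvz
  have hlog := l8qd_log_le hx hx1 hε
  obtain ⟨R, hR⟩ : ∃ R, R = max (I.v k) (I.Yc llDStar) ^ 2 * l8qE I π k := ⟨_, rfl⟩
  obtain ⟨Q, hQ⟩ : ∃ Q, Q = I.Yc llDStar ^ 2 * max (l8pVl I k) (I.Yc llDStar) := ⟨_, rfl⟩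
  obtain ⟨M, hMd⟩ : ∃ M, M = l8qdM I.F I.p (l8pVl I k) := ⟨_, rfl⟩
  obtain ⟨t, ht⟩ : ∃ t, t = I.x ^ (-(ε / 2)) := ⟨_, rfl⟩
  rw [← hR, ← hQ] at henv
  rw [← hQ, ← hMd] at hmaj
  rw [← hMd] at d1 d2
  rw [← ht] at hlog
  have hQ0 : 0 ≤ Q := by
    rw [hQ]
    have := X.Y0
    positivity
  have ht1 : 1 ≤ t := by rw [ht]; exact Real.one_le_rpow_of_pos_of_le_one_of_nonpos hx hx1 (by linarith)
  have hb : 1 ≤ I.x ^ π.eps * t := by
    rw [ht, ← Real.rpow_add hx]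
    exact Real.one_le_rpow_of_pos_of_le_one_of_nonpos hx hx1 (by linarith)
  have hWc : 0 < S.CW * π.c1 := by positivity
  -- `Q ≤ t W c1 R`
  have hQR : Q ≤ t * (S.CW * π.c1) * R := by
    rw [div_le_iff₀ hWc] at henv
    calc Q = 1 * Q := (one_mul _).symm
      _ ≤ I.x ^ π.eps * t * Q := mul_le_mul_of_nonneg_right hb hQ0
      _ = t * (I.x ^ π.eps * Q) := by ring
      _ ≤ t * (R * (S.CW * π.c1)) := mul_le_mul_of_nonneg_left henv (by linarith)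
      _ = _ := by ring
  have hR0 : 0 ≤ R := by
    have h2 : 0 < t * (S.CW * π.c1) := by positivity
    by_contra hc
    have : t * (S.CW * π.c1) * R < 0 := mul_neg_of_pos_of_neg h2 (not_le.1 hc)
    linarith
  have hx40 : 0 ≤ I.x ^ 40 := by positivity
  have hM0 : Cp * M + I.x ^ 40 ≤ Cp * (M + I.x ^ 40) := by nlinarith
  have htt : t * t = I.x ^ (-ε) := by
    rw [ht, ← Real.rpow_add hx]; congr 1; ring
  have hε6 : 0 < 6 + 2 / ε := by positivity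
  have hCp0 : 0 < Cp := by linarith
  have e5 : 0 ≤ 5 + Real.log (2 / I.x) := by
    have : 0 ≤ Real.log (2 / I.x) := Real.log_nonneg (by rw [le_div_iff₀ hx]; linarith)
    linarith
  calc |I.d k| + |I.dd k| ≤ 2 * (Cp * M + I.x ^ 40) := by linarith
    _ ≤ 2 * (Cp * ((5 + Real.log (2 / I.x)) * (I.lam * Q))) := by
        have := mul_le_mul_of_nonneg_left hmaj hCp0.le
        linarith
    _ ≤ 2 * (Cp * (((6 + 2 / ε) * t) * (I.lam * (t * (S.CW * π.c1) * R)))) := by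
        have a1 : I.lam * Q ≤ I.lam * (t * (S.CW * π.c1) * R) := mul_le_mul_of_nonneg_left hQR hl0.le
        have a2 : (5 + Real.log (2 / I.x)) * (I.lam * Q) ≤ ((6 + 2 / ε) * t) * (I.lam * (t * (S.CW * π.c1) * R)) :=
          mul_le_mul hlog a1 (by positivity) (by positivity)
        have := mul_le_mul_of_nonneg_left a2 hCp0.le
        linarith
    _ = 2 * Cp * (6 + 2 / ε) * (S.CW * π.c1) * (t * t) * I.lam * R := by ring
    _ ≤ C * (t * t) * I.lam * R := by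
        have : 0 ≤ t * t := by positivity
        exact mul_le_mul_of_nonneg_right (mul_le_mul_of_nonneg_right (mul_le_mul_of_nonneg_right hC this) hl0.le) hR0
    _ = C * I.x ^ (-ε) * I.lam * max (I.v k) (I.Yc llDStar) ^ 2 * l8qE I π k := by rw [htt, hR]; ring

/-- **DEFL** (leaf of `l8q_core_low`, PM/InstZ.lean) -/
theorem l8q_def (T : ℝ) (_hT : 1 < T) : L8qDef llBase T := l8qd_def llBase T

end Claimed.Agent.R286
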