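import Claimed.Agent.R286.PM.Inst
import Claimed.Agent.R286.L09.ChDPsi
import Claimed.Agent.R286.L08.SaPf233
import Claimed.Agent.R286.W.InstLlZ

/-!
# Row 286 (S0533), folder PM, file InstA : CUT OF `l8p_inst_dir` (INST, direct sweep) INTO TEN LEAVES + COMPILED GLUE      (head helper37; prefix `l8p` / `L8p`)

    l8p_inst_dir_of : W-AT + CLK + DEV + GRID + MESH + D3C + QL + CUT + IVX + STR + NUM  ==>  L8pInstDir            (+ `skw_concl_shrink`, `skw_concl_cut`, proved here: cure of 22's alarm)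

SHAPE of a leaf: `L8pEvt 𝔹 F κ Φ` = "there are `N0, Kf` such that `Φ I` holds at every instance with `L8pAt 𝔹 F N0 Kf κ I`" (`N ≥ N0`, `I.Ok`, direct sweep, `I.Fine (x^Kf)`, `Y ≤ x^κ`).
Constants: `eps, K`, `C1v` (DEV, absolute)  |  W-AT: `At, cA, A, c, CW, cv, c3, cG, zr, Lq`  |  `c1 = 8 / cv`  |  `κ`  |  `N0, Kf`.
* **W-AT** (83)   `L8pGeo` = geometry of the coordinate `z` at the point `I.p` (no `S`): `SkwInVConcl`, LL-XI (`K`, `q` in `z`), (D3) in `z` with slope `λ_1 r²` on the WHOLE interval, `G ≥ cG` near `0`;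
                  and `SkwLlDev ⟹ SkwHyp ∧ SkwPlat ∧ SkwConcl`.      = `skw_l03_direct` + `skw_leaf_llXi` + `skw_leaf_inG`.   PROVED (246); `F.z0 ≤ zb(T)`, `8 v_b ≤ p_top` = `LlcTop3.small` (LL/Chain).
* **CLK**         the cumulative clocks of the chain ARE the path clocks at the left ends of the cells: `KC k = K(v_(k-1))`, `hC k = h(v_(k-1))` above the jump at `x` (telescoping `l9d_chain_cum`, `l9d_stp_cumK` + continuity of `K`, `h`).
* **DEV**         `SkwLlDev` for the step function `l8pSv`: `S` monotone in `[0,1]`, (D1) in tail form BY THE DEFINITION of `I.Z` (`f² ≤ A_v`, dyadic windows `[u/4, 4u]`), `q_chain` vs `q_path` by `Fine.q_link`.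
* **GRID**        `zc k` = the solution of `v(z) = v_(k-1)`; `Slink`, `gaplink`, `vlo`, `vhi`: pure bookkeeping from `SkwInVConcl`.
* **MESH**        `zc (k+1) - zc k ≤ x^50`: active part `Δz = ℓ² ΔK` (`Fine.dK_le`, `K_top`), plateau `Δz ≤ Cp⁴ U⁻⁴ Δv` (`Fine.dv_le`, `SkwPlat.Gh_lo`, `hup`).
* **D3C**         (D3) between two cuts.      * **QL** `q_chain(k)` vs `d.q (zc k)`.      * **STR** `l8i_ok`, `l8i_pin`, `l8i_proj`.      * **NUM** powers of `x`.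
-/

set_option autoImplicit false

namespace Claimed.Agent.R286

open MeasureTheory Set Filter

/-- **SHRINK**: the conclusions of Lemma 8.2 with the buffer end `zmax` survive, with the constant `2 C`, when the buffer end is lowered by at most `1/(2C)` (to the last cut of a grid):
a nontrivial cut has `z + 1/C ≤ zmax` and its windows lie within `(C + 1) 𝔥(z) ≤ 2 b` of `z`. -/
theorem skw_concl_shrink {C : ℝ} {c : SkwC} {d : SkwD} {hh : ℝ → ℝ} {zhi zj zb : ℝ} (H : SkwHyp c d) (hC : 1 ≤ C) (hzhi : zhi ≤ d.zmax)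
    (h : SkwConcl C d zhi d.zmax zj hh) (hb : 4 * C * d.b ≤ 1) (h1 : zb ≤ d.zmax) (h2 : d.zmax - zb ≤ 1 / (2 * C)) :
    SkwConcl (2 * C) d zhi zb zj hh := by
  have hC0 : 0 < C := by linarith
  have hCC : C ≤ 2 * C := by linarith
  have hC'0 : 0 < 2 * C := by linarith
  have hU : 0 < d.U := H.x0.trans_le H.xU
  have hb0 := H.b0
  have hzlo := H.zlo0
  have hZ : 0 < d.Z := by linarith [H.Z1]
  have hr : ∀ z, d.zlo / 2 ≤ z → 0 < skwR z := fun z hz => skw_gk_R_pos (by linarith)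
  have hmin : ∀ z, d.zlo / 2 ≤ z → 0 ≤ min (d.b * skwR z) (d.U ^ 2 / skwR z) := by
    intro z hz
    have := hr z hz
    exact le_min (by positivity) (by positivity)
  have hh0 : ∀ z ∈ Icc (d.zlo / 2) d.zmax, 0 ≤ hh z := by
    intro z hz
    exact le_trans (div_nonneg (hmin z hz.1) hC0.le) (h.lower z hz)
  have hL : 0 ≤ skwL d := by
    have hx1 : d.x ≤ 1 := H.xU.trans H.U1
    have ht1 : d.tiny ≤ 1 := H.t1.trans (pow_le_one₀ H.x0.le hx1)
    have : 0 ≤ Real.log (1 / d.tiny) := Real.log_nonneg (by rw [le_div_iff₀ H.t0]; linarith)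
    unfold skwL
    linarith
  have hsub : ∀ z, z ∈ Icc (d.zlo / 2) zb → z ∈ Icc (d.zlo / 2) d.zmax := fun z hz => ⟨hz.1, hz.2.trans h1⟩
  refine ⟨?_, ?_, ?_, ?_, ?_, ?_, ?_, ?_⟩
  · intro z hz z' hz'
    exact (h.qlip z (hsub z hz) z' (hsub z' hz')).trans (mul_le_mul_of_nonneg_right hCC (add_nonneg (hh0 z (hsub z hz)) (abs_nonneg _)))
  · exact h.meas.mono_measure (Measure.restrict_mono (Icc_subset_Icc le_rfl h1) le_rfl)
  · intro z hz
    exact (div_le_div_of_nonneg_left (hmin z hz.1) hC0 hCC).trans (h.lower z (hsub z hz))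
  · intro z hz
    exact (h.upper z (hsub z hz)).trans (mul_le_mul_of_nonneg_right hCC (hr z hz.1).le)
  · intro z hz
    refine (h.dev z (hsub z hz)).trans ?_
    have hE : 0 ≤ skwE d hh z := le_min (hr z hz.1).le (mul_nonneg (by positivity) (hh0 z (hsub z hz)))
    exact div_le_div_of_nonneg_right (mul_le_mul_of_nonneg_right hCC hE) hb0.le
  · intro ρ hρ
    refine (h.budget ρ hρ).trans ?_
    have hrr := hr ρ (by linarith [hρ.1])
    apply div_le_div_of_nonneg_right _ hrr.le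
    exact mul_le_mul_of_nonneg_right (mul_le_mul_of_nonneg_right hCC hL) (by positivity)
  · intro z hz hlt
    have hz' : z ∈ Icc (d.zlo / 2) d.zmax := ⟨by linarith [hz.1], hz.2.trans h1⟩
    have hrr := hr z hz'.1
    have hlt' : d.Z ^ 2 * hh z < d.b * skwR z / C :=
      hlt.trans_le (div_le_div_of_nonneg_left (by positivity) hC0 hCC)
    obtain ⟨⟨a, l, h3, h4, h5⟩, ⟨a', l', h6, h7, h8⟩, h9⟩ := h.win z ⟨hz.1, hz.2.trans h1⟩ hlt'
    have hw0 := hh0 z hz'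
    -- the width is at most `b / C`
    have hw : hh z ≤ d.b / C := by
      have e1 : hh z ≤ d.Z ^ 2 * hh z := by
        have : (1 : ℝ) ≤ d.Z ^ 2 := one_le_pow₀ H.Z1
        nlinarith
      have e2 : d.b * skwR z / C ≤ d.b / C :=
        div_le_div_of_nonneg_right (by nlinarith [skw_gk_R_le_one z]) hC0.le
      linarith
    have hCw : C * hh z ≤ d.b := by
      rw [le_div_iff₀ hC0] at hw
      linarith
    have hinv : 1 / C = 2 * (1 / (2 * C)) := by field_simp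
    have hb' : 2 * d.b ≤ 1 / (2 * C) := by
      rw [le_div_iff₀ hC'0]
      nlinarith
    have hwb : hh z ≤ d.b := by nlinarith
    refine ⟨⟨a, l, h3, h4, skw_gk_win_mono hC0 hCC hU hrr hw0 h5⟩,
      ⟨a', l', h6, ?_, skw_gk_win_mono hC0 hCC hU hrr hw0 h8⟩, ?_⟩
    · have e1 : a' - z ≤ C * hh z := (le_abs_self _).trans h8.near
      have e2 : l' ≤ hh z := h8.len_hi
      linarith
    · linarith
  · obtain ⟨n, t, ht0, htn, hlt, hj, hT⟩ := h.tiles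
    refine ⟨n, t, ht0, htn, hlt, hj, ?_⟩
    intro i hi
    obtain ⟨h3, h4, h5⟩ := hT i hi
    have hch := skw_llb_chain hlt
    have hlo : d.zlo ≤ t i := by rw [← ht0]; exact hch i hi.le 0 (Nat.zero_le _)
    have hhi : t (i + 1) ≤ d.zmax := by
      refine le_trans ?_ hzhi
      rw [← htn]; exact hch n le_rfl (i + 1) hi
    have hlen : 0 < t (i + 1) - t i := by linarith [hlt i hi]
    have hCb : C / d.b ≤ 2 * C / d.b := div_le_div_of_nonneg_right hCC hb0.le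
    refine ⟨?_, ?_, ?_⟩
    · intro z hz
      have hz' : z ∈ Icc (d.zlo / 2) d.zmax := ⟨by linarith [hz.1], hz.2.trans hhi⟩
      obtain ⟨h6, h7⟩ := h3 z hz
      exact ⟨(div_le_div_of_nonneg_left (hh0 z hz') hC0 hCC).trans h6,
        h7.trans (mul_le_mul_of_nonneg_right hCC (hh0 z hz'))⟩
    · intro z hz
      refine (h4 z hz).trans (mul_le_mul_of_nonneg_right hCb ?_)
      have hI : 0 ≤ ∫ s in (t i)..(t (i + 1)), d.G s :=
        intervalIntegral.integral_nonneg (by linarith) fun s hs => H.G0 s ⟨by linarith [hs.1], hs.2.trans hhi⟩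
      have := H.t0
      positivity
    · intro z hz z' hz' hzz ha hb'
      refine (h5 z (hsub z hz) z' (hsub z' hz') hzz ha hb').trans (mul_le_mul_of_nonneg_right hCb ?_)
      exact le_min (hr (t i) (by linarith)).le (by positivity)


/-- **CUT**: the same with `zhi = zbuf = zt` (the last cut of a grid): the last tile is truncated; it keeps half of its length (`hτ`) and the lost mass is absorbed by `tiny` (`hG`). -/
theorem skw_concl_cut {C : ℝ} {c : SkwC} {d : SkwD} {hh : ℝ → ℝ} {zj zt : ℝ} (H : SkwHyp c d) (hC : 1 ≤ C)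
    (h : SkwConcl C d d.zmax d.zmax zj hh) (hb : 4 * C * d.b ≤ 1) (h1 : zt ≤ d.zmax) (h2 : d.zmax - zt ≤ 1 / (2 * C))
    (hτ : 2 * C * (d.zmax - zt) ≤ hh d.zmax) (hG : 2 * C * (∫ z in zt..d.zmax, d.G z) ≤ d.tiny * hh d.zmax) :
    SkwConcl (2 * C) d zt zt zj hh := by
  have h' := skw_concl_shrink H hC le_rfl h hb h1 h2
  have hC0 : 0 < C := by linarith
  have hU : 0 < d.U := H.x0.trans_le H.xU
  have hb0 := H.b0
  have hzlo := H.zlo0
  have ht0' := H.t0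
  have hZ : 0 < d.Z := by linarith [H.Z1]
  have hr : ∀ z, d.zlo / 2 ≤ z → 0 < skwR z := fun z hz => skw_gk_R_pos (by linarith)
  have hmin : ∀ z, d.zlo / 2 ≤ z → 0 ≤ min (d.b * skwR z) (d.U ^ 2 / skwR z) := by
    intro z hz
    have := hr z hz
    exact le_min (by positivity) (by positivity)
  have hh0 : ∀ z ∈ Icc (d.zlo / 2) d.zmax, 0 ≤ hh z := by
    intro z hz
    exact le_trans (div_nonneg (hmin z hz.1) hC0.le) (h.lower z hz)
  have hhC : ∀ z ∈ Icc (d.zlo / 2) d.zmax, |hh z| ≤ C := by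
    intro z hz
    rw [abs_of_nonneg (hh0 z hz)]
    exact (h.upper z hz).trans (by nlinarith [skw_gk_R_le_one z])
  have hsub : ∀ z, z ∈ Icc (d.zlo / 2) zt → z ∈ Icc (d.zlo / 2) d.zmax := fun z hz => ⟨hz.1, hz.2.trans h1⟩
  have hGi : ∀ a b : ℝ, 0 ≤ a → a ≤ b → b ≤ d.zmax → IntervalIntegrable d.G volume a b := by
    intro a b ha hab hb'
    refine H.Gi.mono_set ?_
    rw [uIcc_of_le hab, uIcc_of_le (ha.trans (hab.trans hb'))]
    exact Icc_subset_Icc ha hb'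
  refine ⟨h'.qlip, h'.meas, h'.lower, h'.upper, h'.dev, ?_, h'.win, ?_⟩
  · intro ρ hρ
    have hρ' : ρ ∈ Icc d.zlo d.zmax := ⟨hρ.1, hρ.2.trans h1⟩
    refine le_trans ?_ (h'.budget ρ hρ')
    have hρ2 : ρ ≤ min (2 * ρ) d.zmax := le_min (by linarith [hρ.1]) hρ'.2
    refine intervalIntegral.integral_mono_interval le_rfl (le_min (by linarith [hρ.1]) hρ.2) (min_le_min le_rfl h1) ?_ ?_
    · refine ae_restrict_of_forall_mem measurableSet_Ioc fun z hz => ?_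
      exact mul_nonneg (H.G0 z ⟨by linarith [hz.1, hρ.1], hz.2.trans (min_le_right _ _)⟩) (sq_nonneg _)
    · exact skw_gd_int H hh C (a0 := d.zlo / 2) (b0 := d.zmax) (by linarith) le_rfl h.meas hhC (by linarith [hρ.1]) hρ2 (min_le_right _ _)
  · have tile : ∀ a e e' : ℝ, d.zlo ≤ a → a < e' → e' ≤ e → e ≤ d.zmax → e - a ≤ 2 * (e' - a) →
        (∫ s in e'..e, d.G s) ≤ d.tiny * (e - a) / 2 →
        ((∀ z ∈ Icc a e, hh z / C ≤ e - a ∧ e - a ≤ C * hh z) ∧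
         (∀ z ∈ Ioo a e, d.G z ≤ C / d.b * ((∫ s in a..e, d.G s) / (e - a) + d.tiny)) ∧
         (∀ z ∈ Icc (d.zlo / 2) d.zmax, ∀ z' ∈ Icc (d.zlo / 2) d.zmax, z ≤ z' → a - (e - a) ≤ z → z' ≤ e + (e - a) →
            d.S z' - d.S z ≤ C / d.b * min (skwR a) (d.Z ^ 2 * (e - a)))) →
        ((∀ z ∈ Icc a e', hh z / (2 * C) ≤ e' - a ∧ e' - a ≤ 2 * C * hh z) ∧
         (∀ z ∈ Ioo a e', d.G z ≤ 2 * C / d.b * ((∫ s in a..e', d.G s) / (e' - a) + d.tiny)) ∧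
         (∀ z ∈ Icc (d.zlo / 2) zt, ∀ z' ∈ Icc (d.zlo / 2) zt, z ≤ z' → a - (e' - a) ≤ z → z' ≤ e' + (e' - a) →
            d.S z' - d.S z ≤ 2 * C / d.b * min (skwR a) (d.Z ^ 2 * (e' - a)))) := by
      rintro a e e' ha hae' he'e he hlen hJ ⟨c1, c2, c3⟩
      have hl' : 0 < e' - a := by linarith
      have hl : 0 < e - a := by linarith
      refine ⟨?_, ?_, ?_⟩
      · intro z hz
        have hz' : z ∈ Icc a e := ⟨hz.1, hz.2.trans he'e⟩
        have hzm : z ∈ Icc (d.zlo / 2) d.zmax := ⟨by linarith [hz.1], hz'.2.trans he⟩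
        obtain ⟨p1, p2⟩ := c1 z hz'
        have p3 := hh0 z hzm
        constructor
        · have e1 : hh z / (2 * C) = hh z / C / 2 := by field_simp
          rw [e1]; linarith
        · nlinarith
      · intro z hz
        have hz' : z ∈ Ioo a e := ⟨hz.1, hz.2.trans_le he'e⟩
        refine (c2 z hz').trans ?_
        have hI' : 0 ≤ ∫ s in a..e', d.G s :=
          intervalIntegral.integral_nonneg hae'.le fun s hs => H.G0 s ⟨by linarith [hs.1], (hs.2.trans he'e).trans he⟩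
        have hsplit : ∫ s in a..e, d.G s = (∫ s in a..e', d.G s) + ∫ s in e'..e, d.G s :=
          (intervalIntegral.integral_add_adjacent_intervals (hGi a e' (by linarith) hae'.le (he'e.trans he))
            (hGi e' e (by linarith) he'e he)).symm
        have havg : (∫ s in a..e, d.G s) / (e - a) ≤ (∫ s in a..e', d.G s) / (e' - a) + d.tiny / 2 := by
          rw [hsplit, add_div]
          apply add_le_add
          · exact div_le_div_of_nonneg_left hI' hl' (by linarith)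
          · rw [div_le_iff₀ hl]; linarith
        have havg0 : 0 ≤ (∫ s in a..e', d.G s) / (e' - a) := div_nonneg hI' hl'.le
        have hCb : 0 ≤ C / d.b := by positivity
        calc C / d.b * ((∫ s in a..e, d.G s) / (e - a) + d.tiny)
            ≤ C / d.b * (2 * ((∫ s in a..e', d.G s) / (e' - a) + d.tiny)) :=
              mul_le_mul_of_nonneg_left (by linarith) hCb
          _ = 2 * C / d.b * ((∫ s in a..e', d.G s) / (e' - a) + d.tiny) := by ring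
      · intro z hz z' hz' hzz ha' hb'
        refine (c3 z (hsub z hz) z' (hsub z' hz') hzz (by linarith) (by linarith)).trans ?_
        have hr0 := (hr a (by linarith)).le
        have hm : min (skwR a) (d.Z ^ 2 * (e - a)) ≤ 2 * min (skwR a) (d.Z ^ 2 * (e' - a)) := by
          rw [mul_min_of_nonneg _ _ (by norm_num : (0 : ℝ) ≤ 2)]
          refine min_le_min (by linarith) ?_
          have : 0 ≤ d.Z ^ 2 := sq_nonneg _
          nlinarith
        have hCb : 0 ≤ C / d.b := by positivity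
        calc C / d.b * min (skwR a) (d.Z ^ 2 * (e - a)) ≤ C / d.b * (2 * min (skwR a) (d.Z ^ 2 * (e' - a))) :=
              mul_le_mul_of_nonneg_left hm hCb
          _ = 2 * C / d.b * min (skwR a) (d.Z ^ 2 * (e' - a)) := by ring
    obtain ⟨n, t, ht0, htn, hlt, hj, hT⟩ := h.tiles
    have hch := skw_llb_chain hlt
    have hn : 0 < n := by
      rcases Nat.eq_zero_or_pos n with h0 | h0
      · subst h0
        exfalso
        have e1 := H.zlo1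
        have e2 := H.zmax
        linarith
      · exact h0
    obtain ⟨n', rfl⟩ : ∃ n', n = n' + 1 := ⟨n - 1, by omega⟩
    have hlo : ∀ i, i ≤ n' + 1 → d.zlo ≤ t i := fun i hi => by rw [← ht0]; exact hch i hi 0 (Nat.zero_le _)
    have hhi : ∀ i, i ≤ n' + 1 → t i ≤ d.zmax := fun i hi => by rw [← htn]; exact hch (n' + 1) le_rfl i hi
    -- the last tile
    have hlast := ((hT n' (Nat.lt_succ_self _)).1 d.zmax ⟨by rw [← htn]; exact (hlt n' (Nat.lt_succ_self _)).le, htn.ge⟩).1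
    rw [htn, div_le_iff₀ hC0] at hlast
    have hτ0 : 0 ≤ d.zmax - zt := by linarith
    have hlen0 : 0 < d.zmax - t n' := by
      have := hlt n' (Nat.lt_succ_self _)
      rw [htn] at this
      linarith
    have hτ' : 2 * (d.zmax - zt) ≤ d.zmax - t n' := by nlinarith
    have hJ' : (∫ z in zt..d.zmax, d.G z) ≤ d.tiny * (d.zmax - t n') / 2 := by
      have e1 : d.tiny * hh d.zmax ≤ d.tiny * ((d.zmax - t n') * C) := mul_le_mul_of_nonneg_left hlast ht0'.le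
      nlinarith
    have hnt : t n' < zt := by linarith
    have hti : ∀ i, i ≤ n' → min (t i) zt = t i := fun i hi => min_eq_left ((hch n' (Nat.le_succ _) i hi).trans hnt.le)
    have htop : min (t (n' + 1)) zt = zt := by rw [htn]; exact min_eq_right h1
    refine ⟨n' + 1, fun i => min (t i) zt, ?_, htop, ?_, ?_, ?_⟩
    · show min (t 0) zt = d.zlo
      rw [hti 0 (Nat.zero_le _), ht0]
    · intro i hi
      show min (t i) zt < min (t (i + 1)) zt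
      rw [hti i (by omega)]
      rcases Nat.lt_or_ge i n' with h3 | h3
      · rw [hti (i + 1) (by omega)]; exact hlt i hi
      · have : i = n' := by omega
        subst this
        rw [htop]; exact hnt
    · intro hzj
      obtain ⟨k, hk, hkj⟩ := hj ⟨hzj.1, hzj.2.trans h1⟩
      refine ⟨k, hk, ?_⟩
      show min (t k) zt = zj
      rw [hkj]
      exact min_eq_left hzj.2
    · intro i hi
      show (∀ z ∈ Icc (min (t i) zt) (min (t (i + 1)) zt), hh z / (2 * C) ≤ min (t (i + 1)) zt - min (t i) zt ∧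
          min (t (i + 1)) zt - min (t i) zt ≤ 2 * C * hh z) ∧
        (∀ z ∈ Ioo (min (t i) zt) (min (t (i + 1)) zt), d.G z ≤ 2 * C / d.b *
          ((∫ s in (min (t i) zt)..(min (t (i + 1)) zt), d.G s) / (min (t (i + 1)) zt - min (t i) zt) + d.tiny)) ∧
        (∀ z ∈ Icc (d.zlo / 2) zt, ∀ z' ∈ Icc (d.zlo / 2) zt, z ≤ z' →
          min (t i) zt - (min (t (i + 1)) zt - min (t i) zt) ≤ z → z' ≤ min (t (i + 1)) zt + (min (t (i + 1)) zt - min (t i) zt) →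
          d.S z' - d.S z ≤ 2 * C / d.b * min (skwR (min (t i) zt)) (d.Z ^ 2 * (min (t (i + 1)) zt - min (t i) zt)))
      rw [hti i (by omega)]
      rcases Nat.lt_or_ge i n' with h3 | h3
      · rw [hti (i + 1) (by omega)]
        have hl := hlt i hi
        refine tile (t i) (t (i + 1)) (t (i + 1)) (hlo i hi.le) hl le_rfl (hhi (i + 1) hi) (by linarith) ?_ (hT i hi)
        rw [intervalIntegral.integral_same]
        have : 0 < t (i + 1) - t i := by linarith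
        positivity
      · have : i = n' := by omega
        subst this
        rw [htop]
        have hTi := hT i hi
        rw [htn] at hTi
        exact tile (t i) d.zmax zt (hlo i hi.le) hnt h1 le_rfl (by linarith) hJ' hTi


noncomputable section

/-! ## 1. Shape -/

/-- "at all sufficiently large and fine instances of the direct sweep with `Y ≤ x^κ`" -/
def L8pEvt (𝔹 : LlBase) (F : LlFix) (κ : ℝ) (Φ : L8In → Prop) : Prop :=
  ∃ (N0 : ℕ) (Kf : ℝ), ∀ I : L8In, L8pAt 𝔹 F N0 Kf κ I → Φ I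

theorem L8pEvt.and {𝔹 : LlBase} {F : LlFix} {κ : ℝ} {Φ Ψ : L8In → Prop} (h : L8pEvt 𝔹 F κ Φ) (h' : L8pEvt 𝔹 F κ Ψ) :
    L8pEvt 𝔹 F κ fun I => Φ I ∧ Ψ I := by
  obtain ⟨N1, K1, H1⟩ := h
  obtain ⟨N2, K2, H2⟩ := h'
  exact ⟨max N1 N2, max K1 K2, fun I hI => ⟨H1 I (hI.mono (le_max_left _ _) (le_max_left _ _)), H2 I (hI.mono (le_max_right _ _) (le_max_right _ _))⟩⟩

theorem L8pEvt.mono {𝔹 : LlBase} {F : LlFix} {κ : ℝ} {Φ Ψ : L8In → Prop} (h : L8pEvt 𝔹 F κ Φ)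
    (hi : ∀ I : L8In, L8pAt 𝔹 F 0 0 κ I → Φ I → Ψ I) : L8pEvt 𝔹 F κ Ψ := by
  obtain ⟨N1, K1, H1⟩ := h
  exact ⟨N1, max K1 0, fun I hI => hi I (hI.mono (Nat.zero_le _) (le_max_right _ _)) (H1 I (hI.mono le_rfl (le_max_left _ _)))⟩

theorem l8p_evt_fine (𝔹 : LlBase) (F : LlFix) (κ : ℝ) : L8pEvt 𝔹 F κ fun I => I.Fine (I.x ^ 40) :=
  ⟨0, 40, fun I h => by
    have := h.fine
    rwa [show (40 : ℝ) = ((40 : ℕ) : ℝ) by norm_num, Real.rpow_natCast] at this⟩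

/-! ## 2. Records -/

/-- geometry of the coordinate `z` at the point (independent of `S`, `Z`, `zlo`) -/
structure L8pGeo (I : L8In) (π : L8pPar) (cv c3 cG zr Lq : ℝ) : Prop where
  vc : SkwInVConcl cv (l8pProf I π) (l8pIn I π)
  zs : π.c.zs = I.𝔹.xiS I.F.T
  zsm : π.c.zs ≤ (l8pD I π).zmax
  /-- LL-XI -/
  K : ∀ z ∈ Icc 0 (l8pD I π).zmax, I.p.K I.F I.𝔹 (l8pV I π z) = (I.p.ell ^ 2)⁻¹ * min z π.c.zs
  q : ∀ z ∈ Icc 0 (l8pD I π).zmax, I.p.q I.F I.𝔹 (l8pV I π z) = (l8pD I π).q z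
  qlip : ∀ z ∈ Icc 0 (l8pD I π).zmax, ∀ z' ∈ Icc 0 (l8pD I π).zmax, |(l8pD I π).q z - (l8pD I π).q z'| ≤ Lq * |z - z'|
  qr : ∀ z ∈ Icc 0 (l8pD I π).zmax, (l8pD I π).q z ≤ Lq * skwR z
  /-- (D3) in `z`, both parts and across the join -/
  d3 : ∀ z₁ ∈ Icc 0 (l8pD I π).zmax, ∀ z₂ ∈ Icc 0 (l8pD I π).zmax, z₁ ≤ z₂ → I.x ≤ l8pV I π z₁ →
    c3 * I.lam1 * skwR z₁ ^ 2 * (z₂ - z₁) ≤ I.p.h I.F I.𝔹 (l8pV I π z₂) - I.p.h I.F I.𝔹 (l8pV I π z₁)
  Greg : ∀ z ∈ Icc 0 zr, cG ≤ (l8pD I π).G z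
  Gm : Measurable (l8pD I π).G
  Gb : ∃ MG : ℝ, ∀ z ∈ Icc 0 (l8pD I π).zmax, (l8pD I π).G z ≤ MG

/-- the cumulative clocks of the chain are the path clocks at the left ends of the cells -/
structure L8pClk (I : L8In) : Prop where
  K : ∀ k ≤ I.n, I.KC k = I.p.K I.F I.𝔹 (l8pVl I k)
  h : ∀ k ≤ I.n, I.x < l8pVl I k → I.hC k = I.p.h I.F I.𝔹 (l8pVl I k)

/-- the grid of the cuts in the coordinate `z` -/
structure L8pGrid (I : L8In) (π : L8pPar) (S : SkpS) : Prop where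
  vz : ∀ k, l8pZc I π k ∈ Icc 0 (l8pD I π).zmax ∧ l8pV I π (l8pZc I π k) = l8pVl I k
  z0 : l8pZc I π 0 = 0
  zmono : Monotone (l8pZc I π)
  ztop : l8pZc I π (I.n + 1) = (l8pD I π).zmax
  Slink : ∀ k ≤ I.n, ∀ z ∈ Icc 0 (l8pZc I π I.n), l8pZc I π k ≤ z → z < l8pZc I π (k + 1) → (l8pD I π).S z = (I.sp false).S k
  gaplink : ∀ k < I.n, (I.sp false).dv k = ∫ z in (l8pZc I π k)..(l8pZc I π (k + 1)), (l8pD I π).G z
  vlo : ∀ k ≤ I.n, (l8pD I π).zlo / 4 ≤ l8pZc I π k → skwR (l8pZc I π k) / S.Cv ≤ (I.sp false).v k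
  vhi : ∀ k < I.n, (I.sp false).v k ≤ S.Cv * skwR (l8pZc I π (k + 1))

/-- the mesh of the grid -/
structure L8pMesh (I : L8In) (π : L8pPar) : Prop where
  /-- `k = n`: the last cell `[zc n, zmax]` -/
  zmesh : ∀ k ≤ I.n, l8pZc I π (k + 1) - l8pZc I π k ≤ I.x ^ 50
  zsn : π.c.zs ≤ l8pZc I π I.n

/-- the two hypotheses of `skw_concl_cut` -/
structure L8pCutH (I : L8In) (π : L8pPar) (CW : ℝ) : Prop where
  cutl : 2 * CW * ((l8pD I π).zmax - l8pZc I π I.n) ≤ l8pH I π (l8pD I π).zmax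
  cutm : 2 * CW * (∫ z in (l8pZc I π I.n)..(l8pD I π).zmax, (l8pD I π).G z) ≤ (l8pD I π).tiny * l8pH I π (l8pD I π).zmax

/-- structural fields -/
structure L8pStr (I : L8In) (Kc : SkpC) : Prop where
  sp : (I.sp false).Ok
  m0 : 0 < I.m
  a1 : 1 ≤ (I.sp false).a
  a4 : (I.sp false).a ≤ 4
  pin : ∀ r, 1 ≤ r → (I.sp false).Pin r (Kc.cA1 r)
  proj : ∀ r, 1 ≤ r → (I.sp false).Proj r ((Kc.cA3 r * 1 ^ 2) ^ (2 * r)) (I.x ^ 80) (I.x ^ 80)
  nbn : I.n ≤ (I.sp false).n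
  msz : 1 / (I.m : ℝ) ≤ 2 * I.x ^ 6

/-- powers of `x` -/
structure L8pNum (I : L8In) (π : L8pPar) (CW zr cg : ℝ) : Prop where
  x0 : 0 < I.x
  g0a : I.x ^ 3 / Real.sqrt I.lam1 ≤ I.g0 * I.U ^ 3
  g0b : I.g0 ≤ I.x ^ cg
  g0c : 0 < I.g0
  lam1a : I.x ^ 14 ≤ I.lam1
  lam1b : I.lam1 ≤ 1
  Lg : (1 : ℝ) ≤ 7 * Real.log (1 / I.x)
  xU : I.x ≤ I.U
  Yz : I.U * I.Z ≤ π.c1 * I.Y
  zlox : I.x ≤ π.c1 * I.Y
  zloreg : 16 * (π.c1 * I.Y) ≤ zr
  bs : 4 * CW * I.x ^ π.eps ≤ 1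
  ts : I.x ^ 40 ≤ 1 / (2 * CW)

/-! ## 3. The leaves -/

/-- **W-AT**.   ROUTE: `LlExpOk` from `pB` (`s_* = 1/2 - τ`, `η ≤ τ/100`), `L8Fix ⟹ LlSec3` (`ok`, `ref`, `p4`, `adm`);  `skw_l03_direct` (W/InstL03) at `(eps, K, C1v, Klo = 1)`;  `vc` BEFORE `Dev`: `skwInV`, `skwInG`, `pf` do not read
`Sv, Z, zlo`, so apply the theorem once with the dummy `Sv := p.q` (Dev trivial) or use `skw_leaf_inG` + `skw_leaf_inV` directly;  `K`, `q`: `skw_leaf_llXi`;  `d3`: the two halves of `skw_ll_d3` (`χ_e = 1`, `λ_1 ≤ λ`, `r ≤ 1`; across the join split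
at `ξ_*`), `c3 = min c0 (1/2)`;  `Greg`: `skw_leaf_inG` (`cA / 2 ≤ G` on `[0, 2 z0]`), `zr = min 1 (2 z0)`;  `qlip`, `qr`: `SkwL03.Gam`;  `U ≤ Y ≤ x^κ ≤ 1/C`. -/
def L8pWAt (𝔹 : LlBase) (T : ℝ) : Prop :=
  ∀ F0, L8Fix 𝔹 T F0 → ∀ (pB : LLParB) (pS : ℝ), 0 < pS → pS ≤ 1 → ∀ (eps : ℝ) (K : ℕ) (C1v : ℝ), 0 < eps → eps ≤ 1 → 100 ≤ K → 1 ≤ C1v →
    ∃ (At : ℝ → ℝ) (cA A : ℝ) (c : SkwC) (CW cv c3 cG zr Lq : ℝ),
      1 ≤ A ∧ c.Ok ∧ 1 ≤ CW ∧ 0 < cv ∧ cv ≤ 1 ∧ 0 < c3 ∧ 0 < cG ∧ 0 < zr ∧ zr ≤ 1 ∧ zr ≤ c.zs ∧ 1 ≤ Lq ∧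
      ∀ c1 κ : ℝ, 1 ≤ c1 → 0 < κ → L8pEvt 𝔹 (F0.wExp pB.sStar pB.eta pS) κ fun I =>
        L8pGeo I ⟨At, cA, eps, K, A, c1, c⟩ cv c3 cG zr Lq ∧
        (SkwLlDev I.𝔹 I.F (l8pProf I ⟨At, cA, eps, K, A, c1, c⟩) I.p (l8pIn I ⟨At, cA, eps, K, A, c1, c⟩) C1v 1 →
          SkwHyp c (l8pD I ⟨At, cA, eps, K, A, c1, c⟩) ∧ SkwPlat c (l8pD I ⟨At, cA, eps, K, A, c1, c⟩) ∧
          SkwConcl CW (l8pD I ⟨At, cA, eps, K, A, c1, c⟩) (l8pD I ⟨At, cA, eps, K, A, c1, c⟩).zmax (l8pD I ⟨At, cA, eps, K, A, c1, c⟩).zmax c.zs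
            (l8pH I ⟨At, cA, eps, K, A, c1, c⟩))

/-- **CLK**.   ROUTE: `I.LP = l9Stp a b h K 0 0 0 ps`: telescoping (`l9d_chain_cum`, `l9d_stp_cumK`, L09/ChDPsi) gives `KC k = ghAt a K ps[k-1]`, `hC k = ghAt a h ps[k-1]`; `ghAt a c p = c p.u` where `c` is continuous (`K` on `[0,a]`, `h` on `(x,a]`).
= fields `K_eq`, `h_eq` of `L8In.Fine` v2 (118): then this leaf is two lines. -/
def L8pLeafClk (𝔹 : LlBase) (T : ℝ) : Prop :=
  ∀ F0, L8Fix 𝔹 T F0 → ∀ (pB : LLParB) (pS : ℝ), 0 < pS → pS ≤ 1 → ∀ κ : ℝ, 0 < κ →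
    L8pEvt 𝔹 (F0.wExp pB.sStar pB.eta pS) κ fun I => L8pClk I

/-- **DEV**.   ROUTE: `Z1`: `I.bud ≥ 0` (`A_k = D² + f² ≥ 0`, `dv ≥ 0`).  `Smono`, `S0`, `S1`: `l8pIdx` is monotone in `v`, `S k` is monotone in `k` (`l8s_*` / `ivk_*`: `S` monotone), `0 ≤ S ≤ 1`.  `zlo*`: `c1 Y ≤ c1 x^κ`.
`D1v`: for `r ≥ v(zlo/4) ≥ cv c1 Y / 4 ≥ 2 Y ≥ U`: on the cell `[v_(k-1), v_k)`: `Sv = S k`, `|p.q v - I.q k| ≤ Lq ℓ² dK + η` (`Geo.q`, `Geo.qlip` or monotonicity of `p.q`, `Fine.q_link`), so `(Sv - q)² ≤ 2 f_k² + tiny`;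
`f_k² ≤ A_k`; by the definition of `I.Z`: `u ∫_{u/4}^{4u} A ≤ I.bud ≤ Y⁴` for the dyadic `u = 4·2^-j ≥ U`; sum the geometric series over `u ≥ r/2` (`skw_leaf_inTail` may help). `C1v` absolute. -/
def L8pLeafDev (𝔹 : LlBase) (T : ℝ) : Prop :=
  ∃ C1v : ℝ, 1 ≤ C1v ∧ ∀ F0, L8Fix 𝔹 T F0 → ∀ (pB : LLParB) (pS : ℝ), 0 < pS → pS ≤ 1 →
    ∀ (π : L8pPar) (cv c3 cG zr Lq κ : ℝ), 0 < cv → cv ≤ 1 → 8 ≤ cv * π.c1 → 1 ≤ Lq → 0 < κ →
      L8pEvt 𝔹 (F0.wExp pB.sStar pB.eta pS) κ fun I => L8pGeo I π cv c3 cG zr Lq → L8pClk I →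
        SkwLlDev I.𝔹 I.F (l8pProf I π) I.p (l8pIn I π) C1v 1 ∧ 1 ≤ I.Z ∧ ∀ k ≤ I.n, I.S k = (I.sp false).S k

/-- **GRID** (no threshold).   ROUTE: `V = l8pV I π` is continuous, strictly increasing from `[0,zmax]` onto `[0,ℓ]` (`SkwInVConcl.cont/mono/v0/vmax`), `ℓ = I.a`; `l8pVl I k ∈ [0,ℓ]` is monotone in `k` (`SkAdm`: sorted masses; `= a` for `k > n`);
so the `sInf` is the unique solution (IVT), whatever `V` does beyond `zmax`.   `Slink`: `z ∈ [zc k, zc (k+1))` ⟹ `V z ∈ [v_(k-1), v_k)` ⟹ `l8pIdx I (V z) = k`.   `gaplink`: `SkwInVConcl.mass`, `l8i_dv`.   `vlo`, `vhi`: `lower`, `upper`. -/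
def L8pLeafGrid : Prop :=
  ∀ (I : L8In) (π : L8pPar) (S : SkpS) (cv : ℝ), 0 < cv → 1 / cv ≤ S.Cv → I.Ok → I.p.sm = false → LlStpAdm I.a I.LP → 0 ≤ (l8pD I π).zmax →
    SkwInVConcl cv (l8pProf I π) (l8pIn I π) → (∀ k ≤ I.n, I.S k = (I.sp false).S k) → L8pGrid I π S

/-- **MESH**.   ROUTE: `min (zc k) ξ_* = ℓ² K(v_(k-1)) = ℓ² KC k` (`Geo.K`, `Grid.vz`, `Clk.K`), so the active part of a cell has length `ℓ² dK ≤ 2 x^Kf` (`Fine.dK_le`; last cell: `Fine.K_top`);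
plateau part: `G ≥ U⁴ / Cp⁴` (`SkwPlat.Gh_lo`, `hup`), `∫ G = Δv ≤ x^Kf` (`SkwInVConcl.mass`, `Fine.dv_le`), `U ≥ x`.   `zsn`: `zs + 2/Cp ≤ zmax`. -/
def L8pLeafMesh (𝔹 : LlBase) (F : LlFix) : Prop :=
  ∀ (π : L8pPar) (S : SkpS) (cv c3 cG zr Lq κ : ℝ), π.c.Ok → 0 < cv → 0 < κ →
    L8pEvt 𝔹 F κ fun I => L8pGeo I π cv c3 cG zr Lq → L8pClk I → L8pGrid I π S → SkwHyp π.c (l8pD I π) → SkwPlat π.c (l8pD I π) → L8pMesh I π

/-- **CUT**: `𝔥(zmax) = hpl(zmax) ≥ 1/Cp` (`SkwPlat.strip`, `len_lo`); `zmax - zc n ≤ x^50`; `∫ G = dv n ≤ x^Kf`, `tiny = x^K`, `Kf = K + 1` -/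
def L8pLeafCut (𝔹 : LlBase) (F : LlFix) : Prop :=
  ∀ (π : L8pPar) (S : SkpS) (CW cv c3 cG zr Lq κ : ℝ), π.c.Ok → 1 ≤ CW → 0 < κ →
    L8pEvt 𝔹 F κ fun I => L8pGeo I π cv c3 cG zr Lq → L8pGrid I π S → L8pMesh I π → SkwPlat π.c (l8pD I π) → L8pCutH I π CW

/-- **D3C**.   ROUTE: `hlen k₁ k₂ = hC k₂ - hC k₁` (sum of `getD`), `= h(v_(k₂-1)) - h(v_(k₁-1))` by `Clk.h`, then `Geo.d3` at `zc k₁ ≤ zc k₂`.   Second part: `v_(k-1) = V(zc k) ≥ cv min(zlo/4, 1) ≥ 2 Y ≥ 2 x > x`. -/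
def L8pLeafD3 (𝔹 : LlBase) (F : LlFix) : Prop :=
  ∀ (π : L8pPar) (S : SkpS) (cv c3 cG zr Lq κ : ℝ), 0 < cv → cv ≤ 1 → 8 ≤ cv * π.c1 → 0 < c3 → 0 < κ →
    L8pEvt 𝔹 F κ fun I => L8pGeo I π cv c3 cG zr Lq → L8pClk I → L8pGrid I π S → 1 ≤ I.Z → I.x ≤ I.U →
      (∀ k₁ k₂, k₁ < k₂ → k₂ ≤ I.n → I.x < l8pVl I k₁ →
        c3 * I.lam1 * skwR (l8pZc I π k₁) ^ 2 * (l8pZc I π k₂ - l8pZc I π k₁) ≤ (I.sp false).hlen k₁ k₂) ∧
      ∀ k ≤ I.n, (l8pD I π).zlo / 4 ≤ l8pZc I π k → I.x < l8pVl I k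

/-- **QL**.   ROUTE: `d.q (zc (k+1)) = p.q (v k)` (`Geo.q`, `Grid.vz`; `l8pVl I (k+1) = I.v k`), `Fine.q_link`, `Geo.qlip` and the mesh `x^50`: `|I.q k - d.q (zc k)| ≤ x^Kf + Lq x^50 ≤ x^40`. -/
def L8pLeafQ (𝔹 : LlBase) (F : LlFix) : Prop :=
  ∀ (π : L8pPar) (S : SkpS) (cv c3 cG zr Lq κ : ℝ), 1 ≤ Lq → 0 < κ →
    L8pEvt 𝔹 F κ fun I => L8pGeo I π cv c3 cG zr Lq → L8pGrid I π S → L8pMesh I π →
      ∀ k ≤ I.n, |I.q k - (l8pD I π).q (l8pZc I π k)| ≤ I.x ^ 40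

/-- **IVX**: the extra facts of unit IV (`L8D7X`, L08/IvD7I.lean of 298): `Sus (1/4)` by `l8i_sus_h` (`a² m dh ≤ 3` from `Fine.dh_le`), `dh n = 0`, `S n = d.S (zc n)`, `zc n ≤ zmax ≤ Cp`, `x^10 ≤ x^eps` -/
def L8pLeafIvx (𝔹 : LlBase) (F : LlFix) : Prop :=
  ∀ (π : L8pPar) (S : SkpS) (cv c3 cG zr Lq κ : ℝ), π.Ok S cv → 0 < κ →
    L8pEvt 𝔹 F κ fun I => L8pGeo I π cv c3 cG zr Lq → L8pGrid I π S → SkwPlat π.c (l8pD I π) → (∀ k ≤ I.n, I.S k = (I.sp false).S k) →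
      L8D7X S (l8pI I π) (1 / 4) π.c.Cp

/-- **STR** (any point: direct or size).   ROUTE: `l8i_ok`, `l8i_pin` (`cA1 r = (1 + (2r)²/3)^r`), `l8i_proj` (`cA3 r = max 1 (c_r ^ (1/(2r)))`; `Proj` is monotone in its constant), `a = ℓ ∈ [1, 2^(1/6)]` or `4`, `N ≤ 2 m`, `x⁶ = 1/N`. -/
def L8pLeafStr : Prop :=
  ∃ Kc : SkpC, (∀ r, 1 ≤ Kc.cA1 r) ∧ (∀ r, 1 ≤ Kc.cA3 r) ∧ ∀ I : L8In, I.Ok → LlStpAdm I.a I.LP → L8pStr I Kc

/-- **NUM**.   ROUTE: `U < 1` (`U ≤ Y ≤ x^κ`), so `U = x λ^(-s/2)` and `g0 U³ = x³ λ^(-(1+η)/2)` (equality);  `λ ≤ x^pS`, `x^12 ≤ λ`, `12 (1 + η) ≤ 14`;  the rest: `x^a ≤ δ` for `N ≥ N0` (`skw_llb_small`). -/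
def L8pLeafNum (𝔹 : LlBase) : Prop :=
  ∀ (F0 : LlFix) (pB : LLParB) (pS : ℝ), 0 < pS → pS ≤ 1 → ∀ (π : L8pPar) (CW zr κ : ℝ), 0 < π.eps → 1 ≤ π.c1 → 1 ≤ CW → 0 < zr → 0 < κ →
    L8pEvt 𝔹 (F0.wExp pB.sStar pB.eta pS) κ fun I => 1 ≤ I.Z → L8pNum I π CW zr (pS * (3 * pB.sStar - 1 - pB.eta) / 2)

end

/-! ## 4. Glue (proved) -/

theorem l8p_cg_pos (pB : LLParB) {pS : ℝ} (h0 : 0 < pS) : 0 < pS * (3 * pB.sStar - 1 - pB.eta) / 2 := by
  have h1 := pB.tau_le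
  have h2 := pB.eta_le
  have h3 := pB.tau_pos
  have : 0 < 3 * pB.sStar - 1 - pB.eta := by
    unfold LLParB.sStar
    linarith
  positivity

/-- **GLUE of INST** -/
theorem l8p_inst_dir_of {𝔹 : LlBase} {T : ℝ} (hW : L8pWAt 𝔹 T) (hclk : L8pLeafClk 𝔹 T) (hdev : L8pLeafDev 𝔹 T) (hgrid : L8pLeafGrid)
    (hmesh : ∀ F, L8pLeafMesh 𝔹 F) (hd3 : ∀ F, L8pLeafD3 𝔹 F) (hq : ∀ F, L8pLeafQ 𝔹 F) (hcut : ∀ F, L8pLeafCut 𝔹 F) (hivx : ∀ F, L8pLeafIvx 𝔹 F) (hstr : L8pLeafStr)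
    (hnum : L8pLeafNum 𝔹) :
    L8pInstDir 𝔹 T := by
  intro F0 hF pB pS h0 h1 eps K he he1 hK
  obtain ⟨C1v, hC1v, hdev⟩ := hdev
  obtain ⟨Kc, hK1, hK3, hstr⟩ := hstr
  obtain ⟨At, cA, A, c, CW, cv, c3, cG, zr, Lq, hA, hc, hCW, hcv, hcv1, hc3, hcG, hzr, hzr1, hzrs, hLq, hW⟩ :=
    hW F0 hF pB pS h0 h1 eps K C1v he he1 hK hC1v
  have hc1 : (1 : ℝ) ≤ 8 / cv := by
    rw [le_div_iff₀ hcv]; linarith
  have hc8 : 8 ≤ cv * (8 / cv) := by
    rw [mul_div_cancel₀ _ hcv.ne']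
  have hcvi : (1 : ℝ) ≤ 1 / cv := by
    rw [le_div_iff₀ hcv]; linarith
  set π : L8pPar := ⟨At, cA, eps, K, A, 8 / cv, c⟩ with hπ
  set S : SkpS := ⟨c, Kc, 2 * CW, 1 / cv, c3, 2, pS * (3 * pB.sStar - 1 - pB.eta) / 2, zr, cG, Lq, 8 / cv⟩ with hS
  have hSok : S.Ok :=
    { c := hc
      CW := by show (1 : ℝ) ≤ 2 * CW; linarith
      Cv := hcvi
      cD3 := hc3
      Cm := by show (1 : ℝ) ≤ 2; norm_num
      cg := l8p_cg_pos pB h0
      zreg := hzr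
      zreg1 := hzr1
      cG := hcG
      Cq := hLq
      Cz := hc1
      cA1 := hK1
      cA3 := hK3 }
  have hπok : π.Ok S cv :=
    { eps0 := he
      eps1 := he1
      K := hK
      A1 := hA
      cv0 := hcv
      cv1 := hcv1
      c1 := hc8
      Sok := hSok
      Sc := rfl
      Cv := le_rfl
      Cz := rfl }
  refine ⟨π, S, cv, hπok, rfl, rfl, ?_⟩
  intro κ hκ
  set F := F0.wExp pB.sStar pB.eta pS with hFdef
  have E := ((((hW (8 / cv) κ hc1 hκ).and (hclk F0 hF pB pS h0 h1 κ hκ)).and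
      ((hdev F0 hF pB pS h0 h1 π cv c3 cG zr Lq κ hcv hcv1 hc8 hLq hκ).and (hmesh F π S cv c3 cG zr Lq κ hc hcv hκ))).and
      (((hd3 F π S cv c3 cG zr Lq κ hcv hcv1 hc8 hc3 hκ).and (hq F π S cv c3 cG zr Lq κ hLq hκ)).and
      (((hnum F0 pB pS h0 h1 π CW zr κ he hc1 hCW hzr hκ).and (hivx F π S cv c3 cG zr Lq κ hπok hκ)).and
      ((hcut F π S CW cv c3 cG zr Lq κ hc hCW hκ).and (l8p_evt_fine 𝔹 F κ)))))
  refine E.mono ?_
  rintro I hat ⟨⟨⟨⟨geo, wimp⟩, clk⟩, dev, mesh⟩, ⟨d3, ql⟩, ⟨num, ivx⟩, cut, fine⟩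
  obtain ⟨dev, hZ1, hSl⟩ := dev geo clk
  obtain ⟨hyp, plat, concl⟩ := wimp dev
  have num := num hZ1
  have grid := hgrid I π S cv hcv le_rfl hat.ok hat.dir.1 fine.adm (hc.zs.le.trans geo.zsm) geo.vc hSl
  have mesh := mesh geo clk grid hyp plat
  have cut := cut geo grid mesh plat
  have str := hstr I hat.ok fine.adm
  have hx1 : I.x ≤ 1 := I.x_le_one hat.ok
  have h5040 : I.x ^ 50 ≤ I.x ^ 40 := pow_le_pow_of_le_one num.x0.le hx1 (by norm_num)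
  have htop : (l8pD I π).zmax - l8pZc I π I.n ≤ I.x ^ 40 := by
    have := mesh.zmesh I.n le_rfl
    rw [grid.ztop] at this
    exact this.trans h5040
  have hzn := (grid.vz I.n).1
  exact
    { pm :=
        { sp := str.sp
          m0 := str.m0
          a1 := str.a1
          a4 := str.a4
          pin := str.pin
          proj := str.proj
          wh := hyp
          wc := skw_concl_cut hyp hCW concl num.bs hzn.2 (htop.trans num.ts) cut.cutl cut.cutm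
          zbuf := hzn.2
          zreg := hzrs.trans mesh.zsn
          δ0 := pow_pos num.x0 40
          z0 := grid.z0
          zmono := grid.zmono
          zmesh := fun k hk => (mesh.zmesh k (le_of_lt hk)).trans h5040
          nb := rfl
          nbn := str.nbn
          Slink := grid.Slink
          gaplink := grid.gaplink
          vlo := grid.vlo
          vhi := grid.vhi
          D3 := fun k₁ k₂ h12 h2n hz => (d3 geo clk grid hZ1 num.xU).1 k₁ k₂ h12 h2n ((d3 geo clk grid hZ1 num.xU).2 k₁ (h12.le.trans h2n) hz)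
          msz := str.msz
          g0a := num.g0a
          g0b := num.g0b
          g0c := num.g0c
          lam1a := num.lam1a
          lam1b := num.lam1b
          Lg0 := zero_le_one
          Lg := num.Lg
          mesh := le_rfl
          lowb0 := pow_pos num.x0 80
          lowb := le_rfl
          Yz := num.Yz
          zloY := le_rfl
          zlox := num.zlox
          zloreg := num.zloreg
          qr := fun z hz => geo.qr z ⟨hz.1, hz.2.trans hzn.2⟩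
          Greg := geo.Greg
          zregs := hzrs }
      plat := plat
      wfull := skw_llb_concl_mono hyp hCW (by linarith) concl
      vc := geo.vc
      vz := grid.vz
      top := htop
      qlink := ql geo grid mesh
      Slink := hSl
      fine := fine
      Z1 := hZ1
      xU := num.xU
      zs := geo.zs
      Kz := geo.K
      D3x := (d3 geo clk grid hZ1 num.xU).1
      ivx := ivx geo grid plat hSl }

/-! ## 5. The ten leaves -/

/-! ### W-AT (helper246; prefix `l8pw_`) -/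

/-- (F1) the representative of order `r ≥ 1` with the density threshold `zb` GIVEN (`LlcSmall.z0d`): `cA`, `zb` do not depend on `r` -/
theorem l8pw_rep (𝔹 : LlBase) (T : ℝ) (hb : LlBaseProfile 𝔹 T) {zb cA : ℝ} (hzb : 0 < zb) (hzs : 4 * zb ≤ 𝔹.xiS T) (hcA : 0 < cA)
    (hd : ∀ ξ ξ' : ℝ, 0 ≤ ξ → ξ ≤ ξ' → ξ' ≤ 2 * zb → cA * (ξ' - ξ) ≤ 𝔹.A0 T ξ' - 𝔹.A0 T ξ) (r : ℕ) (hr : 1 ≤ r) :
    ∃ At : ℝ → ℝ, SkwL03Rep 𝔹 T r zb cA At := by
  obtain ⟨zb', cA', At, R⟩ := skw_l03_rep 𝔹 T hb r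
  refine ⟨At, ⟨hzb, by linarith, hcA, R.sm, R.act, R.At0, R.Atz, R.dAt, ?_, R.smono⟩⟩
  intro ξ hξ
  have hdiff : DifferentiableAt ℝ At ξ := (R.sm.differentiable (by exact_mod_cast (by omega : r ≠ 0))).differentiableAt
  have hmono : MonotoneOn (fun y => At y - cA * y) (Icc 0 (2 * zb)) := by
    intro y hy y' hy' hyy
    have h1 := hd y y' hy.1 hyy hy'.2
    rw [R.act y ⟨hy.1, by linarith [hy.2]⟩, R.act y' ⟨hy'.1, by linarith [hy'.2]⟩] at h1
    show At y - cA * y ≤ At y' - cA * y'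
    linarith
  have h2 := hmono.derivWithin_nonneg (x := ξ)
  have h3 : HasDerivAt (fun y => At y - cA * y) (deriv At ξ - cA * 1) ξ := hdiff.hasDerivAt.sub ((hasDerivAt_id ξ).const_mul cA)
  rw [h3.hasDerivWithinAt.derivWithin (uniqueDiffOn_Icc (by linarith) ξ hξ)] at h2
  linarith

/-- (F1) the ask `SkwL03` of unit W from the P-list and `LlcSmall` -/
theorem l8pw_l03 (𝔹 : LlBase) (T : ℝ) (hb : LlBaseProfile 𝔹 T) (F : LlFix) (hF : F.Ok) (hT : F.T = T) (hs : LlcSmall 𝔹 F) :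
    ∃ cA : ℝ, 0 < cA ∧ ∀ r : ℕ, 1 ≤ r → ∃ At : ℝ → ℝ, ∀ c C v0 : ℝ, 0 < c → LlRef 𝔹 F c C v0 → SkwL03 𝔹 F At cA (max 1 (1 / c)) r := by
  obtain ⟨cA, hcA, hd⟩ := hs.z0d
  refine ⟨cA, hcA, fun r hr => ?_⟩
  subst hT
  obtain ⟨At, R⟩ := l8pw_rep 𝔹 F.T hb hF.z00 hs.z0s hcA hd r hr
  refine ⟨At, fun c C v0 hc href => ?_⟩
  exact
    { fix := hF
      prof := skw_l03_prof hb R hF rfl le_rfl
      A0_act := R.act
      A0_top := hb.top
      vb8 := hs.vb8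
      Lq1 := le_max_left _ _
      Gam := skw_l03_gam 𝔹 F hc href }

/-- the context of unit W (IN-G, IN-E, PLF, IN-V, LL-EB, LL-XI) at every direct point with small `U`: no `S`, `Z`, `zlo` -/
theorem l8pw_ctx (𝔹 : LlBase) (F : LlFix) (At : ℝ → ℝ) (cA Lq : ℝ) (r : ℕ) (hr : 2 ≤ r) (h : SkwL03 𝔹 F At cA Lq r) :
    ∃ (M0 Cp cv U1 : ℝ) (N0 : ℕ), 1 ≤ M0 ∧ 1 ≤ Cp ∧ 0 < cv ∧ cv ≤ 1 ∧ 0 < U1 ∧ ∀ p : LlPt, p.Ok F → N0 ≤ p.N → p.sm = false → p.U F ≤ U1 →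
      ∀ i : SkwIn, i.ell = p.ell → i.lam = p.lam → i.U = p.U F → i.E = p.Eb F 𝔹 →
        SkwLlcCtx 𝔹 F At cA p i Cp cv ∧
        (∀ z ∈ Icc 0 (𝔹.xiS F.T), 0 ≤ skwInGa (skwLlProf 𝔹 F At cA) i z ∧ skwInGa (skwLlProf 𝔹 F At cA) i z ≤ M0) ∧
        (∀ z ∈ Icc 0 (2 * F.z0), cA / 2 ≤ skwInGa (skwLlProf 𝔹 F At cA) i z) ∧ Continuous (skwInGa (skwLlProf 𝔹 F At cA) i) := by
  have hπ := h.prof
  obtain ⟨L, hL⟩ : ∃ L, L = 𝔹.xiS F.T := ⟨_, rfl⟩
  have hz00 : 0 < F.z0 := hπ.z00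
  have hz0s : 2 * F.z0 ≤ L := hL ▸ hπ.z0s
  have hL0 : 0 < L := by linarith
  obtain ⟨M0, lam0, hM0, hlam0, _hlam01, hG⟩ := skw_leaf_inG _ r hr hπ
  have hE1 : 0 < min 1 (min ((L - F.z0) / 2) (L / 4)) := lt_min one_pos (lt_min (by linarith) (by linarith))
  obtain ⟨UE, hUE0, _hUE1, hE⟩ := skw_leaf_inE _ r hr hπ M0 hM0 _ hE1
  obtain ⟨Cp, hCp, hPF⟩ := skw_leaf_pf _ M0 hπ.pt0 hπ.pt1 hM0
  obtain ⟨cv, hcv0, hcv1, hV⟩ := skw_leaf_inV _ r hr hπ M0 Cp hM0 hCp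
  obtain ⟨UB, hUB0, _hUB1, hEb⟩ := skw_leaf_llEb 𝔹 F At cA Lq r hr h
  obtain ⟨N1, hN1⟩ := skw_llc_small F h.fix.pS0 1 lam0 one_pos hlam0
  have hCp0 : 0 < Cp := by linarith
  refine ⟨M0, Cp, cv, min UE (min UB (1 / Cp)), N1, hM0, hCp, hcv0, hcv1, lt_min hUE0 (lt_min hUB0 (by positivity)), ?_⟩
  intro p hp hNb hsm hU i hiell hilam hiU hiE
  have hUa : p.U F ≤ UE := hU.trans (min_le_left _ _)
  have hUb : p.U F ≤ UB := hU.trans ((min_le_right _ _).trans (min_le_left _ _))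
  have hUc : p.U F ≤ 1 / Cp := hU.trans ((min_le_right _ _).trans (min_le_right _ _))
  have hUp := skw_llc_U_pos hp
  have hl := skw_llc_lam_pos hp
  have hell1 : 1 ≤ i.ell := hiell ▸ hp.ell1
  have hell2 : i.ell ≤ 2 := hiell ▸ skw_llc_ell2 hp
  have hlam1 : i.lam ≤ lam0 := by
    have := hN1 p hp hNb
    rw [Real.rpow_one] at this
    rw [hilam]; exact this
  obtain ⟨g1, g2, g3, g4, g5, g6, g7, g8⟩ := hG i hell1 hell2 (hilam ▸ hl.le) hlam1
  obtain ⟨hUt, hUps, hE0, hEL, hEeq⟩ := hEb p hUp hUb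
  obtain ⟨e1, _e2, e3⟩ := hE i hell1 hell2 (fun z hz => (g1 z hz).2) g3 (hiU ▸ hUp) (hiU ▸ hUa) (hiE ▸ hE0) (hiE ▸ hEL)
    (by rw [hiU, hiE]; exact hEeq)
  rw [hiE] at e1
  have hEa : p.Eb F 𝔹 ≤ 1 := e1.trans (min_le_left _ _)
  have hEb2 : p.Eb F 𝔹 ≤ (L - F.z0) / 2 := e1.trans ((min_le_right _ _).trans (min_le_left _ _))
  have hUE3 : i.U ^ 4 ≤ M0 * i.E ^ 3 := e3 (by
    rw [hiE]
    have : (skwLlProf 𝔹 F At cA).zs - (skwLlProf 𝔹 F At cA).z0 = L - F.z0 := by rw [hL]; rfl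
    rw [this]
    linarith)
  have iU0 : 0 < i.U := hiU ▸ hUp
  have iUc : i.U ≤ 1 / Cp := hiU ▸ hUc
  have iE0 : 0 < i.E := hiE ▸ hE0
  have iEa : i.E ≤ 1 := hiE ▸ hEa
  have hpf : SkwPFConcl Cp (i.pf (skwLlProf 𝔹 F At cA)) :=
    hPF (i.pf (skwLlProf 𝔹 F At cA)) rfl hell1 hell2 iU0 iUc iE0 iEa hUE3
  have hv := hV i hell1 hell2 g1 g2 g4 g5 g6 g7 g8 hpf
  have hxi := skw_leaf_llXi 𝔹 F At cA Lq r hr h p i Cp hsm hp.ell1 hiell hilam hl.le g6 g8 hpf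
  exact ⟨{ hp := hp, fix := h.fix, sm := hsm, iell := hiell, ilam := hilam, iU := hiU, iE := hiE, U0 := hUp, Ut := hUt, Ups := hUps
           E0 := hE0, L0 := hL ▸ hL0, pt0 := hπ.pt0, pt1 := hπ.pt1, mono := g6, top := g8, pf := hpf, v := hv, xi := hxi, vb8 := h.vb8 },
    g1, g2, g4⟩

/-- the inverse plateau coordinate is monotone on the whole line -/
theorem l8pw_wof_mono (P : SkwPF) (h0 : 0 ≤ P.ptop) : Monotone P.wof := by
  intro z z' hzz
  unfold SkwPF.wof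
  rcases Set.eq_empty_or_nonempty {w : ℝ | w ∈ Icc P.ptop 1 ∧ P.zof w ≤ z} with he | hne
  · rw [he, Real.sSup_empty]
    exact Real.sSup_nonneg fun w hw => h0.trans hw.1.1
  · exact csSup_le_csSup ⟨1, fun w hw => hw.1.2⟩ hne fun w hw => ⟨hw.1, hw.2.trans hzz⟩

theorem l8pw_G_meas (π : SkwProf) (i : SkwIn) (h0 : 0 ≤ π.ptop) (hc : Continuous (skwInGa π i)) : Measurable (skwInG π i) := by
  have h1 : Measurable (i.pf π).wof := (l8pw_wof_mono (i.pf π) h0).measurable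
  have h2 : Measurable (i.pf π).dz := by
    unfold SkwPF.dz
    fun_prop
  have h3 : Measurable (i.pf π).G := by
    unfold SkwPF.G
    exact measurable_const.div (h2.comp h1)
  unfold skwInG
  exact Measurable.ite measurableSet_Iic hc.measurable h3

/-- the geometry `L8pGeo` from the context of unit W -/
theorem l8pw_geo {𝔹 : LlBase} {F : LlFix} {At : ℝ → ℝ} {cA Lq : ℝ} {p : LlPt} {i : SkwIn} {Cp cv M0 : ℝ}
    (X : SkwLlcCtx 𝔹 F At cA p i Cp cv) (hLq : 1 ≤ Lq) (hGm : i.Gm = p.GamN F 𝔹)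
    (g1 : ∀ z ∈ Icc 0 (𝔹.xiS F.T), 0 ≤ skwInGa (skwLlProf 𝔹 F At cA) i z ∧ skwInGa (skwLlProf 𝔹 F At cA) i z ≤ M0)
    (hlip : ∀ ξ ∈ Icc 0 (𝔹.xiS F.T), ∀ ξ' ∈ Icc 0 (𝔹.xiS F.T), |p.GamN F 𝔹 ξ - p.GamN F 𝔹 ξ'| ≤ Lq * |ξ - ξ'|)
    (hG0 : p.GamN F 𝔹 0 = 0) (hG1 : ∀ ξ ∈ Icc 0 (𝔹.xiS F.T), 0 ≤ p.GamN F 𝔹 ξ ∧ p.GamN F 𝔹 ξ ≤ 1) :
    (∀ z ∈ Icc 0 (skwInD (skwLlProf 𝔹 F At cA) i).zmax, ∀ z' ∈ Icc 0 (skwInD (skwLlProf 𝔹 F At cA) i).zmax,
      |(skwInD (skwLlProf 𝔹 F At cA) i).q z - (skwInD (skwLlProf 𝔹 F At cA) i).q z'| ≤ Lq * |z - z'|) ∧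
    (∀ z ∈ Icc 0 (skwInD (skwLlProf 𝔹 F At cA) i).zmax, (skwInD (skwLlProf 𝔹 F At cA) i).q z ≤ Lq * skwR z) ∧
    ∃ MG : ℝ, ∀ z ∈ Icc 0 (skwInD (skwLlProf 𝔹 F At cA) i).zmax, (skwInD (skwLlProf 𝔹 F At cA) i).G z ≤ MG := by
  have hL0 := X.L0
  have hq : ∀ z, (skwInD (skwLlProf 𝔹 F At cA) i).q z = p.GamN F 𝔹 (min z (𝔹.xiS F.T)) := fun z => by
    show i.Gm (min z (𝔹.xiS F.T)) = _
    rw [hGm]
  have hm : ∀ z, 0 ≤ z → min z (𝔹.xiS F.T) ∈ Icc 0 (𝔹.xiS F.T) := fun z hz => ⟨le_min hz hL0.le, min_le_right _ _⟩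
  refine ⟨?_, ?_, ?_⟩
  · intro z hz z' hz'
    rw [hq, hq]
    refine (hlip _ (hm z hz.1) _ (hm z' hz'.1)).trans (mul_le_mul_of_nonneg_left ?_ (by linarith))
    refine (abs_min_sub_min_le_max _ _ _ _).trans ?_
    rw [sub_self, abs_zero]
    exact max_le le_rfl (abs_nonneg _)
  · intro z hz
    rw [hq]
    have h1 := hlip _ (hm z hz.1) 0 ⟨le_rfl, hL0.le⟩
    rw [hG0, sub_zero, sub_zero, abs_of_nonneg (hG1 _ (hm z hz.1)).1, abs_of_nonneg (hm z hz.1).1] at h1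
    have h2 := (hG1 _ (hm z hz.1)).2
    unfold skwR
    rcases le_total z 1 with h | h
    · rw [min_eq_left h]
      exact h1.trans (mul_le_mul_of_nonneg_left (min_le_left _ _) (by linarith))
    · rw [min_eq_right h]
      linarith
  · obtain ⟨B, hB⟩ := isCompact_Icc.exists_bound_of_continuousOn X.pf.G_cont
    refine ⟨max M0 B, fun z hz => ?_⟩
    show skwInG (skwLlProf 𝔹 F At cA) i z ≤ _
    unfold skwInG
    split_ifs with hzs
    · exact ((g1 z ⟨hz.1, hzs⟩).2).trans (le_max_left _ _)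
    · exact ((le_abs_self _).trans (hB z ⟨(not_le.1 hzs).le, hz.2⟩)).trans (le_max_right _ _)

/-- **W-AT** (PROVED, helper246): `skw_ll_direct`, `skw_ll_d3` and the context `l8pw_ctx` at the representative of `l8pw_l03`; the smallness of the cut-offs comes from `LlcTop3.small` (cure of F1).      TEX[LL:lem:statistics-widths] -/
theorem l8p_w_at (T : ℝ) (_hT : 1 < T) : L8pWAt llBase T := by
  intro F0 hfix pB pS hp0 hp1 eps K C1v he _he1 hK hC1v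
  obtain ⟨hT0, hb, hP⟩ := hfix
  have hE := llc_expOk pB hp0 hp1
  have h3 := (hP _ _ _ hE).sec3
  have hsm := (hP _ _ _ hE).small
  obtain ⟨F, hFdef⟩ : ∃ F, F = F0.wExp pB.sStar pB.eta pS := ⟨_, rfl⟩
  rw [← hFdef] at h3 hsm ⊢
  have hFT : F.T = T := by rw [hFdef]; exact hT0
  obtain ⟨cr, Cr, v0, hcr, -, href⟩ := h3.ref
  -- the order of the representative
  obtain ⟨n, hn⟩ := exists_nat_gt ((K : ℝ) / eps)
  have hr2 : 2 ≤ n + 2 := by omega
  have hKr : (K : ℝ) < eps * (((n + 2 : ℕ) : ℝ) - 1) := by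
    rw [div_lt_iff₀ he] at hn
    push_cast
    nlinarith
  obtain ⟨cA, hcA, hAt⟩ := l8pw_l03 llBase T hb F h3.ok hFT hsm
  obtain ⟨At, hAt⟩ := hAt (n + 2) (by omega)
  have hI := hAt cr Cr v0 hcr href
  obtain ⟨Lq, hLqdef⟩ : ∃ Lq, Lq = max 1 (1 / cr) := ⟨_, rfl⟩
  rw [← hLqdef] at hI
  obtain ⟨c0, U3, N3, hc0, hU3, hD3⟩ := skw_ll_d3 llBase F At cA Lq (n + 2) hr2 hI h3.p4
  obtain ⟨A, C, cv', c, N4, hA, hC, _hcv', hc, hczs, hW⟩ := skw_ll_direct llBase F eps K C1v 1 he (by omega) hC1v le_rfl (n + 2) hr2 hKr At cA Lq hI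
  obtain ⟨M0, Cp, cv, U5, N5, hM0, hCp, hcv0, hcv1, hU5, hX⟩ := l8pw_ctx llBase F At cA Lq (n + 2) hr2 hI
  obtain ⟨N6, hGam⟩ := hI.Gam
  have hz00 := h3.ok.z00
  have hC0 : 0 < C := by linarith
  refine ⟨At, cA, A, c, C, cv, min c0 (1 / 2), cA / 2, min 1 (2 * F.z0), Lq, hA, hc, hC, hcv0, hcv1, lt_min hc0 (by norm_num), by linarith,
    lt_min one_pos (by linarith), min_le_left _ _, ?_, hI.Lq1, ?_⟩
  · rw [hczs]
    exact (min_le_right _ _).trans (by linarith [hsm.z0s])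
  intro c1 κ _hc1 hκ
  obtain ⟨N7, hN7⟩ := skw_llb_small κ (min (1 / C) (min U3 U5)) hκ (lt_min (by positivity) (lt_min hU3 hU5))
  refine ⟨max (max N3 N4) (max (max N5 N6) N7), 0, ?_⟩
  intro I hIat
  obtain ⟨IF, IB, p, m, s, Fs⟩ := I
  have e1 : IF = F := hIat.hF
  have e2 : IB = llBase := hIat.hB
  subst e1 e2
  have hN : max (max N3 N4) (max (max N5 N6) N7) ≤ p.N := hIat.hN
  have hN3 : N3 ≤ p.N := ((le_max_left _ _).trans (le_max_left _ _)).trans hN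
  have hN4 : N4 ≤ p.N := ((le_max_right _ _).trans (le_max_left _ _)).trans hN
  have hN5 : N5 ≤ p.N := (((le_max_left _ _).trans (le_max_left _ _)).trans (le_max_right _ _)).trans hN
  have hN6 : N6 ≤ p.N := (((le_max_right _ _).trans (le_max_left _ _)).trans (le_max_right _ _)).trans hN
  have hN7' : N7 ≤ p.N := ((le_max_right _ _).trans (le_max_right _ _)).trans hN
  have hp : p.Ok IF := hIat.ok.pt
  obtain ⟨hdsm, -, hchiE⟩ : p.sm = false ∧ p.chiL = 0 ∧ p.chiE = 1 := hIat.dir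
  set I : L8In := ⟨IF, llBase, p, m, s, Fs⟩ with hIdef
  -- smallness of `U`
  have hUp : 0 < p.U IF := skw_llc_U_pos hp
  have hZ1 : 1 ≤ I.Z := by
    have hq : ∀ t : ℝ, 0 ≤ t ^ (1 / 4 : ℝ) := by
      intro t
      rcases lt_or_ge t 0 with ht | ht
      · rw [Real.rpow_def_of_neg ht]
        refine mul_nonneg (Real.exp_pos _).le (Real.cos_nonneg_of_mem_Icc ⟨?_, ?_⟩)
        · have := Real.pi_pos; linarith
        · have := Real.pi_pos; linarith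
      · exact Real.rpow_nonneg ht _
    have := hq (I.bud / I.U ^ 4)
    unfold L8In.Z
    linarith
  have hUY : p.U IF ≤ I.Y := by
    show p.U IF ≤ p.U IF * I.Z
    nlinarith
  have hUs : p.U IF ≤ min (1 / C) (min U3 U5) := hUY.trans (hIat.hY.trans (hN7 p hN7'))
  have hUa : p.U IF ≤ 1 / C := hUs.trans (min_le_left _ _)
  have hUb : p.U IF ≤ U3 := hUs.trans ((min_le_right _ _).trans (min_le_left _ _))
  have hUc : p.U IF ≤ U5 := hUs.trans ((min_le_right _ _).trans (min_le_right _ _))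
  obtain ⟨π, hπ⟩ : ∃ π : L8pPar, π = ⟨At, cA, eps, K, A, c1, c⟩ := ⟨_, rfl⟩
  rw [← hπ]
  have hprof : l8pProf I π = skwLlProf llBase IF At cA := by rw [hπ]; rfl
  have hin : l8pIn I π = skwLlIn llBase IF p (l8pSv I) I.Z eps K A (c1 * I.Y) := by rw [hπ]; rfl
  obtain ⟨X, g1, g2, g4⟩ := hX p hp hN5 hdsm hUc (l8pIn I π) (by rw [hin]; rfl) (by rw [hin]; rfl) (by rw [hin]; rfl) (by rw [hin]; rfl)
  obtain ⟨hlip, hG0, hG1⟩ := hGam p hp hN6 hdsm
  obtain ⟨q1, q2, q3⟩ := l8pw_geo X hI.Lq1 (by rw [hin]; rfl) g1 hlip hG0 hG1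
  have hd3 := hD3 p hp hN3 hdsm hUb (l8pIn I π) (by rw [hin]; rfl) (by rw [hin]; rfl) (by rw [hin]; rfl) (by rw [hin]; rfl)
  have hLm := skw_llc_L_le X
  have hl := skw_llc_lam_pos hp
  have hx0 := skw_llc_x_pos hp
  have hx1 : p.x ≤ 1 := llc_x_le_one hp
  have hl1 : p.lam ≤ 1 := hp.lam_hi.trans (Real.rpow_le_one hx0.le hx1 h3.ok.pS0.le)
  have hlam1 : p.lam1 IF ≤ p.lam := by
    unfold LlPt.lam1
    calc p.lam ^ (1 + IF.eta) ≤ p.lam ^ (1 : ℝ) := Real.rpow_le_rpow_of_exponent_ge hl hl1 (by linarith [h3.ok.eta0])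
      _ = p.lam := Real.rpow_one _
  have hlam10 : 0 < p.lam1 IF := Real.rpow_pos_of_pos hl _
  constructor
  · have hD : l8pD I π = skwInD (skwLlProf llBase IF At cA) (l8pIn I π) := by rw [← hprof]; rfl
    have hzm : (l8pD I π).zmax = ((l8pIn I π).pf (skwLlProf llBase IF At cA)).zmax := by rw [hD]; rfl
    have hV : l8pV I π = skwInV (skwLlProf llBase IF At cA) (l8pIn I π) := by rw [← hprof]; rfl
    have hπc : π.c = c := by rw [hπ]
    have hc3a : min c0 (1 / 2) ≤ c0 := min_le_left _ _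
    have hc3b : min c0 (1 / 2) ≤ 1 / 2 := min_le_right _ _
    have hc30 : 0 < min c0 (1 / 2) := lt_min hc0 (by norm_num)
    refine
      { vc := by rw [hprof]; exact X.v
        zs := by rw [hπc, hczs]
        zsm := by rw [hπc, hczs, hzm]; exact hLm
        K := ?_, q := ?_
        qlip := by rw [hD]; exact q1
        qr := by rw [hD]; exact q2
        d3 := ?_, Greg := ?_
        Gm := by rw [hD]; exact l8pw_G_meas _ _ X.pt0.le g4
        Gb := by rw [hD]; exact q3 }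
    · intro z hz
      rw [hzm] at hz
      rw [hV, hπc, hczs]
      exact (X.xi z hz).2.1
    · intro z hz
      rw [hzm] at hz
      rw [hV, hD]
      refine (X.xi z hz).2.2.trans ?_
      rw [hin]
      rfl
    · intro z₁ hz₁ z₂ hz₂ h12 hx
      rw [hzm] at hz₁ hz₂
      rw [hV] at hx ⊢
      show min c0 (1 / 2) * p.lam1 IF * skwR z₁ ^ 2 * (z₂ - z₁) ≤ p.h IF llBase _ - p.h IF llBase _
      have hr0 : 0 ≤ skwR z₁ := le_min hz₁.1 zero_le_one
      have hr1 : skwR z₁ ≤ 1 := min_le_right _ _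
      have hr2' : skwR z₁ ^ 2 ≤ 1 := pow_le_one₀ hr0 hr1
      have ha : ∀ z z' : ℝ, z ≤ z' → min c0 (1 / 2) * p.lam1 IF * skwR z₁ ^ 2 * (z' - z) ≤ c0 * p.lam * skwR z₁ ^ 2 * (z' - z) := by
        intro z z' hzz
        refine mul_le_mul_of_nonneg_right (mul_le_mul_of_nonneg_right ?_ (sq_nonneg _)) (sub_nonneg.2 hzz)
        exact mul_le_mul hc3a hlam1 hlam10.le hc0.le
      have hbb : ∀ z z' : ℝ, z ≤ z' → min c0 (1 / 2) * p.lam1 IF * skwR z₁ ^ 2 * (z' - z) ≤ p.chiE * p.lam1 IF / 2 * (z' - z) := by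
        intro z z' hzz
        refine mul_le_mul_of_nonneg_right ?_ (sub_nonneg.2 hzz)
        rw [hchiE]
        have e1 : min c0 (1 / 2) * p.lam1 IF ≤ 1 / 2 * p.lam1 IF := mul_le_mul_of_nonneg_right hc3b hlam10.le
        have e2 : min c0 (1 / 2) * p.lam1 IF * skwR z₁ ^ 2 ≤ min c0 (1 / 2) * p.lam1 IF * 1 :=
          mul_le_mul_of_nonneg_left hr2' (by positivity)
        linarith
      rcases le_total z₂ (llBase.xiS IF.T) with c2 | c2
      · exact (ha z₁ z₂ h12).trans ((hd3 z₁ hz₁ z₂ hz₂ h12 hx).1 c2)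
      · rcases le_total (llBase.xiS IF.T) z₁ with c1' | c1'
        · exact (hbb z₁ z₂ h12).trans ((hd3 z₁ hz₁ z₂ hz₂ h12 hx).2 c1')
        · have hLmem : llBase.xiS IF.T ∈ Icc 0 ((l8pIn I π).pf (skwLlProf llBase IF At cA)).zmax := ⟨X.L0.le, hLm⟩
          have hxL : p.x ≤ skwInV (skwLlProf llBase IF At cA) (l8pIn I π) (llBase.xiS IF.T) := hx.trans (skw_llc_V_mono X hz₁ hLmem c1')
          have k1 := (ha z₁ _ c1').trans ((hd3 z₁ hz₁ _ hLmem c1' hx).1 le_rfl)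
          have k2 := (hbb _ z₂ c2).trans ((hd3 _ hLmem z₂ hz₂ c2 hxL).2 le_rfl)
          have e : min c0 (1 / 2) * p.lam1 IF * skwR z₁ ^ 2 * (z₂ - z₁)
              = min c0 (1 / 2) * p.lam1 IF * skwR z₁ ^ 2 * (llBase.xiS IF.T - z₁) + min c0 (1 / 2) * p.lam1 IF * skwR z₁ ^ 2 * (z₂ - llBase.xiS IF.T) := by ring
          rw [e]
          linarith
    · intro z hz
      have hz2 : z ≤ 2 * IF.z0 := hz.2.trans (min_le_right _ _)
      rw [hD]
      show cA / 2 ≤ skwInG (skwLlProf llBase IF At cA) (l8pIn I π) z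
      unfold skwInG
      rw [if_pos (show z ≤ (skwLlProf llBase IF At cA).zs by show z ≤ llBase.xiS IF.T; linarith [hsm.z0s])]
      exact g2 z ⟨hz.1, hz2⟩
  · intro hdev
    rw [hprof, hin] at hdev
    obtain ⟨w1, w2, -, w4⟩ := hW p hp hN4 hdsm hUa (l8pSv I) I.Z (c1 * I.Y) hdev
    have hD : l8pD I π = skwInD (skwLlProf llBase IF At cA) (skwLlIn llBase IF p (l8pSv I) I.Z eps K A (c1 * I.Y)) := by rw [hπ]; rfl
    have hH : l8pH I π = skwH c (skwInD (skwLlProf llBase IF At cA) (skwLlIn llBase IF p (l8pSv I) I.Z eps K A (c1 * I.Y))) := by rw [hπ]; rfl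
    rw [hD, hH]
    exact ⟨w1, w2, w4⟩

/-! ### CLK (helper21) -/

/-- a clock with a modulus of continuity on `[lo,a]` has no jump to the right of a mass of `[lo,a]` -/
theorem l8p_clk_right {a lo : ℝ} {c : ℝ → ℝ} (ha : 0 ≤ a) (hc : GhClk1 a c) (hlo : 0 ≤ lo)
    (heq : ∀ η : ℝ, 0 < η → ∃ δ : ℝ, 0 < δ ∧ ∀ v v' : ℝ, lo ≤ v → v ≤ v' → v' ≤ a → v' - v ≤ δ → c v' - c v ≤ η)
    {u : ℝ} (h1 : lo ≤ u) (h2 : u ≤ a) : Function.rightLim (ghClamp a c) u = c u := by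
  have hm := gh_os_clamp_mono ha hc
  have hu0 : 0 ≤ u := hlo.trans h1
  have e : ghClamp a c u = c u := slc_clamp_eq c hu0 h2
  refine le_antisymm ?_ (by rw [← e]; exact hm.le_rightLim le_rfl)
  rcases h2.eq_or_lt with rfl | h2'
  · exact (gh_os_right_top u c ha le_rfl).le
  refine le_of_forall_pos_le_add fun η hη => ?_
  obtain ⟨δ, hδ, H⟩ := heq η hη
  have hv : u < min (u + δ) a := lt_min (by linarith) h2'
  have h3 := hm.rightLim_le hv
  rw [slc_clamp_eq c (hu0.trans hv.le) (min_le_right _ _)] at h3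
  have h4 := H u (min (u + δ) a) h1 hv.le (min_le_right _ _) (by linarith [min_le_left (u + δ) a])
  linarith

/-- and no jump to the left of a mass of `(lo,a]` -/
theorem l8p_clk_left {a lo : ℝ} {c : ℝ → ℝ} (ha : 0 ≤ a) (hc : GhClk1 a c) (hlo : 0 ≤ lo)
    (heq : ∀ η : ℝ, 0 < η → ∃ δ : ℝ, 0 < δ ∧ ∀ v v' : ℝ, lo ≤ v → v ≤ v' → v' ≤ a → v' - v ≤ δ → c v' - c v ≤ η)
    {u : ℝ} (h1 : lo < u) (h2 : u ≤ a) : Function.leftLim (ghClamp a c) u = c u := by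
  have hm := gh_os_clamp_mono ha hc
  have hu0 : 0 ≤ u := hlo.trans h1.le
  have e : ghClamp a c u = c u := slc_clamp_eq c hu0 h2
  refine le_antisymm (by rw [← e]; exact hm.leftLim_le le_rfl) ?_
  refine le_of_forall_pos_le_add fun η hη => ?_
  obtain ⟨δ, hδ, H⟩ := heq η hη
  have hv : max lo (u - δ) < u := max_lt h1 (by linarith)
  have h3 := hm.le_leftLim hv
  rw [slc_clamp_eq c (hlo.trans (le_max_left _ _)) (hv.le.trans h2)] at h3
  have h4 := H (max lo (u - δ)) u (le_max_left _ _) hv.le h2 (by linarith [le_max_right lo (u - δ)])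
  linarith

/-- the value at a position of mass in `(lo,a]` -/
theorem l8p_clk_at {a lo : ℝ} {c : ℝ → ℝ} (ha : 0 ≤ a) (hc : GhClk1 a c) (hlo : 0 ≤ lo)
    (heq : ∀ η : ℝ, 0 < η → ∃ δ : ℝ, 0 < δ ∧ ∀ v v' : ℝ, lo ≤ v → v ≤ v' → v' ≤ a → v' - v ≤ δ → c v' - c v ≤ η)
    {p : GhPos} (h1 : lo < p.u) (h2 : p.u ≤ a) : ghAt a c p = c p.u := by
  unfold ghAt
  rw [l8p_clk_right ha hc hlo heq h1.le h2, l8p_clk_left ha hc hlo heq h1 h2]
  ring

/-- the same from the mass `0`, for a clock which starts at `0` -/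
theorem l8p_clk_at0 {a : ℝ} {c : ℝ → ℝ} (ha : 0 ≤ a) (hc : GhClk1 a c) (h0 : c 0 = 0)
    (heq : ∀ η : ℝ, 0 < η → ∃ δ : ℝ, 0 < δ ∧ ∀ v v' : ℝ, 0 ≤ v → v ≤ v' → v' ≤ a → v' - v ≤ δ → c v' - c v ≤ η)
    {p : GhPos} (h1 : 0 ≤ p.u) (h2 : p.u ≤ a) : ghAt a c p = c p.u := by
  rcases h1.eq_or_lt with h | h
  · unfold ghAt
    rw [l8p_clk_right ha hc le_rfl heq h1 h2, gh_os_left_zero a c h.ge, ← h, h0]
    ring
  · exact l8p_clk_at ha hc le_rfl heq h h2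

/-- the cut `j + 1` sits at the position number `j` of the chain -/
theorem l8p_clk_dict (I : L8In) {j : ℕ} (hj : j < I.n) :
    ∃ q ∈ ghPs I.a (l9Fl I.Fs), l8pVl I (j + 1) = q.u ∧ I.KC (j + 1) = ghAt I.a (I.p.K I.F I.𝔹) q ∧ I.hC (j + 1) = ghAt I.a (I.p.h I.F I.𝔹) q := by
  have eLP : I.LP = l9Stp I.a (I.p.b I.F I.𝔹) (I.p.h I.F I.𝔹) (I.p.K I.F I.𝔹) 0 0 0 (ghPs I.a (l9Fl I.Fs)) := rfl
  have hlen : I.n = (ghPs I.a (l9Fl I.Fs)).length := by
    show I.LP.length = _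
    rw [eLP, l9d_stp_length]
  have hj' : j < (ghPs I.a (l9Fl I.Fs)).length := hlen ▸ hj
  have eP0 : I.P0 = skCStp I.a (I.p.b I.F I.𝔹) (I.p.h I.F I.𝔹) 0 0 (ghPs I.a (l9Fl I.Fs)) := by
    show llMat I.LP = _
    rw [eLP, l9d_stp_mat]
  refine ⟨(ghPs I.a (l9Fl I.Fs))[j], List.getElem_mem _, ?_, ?_, ?_⟩
  · have e1 : I.P0.map SkInc.m = (ghPs I.a (l9Fl I.Fs)).map GhPos.u := by
      rw [← l9d_stp_m I.a (I.p.b I.F I.𝔹) (I.p.h I.F I.𝔹) (I.p.K I.F I.𝔹) (ghPs I.a (l9Fl I.Fs)) 0 0 0, ← eLP]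
      show (llMat I.LP).map SkInc.m = _
      simp [llMat]
    show (if j + 1 = 0 then 0 else I.v (j + 1 - 1)) = _
    rw [if_neg (Nat.succ_ne_zero j), Nat.add_sub_cancel]
    show (I.P0.map SkInc.m).getD j I.a = _
    rw [e1, List.getD_eq_getElem _ _ (by simpa using hj')]
    simp
  · show llCumK I.LP (j + 1) = _
    rw [eLP, l9d_stp_cumK, (l9d_chain_cum _ _ _ _ 0 0 j hj').2, sub_zero]
  · show skCumH I.P0 (j + 1) = _
    rw [eP0, (l9d_chain_cum _ _ _ _ 0 0 j hj').2, sub_zero]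

theorem l8p_leaf_clk (T : ℝ) (_hT : 1 < T) : L8pLeafClk llBase T := by
  intro F0 hF pB pS h0 h1 κ hκ
  have h3 : LlSec3 llBase (F0.wExp pB.sStar pB.eta pS) := (hF.2.2 _ _ _ (llc_expOk pB h0 h1)).sec3
  obtain ⟨Ne, hequi⟩ := h3.equi
  obtain ⟨ca, Ca, hca, Na, hadm⟩ := h3.adm
  obtain ⟨cr, Cr, v0, hcr, hv0, Nr, href⟩ := h3.ref
  refine ⟨max Ne (max Na Nr), 0, fun I hI => ?_⟩
  have hNe : Ne ≤ I.p.N := (le_max_left _ _).trans hI.hN
  have hNa : Na ≤ I.p.N := ((le_max_left _ _).trans (le_max_right _ _)).trans hI.hN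
  have hNr : Nr ≤ I.p.N := ((le_max_right _ _).trans (le_max_right _ _)).trans hI.hN
  have hpt : I.p.Ok (F0.wExp pB.sStar pB.eta pS) := hI.hF ▸ hI.ok.pt
  have hA := hadm I.p hpt hNa
  have hR := href I.p hpt hNr
  rw [← hI.hF, ← hI.hB] at hA hR
  have ha0 : 0 < I.a := by
    unfold L8In.a LlPt.a
    split_ifs
    · norm_num
    · linarith [hI.ok.pt.ell1]
  have hx0 : 0 < I.x := I.x_pos hI.ok
  obtain ⟨-, hmh, -, hmK, -, hpos, -, -⟩ := hA
  have hz : (0 : ℝ) ∈ Icc 0 I.p.a := ⟨le_rfl, ha0.le⟩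
  have hKc : GhClk1 I.a (I.p.K I.F I.𝔹) := ⟨hmK, (hpos 0 hz).2.2.2.2⟩
  have hhc : GhClk1 I.a (I.p.h I.F I.𝔹) := ⟨hmh, (hpos 0 hz).2.2.1⟩
  have hK0 : I.p.K I.F I.𝔹 0 = 0 := by
    refine le_antisymm ?_ (hpos 0 hz).2.2.2.2
    by_contra hc
    push Not at hc
    set k0 := I.p.K I.F I.𝔹 0 with hk0
    have hC : 0 < |Cr| + 1 := by positivity
    set v := min (min v0 I.a) (k0 / (2 * (|Cr| + 1))) with hv
    have hvpos : 0 < v := lt_min (lt_min hv0 ha0) (by positivity)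
    have e1 := hR.K_hi0 v hvpos ((min_le_left _ _).trans (min_le_left _ _))
    have e2 := hmK hz ⟨hvpos.le, (min_le_left _ _).trans (min_le_right _ _)⟩ hvpos.le
    have e3 : v ≤ k0 / (2 * (|Cr| + 1)) := min_le_right _ _
    rw [le_div_iff₀ (by positivity)] at e3
    have e4 : Cr * v ≤ |Cr| * v := mul_le_mul_of_nonneg_right (le_abs_self _) hvpos.le
    nlinarith
  have heK : ∀ η : ℝ, 0 < η → ∃ δ : ℝ, 0 < δ ∧ ∀ v v' : ℝ, 0 ≤ v → v ≤ v' → v' ≤ I.a → v' - v ≤ δ →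
      I.p.K I.F I.𝔹 v' - I.p.K I.F I.𝔹 v ≤ η := by
    intro η hη
    obtain ⟨δ, hδ, H⟩ := hequi I.p.N hNe η hη
    refine ⟨δ, hδ, fun v v' a1 a2 a3 a4 => ?_⟩
    have := (H I.p hpt rfl v v' a1 a2 a3 a4).1
    rwa [← hI.hF, ← hI.hB] at this
  have heh : ∀ η : ℝ, 0 < η → ∃ δ : ℝ, 0 < δ ∧ ∀ v v' : ℝ, I.x ≤ v → v ≤ v' → v' ≤ I.a → v' - v ≤ δ →
      I.p.h I.F I.𝔹 v' - I.p.h I.F I.𝔹 v ≤ η := by
    intro η hη
    obtain ⟨δ, hδ, H⟩ := hequi I.p.N hNe η hη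
    refine ⟨δ, hδ, fun v v' a1 a2 a3 a4 => ?_⟩
    have := (H I.p hpt rfl v v' (hx0.le.trans a1) a2 a3 a4).2.2.2.2 (Or.inr a1)
    rwa [← hI.hF, ← hI.hB] at this
  constructor
  · intro k hk
    rcases k with _ | j
    · show llCumK I.LP 0 = I.p.K I.F I.𝔹 (if 0 = 0 then 0 else _)
      rw [if_pos rfl, hK0]
      simp [llCumK]
    · obtain ⟨q, hq, e1, e2, -⟩ := l8p_clk_dict I (Nat.lt_of_succ_le hk)
      have hok := (gh_os_ps_mem.1 hq).2
      rw [e1, e2]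
      exact l8p_clk_at0 ha0.le hKc hK0 heK hok.1 hok.2.1
  · intro k hk hx
    rcases k with _ | j
    · exfalso
      have : l8pVl I 0 = 0 := if_pos rfl
      rw [this] at hx
      linarith
    · obtain ⟨q, hq, e1, -, e3⟩ := l8p_clk_dict I (Nat.lt_of_succ_le hk)
      have hok := (gh_os_ps_mem.1 hq).2
      rw [e1] at hx ⊢
      rw [e3]
      exact l8p_clk_at ha0.le hhc hx0.le heh hx hok.2.1

/-! ### GRID: helpers (helper215; prefix `l8pg_`) -/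

theorem l8pg_ms_lt (a : ℝ) {P : SkStp} {j : ℕ} (hj : j < P.length) : skMs a P j = (P[j]).m := by
  unfold skMs
  rw [List.getD_eq_getElem _ _ (by simpa using hj)]
  simp

theorem l8pg_ms_ge (a : ℝ) {P : SkStp} {j : ℕ} (hj : P.length ≤ j) : skMs a P j = a := by
  unfold skMs
  rw [List.getD_eq_default _ _ (by simpa using hj)]

theorem l8pg_ms_mem {a : ℝ} (ha : 0 ≤ a) {P : SkStp} (hP : SkAdm a P) (j : ℕ) : skMs a P j ∈ Icc 0 a := by
  rcases Nat.lt_or_ge j P.length with hj | hj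
  · rw [l8pg_ms_lt a hj]
    have := hP.2 _ (List.getElem_mem hj)
    exact ⟨this.1, this.2.1⟩
  · rw [l8pg_ms_ge a hj]
    exact ⟨ha, le_rfl⟩

theorem l8pg_ms_mono {a : ℝ} (ha : 0 ≤ a) {P : SkStp} (hP : SkAdm a P) : Monotone (skMs a P) := by
  intro j k hjk
  rcases Nat.lt_or_ge k P.length with hk | hk
  · rcases Nat.eq_or_lt_of_le hjk with e | e
    · rw [e]
    · rw [l8pg_ms_lt a hk, l8pg_ms_lt a (e.trans hk)]
      exact (List.pairwise_iff_getElem.1 hP.1) j k (e.trans hk) hk e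
  · rw [l8pg_ms_ge a hk]
    exact (l8pg_ms_mem ha hP j).2

/-- the number of revelations of mass `≤ v` -/
theorem l8pg_idx {a : ℝ} (ha : 0 ≤ a) {P : SkStp} (hP : SkAdm a P) {k : ℕ} (hk : k ≤ P.length) {v : ℝ}
    (h1 : ∀ j < k, skMs a P j ≤ v) (h2 : v < skMs a P k) : (P.filter fun e => decide (e.m ≤ v)).length = k := by
  have e1 : (P.take k).filter (fun e => decide (e.m ≤ v)) = P.take k := by
    rw [List.filter_eq_self]
    intro e he
    obtain ⟨j, hj, rfl⟩ := List.mem_iff_getElem.1 he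
    have hj' : j < k := by
      rw [List.length_take] at hj
      omega
    have := h1 j hj'
    rw [l8pg_ms_lt a (by omega : j < P.length)] at this
    simpa [List.getElem_take] using this
  have e2 : (P.drop k).filter (fun e => decide (e.m ≤ v)) = [] := by
    rw [List.filter_eq_nil_iff]
    intro e he
    obtain ⟨j, hj, rfl⟩ := List.mem_iff_getElem.1 he
    rw [List.length_drop] at hj
    have h3 := l8pg_ms_mono ha hP (Nat.le_add_right k j)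
    rw [l8pg_ms_lt a (by omega : k + j < P.length)] at h3
    have h4 : v < (P[k + j]'(by omega)).m := lt_of_lt_of_le h2 h3
    simpa [List.getElem_drop] using h4
  calc (P.filter fun e => decide (e.m ≤ v)).length
      = ((P.take k ++ P.drop k).filter fun e => decide (e.m ≤ v)).length := by rw [List.take_append_drop]
    _ = k := by rw [List.filter_append, e1, e2, List.append_nil, List.length_take, min_eq_left hk]

/-- the inverse of a continuous strictly increasing coordinate, as an `sInf` -/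
theorem l8pg_inv {V : ℝ → ℝ} {zmax ell w : ℝ} (h0 : 0 ≤ zmax) (hc : ContinuousOn V (Icc 0 zmax))
    (hm : StrictMonoOn V (Icc 0 zmax)) (hV0 : V 0 = 0) (hV1 : V zmax = ell) (hw : w ∈ Icc 0 ell) :
    sInf {z : ℝ | 0 ≤ z ∧ w ≤ V z} ∈ Icc 0 zmax ∧ V (sInf {z : ℝ | 0 ≤ z ∧ w ≤ V z}) = w := by
  have h1 : w ∈ V '' Icc 0 zmax := intermediate_value_Icc h0 hc (by rw [hV0, hV1]; exact hw)
  obtain ⟨z, hz, hzw⟩ := h1
  have h2 : IsLeast {z : ℝ | 0 ≤ z ∧ w ≤ V z} z := by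
    refine ⟨⟨hz.1, hzw.ge⟩, ?_⟩
    intro y hy
    by_contra hcon
    rw [not_le] at hcon
    have := hm ⟨hy.1, hcon.le.trans hz.2⟩ hz hcon
    linarith [hy.2]
  rw [h2.csInf_eq]
  exact ⟨hz, hzw⟩

theorem l8p_leaf_grid : L8pLeafGrid := by
  intro I π S cv hcv hCv hOk hdir hadm hz0 C hS
  have ha : I.a = I.p.ell := by
    have : I.a = if I.p.sm then (4 : ℝ) else I.p.ell := rfl
    rw [this, hdir]; simp
  have hell1 : 1 ≤ I.p.ell := hOk.pt.ell1
  have ha0 : 0 ≤ I.a := by rw [ha]; linarith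
  have hP : SkAdm I.a I.P0 := hadm.1
  have hlen : I.P0.length = I.n := by simp [L8In.P0, L8In.n, llMat]
  have hv : ∀ k, I.v k ∈ Icc 0 I.a := fun k => l8pg_ms_mem ha0 hP k
  have hvm : Monotone I.v := l8pg_ms_mono ha0 hP
  have hVl0 : l8pVl I 0 = 0 := by simp [l8pVl]
  have hVls : ∀ k, l8pVl I (k + 1) = I.v k := fun k => by simp [l8pVl]
  have hVl : ∀ k, l8pVl I k ∈ Icc 0 (l8pIn I π).ell := by
    intro k
    show l8pVl I k ∈ Icc 0 I.p.ell
    rw [← ha]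
    cases k with
    | zero => rw [hVl0]; exact ⟨le_rfl, ha0⟩
    | succ k => rw [hVls]; exact hv k
  have hVlm : Monotone (l8pVl I) := by
    apply monotone_nat_of_le_succ
    intro k
    cases k with
    | zero => rw [hVl0, hVls]; exact (hv 0).1
    | succ k => rw [hVls, hVls]; exact hvm (Nat.le_succ k)
  have hvz : ∀ k, l8pZc I π k ∈ Icc 0 (l8pD I π).zmax ∧ l8pV I π (l8pZc I π k) = l8pVl I k :=
    fun k => l8pg_inv hz0 C.cont C.mono C.v0 C.vmax (hVl k)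
  have hinj : ∀ z ∈ Icc 0 (l8pD I π).zmax, ∀ k, l8pV I π z = l8pVl I k → l8pZc I π k = z := by
    intro z hz k h
    exact C.mono.injOn (hvz k).1 hz ((hvz k).2.trans h.symm)
  have hzm : Monotone (l8pZc I π) := by
    intro j k hjk
    by_contra hcon
    rw [not_le] at hcon
    have h1 : l8pV I π (l8pZc I π k) < l8pV I π (l8pZc I π j) := C.mono (hvz k).1 (hvz j).1 hcon
    rw [(hvz k).2, (hvz j).2] at h1
    exact absurd (hVlm hjk) (not_le.2 h1)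
  have hCv0 : 0 < S.Cv := lt_of_lt_of_le (by positivity) hCv
  have hcC : 1 ≤ cv * S.Cv := by
    rw [div_le_iff₀ hcv] at hCv
    linarith
  refine ⟨hvz, ?_, hzm, ?_, ?_, ?_, ?_, ?_⟩
  · exact hinj 0 ⟨le_rfl, hz0⟩ 0 (by rw [hVl0]; exact C.v0)
  · refine hinj _ ⟨hz0, le_rfl⟩ (I.n + 1) ?_
    rw [hVls]
    have : I.v I.n = I.a := l8pg_ms_ge I.a (by rw [hlen])
    rw [this, ha]
    exact C.vmax
  · intro k hk z hz h1 h2
    have hzmem : z ∈ Icc 0 (l8pD I π).zmax := ⟨hz.1, hz.2.trans (hvz I.n).1.2⟩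
    have e1 : l8pVl I k ≤ l8pV I π z := by
      rw [← (hvz k).2]
      exact C.mono.monotoneOn (hvz k).1 hzmem h1
    have e2 : l8pV I π z < I.v k := by
      rw [← hVls, ← (hvz (k + 1)).2]
      exact C.mono hzmem (hvz (k + 1)).1 h2
    have e3 : l8pIdx I (l8pV I π z) = k := by
      refine l8pg_idx ha0 hP (by rw [hlen]; exact hk) ?_ e2
      intro j hj
      refine le_trans ?_ e1
      obtain ⟨k', rfl⟩ : ∃ k', k = k' + 1 := ⟨k - 1, by omega⟩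
      rw [hVls]
      exact hvm (by omega)
    show l8pSv I (l8pV I π z) = (I.sp false).S k
    unfold l8pSv
    rw [e3]
    exact hS k hk
  · intro k _
    have h1 := C.mass _ (hvz k).1 _ (hvz (k + 1)).1
    show (I.sp false).dv k = ∫ z in (l8pZc I π k)..(l8pZc I π (k + 1)), skwInG (l8pProf I π) (l8pIn I π) z
    rw [h1]
    show _ = l8pV I π (l8pZc I π (k + 1)) - l8pV I π (l8pZc I π k)
    rw [(hvz (k + 1)).2, (hvz k).2, hVls]
    rfl
  · intro k _ _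
    have h1 : cv * skwR (l8pZc I π k) ≤ l8pV I π (l8pZc I π k) := C.lower _ (hvz k).1
    rw [(hvz k).2] at h1
    have hr : 0 ≤ skwR (l8pZc I π k) := le_min (hvz k).1.1 zero_le_one
    have h2 : skwR (l8pZc I π k) / S.Cv ≤ cv * skwR (l8pZc I π k) := by
      rw [div_le_iff₀ hCv0]
      nlinarith
    have h3 : l8pVl I k ≤ I.v k := by rw [← hVls]; exact hVlm (Nat.le_succ k)
    show skwR (l8pZc I π k) / S.Cv ≤ I.v k
    linarith
  · intro k _
    have h1 : l8pV I π (l8pZc I π (k + 1)) ≤ skwR (l8pZc I π (k + 1)) / cv := C.upper _ (hvz (k + 1)).1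
    rw [(hvz (k + 1)).2, hVls] at h1
    have hr : 0 ≤ skwR (l8pZc I π (k + 1)) := le_min (hvz (k + 1)).1.1 zero_le_one
    show I.v k ≤ S.Cv * skwR (l8pZc I π (k + 1))
    refine h1.trans ?_
    rw [div_le_iff₀ hcv]
    nlinarith

/-! ### MESH: helpers (helper215) -/

theorem l8pg_cumK_succ (P : LlStp) {k : ℕ} (hk : k < P.length) : llCumK P (k + 1) = llCumK P k + (P[k]).dK := by
  unfold llCumK
  have h : P.take (k + 1) = P.take k ++ [P[k]] := (List.take_append_getElem hk).symm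
  rw [h, List.map_append, List.sum_append]
  simp

/-- the length of a piece of the plateau is controlled by its mass -/
theorem l8pg_len {c : SkwC} {d : SkwD} {z1 z2 : ℝ} (hc : c.Ok) (H : SkwHyp c d) (P : SkwPlat c d) (h1 : c.zs ≤ z1) (h12 : z1 ≤ z2)
    (h2 : z2 ≤ d.zmax) : (z2 - z1) * (d.U ^ 4 / c.Cp ^ 4) ≤ ∫ z in z1..z2, d.G z := by
  have h0 : 0 ≤ z1 := hc.zs.le.trans h1
  have h3 : ∫ _z in z1..z2, d.U ^ 4 / c.Cp ^ 4 ≤ ∫ z in z1..z2, d.G z := by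
    refine intervalIntegral.integral_mono_on_of_le_Ioo h12 intervalIntegrable_const (skw_gd_G_int H h0 h12 h2) ?_
    intro z hz
    exact skw_llz_G_lo hc H P ⟨lt_of_le_of_lt h1 hz.1, hz.2.le.trans h2⟩
  rw [intervalIntegral.integral_const, smul_eq_mul] at h3
  exact h3

theorem l8p_leaf_mesh (𝔹 : LlBase) (F : LlFix) : L8pLeafMesh 𝔹 F := by
  intro π S cv c3 cG zr Lq κ hc _ _
  have hCp1 : 1 ≤ π.c.Cp := hc.Cp
  have hCp0 : 0 < π.c.Cp := by linarith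
  have hCp4 : 1 ≤ π.c.Cp ^ 4 := one_le_pow₀ hCp1
  obtain ⟨N0, hN0⟩ := skw_llb_small 1 (1 / (4 + π.c.Cp ^ 4)) one_pos (by positivity)
  refine ⟨N0, 55, ?_⟩
  intro I hat geo clk grid H P
  have hx0 : 0 < I.x := I.x_pos hat.ok
  have hx1 : I.x ≤ 1 := I.x_le_one hat.ok
  have hxs : (4 + π.c.Cp ^ 4) * I.x ≤ 1 := by
    have h1 : I.x ^ (1 : ℝ) ≤ 1 / (4 + π.c.Cp ^ 4) := hN0 I.p hat.hN
    rw [Real.rpow_one, le_div_iff₀ (by positivity)] at h1
    linarith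
  have fine : I.Fine (I.x ^ 55) := by
    have := hat.fine
    rwa [show (55 : ℝ) = ((55 : ℕ) : ℝ) by norm_num, Real.rpow_natCast] at this
  have hη0 : 0 < I.x ^ 55 := by positivity
  have ha : I.a = I.p.ell := by
    have : I.a = if I.p.sm then (4 : ℝ) else I.p.ell := rfl
    rw [this, hat.dir.1]; simp
  have hell1 : 1 ≤ I.p.ell := hat.ok.pt.ell1
  have hell2 : I.p.ell ≤ 2 := by
    refine hat.ok.pt.ell2.trans ?_
    calc (2 : ℝ) ^ (1 / 6 : ℝ) ≤ (2 : ℝ) ^ (1 : ℝ) := Real.rpow_le_rpow_of_exponent_le (by norm_num) (by norm_num)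
      _ = 2 := Real.rpow_one _
  have hxU : I.x ≤ (l8pD I π).U := H.xU
  have hlen : I.P0.length = I.n := by simp [L8In.P0, L8In.n, llMat]
  have hVls : ∀ k, l8pVl I (k + 1) = I.v k := fun k => by simp [l8pVl]
  have hvn : I.v I.n = I.a := l8pg_ms_ge I.a (by rw [hlen])
  have hdv : ∀ k, I.dv k = l8pVl I (k + 1) - l8pVl I k := fun k => by rw [hVls]; rfl
  have hK : ∀ k, I.p.K I.F I.𝔹 (l8pVl I k) = (I.p.ell ^ 2)⁻¹ * min (l8pZc I π k) π.c.zs := by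
    intro k
    rw [← (grid.vz k).2]
    exact geo.K _ (grid.vz k).1
  have hdK : ∀ k ≤ I.n, I.p.K I.F I.𝔹 (l8pVl I (k + 1)) - I.p.K I.F I.𝔹 (l8pVl I k) ≤ I.x ^ 55 := by
    intro k hk
    rcases Nat.lt_or_ge k I.n with h | h
    · rw [← clk.K (k + 1) h, ← clk.K k hk]
      show llCumK I.LP (k + 1) - llCumK I.LP k ≤ I.x ^ 55
      rw [l8pg_cumK_succ I.LP h]
      have := fine.dK_le _ (List.getElem_mem h)
      linarith
    · have e : k = I.n := le_antisymm hk h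
      rw [e, hVls, hvn, ← clk.K I.n le_rfl]
      exact fine.K_top
  have hmin : ∀ k ≤ I.n, min (l8pZc I π (k + 1)) π.c.zs - min (l8pZc I π k) π.c.zs ≤ 4 * I.x ^ 55 := by
    intro k hk
    have h1 := hdK k hk
    rw [hK, hK, ← mul_sub] at h1
    have h2 : 0 < I.p.ell ^ 2 := by positivity
    rw [inv_mul_le_iff₀ h2] at h1
    have h3 : I.p.ell ^ 2 ≤ 4 := by nlinarith
    nlinarith
  have hmax : ∀ k ≤ I.n, max (l8pZc I π (k + 1)) π.c.zs - max (l8pZc I π k) π.c.zs ≤ π.c.Cp ^ 4 * I.x ^ 51 := by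
    intro k hk
    have hkk : l8pZc I π k ≤ l8pZc I π (k + 1) := grid.zmono (Nat.le_succ k)
    rcases le_or_gt (l8pZc I π (k + 1)) π.c.zs with h | h
    · rw [max_eq_right h, max_eq_right (hkk.trans h), sub_self]
      positivity
    · rw [max_eq_left h.le]
      have h1 : π.c.zs ≤ max (l8pZc I π k) π.c.zs := le_max_right _ _
      have h12 : max (l8pZc I π k) π.c.zs ≤ l8pZc I π (k + 1) := max_le hkk h.le
      have h2 := (grid.vz (k + 1)).1.2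
      have h3 := l8pg_len hc H P h1 h12 h2
      have hz1 : max (l8pZc I π k) π.c.zs ∈ Icc 0 (l8pD I π).zmax := ⟨hc.zs.le.trans h1, h12.trans h2⟩
      have h4 : ∫ z in (max (l8pZc I π k) π.c.zs)..(l8pZc I π (k + 1)), (l8pD I π).G z
          = l8pV I π (l8pZc I π (k + 1)) - l8pV I π (max (l8pZc I π k) π.c.zs) := geo.vc.mass _ hz1 _ (grid.vz (k + 1)).1
      have h5 : l8pV I π (l8pZc I π k) ≤ l8pV I π (max (l8pZc I π k) π.c.zs) :=
        geo.vc.mono.monotoneOn (grid.vz k).1 hz1 (le_max_left _ _)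
      have h6 : I.dv k ≤ I.x ^ 55 := fine.dv_le k hk
      rw [hdv] at h6
      rw [h4, (grid.vz (k + 1)).2] at h3
      rw [(grid.vz k).2] at h5
      have h7 : (l8pZc I π (k + 1) - max (l8pZc I π k) π.c.zs) * ((l8pD I π).U ^ 4 / π.c.Cp ^ 4) ≤ I.x ^ 55 := by linarith
      have h8 : I.x ^ 4 / π.c.Cp ^ 4 ≤ (l8pD I π).U ^ 4 / π.c.Cp ^ 4 :=
        div_le_div_of_nonneg_right (pow_le_pow_left₀ hx0.le hxU 4) (by positivity)
      have h9 : (l8pZc I π (k + 1) - max (l8pZc I π k) π.c.zs) * (I.x ^ 4 / π.c.Cp ^ 4) ≤ I.x ^ 55 :=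
        (mul_le_mul_of_nonneg_left h8 (by linarith)).trans h7
      have e : I.x ^ 55 = π.c.Cp ^ 4 * I.x ^ 51 * (I.x ^ 4 / π.c.Cp ^ 4) := by
        field_simp
      rw [e] at h9
      exact le_of_mul_le_mul_right h9 (by positivity)
  refine ⟨?_, ?_⟩
  · intro k hk
    have h1 := hmin k hk
    have h2 := hmax k hk
    have h3 := min_add_max (l8pZc I π (k + 1)) π.c.zs
    have h4 := min_add_max (l8pZc I π k) π.c.zs
    have h5 : I.x ^ 55 ≤ I.x ^ 51 := pow_le_pow_of_le_one hx0.le hx1 (by norm_num)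
    have h6 : (4 + π.c.Cp ^ 4) * I.x ^ 51 ≤ I.x ^ 50 := by
      have e : (4 + π.c.Cp ^ 4) * I.x ^ 51 = ((4 + π.c.Cp ^ 4) * I.x) * I.x ^ 50 := by ring
      rw [e]
      calc ((4 + π.c.Cp ^ 4) * I.x) * I.x ^ 50 ≤ 1 * I.x ^ 50 := mul_le_mul_of_nonneg_right hxs (by positivity)
        _ = I.x ^ 50 := one_mul _
    linarith
  · by_contra hcon
    rw [not_le] at hcon
    have hzs : π.c.zs ∈ Icc 0 (l8pD I π).zmax := ⟨hc.zs.le, H.zmax⟩
    have hzm : (l8pD I π).zmax ∈ Icc 0 (l8pD I π).zmax := ⟨hc.zs.le.trans H.zmax, le_rfl⟩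
    have h1 : l8pV I π (l8pZc I π I.n) < l8pV I π π.c.zs := geo.vc.mono (grid.vz I.n).1 hzs hcon
    have h2 : 1 / π.c.Cp ≤ ∫ z in π.c.zs..(l8pD I π).zmax, (l8pD I π).G z := P.mass
    have h3 : ∫ z in π.c.zs..(l8pD I π).zmax, (l8pD I π).G z = l8pV I π (l8pD I π).zmax - l8pV I π π.c.zs :=
      geo.vc.mass _ hzs _ hzm
    have h4 : l8pV I π (l8pD I π).zmax = I.p.ell := geo.vc.vmax
    have h5 : I.dv I.n ≤ I.x ^ 55 := fine.dv_le I.n le_rfl
    rw [hdv, hVls, hvn, ha] at h5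
    rw [(grid.vz I.n).2] at h1
    have h6 : I.x ^ 55 ≤ I.x := by
      calc I.x ^ 55 ≤ I.x ^ 1 := pow_le_pow_of_le_one hx0.le hx1 (by norm_num)
        _ = I.x := pow_one _
    have h7 : I.x < 1 / π.c.Cp := by
      rw [lt_div_iff₀ hCp0]
      have h8 : π.c.Cp ≤ π.c.Cp ^ 4 := by
        calc π.c.Cp = π.c.Cp ^ 1 := (pow_one _).symm
          _ ≤ π.c.Cp ^ 4 := pow_le_pow_right₀ hCp1 (by norm_num)
      nlinarith
    rw [h3, h4] at h2
    linarith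

/-- powers of `x` are small at large sizes -/
theorem l8p_hn_small (c ε : ℝ) (hc : 0 < c) (hε : 0 < ε) : ∃ N0 : ℕ, ∀ p : LlPt, N0 ≤ p.N → p.x ^ c ≤ ε := by
  have h := (tendsto_rpow_neg_atTop (by positivity : 0 < c / 6)).comp tendsto_natCast_atTop_atTop
  obtain ⟨N0, hN0⟩ := Filter.eventually_atTop.1 (h.eventually (Iic_mem_nhds hε))
  refine ⟨N0, fun p hp => ?_⟩
  have h1 := hN0 p.N hp
  unfold LlPt.x
  rw [← Real.rpow_mul (Nat.cast_nonneg _)]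
  have e : -(1 / 6 : ℝ) * c = -(c / 6) := by ring
  rw [e]
  exact h1

theorem l8p_hd_cum_succ (Q : SkStp) (j : ℕ) : skCumH Q (j + 1) = skCumH Q j + (Q.map SkInc.dh).getD j 0 := by
  unfold skCumH
  by_cases h : j < Q.length
  · rw [List.take_succ_eq_append_getElem h, List.map_append, List.sum_append]
    simp [List.getD_eq_getElem?_getD, h]
  · have h' : Q.length ≤ j := not_lt.1 h
    rw [List.take_of_length_le (h'.trans (Nat.le_succ _)), List.take_of_length_le h']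
    simp [List.getD_eq_getElem?_getD, h']

/-- the field length between two cuts of the untilted path -/
theorem l8p_hd_hlen (I : L8In) {k₁ k₂ : ℕ} (h : k₁ ≤ k₂) : (I.sp false).hlen k₁ k₂ = I.hC k₂ - I.hC k₁ := by
  induction k₂, h using Nat.le_induction with
  | base => simp [L8P.hlen]
  | succ k hk ih =>
    have e : (I.sp false).hlen k₁ (k + 1) = (I.sp false).hlen k₁ k + (I.P0.map SkInc.dh).getD k 0 := by
      unfold L8P.hlen
      rw [Finset.sum_Ico_succ_top hk]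
      rfl
    have e2 : I.hC (k + 1) = I.hC k + (I.P0.map SkInc.dh).getD k 0 := l8p_hd_cum_succ I.P0 k
    rw [e, ih, e2]
    ring

theorem l8p_leaf_d3 (𝔹 : LlBase) (F : LlFix) : L8pLeafD3 𝔹 F := by
  intro π S cv c3 cG zr Lq κ hcv hcv1 hc8 hc3 hκ
  obtain ⟨N1, a1⟩ := l8p_hn_small 1 (cv / 2) one_pos (by positivity)
  refine ⟨N1, 0, fun I hat geo clk grid hZ hxU => ⟨fun k₁ k₂ h12 h2n hx1 => ?_, fun k₁ _ hlo => ?_⟩⟩
  · obtain ⟨m1, v1⟩ := grid.vz k₁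
    obtain ⟨m2, v2⟩ := grid.vz k₂
    have hz : l8pZc I π k₁ ≤ l8pZc I π k₂ := grid.zmono h12.le
    have hv12 : l8pVl I k₁ ≤ l8pVl I k₂ := by
      rw [← v1, ← v2]
      exact geo.vc.mono.monotoneOn m1 m2 hz
    have c1 := clk.h k₁ (h12.le.trans h2n) hx1
    have c2 := clk.h k₂ h2n (hx1.trans_le hv12)
    have d3 := geo.d3 _ m1 _ m2 hz (by rw [v1]; exact hx1.le)
    rw [v1, v2, ← c1, ← c2] at d3
    rw [l8p_hd_hlen I h12.le]
    exact d3
  · have hx0 : 0 < I.x := I.x_pos hat.ok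
    have b1 : I.x ≤ cv / 2 := by
      have := a1 I.p hat.hN
      rwa [Real.rpow_one] at this
    obtain ⟨m1, v1⟩ := grid.vz k₁
    have hzlo : (l8pD I π).zlo = π.c1 * I.Y := rfl
    have hY : I.Y = I.U * I.Z := rfl
    have hU0 : 0 < I.U := hx0.trans_le hxU
    have hUY : I.U ≤ I.Y := by rw [hY]; exact le_mul_of_one_le_right hU0.le hZ
    have hlow : cv * skwR (l8pZc I π k₁) ≤ l8pVl I k₁ := by
      rw [← v1]
      exact geo.vc.lower _ m1
    refine lt_of_lt_of_le ?_ hlow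
    unfold skwR
    rcases le_total (l8pZc I π k₁) 1 with h | h
    · rw [min_eq_left h]
      rw [hzlo] at hlo
      have e1 : cv * (π.c1 * I.Y / 4) ≤ cv * l8pZc I π k₁ := mul_le_mul_of_nonneg_left hlo hcv.le
      have e2 : 8 * I.Y ≤ cv * π.c1 * I.Y := mul_le_mul_of_nonneg_right hc8 (hU0.le.trans hUY)
      nlinarith
    · rw [min_eq_right h]
      linarith

theorem l8p_leaf_q (𝔹 : LlBase) (F : LlFix) : L8pLeafQ 𝔹 F := by
  intro π S cv c3 cG zr Lq κ hLq hκ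
  obtain ⟨N1, a1⟩ := l8p_hn_small 1 (1 / (2 * Lq)) one_pos (by positivity)
  refine ⟨N1, 41, fun I hat geo grid mesh k hk => ?_⟩
  have hx0 : 0 < I.x := I.x_pos hat.ok
  have hx1 : I.x ≤ 1 := I.x_le_one hat.ok
  have b1 : I.x ≤ 1 / (2 * Lq) := by
    have := a1 I.p hat.hN
    rwa [Real.rpow_one] at this
  have hLx : Lq * I.x ≤ 1 / 2 := by
    rw [le_div_iff₀ (by positivity)] at b1
    linarith
  have hxh : I.x ≤ 1 / 2 := by nlinarith
  have q1 := hat.fine.q_link k hk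
  rw [show (41 : ℝ) = ((41 : ℕ) : ℝ) by norm_num, Real.rpow_natCast] at q1
  obtain ⟨m1, v1⟩ := grid.vz (k + 1)
  obtain ⟨m0, v0⟩ := grid.vz k
  have e1 : l8pVl I (k + 1) = I.v k := by simp [l8pVl]
  have q2 : I.p.q I.F I.𝔹 (I.v k) = (l8pD I π).q (l8pZc I π (k + 1)) := by
    rw [← e1, ← v1]
    exact geo.q _ m1
  have q3 := geo.qlip _ m1 _ m0
  have q4 := mesh.zmesh k hk
  have hz : 0 ≤ l8pZc I π (k + 1) - l8pZc I π k := sub_nonneg.2 (grid.zmono (Nat.le_succ k))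
  rw [abs_of_nonneg hz] at q3
  rw [q2] at q1
  have p40 : 0 < I.x ^ 40 := pow_pos hx0 40
  have e41 : I.x ^ 41 ≤ I.x ^ 40 * (1 / 2) := by
    rw [pow_succ]
    exact mul_le_mul_of_nonneg_left hxh p40.le
  have e50 : Lq * I.x ^ 50 ≤ I.x ^ 40 * (1 / 2) := by
    have e : Lq * I.x ^ 50 = I.x ^ 40 * (I.x ^ 9 * (Lq * I.x)) := by ring
    rw [e]
    refine mul_le_mul_of_nonneg_left ?_ p40.le
    calc I.x ^ 9 * (Lq * I.x) ≤ 1 * (1 / 2) := mul_le_mul (pow_le_one₀ hx0.le hx1) hLx (by positivity) zero_le_one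
      _ = 1 / 2 := one_mul _
  calc |I.q k - (l8pD I π).q (l8pZc I π k)|
      ≤ |I.q k - (l8pD I π).q (l8pZc I π (k + 1))| + |(l8pD I π).q (l8pZc I π (k + 1)) - (l8pD I π).q (l8pZc I π k)| := abs_sub_le _ _ _
    _ ≤ I.x ^ 41 + Lq * (l8pZc I π (k + 1) - l8pZc I π k) := add_le_add q1 q3
    _ ≤ I.x ^ 41 + Lq * I.x ^ 50 := by
        have := mul_le_mul_of_nonneg_left q4 (by linarith : 0 ≤ Lq)
        linarith
    _ ≤ I.x ^ 40 := by linarith

/-! ### STR (helper21) -/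

/-- the projection bound is monotone in the constant -/
theorem l8p_str_proj_mono {Ω : Type} [MeasurableSpace Ω] {m : ℕ} (P : L8P Ω m) {r : ℕ} {c c' vmin hmin : ℝ} (hc : c ≤ c') (hv : 0 < vmin)
    (hh : 0 < hmin) (h : P.Proj r c vmin hmin) : P.Proj r c' vmin hmin := by
  intro k₁ k₂ h1 h2 h3 h4 ω u
  refine (h k₁ k₂ h1 h2 h3 h4 ω u).trans ?_
  have hv' : 0 < P.v k₁ := hv.trans_le h3
  have hh' : 0 < P.hlen k₁ k₂ := hh.trans_le h4
  have hd : 0 ≤ (P.v k₁ ^ 2 * m * P.hlen k₁ k₂) ^ r := by positivity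
  have hs : 0 ≤ (∑ i, u i ^ 2) ^ r := pow_nonneg (Finset.sum_nonneg fun i _ => sq_nonneg _) r
  exact div_le_div_of_nonneg_right (mul_le_mul_of_nonneg_right hc hs) hd

/-- the constant of the projection bound of order `2 r` -/
noncomputable def l8pStrC (r : ℕ) : ℝ := if h : 1 ≤ r then max 1 (l8i_proj r h).choose else 1

theorem l8pStrC_eqns_cite : True := by
  have := @l8pStrC.eq_1
  trivial

theorem l8p_str_C_one (r : ℕ) : 1 ≤ l8pStrC r := by
  unfold l8pStrC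
  split_ifs
  · exact le_max_left _ _
  · exact le_rfl

theorem l8p_str_x6 (p : LlPt) : p.x ^ 6 = 1 / (p.N : ℝ) := by
  have hN0 : (0 : ℝ) ≤ p.N := Nat.cast_nonneg _
  unfold LlPt.x
  rw [← Real.rpow_natCast, ← Real.rpow_mul hN0]
  norm_num
  rw [Real.rpow_neg_one]

theorem l8p_leaf_cut (𝔹 : LlBase) (F : LlFix) : L8pLeafCut 𝔹 F := by
  intro π S CW cv c3 cG zr Lq κ hc hCW _
  have hCp1 : 1 ≤ π.c.Cp := hc.Cp
  have hCp0 : 0 < π.c.Cp := by linarith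
  obtain ⟨N0, hN0⟩ := skw_llb_small 1 (1 / (2 * CW * π.c.Cp)) one_pos (by positivity)
  refine ⟨N0, (π.K : ℝ) + 1, ?_⟩
  intro I hat geo grid mesh P
  have hx0 : 0 < I.x := I.x_pos hat.ok
  have hx1 : I.x ≤ 1 := I.x_le_one hat.ok
  have hxs : 2 * CW * π.c.Cp * I.x ≤ 1 := by
    have h1 : I.x ^ (1 : ℝ) ≤ 1 / (2 * CW * π.c.Cp) := hN0 I.p hat.hN
    rw [Real.rpow_one, le_div_iff₀ (by positivity)] at h1
    linarith
  have fine : I.Fine (I.x ^ (π.K + 1)) := by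
    have := hat.fine
    rwa [show (π.K : ℝ) + 1 = ((π.K + 1 : ℕ) : ℝ) by push_cast; ring, Real.rpow_natCast] at this
  -- the width at `zmax`
  have hlen := P.len_lo
  have hzz : ¬ (l8pD I π).zmax ≤ π.c.zs := by
    have : 0 < 2 / π.c.Cp := by positivity
    linarith
  have hH : l8pH I π (l8pD I π).zmax = (l8pD I π).hpl (l8pD I π).zmax := by
    show skwH π.c (l8pD I π) (l8pD I π).zmax = _
    unfold skwH
    rw [if_neg hzz]
  have hst : 1 / π.c.Cp ≤ l8pH I π (l8pD I π).zmax := by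
    rw [hH]
    refine P.strip _ ⟨?_, le_rfl⟩
    have : 0 < 1 / π.c.Cp := by positivity
    linarith
  have hinv : 2 * CW * I.x ≤ 1 / π.c.Cp := by
    rw [le_div_iff₀ hCp0]
    linarith
  have hCW0 : 0 < 2 * CW := by linarith
  constructor
  · have h1 := mesh.zmesh I.n le_rfl
    rw [grid.ztop] at h1
    have h2 : I.x ^ 50 ≤ I.x := by
      calc I.x ^ 50 ≤ I.x ^ 1 := pow_le_pow_of_le_one hx0.le hx1 (by norm_num)
        _ = I.x := pow_one _
    calc 2 * CW * ((l8pD I π).zmax - l8pZc I π I.n) ≤ 2 * CW * I.x := mul_le_mul_of_nonneg_left (h1.trans h2) hCW0.le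
      _ ≤ 1 / π.c.Cp := hinv
      _ ≤ _ := hst
  · have hzn := (grid.vz I.n).1
    have hzm : (l8pD I π).zmax ∈ Icc 0 (l8pD I π).zmax := ⟨hzn.1.trans hzn.2, le_rfl⟩
    have h3 : ∫ z in (l8pZc I π I.n)..(l8pD I π).zmax, (l8pD I π).G z = l8pV I π (l8pD I π).zmax - l8pV I π (l8pZc I π I.n) :=
      geo.vc.mass _ hzn _ hzm
    have h4 := (grid.vz (I.n + 1)).2
    rw [grid.ztop] at h4
    have h5 : I.dv I.n ≤ I.x ^ (π.K + 1) := fine.dv_le I.n le_rfl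
    have h6 : I.dv I.n = l8pVl I (I.n + 1) - l8pVl I I.n := by
      have e1 : l8pVl I (I.n + 1) = I.v I.n := by simp [l8pVl]
      rw [e1]; rfl
    rw [h3, h4, (grid.vz I.n).2, ← h6]
    have ht : (l8pD I π).tiny = I.x ^ π.K := rfl
    rw [ht]
    have hK0 : 0 < I.x ^ π.K := pow_pos hx0 _
    calc 2 * CW * I.dv I.n ≤ 2 * CW * I.x ^ (π.K + 1) := mul_le_mul_of_nonneg_left h5 hCW0.le
      _ = I.x ^ π.K * (2 * CW * I.x) := by rw [pow_succ]; ring
      _ ≤ I.x ^ π.K * (1 / π.c.Cp) := mul_le_mul_of_nonneg_left hinv hK0.le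
      _ ≤ I.x ^ π.K * l8pH I π (l8pD I π).zmax := mul_le_mul_of_nonneg_left hst hK0.le

theorem l8p_leaf_str : L8pLeafStr := by
  refine ⟨⟨fun r => (1 + (2 * r : ℝ) ^ 2 / 3) ^ r, l8pStrC⟩, fun r => ?_, l8p_str_C_one, fun I hI hadm => ?_⟩
  · exact one_le_pow₀ (le_add_of_nonneg_right (by positivity))
  have hN := hI.pt.N2
  have hm : 1 ≤ I.m := by have := hI.m_lo; omega
  have hP : I.P false = llMat I.LP := rfl
  have ha1 : 1 ≤ I.a := by
    unfold L8In.a LlPt.a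
    split_ifs
    · norm_num
    · exact hI.pt.ell1
  have ha4 : I.a ≤ 4 := by
    unfold L8In.a LlPt.a
    split_ifs
    · exact le_rfl
    · refine hI.pt.ell2.trans ?_
      calc (2 : ℝ) ^ (1 / 6 : ℝ) ≤ (2 : ℝ) ^ (1 : ℝ) := Real.rpow_le_rpow_of_exponent_le (by norm_num) (by norm_num)
        _ ≤ 4 := by norm_num
  have ha0 : 0 < I.a := by linarith
  have hadm' : SkAdm I.a (I.P false) := hadm.1
  have hx0 : 0 < I.x := by
    unfold L8In.x LlPt.x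
    exact Real.rpow_pos_of_pos (by exact_mod_cast (by omega : 0 < I.p.N)) _
  refine ⟨l8i_ok I.m hm I.a ha0 _ hadm', hm, ha1, ha4, fun r hr => l8i_pin I.m hm I.a ha0 _ hadm' r hr, fun r hr => ?_, ?_, ?_⟩
  · have h := (l8i_proj r hr).choose_spec.2 I.m I.a (I.P false) hm ha0 ha4 hadm' (I.x ^ 80) (I.x ^ 80) (by positivity) (by positivity)
    refine l8p_str_proj_mono _ ?_ (by positivity) (by positivity) h
    show _ ≤ (l8pStrC r * 1 ^ 2) ^ (2 * r)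
    have e : l8pStrC r = max 1 (l8i_proj r hr).choose := by unfold l8pStrC; rw [dif_pos hr]
    rw [one_pow, mul_one]
    calc (l8i_proj r hr).choose ≤ l8pStrC r := by rw [e]; exact le_max_right _ _
      _ = l8pStrC r ^ 1 := (pow_one _).symm
      _ ≤ l8pStrC r ^ (2 * r) := pow_le_pow_right₀ (l8p_str_C_one r) (by omega)
  · show I.LP.length ≤ (I.P false).length
    rw [hP]; simp [llMat]
  · have e : I.x ^ 6 = 1 / (I.p.N : ℝ) := l8p_str_x6 I.p
    rw [e]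
    have hm' : (0 : ℝ) < I.m := by exact_mod_cast hm
    have hN' : (0 : ℝ) < I.p.N := by exact_mod_cast (by omega : 0 < I.p.N)
    have h2 : (I.p.N : ℝ) ≤ 2 * I.m := by exact_mod_cast hI.m_lo
    rw [div_le_iff₀ hm']
    have : 2 * (1 / (I.p.N : ℝ)) * I.m = (2 * I.m) / I.p.N := by ring
    rw [this, le_div_iff₀ hN']
    linarith

theorem l8p_leaf_num (𝔹 : LlBase) : L8pLeafNum 𝔹 := by
  intro F0 pB pS h0 h1 π CW zr κ heps hc1 hCW hzr hκ
  obtain ⟨N1, a1⟩ := l8p_hn_small κ (zr / (16 * π.c1)) hκ (by positivity)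
  obtain ⟨N2, a2⟩ := l8p_hn_small π.eps (1 / (4 * CW)) heps (by positivity)
  obtain ⟨N3, a3⟩ := l8p_hn_small 40 (1 / (2 * CW)) (by norm_num) (by positivity)
  obtain ⟨N4, a4⟩ := l8p_hn_small κ (1 / 2) hκ (by norm_num)
  refine ⟨max (max N1 N2) (max (max N3 N4) 4), 0, fun I hat hZ => ?_⟩
  have b1 := a1 I.p (((le_max_left _ _).trans (le_max_left _ _)).trans hat.hN)
  have b2 := a2 I.p (((le_max_right _ _).trans (le_max_left _ _)).trans hat.hN)
  have b3 := a3 I.p ((((le_max_left _ _).trans (le_max_left _ _)).trans (le_max_right _ _)).trans hat.hN)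
  have b4 := a4 I.p ((((le_max_right _ _).trans (le_max_left _ _)).trans (le_max_right _ _)).trans hat.hN)
  have hN4 : 4 ≤ I.p.N := ((le_max_right _ _).trans (le_max_right _ _)).trans hat.hN
  clear a1 a2 a3 a4
  have hx0 : 0 < I.x := I.x_pos hat.ok
  have hx1 : I.x ≤ 1 := I.x_le_one hat.ok
  have hsS : I.F.sS = pB.sStar := by rw [hat.hF]; rfl
  have heta : I.F.eta = pB.eta := by rw [hat.hF]; rfl
  have hpS : I.F.pS = pS := by rw [hat.hF]; rfl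
  have hl0 : 0 < I.lam := lt_of_lt_of_le (Real.rpow_pos_of_pos hx0 _) hat.ok.pt.lam_lo
  have hlhi : I.lam ≤ I.x ^ pS := hpS ▸ hat.ok.pt.lam_hi
  have hl1 : I.lam ≤ 1 := hlhi.trans (Real.rpow_le_one hx0.le hx1 h0.le)
  have t1 := pB.tau_le
  have t2 := pB.eta_le
  have t3 := pB.tau_pos
  have t4 := pB.eta_pos
  have hs : pB.sStar = 1 / 2 - pB.tau := rfl
  obtain ⟨t, ht⟩ : ∃ t, t = I.x * I.lam ^ (-(pB.sStar / 2)) := ⟨_, rfl⟩
  have ht0 : 0 < t := by rw [ht]; exact mul_pos hx0 (Real.rpow_pos_of_pos hl0 _)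
  have hUdef : I.U = min 1 t := by rw [ht, ← hsS]; rfl
  have hU0 : 0 < I.U := by rw [hUdef]; exact lt_min one_pos ht0
  have hY : I.Y = I.U * I.Z := rfl
  have hUY : I.U ≤ I.Y := by rw [hY]; exact le_mul_of_one_le_right hU0.le hZ
  have hYk : I.Y ≤ I.x ^ κ := hat.hY
  have hU : I.U = t := by
    rw [hUdef]
    apply min_eq_right
    by_contra hc
    rw [not_le] at hc
    rw [hUdef, min_eq_left hc.le] at hUY
    have : I.x ^ κ ≤ 1 / 2 := b4
    linarith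
  have hxU : I.x ≤ I.U := by
    rw [hU, ht]
    exact le_mul_of_one_le_right hx0.le (Real.one_le_rpow_of_pos_of_le_one_of_nonpos hl0 hl1 (by linarith))
  have hlam1 : I.lam1 = I.lam ^ (1 + pB.eta) := by rw [← heta]; rfl
  have hg0 : I.g0 = I.lam ^ ((3 * pB.sStar - 1 - pB.eta) / 2) := by rw [← heta, ← hsS]; rfl
  have hc' : 0 < (3 * pB.sStar - 1 - pB.eta) / 2 := by rw [hs]; linarith
  refine
    { x0 := hx0
      g0a := ?_
      g0b := ?_
      g0c := by rw [hg0]; exact Real.rpow_pos_of_pos hl0 _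
      lam1a := ?_
      lam1b := by rw [hlam1]; exact Real.rpow_le_one hl0.le hl1 (by linarith)
      Lg := ?_
      xU := hxU
      Yz := by rw [← hY]; exact le_mul_of_one_le_left (hU0.le.trans hUY) hc1
      zlox := (hxU.trans hUY).trans (le_mul_of_one_le_left (hU0.le.trans hUY) hc1)
      zloreg := ?_
      bs := ?_
      ts := ?_ }
  · apply le_of_eq
    have e1 : Real.sqrt I.lam1 = I.lam ^ ((1 + pB.eta) / 2) := by
      rw [hlam1, Real.sqrt_eq_rpow, ← Real.rpow_mul hl0.le]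
      congr 1
      ring
    have e2 : (I.lam ^ (-(pB.sStar / 2))) ^ 3 = I.lam ^ (-(3 * pB.sStar / 2)) := by
      rw [← Real.rpow_natCast, ← Real.rpow_mul hl0.le]
      congr 1
      push_cast
      ring
    rw [e1, hg0, hU, ht, mul_pow, e2, div_eq_mul_inv, ← Real.rpow_neg hl0.le]
    have e3 : I.lam ^ ((3 * pB.sStar - 1 - pB.eta) / 2) * (I.x ^ 3 * I.lam ^ (-(3 * pB.sStar / 2)))
        = I.x ^ 3 * (I.lam ^ ((3 * pB.sStar - 1 - pB.eta) / 2) * I.lam ^ (-(3 * pB.sStar / 2))) := by ring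
    rw [e3, ← Real.rpow_add hl0]
    congr 2
    ring
  · rw [hg0]
    calc I.lam ^ ((3 * pB.sStar - 1 - pB.eta) / 2) ≤ (I.x ^ pS) ^ ((3 * pB.sStar - 1 - pB.eta) / 2) :=
          Real.rpow_le_rpow hl0.le hlhi hc'.le
      _ = I.x ^ (pS * (3 * pB.sStar - 1 - pB.eta) / 2) := by
          rw [← Real.rpow_mul hx0.le]
          congr 1
          ring
  · rw [hlam1]
    calc I.x ^ 14 = I.x ^ (14 : ℝ) := by rw [← Real.rpow_natCast]; norm_num
      _ ≤ I.x ^ (12 * (1 + pB.eta)) := Real.rpow_le_rpow_of_exponent_ge hx0 hx1 (by linarith)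
      _ = (I.x ^ (12 : ℝ)) ^ (1 + pB.eta) := by rw [← Real.rpow_mul hx0.le]
      _ ≤ I.lam ^ (1 + pB.eta) := Real.rpow_le_rpow (Real.rpow_nonneg hx0.le _) hat.ok.pt.lam_lo (by linarith)
  · have hN : (4 : ℝ) ≤ I.p.N := by exact_mod_cast hN4
    have e : Real.log (1 / I.x) = 1 / 6 * Real.log I.p.N := by
      rw [one_div, Real.log_inv]
      show -Real.log ((I.p.N : ℝ) ^ (-(1 / 6) : ℝ)) = _
      rw [Real.log_rpow (by linarith)]
      ring
    have h4 : Real.log 4 ≤ Real.log I.p.N := Real.log_le_log (by norm_num) hN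
    have h2 : Real.log 4 = 2 * Real.log 2 := by
      rw [show (4 : ℝ) = 2 ^ 2 by norm_num, Real.log_pow]; norm_num
    have := Real.log_two_gt_d9
    rw [e]
    linarith
  · have : I.Y ≤ zr / (16 * π.c1) := hYk.trans b1
    rw [le_div_iff₀ (by positivity)] at this
    linarith
  · have : I.x ^ π.eps ≤ 1 / (4 * CW) := b2
    rw [le_div_iff₀ (by positivity)] at this
    linarith
  · have : I.x ^ (40 : ℝ) ≤ 1 / (2 * CW) := b3
    rwa [show (40 : ℝ) = ((40 : ℕ) : ℝ) by norm_num, Real.rpow_natCast] at this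

/-! ### DEV (helper21) -/

/-- the mass cell of the cut at the mass `v` contains `v` -/
theorem l8p_dev_cell {a : ℝ} : ∀ (P : SkStp), SkAdm a P → ∀ {v : ℝ}, 0 ≤ v → v < a →
    v < skMs a P (saIdx P v) ∧ skMs a P (saIdx P v) - skGap a P (saIdx P v) ≤ v
  | [], _, v, h0, h1 => by
      have e : saIdx [] v = 0 := rfl
      rw [e]
      simp [skMs, skGap, h0, h1]
  | e :: P, hP, v, h0, h1 => by
      have hs := List.pairwise_cons.1 hP.1
      have hP' : SkAdm a P := ⟨hs.2, fun e' he' => hP.2 e' (List.mem_cons_of_mem _ he')⟩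
      by_cases h : e.m ≤ v
      · obtain ⟨i1, i2⟩ := l8p_dev_cell P hP' h0 h1
        rw [sap_idx_cons_le e P h]
        have e1 : skMs a (e :: P) (saIdx P v + 1) = skMs a P (saIdx P v) := by simp [skMs]
        refine ⟨by rw [e1]; exact i1, ?_⟩
        unfold skGap at i2 ⊢
        rw [e1, if_neg (Nat.succ_ne_zero _), Nat.add_sub_cancel]
        rcases Nat.eq_zero_or_pos (saIdx P v) with hz | hz
        · rw [hz]
          simp only [skMs, List.map_cons, List.getD_cons_zero]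
          linarith
        · rw [if_neg hz.ne'] at i2
          obtain ⟨j, hj⟩ : ∃ j, saIdx P v = j + 1 := ⟨saIdx P v - 1, by omega⟩
          rw [hj] at i2 ⊢
          simp only [Nat.add_sub_cancel] at i2
          have e2 : skMs a (e :: P) (j + 1) = skMs a P j := by simp [skMs]
          rw [e2]
          linarith
      · push Not at h
        rw [sap_idx_cons_lt hs.1 h]
        simp [skMs, skGap, h, h0]

/-- integral of a nonnegative step function over `[r,R]`: at most the sum over the cuts whose right end lies in `[lo,hi]` -/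
theorem l8p_dev_int (I : L8In) (hadm : SkAdm I.a I.P0) (ha : 0 < I.a) {η r R lo hi : ℝ} (g : ℕ → ℝ) (hg : ∀ k, 0 ≤ g k)
    (hdv : ∀ k ≤ I.n, I.dv k ≤ η) (h0 : 0 ≤ r) (hrR : r ≤ R) (hR : R ≤ I.a) (hlo : lo ≤ r) (hhi : R + η ≤ hi) :
    ∫ v in r..R, g (l8pIdx I v) ≤ I.int lo hi g := by
  classical
  set g' : ℕ → ℝ := fun k => if lo ≤ I.v k ∧ I.v k ≤ hi then g k else 0 with hg'
  have hg'0 : ∀ k, 0 ≤ g' k := fun k => by
    simp only [hg']; split_ifs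
    · exact hg k
    · exact le_rfl
  have hn : I.n = I.P0.length := by
    show I.LP.length = (llMat I.LP).length
    simp [llMat]
  have e1 : ∫ v in r..R, g (l8pIdx I v) = ∫ v in r..R, g' (saIdx I.P0 v) := by
    refine intervalIntegral.integral_congr_ae ?_
    filter_upwards [compl_mem_ae_iff.2 (measure_singleton R)] with v hv hv'
    rw [uIoc_of_le hrR] at hv'
    have hvR : v < R := lt_of_le_of_ne hv'.2 hv
    obtain ⟨c1, c2⟩ := l8p_dev_cell I.P0 hadm (h0.trans hv'.1.le) (hvR.trans_le hR)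
    have c3 := hdv (saIdx I.P0 v) (by rw [hn]; exact sap_idx_le _ _)
    have c3' : skGap I.a I.P0 (saIdx I.P0 v) ≤ η := c3
    show g (saIdx I.P0 v) = g' (saIdx I.P0 v)
    simp only [hg']
    rw [if_pos]
    constructor
    · show lo ≤ skMs I.a I.P0 (saIdx I.P0 v)
      linarith [hv'.1]
    · show skMs I.a I.P0 (saIdx I.P0 v) ≤ hi
      linarith
  have e2 : ∫ v in r..R, g' (saIdx I.P0 v) ≤ ∫ v in (0 : ℝ)..I.a, g' (saIdx I.P0 v) := by
    refine intervalIntegral.integral_mono_interval h0 hrR hR ?_ (sap_idx_intble _ _ _ _)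
    exact Filter.Eventually.of_forall fun v => hg'0 _
  rw [e1]
  refine e2.trans (le_of_eq ?_)
  rw [sap_sumInt I.a I.P0 g' ha hadm, ← hn]
  unfold L8In.int
  rw [Finset.sum_filter]
  refine Finset.sum_congr rfl fun k _ => ?_
  simp only [hg']
  split_ifs
  · rfl
  · simp

theorem l8p_dev_int_nonneg (I : L8In) {lo hi : ℝ} {g : ℕ → ℝ} (hg : ∀ k ≤ I.n, 0 ≤ g k) (hdv : ∀ k ≤ I.n, 0 ≤ I.dv k) : 0 ≤ I.int lo hi g := by
  unfold L8In.int
  refine Finset.sum_nonneg fun k hk => ?_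
  have hk' : k ≤ I.n := Nat.lt_succ_iff.1 (Finset.mem_range.1 (Finset.mem_filter.1 hk).1)
  exact mul_nonneg (hdv k hk') (hg k hk')

theorem l8p_dev_int_mono (I : L8In) {lo hi : ℝ} {g g' : ℕ → ℝ} (hg : ∀ k ≤ I.n, g k ≤ g' k) (hdv : ∀ k ≤ I.n, 0 ≤ I.dv k) :
    I.int lo hi g ≤ I.int lo hi g' := by
  unfold L8In.int
  refine Finset.sum_le_sum fun k hk => ?_
  have hk' : k ≤ I.n := Nat.lt_succ_iff.1 (Finset.mem_range.1 (Finset.mem_filter.1 hk).1)
  exact mul_le_mul_of_nonneg_left (hg k hk') (hdv k hk')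

theorem l8p_dev_dy_pos (j : ℕ) : 0 < L8In.dy j := by
  unfold L8In.dy; positivity

/-- every dyadic budget is at most `Y⁴`, by the definition of `Z` -/
theorem l8p_dev_bud (I : L8In) (hU : 0 < I.U) (hA : ∀ k ≤ I.n, 0 ≤ I.A k) (hdv : ∀ k ≤ I.n, 0 ≤ I.dv k) {j : ℕ} (hj : j < I.p.N + 3)
    (hUj : I.U ≤ L8In.dy j) : L8In.dy j * I.int (L8In.dy j / 4) (4 * L8In.dy j) I.A ≤ (I.U * I.Z) ^ 4 := by
  have hterm : ∀ i ∈ Finset.range (I.p.N + 3), 0 ≤ (if I.U ≤ L8In.dy i then L8In.dy i * I.int (L8In.dy i / 4) (4 * L8In.dy i) I.A else 0) := by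
    intro i _
    split_ifs
    · exact mul_nonneg (l8p_dev_dy_pos i).le (l8p_dev_int_nonneg I hA hdv)
    · exact le_rfl
  have h1 : L8In.dy j * I.int (L8In.dy j / 4) (4 * L8In.dy j) I.A ≤ I.bud := by
    have := Finset.single_le_sum hterm (Finset.mem_range.2 hj)
    rw [if_pos hUj] at this
    exact this
  have hb0 : 0 ≤ I.bud := Finset.sum_nonneg hterm
  have hq0 : 0 ≤ I.bud / I.U ^ 4 := by positivity
  have h2 : (I.Z - 1) ^ 4 = I.bud / I.U ^ 4 := by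
    have : I.Z - 1 = (I.bud / I.U ^ 4) ^ (1 / 4 : ℝ) := by unfold L8In.Z; ring
    rw [this, ← Real.rpow_natCast, ← Real.rpow_mul hq0]
    norm_num
  have h3 : 0 ≤ I.Z - 1 := by
    have : I.Z - 1 = (I.bud / I.U ^ 4) ^ (1 / 4 : ℝ) := by unfold L8In.Z; ring
    rw [this]; positivity
  have h4 : (I.Z - 1) ^ 4 ≤ I.Z ^ 4 := pow_le_pow_left₀ h3 (by linarith) 4
  have h5 : I.bud = I.U ^ 4 * (I.Z - 1) ^ 4 := by
    rw [h2]; field_simp
  calc _ ≤ I.bud := h1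
    _ = I.U ^ 4 * (I.Z - 1) ^ 4 := h5
    _ ≤ I.U ^ 4 * I.Z ^ 4 := mul_le_mul_of_nonneg_left h4 (by positivity)
    _ = (I.U * I.Z) ^ 4 := by ring

theorem l8p_dev_Z1 (I : L8In) (hA : ∀ k ≤ I.n, 0 ≤ I.A k) (hdv : ∀ k ≤ I.n, 0 ≤ I.dv k) : 1 ≤ I.Z := by
  have hb0 : 0 ≤ I.bud := by
    refine Finset.sum_nonneg fun i _ => ?_
    split_ifs
    · exact mul_nonneg (l8p_dev_dy_pos i).le (l8p_dev_int_nonneg I hA hdv)
    · exact le_rfl
  unfold L8In.Z
  have : 0 ≤ (I.bud / I.U ^ 4) ^ (1 / 4 : ℝ) := Real.rpow_nonneg (by positivity) _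
  linarith

/-- a dyadic mass in `(r, 2r]` -/
theorem l8p_dev_dyad {r : ℝ} (h0 : 0 < r) (h4 : r < 4) : ∃ j : ℕ, r < L8In.dy j ∧ L8In.dy j ≤ 2 * r := by
  classical
  have hex : ∃ j : ℕ, L8In.dy j ≤ r := by
    have h := (tendsto_pow_atTop_nhds_zero_of_lt_one (r := (2 : ℝ)⁻¹) (by norm_num) (by norm_num)).const_mul 4
    rw [mul_zero] at h
    obtain ⟨j, hj⟩ := (h.eventually (Iic_mem_nhds h0)).exists
    exact ⟨j, hj⟩
  have hne : Nat.find hex ≠ 0 := by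
    intro h
    have := Nat.find_spec hex
    rw [h] at this
    unfold L8In.dy at this
    norm_num at this
    linarith
  obtain ⟨j, hj⟩ := Nat.exists_eq_succ_of_ne_zero hne
  refine ⟨j, ?_, ?_⟩
  · have := Nat.find_min hex (m := j) (by omega)
    exact not_le.1 this
  · have := Nat.find_spec hex
    rw [hj] at this
    unfold L8In.dy at this ⊢
    rw [Nat.succ_eq_add_one, pow_succ] at this
    linarith

/-- the index of a dyadic mass above `x` -/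
theorem l8p_dev_dyad_lt {p : LlPt} (hN : 2 ≤ p.N) {j : ℕ} (h : p.x < L8In.dy j) : j < p.N + 3 := by
  by_contra hc
  push Not at hc
  have hN0 : (0 : ℝ) < p.N := by exact_mod_cast (by omega : 0 < p.N)
  have hN1 : (1 : ℝ) ≤ p.N := by exact_mod_cast (by omega : 1 ≤ p.N)
  have h1 : L8In.dy j ≤ L8In.dy (p.N + 3) := by
    unfold L8In.dy
    exact mul_le_mul_of_nonneg_left (pow_le_pow_of_le_one (by norm_num) (by norm_num) hc) (by norm_num)
  have h2 : L8In.dy (p.N + 3) = ((2 : ℝ) ^ (p.N + 1))⁻¹ := by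
    unfold L8In.dy
    rw [inv_pow, pow_add, pow_add]
    norm_num
    field_simp
    norm_num
  have h3 : (p.N : ℝ) < 2 ^ (p.N + 1) := by
    have : p.N < 2 ^ (p.N + 1) := (Nat.lt_two_pow_self).trans (Nat.pow_lt_pow_right (by norm_num) (by omega))
    exact_mod_cast this
  have h4 : ((2 : ℝ) ^ (p.N + 1))⁻¹ < (p.N : ℝ)⁻¹ := inv_strictAnti₀ hN0 h3
  have h5 : (p.N : ℝ)⁻¹ ≤ p.x := by
    unfold LlPt.x
    rw [← Real.rpow_neg_one]
    exact Real.rpow_le_rpow_of_exponent_le hN1 (by norm_num)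
  linarith

/-- every mass of `[0,ℓ]` has a coordinate `z` -/
theorem l8p_dev_surj {I : L8In} {π : L8pPar} {cv : ℝ} (vc : SkwInVConcl cv (l8pProf I π) (l8pIn I π)) (hz : 0 ≤ (l8pD I π).zmax) {v : ℝ}
    (h0 : 0 ≤ v) (h1 : v ≤ I.p.ell) : ∃ z ∈ Icc 0 (l8pD I π).zmax, l8pV I π z = v := by
  have h := intermediate_value_Icc hz vc.cont
  have hv : v ∈ Icc (skwInV (l8pProf I π) (l8pIn I π) 0) (skwInV (l8pProf I π) (l8pIn I π) ((l8pIn I π).pf (l8pProf I π)).zmax) := by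
    rw [vc.v0, vc.vmax]; exact ⟨h0, h1⟩
  obtain ⟨z, hz, e⟩ := h hv
  exact ⟨z, hz, e⟩

/-- the reference overlap is Lipschitz in the reference clock -/
theorem l8p_dev_qK {I : L8In} {π : L8pPar} {cv c3 cG zr Lq : ℝ} (geo : L8pGeo I π cv c3 cG zr Lq) (hzs : 0 ≤ π.c.zs) (hell : 0 < I.p.ell) {v v' : ℝ}
    (h0 : 0 ≤ v) (h1 : v ≤ I.p.ell) (h0' : 0 ≤ v') (h1' : v' ≤ I.p.ell) :
    |I.p.q I.F I.𝔹 v - I.p.q I.F I.𝔹 v'| ≤ Lq * (I.p.ell ^ 2 * |I.p.K I.F I.𝔹 v - I.p.K I.F I.𝔹 v'|) := by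
  have hzm : 0 ≤ (l8pD I π).zmax := hzs.trans geo.zsm
  obtain ⟨z, hz, rfl⟩ := l8p_dev_surj geo.vc hzm h0 h1
  obtain ⟨z', hz', rfl⟩ := l8p_dev_surj geo.vc hzm h0' h1'
  rw [geo.q z hz, geo.q z' hz', geo.K z hz, geo.K z' hz']
  have ezs : (l8pProf I π).zs = π.c.zs := geo.zs.symm
  have e1 : ∀ y, (l8pD I π).q y = (l8pD I π).q (min y π.c.zs) := by
    intro y
    show (l8pIn I π).Gm (min y (l8pProf I π).zs) = (l8pIn I π).Gm (min (min y π.c.zs) (l8pProf I π).zs)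
    rw [ezs, min_assoc, min_self]
  have m1 : ∀ y ∈ Icc 0 (l8pD I π).zmax, min y π.c.zs ∈ Icc 0 (l8pD I π).zmax := fun y hy =>
    ⟨le_min hy.1 hzs, (min_le_left _ _).trans hy.2⟩
  rw [e1 z, e1 z']
  refine (geo.qlip _ (m1 z hz) _ (m1 z' hz')).trans (le_of_eq ?_)
  congr 1
  rw [← mul_sub, abs_mul, abs_of_pos (by positivity : 0 < (I.p.ell ^ 2)⁻¹), ← mul_assoc, mul_inv_cancel₀ (by positivity), one_mul]

theorem l8p_dev_cumK_succ (Q : LlStp) {j : ℕ} (h : j < Q.length) : llCumK Q (j + 1) = llCumK Q j + Q[j].dK := by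
  unfold llCumK
  rw [List.take_succ_eq_append_getElem h, List.map_append, List.sum_append]
  simp

/-- oscillation of the reference clock on the mass cell of a cut -/
theorem l8p_dev_Kcell {I : L8In} {η : ℝ} (fine : I.Fine η) (clk : L8pClk I) {k : ℕ} (hk : k ≤ I.n) :
    I.p.K I.F I.𝔹 (I.v k) - I.p.K I.F I.𝔹 (l8pVl I k) ≤ η := by
  rw [← clk.K k hk]
  rcases hk.eq_or_lt with rfl | hk'
  · have e : I.v I.n = I.a := by
      show (I.P0.map SkInc.m).getD I.n I.a = I.a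
      rw [List.getD_eq_default]
      show (List.map SkInc.m (llMat I.LP)).length ≤ I.LP.length
      simp [llMat]
    rw [e]
    exact fine.K_top
  · have e : I.v k = l8pVl I (k + 1) := by
      show _ = if k + 1 = 0 then 0 else I.v (k + 1 - 1)
      rw [if_neg (Nat.succ_ne_zero k), Nat.add_sub_cancel]
    rw [e, ← clk.K (k + 1) hk']
    show llCumK I.LP (k + 1) - llCumK I.LP k ≤ η
    rw [l8p_dev_cumK_succ I.LP hk']
    have := fine.dK_le _ (List.getElem_mem hk')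
    linarith

theorem l8p_dev_ms_mem {a : ℝ} (ha : 0 ≤ a) {P : SkStp} (hP : SkAdm a P) (j : ℕ) : 0 ≤ skMs a P j ∧ skMs a P j ≤ a := by
  unfold skMs
  by_cases h : j < (P.map SkInc.m).length
  · rw [List.getD_eq_getElem _ _ h]
    have h' : j < P.length := by simpa using h
    have := hP.2 P[j] (List.getElem_mem h')
    simp only [List.getElem_map]
    exact ⟨this.1, this.2.1⟩
  · rw [List.getD_eq_default _ _ (not_lt.1 h)]
    exact ⟨ha, le_rfl⟩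

theorem l8p_dev_sq2 {x y E : ℝ} (h : y ^ 2 ≤ E ^ 2) : (x + y) ^ 2 ≤ 2 * x ^ 2 + 2 * E ^ 2 := by
  nlinarith [sq_nonneg (x - y)]

theorem l8p_dev_abs3 {a b c d e x L : ℝ} (h1 : |a - b| ≤ x) (h2 : c ≤ b) (h3 : d ≤ c) (h4 : b - d ≤ L * (2 * x)) (he : e = (1 + 2 * L) * x) :
    |a - c| ≤ e := by
  have a1 := abs_le.1 h1
  rw [abs_le, he]
  constructor <;> nlinarith [a1.1, a1.2]

/-- the squared deviation is integrable -/
theorem l8p_dev_intble (I : L8In) {q : ℝ → ℝ} (hq : MonotoneOn q (Icc 0 I.a)) (hS : ∀ k, 0 ≤ I.S k ∧ I.S k ≤ 1) {c d : ℝ} (h0 : 0 ≤ c) (hcd : c ≤ d)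
    (hd : d ≤ I.a) : IntervalIntegrable (fun v => (l8pSv I v - q v) ^ 2) volume c d := by
  have hq' : MonotoneOn q (uIcc c d) := by
    rw [uIcc_of_le hcd]
    exact hq.mono (Icc_subset_Icc h0 hd)
  have hf : IntervalIntegrable (fun v => l8pSv I v - q v) volume c d :=
    (sap_idx_intble I.P0 I.S c d).sub hq'.intervalIntegrable
  rw [intervalIntegrable_iff_integrableOn_Ioc_of_le hcd] at hf ⊢
  have hb : ∀ᵐ v ∂(volume.restrict (Ioc c d)), ‖l8pSv I v - q v‖ ≤ 1 + |q c| + |q d| := by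
    refine (ae_restrict_iff' measurableSet_Ioc).2 (Filter.Eventually.of_forall fun v hv => ?_)
    have hvI : v ∈ Icc 0 I.a := ⟨h0.trans hv.1.le, hv.2.trans hd⟩
    have q1 := hq ⟨h0, hcd.trans hd⟩ hvI hv.1.le
    have q2 := hq hvI ⟨h0.trans hcd, hd⟩ hv.2
    have s := hS (l8pIdx I v)
    have s' : 0 ≤ l8pSv I v ∧ l8pSv I v ≤ 1 := s
    rw [Real.norm_eq_abs, abs_le]
    constructor
    · linarith [le_abs_self (q d), abs_nonneg (q c), s'.1]
    · linarith [neg_abs_le (q c), abs_nonneg (q d), s'.2]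
  have := Integrable.bdd_mul hf hf.aestronglyMeasurable hb
  refine this.congr (Filter.Eventually.of_forall fun v => ?_)
  show (l8pSv I v - q v) * (l8pSv I v - q v) = (l8pSv I v - q v) ^ 2
  ring

/-- **the dyadic form of (D1) in the mass**, by the definition of `Z` -/
theorem l8p_dev_dy_est {I : L8In} {π : L8pPar} {cv c3 cG zr Lq : ℝ} (geo : L8pGeo I π cv c3 cG zr Lq) (clk : L8pClk I) (fine : I.Fine (I.x ^ 3))
    (ok : I.Ok) (dir : I.p.sm = false) (hq : MonotoneOn (I.p.q I.F I.𝔹) (Icc 0 I.a)) (hK : MonotoneOn (I.p.K I.F I.𝔹) (Icc 0 I.a)) (hLq : 1 ≤ Lq) (hxs : 3 * (1 + 2 * Lq) * I.x ≤ 1) (hxU : I.x ≤ I.U)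
    (hzs : 0 ≤ π.c.zs) {r : ℝ} (hr : I.U ≤ r) (hr2 : r ≤ I.p.ell) :
    r * ∫ v in r..(min (2 * r) I.p.ell), (l8pSv I v - I.p.q I.F I.𝔹 v) ^ 2 ≤ 3 * (I.U * I.Z) ^ 4 := by
  have hx0 : 0 < I.x := I.x_pos ok
  have hx1 : I.x ≤ 1 := I.x_le_one ok
  have hU0 : 0 < I.U := hx0.trans_le hxU
  have hr0 : 0 < r := hU0.trans_le hr
  have hm : 0 < I.m := by have := ok.m_lo; have := ok.pt.N2; omega
  have hae : I.a = I.p.ell := by
    show (if I.p.sm then 4 else I.p.ell) = I.p.ell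
    rw [dir]; rfl
  have hell1 : 1 ≤ I.p.ell := ok.pt.ell1
  have hell2 : I.p.ell ^ 2 ≤ 2 := by
    have h1 : I.p.ell ≤ (2 : ℝ) ^ (1 / 6 : ℝ) := ok.pt.ell2
    calc I.p.ell ^ 2 ≤ ((2 : ℝ) ^ (1 / 6 : ℝ)) ^ 2 := pow_le_pow_left₀ (by linarith) h1 2
      _ = (2 : ℝ) ^ (1 / 3 : ℝ) := by
          rw [← Real.rpow_natCast, ← Real.rpow_mul (by norm_num)]; norm_num
      _ ≤ (2 : ℝ) ^ (1 : ℝ) := Real.rpow_le_rpow_of_exponent_le (by norm_num) (by norm_num)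
      _ = 2 := by norm_num
  have hell4 : I.p.ell < 2 := by nlinarith
  have ha0 : 0 < I.a := by rw [hae]; linarith
  have hadm : SkAdm I.a I.P0 := fine.adm.1
  have hS : ∀ k, 0 ≤ I.S k ∧ I.S k ≤ 1 := fun k => fd_S_range hm ha0 I.P0 hadm 0 k
  have hdv0 : ∀ k ≤ I.n, 0 ≤ I.dv k := fun k _ => pin_gap_nonneg ha0 I.P0 hadm k
  have hAf : ∀ k ≤ I.n, I.f k ^ 2 ≤ I.A k := by
    intro k _
    have := (fd_B_range hm ha0 I.P0 hadm 0 k).1
    have h' : I.S k ^ 2 ≤ I.B k := this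
    unfold L8In.f L8In.A
    nlinarith
  have hA0 : ∀ k ≤ I.n, 0 ≤ I.A k := fun k hk => (sq_nonneg _).trans (hAf k hk)
  set R := min (2 * r) I.p.ell with hR
  have hrR : r ≤ R := le_min (by linarith) hr2
  have hRa : R ≤ I.a := by rw [hae]; exact min_le_right _ _
  obtain ⟨j, hj1, hj2⟩ := l8p_dev_dyad hr0 (by linarith)
  set u := L8In.dy j with hu
  have hjN : j < I.p.N + 3 := l8p_dev_dyad_lt ok.pt.N2 (lt_of_le_of_lt (hxU.trans hr) hj1)
  have hbud := l8p_dev_bud I hU0 hA0 hdv0 hjN (hr.trans hj1.le)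
  set Y4 := (I.U * I.Z) ^ 4 with hY4
  have hZ1 := l8p_dev_Z1 I hA0 hdv0
  have hxY : I.x ^ 4 ≤ Y4 := by
    refine pow_le_pow_left₀ hx0.le ?_ 4
    calc I.x ≤ I.U := hxU
      _ ≤ I.U * I.Z := le_mul_of_one_le_right hU0.le hZ1
  set E := (1 + 2 * Lq) * I.x ^ 3 with hE
  have hE0 : 0 ≤ E := by positivity
  -- pointwise bound
  have hpt : ∀ v ∈ Ico r R, (l8pSv I v - I.p.q I.F I.𝔹 v) ^ 2 ≤ 2 * I.f (l8pIdx I v) ^ 2 + 2 * E ^ 2 := by
    intro v hv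
    set k := l8pIdx I v with hk
    have hn : I.n = I.P0.length := by
      show I.LP.length = (llMat I.LP).length
      simp [llMat]
    have hkn : k ≤ I.n := by rw [hn]; exact sap_idx_le _ _
    have hv0 : 0 ≤ v := hr0.le.trans hv.1
    have hva : v < I.a := hv.2.trans_le hRa
    obtain ⟨c1, c2⟩ := l8p_dev_cell I.P0 hadm hv0 hva
    have c1' : v < I.v k := c1
    have evl : l8pVl I k = I.v k - I.dv k := by
      show (if k = 0 then 0 else I.v (k - 1)) = skMs I.a I.P0 k - (skMs I.a I.P0 k - if k = 0 then 0 else skMs I.a I.P0 (k - 1))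
      rw [sub_sub_cancel]; rfl
    have c2' : l8pVl I k ≤ v := by rw [evl]; exact c2
    have hvl0 : 0 ≤ l8pVl I k := by
      show 0 ≤ (if k = 0 then 0 else I.v (k - 1))
      split_ifs
      · exact le_rfl
      · exact (l8p_dev_ms_mem ha0.le hadm _).1
    have hvka : I.v k ≤ I.a := (l8p_dev_ms_mem ha0.le hadm _).2
    have q1 := fine.q_link k hkn
    have hKc := l8p_dev_Kcell fine clk hkn
    have mI : ∀ w, 0 ≤ w → w ≤ I.a → w ∈ Icc 0 I.a := fun w a b => ⟨a, b⟩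
    have q2 : I.p.q I.F I.𝔹 v ≤ I.p.q I.F I.𝔹 (I.v k) := hq (mI v hv0 hva.le) (mI _ (hv0.trans c1'.le) hvka) c1'.le
    have q3 : I.p.q I.F I.𝔹 (l8pVl I k) ≤ I.p.q I.F I.𝔹 v := hq (mI _ hvl0 (c2'.trans hva.le)) (mI v hv0 hva.le) c2'
    have q4 := l8p_dev_qK geo hzs (by linarith) (hv0.trans c1'.le) (hae ▸ hvka) hvl0 (hae ▸ (c2'.trans hva.le))
    have k1 : 0 ≤ I.p.K I.F I.𝔹 (I.v k) - I.p.K I.F I.𝔹 (l8pVl I k) :=
      sub_nonneg.2 (hK (mI _ hvl0 (c2'.trans hva.le)) (mI _ (hv0.trans c1'.le) hvka) (c2'.trans c1'.le))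
    rw [abs_of_nonneg k1] at q4
    have q5 : I.p.q I.F I.𝔹 (I.v k) - I.p.q I.F I.𝔹 (l8pVl I k) ≤ Lq * (2 * I.x ^ 3) := by
      refine (le_abs_self _).trans (q4.trans ?_)
      refine mul_le_mul_of_nonneg_left ?_ (by linarith)
      exact mul_le_mul hell2 hKc k1 (by norm_num)
    have q6 : |I.q k - I.p.q I.F I.𝔹 v| ≤ E := l8p_dev_abs3 q1 q2 q3 q5 hE
    have e : l8pSv I v - I.p.q I.F I.𝔹 v = I.f k + (I.q k - I.p.q I.F I.𝔹 v) := by
      show I.S k - _ = (I.S k - I.q k) + _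
      ring
    rw [e]
    have q7 : (I.q k - I.p.q I.F I.𝔹 v) ^ 2 ≤ E ^ 2 := sq_le_sq' (by linarith [(abs_le.1 q6).1]) (abs_le.1 q6).2
    exact l8p_dev_sq2 q7
  have hx3 : I.x ^ 3 ≤ I.x := by
    calc I.x ^ 3 ≤ I.x ^ 1 := pow_le_pow_of_le_one hx0.le hx1 (by norm_num)
      _ = I.x := pow_one _
  have i1 : IntervalIntegrable (fun v => (l8pSv I v - I.p.q I.F I.𝔹 v) ^ 2) volume r R := l8p_dev_intble I hq hS hr0.le hrR hRa
  have i2 : IntervalIntegrable (fun v => I.f (l8pIdx I v) ^ 2) volume r R := sap_idx_intble I.P0 (fun k => I.f k ^ 2) r R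
  have i3 : IntervalIntegrable (fun v => 2 * I.f (l8pIdx I v) ^ 2 + 2 * E ^ 2) volume r R := (i2.const_mul 2).add intervalIntegrable_const
  have s1 : ∫ v in r..R, (l8pSv I v - I.p.q I.F I.𝔹 v) ^ 2 ≤ ∫ v in r..R, (2 * I.f (l8pIdx I v) ^ 2 + 2 * E ^ 2) :=
    intervalIntegral.integral_mono_on_of_le_Ioo hrR i1 i3 fun v hv => hpt v ⟨hv.1.le, hv.2⟩
  have s2 : ∫ v in r..R, (2 * I.f (l8pIdx I v) ^ 2 + 2 * E ^ 2) = 2 * (∫ v in r..R, I.f (l8pIdx I v) ^ 2) + (R - r) * (2 * E ^ 2) := by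
    rw [intervalIntegral.integral_add (i2.const_mul 2) intervalIntegrable_const, intervalIntegral.integral_const_mul,
      intervalIntegral.integral_const, smul_eq_mul]
  have s3 : ∫ v in r..R, I.f (l8pIdx I v) ^ 2 ≤ I.int (u / 4) (4 * u) fun k => I.f k ^ 2 :=
    l8p_dev_int I hadm ha0 (fun k => I.f k ^ 2) (fun k => sq_nonneg _) fine.dv_le hr0.le hrR hRa (by linarith)
      (by have : R ≤ 2 * r := min_le_left _ _
          linarith)
  have s4 : I.int (u / 4) (4 * u) (fun k => I.f k ^ 2) ≤ I.int (u / 4) (4 * u) I.A := l8p_dev_int_mono I hAf hdv0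
  have s5 : 0 ≤ I.int (u / 4) (4 * u) I.A := l8p_dev_int_nonneg I hA0 hdv0
  have s6 : r * I.int (u / 4) (4 * u) I.A ≤ Y4 := (mul_le_mul_of_nonneg_right hj1.le s5).trans hbud
  have s7 : E ^ 2 ≤ I.x ^ 4 / 9 := by
    have : E = ((1 + 2 * Lq) * I.x) * I.x ^ 2 := by rw [hE]; ring
    have h3 : (1 + 2 * Lq) * I.x ≤ 1 / 3 := by linarith
    have h4 : 0 ≤ (1 + 2 * Lq) * I.x := by positivity
    have h5 : ((1 + 2 * Lq) * I.x) ^ 2 ≤ (1 / 3) ^ 2 := pow_le_pow_left₀ h4 h3 2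
    rw [this, mul_pow]
    have h6 : 0 ≤ (I.x ^ 2) ^ 2 := by positivity
    nlinarith
  have s8 : R - r ≤ r := by have : R ≤ 2 * r := min_le_left _ _; linarith
  have s9 : r * ((R - r) * (2 * E ^ 2)) ≤ Y4 := by
    have h1 : r * (R - r) ≤ 2 * 2 := mul_le_mul (by linarith) (by linarith) (by linarith) (by norm_num)
    have h2 : 0 ≤ E ^ 2 := sq_nonneg _
    nlinarith
  calc r * ∫ v in r..R, (l8pSv I v - I.p.q I.F I.𝔹 v) ^ 2
      ≤ r * (2 * I.int (u / 4) (4 * u) I.A + (R - r) * (2 * E ^ 2)) := by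
        refine mul_le_mul_of_nonneg_left ?_ hr0.le
        rw [s2] at s1
        linarith
    _ = 2 * (r * I.int (u / 4) (4 * u) I.A) + r * ((R - r) * (2 * E ^ 2)) := by ring
    _ ≤ 3 * Y4 := by linarith
theorem l8p_leaf_dev (T : ℝ) (_hT : 1 < T) : L8pLeafDev llBase T := by
  refine ⟨6, by norm_num, ?_⟩
  intro F0 hF pB pS h0 h1 π cv c3 cG zr Lq κ hcv hcv1 hc8 hLq hκ
  have h3 : LlSec3 llBase (F0.wExp pB.sStar pB.eta pS) := (hF.2.2 _ _ _ (llc_expOk pB h0 h1)).sec3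
  obtain ⟨ca, Ca, hca, Na, hadm⟩ := h3.adm
  have hxi : 0 < llBase.xiS T := hF.2.1.xi_pos
  have hc1p : 0 < π.c1 := by
    by_contra hc
    push Not at hc
    nlinarith
  have hc1 : 8 ≤ π.c1 := by nlinarith
  obtain ⟨N1, a1⟩ := l8p_hn_small κ (min (llBase.xiS T / 4) 1 / π.c1) hκ (by positivity)
  obtain ⟨N2, a2⟩ := l8p_hn_small 1 (1 / (3 * (1 + 2 * Lq))) one_pos (by positivity)
  refine ⟨max Na (max N1 N2), 3, fun I hI geo clk => ?_⟩
  have hNa : Na ≤ I.p.N := (le_max_left _ _).trans hI.hN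
  have b1 := a1 I.p (((le_max_left _ _).trans (le_max_right _ _)).trans hI.hN)
  have b2 := a2 I.p (((le_max_right _ _).trans (le_max_right _ _)).trans hI.hN)
  clear a1 a2
  have hpt : I.p.Ok (F0.wExp pB.sStar pB.eta pS) := hI.hF ▸ hI.ok.pt
  have hA := hadm I.p hpt hNa
  rw [← hI.hF, ← hI.hB] at hA
  obtain ⟨-, -, -, hmK, hmq, -, -, -⟩ := hA
  have hx0 : 0 < I.x := I.x_pos hI.ok
  have hx1 : I.x ≤ 1 := I.x_le_one hI.ok
  have fine : I.Fine (I.x ^ 3) := by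
    have := hI.fine
    rwa [show (3 : ℝ) = ((3 : ℕ) : ℝ) by norm_num, Real.rpow_natCast] at this
  have hm : 0 < I.m := by have := hI.ok.m_lo; have := hI.ok.pt.N2; omega
  have hae : I.a = I.p.ell := by
    show (if I.p.sm then 4 else I.p.ell) = I.p.ell
    rw [hI.dir.1]; rfl
  have hell1 : 1 ≤ I.p.ell := hI.ok.pt.ell1
  have ha0 : 0 < I.a := by rw [hae]; linarith
  have hadmP : SkAdm I.a I.P0 := fine.adm.1
  have hS : ∀ k, 0 ≤ I.S k ∧ I.S k ≤ 1 := fun k => fd_S_range hm ha0 I.P0 hadmP 0 k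
  have hdv0 : ∀ k ≤ I.n, 0 ≤ I.dv k := fun k _ => pin_gap_nonneg ha0 I.P0 hadmP k
  have hA0 : ∀ k ≤ I.n, 0 ≤ I.A k := by
    intro k _
    have := (fd_B_range hm ha0 I.P0 hadmP 0 k).1
    have h' : I.S k ^ 2 ≤ I.B k := this
    unfold L8In.A
    nlinarith [sq_nonneg (I.S k - I.q k)]
  -- `x ≤ U`
  have hsS : I.F.sS = pB.sStar := by rw [hI.hF]; rfl
  have hpS : I.F.pS = pS := by rw [hI.hF]; rfl
  have hFT : I.F.T = T := by rw [hI.hF]; exact hF.1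
  have hl0 : 0 < I.lam := lt_of_lt_of_le (Real.rpow_pos_of_pos hx0 _) hI.ok.pt.lam_lo
  have hl1 : I.lam ≤ 1 := (hpS ▸ hI.ok.pt.lam_hi : I.lam ≤ I.x ^ pS).trans (Real.rpow_le_one hx0.le hx1 h0.le)
  have hs0 : 0 ≤ pB.sStar := by
    have := (llc_expOk pB h0 h1).s_lo
    linarith
  have hxU : I.x ≤ I.U := by
    show I.x ≤ min 1 (I.x * I.lam ^ (-(I.F.sS / 2)))
    rw [hsS]
    exact le_min hx1 (le_mul_of_one_le_right hx0.le (Real.one_le_rpow_of_pos_of_le_one_of_nonpos hl0 hl1 (by linarith)))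
  have hU0 : 0 < I.U := hx0.trans_le hxU
  have hZ1 := l8p_dev_Z1 I hA0 hdv0
  have hY : I.Y = I.U * I.Z := rfl
  have hUY : I.U ≤ I.Y := by rw [hY]; exact le_mul_of_one_le_right hU0.le hZ1
  have hY0 : 0 < I.Y := hU0.trans_le hUY
  have hcY : π.c1 * I.Y ≤ min (llBase.xiS T / 4) 1 := by
    have := hI.hY.trans b1
    rw [le_div_iff₀ hc1p] at this
    linarith
  have hzsE : (l8pProf I π).zs = llBase.xiS T := by
    show I.𝔹.xiS I.F.T = _
    rw [hI.hB, hFT]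
  have hzs0 : 0 ≤ π.c.zs := by
    rw [geo.zs, hI.hB, hFT]; exact hxi.le
  have hxs : 3 * (1 + 2 * Lq) * I.x ≤ 1 := by
    rw [Real.rpow_one, le_div_iff₀ (by positivity)] at b2
    have e : I.x = I.p.x := rfl
    rw [e]
    linarith
  have hSl : ∀ k ≤ I.n, I.S k = (I.sp false).S k := by
    intro k hk
    have hk' : k ≤ I.P0.length := by
      have : I.n = I.P0.length := by
        show I.LP.length = (llMat I.LP).length
        simp [llMat]
      omega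
    exact (l8i_S I.m I.a ha0 I.P0 hadmP k hk').symm
  refine ⟨?_, hZ1, hSl⟩
  have hzlo : (l8pIn I π).zlo = π.c1 * I.Y := rfl
  refine
    { Z1 := hZ1
      zlo0 := by rw [hzlo]; positivity
      zlo1 := by rw [hzlo, hzsE]; exact hcY.trans (min_le_left _ _)
      zloY := ?_
      Smono := ?_
      S0 := fun v _ => (hS _).1
      S1 := fun v _ => (hS _).2
      D1v := ?_ }
  · show min (I.U * I.Z) 1 ≤ 1 * (π.c1 * I.Y)
    rw [one_mul, ← hY]
    refine (min_le_left _ _).trans ?_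
    nlinarith
  · intro v _ v' _ hvv
    exact bst_S_mono ha0 hadmP 0 (sap_idx_mono I.P0 hvv)
  · intro r hr1 hr2
    show ∫ v in r..I.p.ell, (l8pSv I v - I.p.q I.F I.𝔹 v) ^ 2 ≤ 6 * (I.U * I.Z) ^ 4 / r
    set U' := skwInV (l8pProf I π) (l8pIn I π) ((l8pIn I π).zlo / 4) with hU'
    have hzm : (l8pIn I π).zlo / 4 ∈ Icc 0 ((l8pIn I π).pf (l8pProf I π)).zmax := by
      rw [hzlo]
      refine ⟨by positivity, ?_⟩
      have e1 : π.c.zs ≤ ((l8pIn I π).pf (l8pProf I π)).zmax := geo.zsm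
      have e2 : π.c.zs = llBase.xiS T := by rw [geo.zs, hI.hB, hFT]
      have e3 := hcY.trans (min_le_left _ _)
      linarith
    have hUU : I.U ≤ U' := by
      have := geo.vc.lower _ hzm
      rw [hzlo] at this
      have e1 : skwR (π.c1 * I.Y / 4) = π.c1 * I.Y / 4 := by
        unfold skwR
        exact min_eq_left (by linarith [hcY.trans (min_le_right _ _)])
      rw [e1] at this
      refine le_trans ?_ this
      nlinarith
    have hU'0 : 0 < U' := hU0.trans_le hUU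
    have key := skw_leaf_inTail (fun v => (l8pSv I v - I.p.q I.F I.𝔹 v) ^ 2) U' I.p.ell (3 * (I.U * I.Z) ^ 4) hU'0 (hr1.trans hr2) (by positivity)
      (fun v _ => sq_nonneg _) (l8p_dev_intble I hmq hS hU'0.le (hr1.trans hr2) hae.ge)
      (fun r' hr' => l8p_dev_dy_est geo clk fine hI.ok hI.dir.1 hmq hmK hLq hxs hxU hzs0 (hUU.trans hr'.1) hr'.2) r ⟨hr1, hr2⟩
    refine key.trans (le_of_eq ?_)
    ring

/-! ### IVX (helper21) -/

/-- all revelations have a mass at most the mass of the last one -/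
theorem l8p_ivx_idx_top (I : L8In) (hadm : SkAdm I.a I.P0) : l8pIdx I (l8pVl I I.n) = I.n := by
  have hn : I.n = I.P0.length := by
    show I.LP.length = (llMat I.LP).length
    simp [llMat]
  unfold l8pIdx
  rw [hn, List.filter_eq_self.2]
  intro e he
  simp only [decide_eq_true_eq]
  rcases Nat.eq_zero_or_pos I.P0.length with h0 | h0
  · rw [List.length_eq_zero_iff.1 h0] at he
    exact absurd he List.not_mem_nil
  · show e.m ≤ if I.P0.length = 0 then 0 else I.v (I.P0.length - 1)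
    rw [if_neg h0.ne']
    have hl : I.P0.length - 1 < I.P0.length := by omega
    have e1 : I.v (I.P0.length - 1) = (I.P0[I.P0.length - 1]).m := by
      show (I.P0.map SkInc.m).getD _ I.a = _
      rw [List.getD_eq_getElem _ _ (by simpa using hl)]
      simp
    rw [e1]
    obtain ⟨i, hi, rfl⟩ := List.getElem_of_mem he
    rcases (Nat.le_sub_one_of_lt hi).eq_or_lt with h | h
    · simp only [h]; exact le_rfl
    · exact List.pairwise_iff_getElem.1 hadm.1 i _ hi hl h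

theorem l8p_leaf_ivx (𝔹 : LlBase) (F : LlFix) : L8pLeafIvx 𝔹 F := by
  intro π S cv c3 cG zr Lq κ hπ hκ
  have hCv := hπ.Sok.Cv
  have hCW := hπ.Sok.CW
  obtain ⟨N1, a1⟩ := l8p_hn_small 1 (1 / 2) one_pos (by norm_num)
  obtain ⟨N2, a2⟩ := l8p_hn_small 1 (1 / (4 * S.Cv * S.CW)) one_pos (by positivity)
  refine ⟨max N1 N2, 7, fun I hI geo grid plat hSl => ?_⟩
  have b1 := a1 I.p ((le_max_left _ _).trans hI.hN)
  have b2 := a2 I.p ((le_max_right _ _).trans hI.hN)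
  rw [Real.rpow_one] at b1 b2
  have hx0 : 0 < I.x := I.x_pos hI.ok
  have hx1 : I.x ≤ 1 := I.x_le_one hI.ok
  have fine : I.Fine (I.x ^ 7) := by
    have := hI.fine
    rwa [show (7 : ℝ) = ((7 : ℕ) : ℝ) by norm_num, Real.rpow_natCast] at this
  have hm : 1 ≤ I.m := by have := hI.ok.m_lo; have := hI.ok.pt.N2; omega
  have hae : I.a = I.p.ell := by
    show (if I.p.sm then 4 else I.p.ell) = I.p.ell
    rw [hI.dir.1]; rfl
  have hell1 : 1 ≤ I.p.ell := hI.ok.pt.ell1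
  have hell2 : I.p.ell ^ 2 ≤ 2 := by
    have h1 : I.p.ell ≤ (2 : ℝ) ^ (1 / 6 : ℝ) := hI.ok.pt.ell2
    calc I.p.ell ^ 2 ≤ ((2 : ℝ) ^ (1 / 6 : ℝ)) ^ 2 := pow_le_pow_left₀ (by linarith) h1 2
      _ = (2 : ℝ) ^ (1 / 3 : ℝ) := by
          rw [← Real.rpow_natCast, ← Real.rpow_mul (by norm_num)]; norm_num
      _ ≤ (2 : ℝ) ^ (1 : ℝ) := Real.rpow_le_rpow_of_exponent_le (by norm_num) (by norm_num)
      _ = 2 := by norm_num
  have ha0 : 0 < I.a := by rw [hae]; linarith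
  have hadm : SkAdm I.a I.P0 := fine.adm.1
  have hn : I.n = I.P0.length := by
    show I.LP.length = (llMat I.LP).length
    simp [llMat]
  have hzn := (grid.vz I.n).1
  have hmx : (I.m : ℝ) * I.x ^ 6 ≤ 3 := by
    rw [show I.x ^ 6 = 1 / (I.p.N : ℝ) from l8p_str_x6 I.p]
    have hN' : (0 : ℝ) < I.p.N := by exact_mod_cast (by have := hI.ok.pt.N2; omega : 0 < I.p.N)
    have h2 : (I.m : ℝ) ≤ 3 * I.p.N := by exact_mod_cast hI.ok.m_hi
    rw [mul_one_div, div_le_iff₀ hN']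
    exact h2
  refine
    { cs0 := by norm_num
      sus := ?_
      dhn := ?_
      Gm := geo.Gm
      Gb := ?_
      zhibuf := le_rfl
      Czb1 := by have := hπ.Sok.c.Cp; rwa [hπ.Sc] at this
      zbufC := hzn.2.trans plat.len_hi
      top := Or.inr ?_
      blo := ?_
      small := b2 }
  · have h := l8i_sus_h I.m hm I.a ha0 I.P0 hadm (δ := 3) (by norm_num) (fun e he => ?_)
    · norm_num at h
      norm_num
      exact h
    · obtain ⟨e', he', rfl⟩ := List.mem_map.1 he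
      have d1 : e'.dh ≤ I.x ^ 7 := fine.dh_le e' he'
      have d0 : 0 ≤ e'.dh := (hadm.2 _ he).2.2.2
      show I.a ^ 2 * ((I.m : ℝ) * e'.dh) ≤ 3
      rw [hae]
      have m0 : (0 : ℝ) ≤ I.m := Nat.cast_nonneg _
      have e1 : (I.m : ℝ) * e'.dh ≤ 3 / 2 := by
        calc (I.m : ℝ) * e'.dh ≤ I.m * I.x ^ 7 := mul_le_mul_of_nonneg_left d1 m0
          _ = (I.m * I.x ^ 6) * I.x := by ring
          _ ≤ 3 * (1 / 2) := mul_le_mul hmx b1 hx0.le (by norm_num)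
          _ = 3 / 2 := by norm_num
      have e2 : 0 ≤ (I.m : ℝ) * e'.dh := mul_nonneg m0 d0
      nlinarith
  · show (I.P0.map SkInc.dh).getD I.P0.length 0 = 0
    rw [List.getD_eq_default _ _ (by simp)]
  · obtain ⟨MG, hMG⟩ := geo.Gb
    exact ⟨MG, fun z hz => hMG z ⟨hz.1, hz.2.trans hzn.2⟩⟩
  · show (I.sp false).S I.P0.length ≤ l8pSv I (l8pV I π (l8pZc I π I.n))
    rw [(grid.vz I.n).2, ← hn, ← hSl I.n le_rfl]
    show I.S I.n ≤ I.S (l8pIdx I (l8pVl I I.n))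
    rw [l8p_ivx_idx_top I hadm]
  · show I.x ^ 10 ≤ I.x ^ π.eps
    rw [← Real.rpow_natCast]
    exact Real.rpow_le_rpow_of_exponent_ge hx0 hx1 (by have := hπ.eps1; norm_num; linarith)

/-- **INST** -/
theorem l8p_inst_dir (T : ℝ) (hT : 1 < T) : L8pInstDir llBase T :=
  l8p_inst_dir_of (l8p_w_at T hT) (l8p_leaf_clk T hT) (l8p_leaf_dev T hT) l8p_leaf_grid (l8p_leaf_mesh llBase) (l8p_leaf_d3 llBase)
    (l8p_leaf_q llBase) (l8p_leaf_cut llBase) (l8p_leaf_ivx llBase) l8p_leaf_str (l8p_leaf_num llBase)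

end Claimed.Agent.R286
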