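import Claimed.Agent.R286.PM.InstIv8
import Claimed.Agent.R286.PM.InstIv9
import Claimed.Agent.R286.L08.IvD7F

/-!
# Row 286 (S0533), folder PM, file InstIv7 : LEAF IV7 of `l8p_iv_dir` = THE FOUR (D7) FIELDS `n7, d7_W, d7_C, d7_Q`      (owner helper298; prefix `l8p_iv7_` / `L8pIv7`)

TEX[LL:lem:statistics-integrated] TEX[LL:eq:D7]
* PART 1  `l8p_iv7_one` : ONE INSTANCE, ABSTRACT IN THE VARIANT: `(I : L8In) (J : SkpI (SkOm I.m) I.m)`, `J.P = I.sp false`; all facts used are the fields of `L8pIv7H` (+ `L8D7B` = the lower band of 228 / 150, raw moments, layers);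
          output `L8pIv7 I e A (U Z) Z vt jm` for every `A` above the eight explicit constants `L8pIv7A`.      Direct sweep: `J = l8pI I π`;   low variant: `J = l8qI I π`.
* PART 2  the loss: the eight constants are `≤ C x^(-ε)` for `b = x^eps`, `8 eps ≤ ε`, `tiny = x^K`, `Lg = 1`.
* PART 3  the contract on the direct sweep.
-/

set_option autoImplicit false

namespace Claimed.Agent.R286

open MeasureTheory Set Filter

/-! ## PART 1 -/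

/-- the four (D7) fields of `L8pIv`, untilted -/
structure L8pIv7 (I : L8In) (e : ℕ → ℝ) (A Y Zh vt : ℝ) (jm : ℕ) : Prop where
  n7 : ∀ r, Y ≤ r → r ≤ vt → I.band r I.D2 ≤ A * r * (I.z0 r * Zh * r ^ 2)
  d7_W : ∀ r, Y ≤ r → r ≤ vt → ∀ j ≤ jm, I.band r (fun k => I.ex false ((I.sp false).W k) * e k ^ (2 * j)) ≤
    A * r * (I.z0 r ^ 2 * Zh ^ 2 * r ^ 3 * (if j = 0 then 1 else (Y ^ 2 / r) ^ 2 * r ^ (2 * j - 2)))
  d7_C : ∀ r, Y ≤ r → r ≤ vt → I.band r (fun k => I.ex false fun ω => (I.sp false).xCx k ω + (I.sp false).trC2 k ω) ≤ A * r * (I.z0 r ^ 2 * Zh ^ 2 * r ^ 2)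
  d7_Q : ∀ r, Y ≤ r → r ≤ vt → I.band r (fun k => I.moF false k 1 fun ω => (I.sp false).Q ω - I.S k) ≤ A * r * (I.z0 r * Zh * r ^ 2)

/-- what IV7 uses of one instance -/
structure L8pIv7H (I : L8In) (J : SkpI (SkOm I.m) I.m) (S : SkpS) (cs Czb : ℝ) (e : ℕ → ℝ) (vt : ℝ) : Prop where
  hP : J.P = I.sp false
  hS : S.Ok
  hJ : J.Ok S
  hX : L8D7X S J cs Czb
  hx : J.d.x = I.x
  hl : J.lam1 = I.lam1
  /-- dictionary -/
  D2 : ∀ k ≤ I.n, (I.sp false).D2 k = I.D2 k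
  Sl : ∀ k ≤ I.n, I.S k = (I.sp false).S k
  /-- the last cell -/
  dvn : J.P.dv J.P.n ≤ J.d.x ^ 40
  /-- the envelope -/
  e_hi : ∀ i ≤ J.nb, J.d.zlo ≤ J.zc i → J.zc i ≤ J.zhi → e i = skwE J.d J.hh (J.zc i)
  e_lo : ∀ i, J.zc i < J.d.zlo → e i = J.d.U * J.d.Z
  e_n : e J.P.n ^ 2 ≤ 1
  vt4 : vt ≤ 4
  /-- the cuts of the bands lie in the tiled region -/
  out : ∀ r, r ≤ vt → ∀ k < J.P.n, r ≤ J.P.v k → J.P.v k ≤ 2 * r → k < J.nb ∧ J.zc (k + 1) ≤ J.zhi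
  top : ∀ r, r ≤ vt → J.P.a ≤ 2 * r → J.P.n ≤ J.nb ∧ J.zc J.P.n ≤ J.zhi
  /-- (D3) above the jump of `h` at the mass `x` -/
  D3x : ∀ k₁ k₂, k₁ < k₂ → k₂ ≤ J.nb → J.d.x < J.P.v k₁ - J.P.dv k₁ →
    S.cD3 * J.lam1 * skwR (J.z k₁) ^ 2 * (J.z k₂ - J.z k₁) ≤ J.P.hlen k₁ k₂
  sm : L8D7Sm S J
  sm' : J.d.x * l8d7sCs S ≤ 1
  zlo1 : 4 * S.Cv * J.d.zlo ≤ 1

/-- the eight constants -/
structure L8pIv7A {Ω : Type} [MeasurableSpace Ω] {m : ℕ} (S : SkpS) (J : SkpI Ω m) (cs Czb B : ℝ) (b : L8LB) (ρ : ℝ) (n' jm : ℕ) (A : ℝ) : Prop where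
  a1 : l8d7sCD S cs Czb * (3 * B + 2 * (S.c.Cf + S.Cq)) / J.d.b + 1 ≤ A
  a2 : (9 + 16 * S.K.cA1 1) * Real.sqrt b.K1 * ρ + 1 ≤ A
  a3 : l8d7sCW0 S cs Czb / J.d.b ^ 2 + 256 ≤ A
  a4 : b.K1 + 16 ≤ A
  a5 : ∀ k < jm, l8d7sCW S cs Czb k * skwL J.d / J.d.b ^ 2 + 4096 * 4 ^ k ≤ A
  a6 : ∀ k < jm, (b.K1 + 16) * (2 * S.Cv) ^ (2 * (k + 1)) * (4 * S.Cv * S.Cz) ^ 4 ≤ A
  a7 : l8d7sCC S cs Czb * (((n' : ℝ) + 2) ^ 2 * (1 + J.Lg ^ 4)) / J.d.b ^ 2 + 64 ≤ A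
  a8 : ((9 + 16 * S.K.cA1 1) * Real.sqrt b.K1 * ρ + 1) * l8d7fCt S ^ 3
    + l8d7lCC S cs * (((n' : ℝ) + 2) ^ 2 * (1 + J.Lg ^ 4)) / J.d.b ^ 2 + 64 ≤ A

section one

variable {I : L8In} {J : SkpI (SkOm I.m) I.m} {S : SkpS} {cs Czb vt : ℝ} {e : ℕ → ℝ}

theorem l8p_iv7_mono {a A r X : ℝ} (h : a ≤ A) (hr : 0 ≤ r) (hX : 0 ≤ X) : a * r * X ≤ A * r * X :=
  mul_le_mul_of_nonneg_right (mul_le_mul_of_nonneg_right h hr) hX

theorem l8p_iv7_z0 (H : L8pIv7H I J S cs Czb e vt) (r : ℝ) : I.z0 r = l8d7fZ0 J r := by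
  unfold L8In.z0 l8d7fZ0; rw [H.hx, H.hl]

theorem l8p_iv7_band (H : L8pIv7H I J S cs Czb e vt) (r : ℝ) (g : ℕ → ℝ) : I.band r g = J.P.int r (2 * r) g := by
  rw [H.hP]; exact l8p_iv8_int I _ _ _

theorem l8p_iv7_band_congr (I : L8In) (r : ℝ) {g g' : ℕ → ℝ} (h : ∀ k ≤ I.n, g k = g' k) : I.band r g = I.band r g' :=
  l8p_iv8_int_congr I _ _ h

/-- the last line of (D7) at the abstract level, all `r` -/
theorem l8p_iv7_D (H : L8pIv7H I J S cs Czb e vt) {b : L8LB} {κ μ ρ B : ℝ} (hb : L8D7B J b κ cs μ ρ) (hρ : 0 ≤ ρ)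
    (hvtop : 8 * S.Cv * J.d.zlo ≤ b.vtop) (hB : 0 ≤ B)
    (hraw : ∀ k ≤ J.nb, ∫ ω, J.P.nX k ω ^ 2 ∂J.P.μ ≤ (B * (skwR (J.z k) + J.d.zlo)) ^ 2 ∧
      ∫ η, J.P.Q η ^ 2 ∂(J.P.fork k) ≤ (B * (skwR (J.z k) + J.d.zlo)) ^ 2)
    {A : ℝ} (a1 : l8d7sCD S cs Czb * (3 * B + 2 * (S.c.Cf + S.Cq)) / J.d.b + 1 ≤ A)
    (a2 : (9 + 16 * S.K.cA1 1) * Real.sqrt b.K1 * ρ + 1 ≤ A) {r : ℝ} (h1 : J.d.U * J.d.Z ≤ r) (h2 : r ≤ vt) :
    J.P.int r (2 * r) J.P.D2 ≤ A * r * (l8d7fZ0 J r * J.d.Z * r ^ 2) := by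
  obtain ⟨hx, hx1, hl, hs1, hs0, hZ, hxY⟩ := l8d7f_num H.hJ
  have hr0 : 0 < r := lt_of_lt_of_le hx (hxY.trans h1)
  have hX0 : 0 ≤ l8d7fZ0 J r * J.d.Z * r ^ 2 := by unfold l8d7fZ0; positivity
  rcases le_or_gt (4 * S.Cv * J.d.zlo) r with hc | hc
  · exact (l8d7f_D H.hS H.hJ H.hX H.dvn hB hraw hc (h2.trans H.vt4) (H.out r h2)).trans (l8p_iv7_mono a1 hr0.le hX0)
  · exact (l8d7f_D_low H.hS H.hJ H.hX hb hρ h1 (by linarith)).trans (l8p_iv7_mono a2 hr0.le hX0)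

/-- **(D7) at one instance, abstract in the variant** -/
theorem l8p_iv7_one (H : L8pIv7H I J S cs Czb e vt) {b : L8LB} {κ μ ρ B : ℝ} (hb : L8D7B J b κ cs μ ρ) (hρ : 0 ≤ ρ)
    (hvtop : 8 * S.Cv * J.d.zlo ≤ b.vtop) (hB : 0 ≤ B)
    (hraw : ∀ k ≤ J.nb, ∫ ω, J.P.nX k ω ^ 2 ∂J.P.μ ≤ (B * (skwR (J.z k) + J.d.zlo)) ^ 2 ∧
      ∫ η, J.P.Q η ^ 2 ∂(J.P.fork k) ≤ (B * (skwR (J.z k) + J.d.zlo)) ^ 2)
    {n' jm : ℕ} (hn1 : 1 ≤ J.d.x ^ 6 * 2 ^ n') (hn2 : J.d.x ^ 6 * 2 ^ n' ≤ 2) {A : ℝ} (hA : L8pIv7A S J cs Czb B b ρ n' jm A) :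
    L8pIv7 I e A (J.d.U * J.d.Z) J.d.Z vt jm := by
  obtain ⟨hx, hx1, hl, hs1, hs0, hZ, hxY⟩ := l8d7f_num H.hJ
  have hP := H.hJ.sp
  have hn : J.P.n = I.n := by rw [H.hP]; exact l8p_iv8_n I
  have hD := fun r h1 h2 => l8p_iv7_D H hb hρ hvtop hB hraw hA.a1 hA.a2 (r := r) h1 h2
  have hK1 := l8d7f_K1_nonneg hb
  have hnbl : ∀ r, r ≤ vt → ∀ i ≤ J.P.n, r ≤ J.P.v i → J.P.v i ≤ 2 * r → i ≤ J.nb ∧ J.zc i ≤ J.zhi := by
    intro r hr i hi h1 h2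
    rcases hi.eq_or_lt with h | h
    · rw [h]
      exact H.top r hr (by rw [← hP.v_term J.P.n le_rfl, ← h]; exact h2)
    · obtain ⟨a1, a2⟩ := H.out r hr i h h1 h2
      exact ⟨a1.le, (H.hJ.zmono (Nat.le_succ i)).trans a2⟩
  refine ⟨?_, ?_, ?_, ?_⟩
  · -- n7
    intro r h1 h2
    rw [l8p_iv7_z0 H, l8p_iv7_band_congr I r (g' := (I.sp false).D2) (fun k hk => (H.D2 k hk).symm), l8p_iv7_band H, ← H.hP]
    exact hD r h1 h2
  · -- d7_W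
    intro r h1 h2 j hj
    have hr0 : 0 < r := lt_of_lt_of_le hx (hxY.trans h1)
    rw [l8p_iv7_z0 H, l8p_iv7_band H]
    have e0 : (fun k => I.ex false ((I.sp false).W k) * e k ^ (2 * j)) = fun k => (∫ ω, J.P.W k ω ∂J.P.μ) * e k ^ (2 * j) := by
      rw [H.hP]; rfl
    rw [e0]
    have hW0 : J.P.int r (2 * r) (fun k => ∫ ω, J.P.W k ω ∂J.P.μ) ≤ (if 4 * S.Cv * J.d.zlo ≤ r then l8d7sCW0 S cs Czb / J.d.b ^ 2 + 256
        else b.K1 + 16) * r * (l8d7fZ0 J r ^ 2 * J.d.Z ^ 2 * r ^ 3) := by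
      split_ifs with hc
      · exact l8d7f_W0 H.hS H.hJ H.hX H.dvn hc (h2.trans H.vt4) (H.out r h2)
      · exact l8d7f_W0_low H.hS H.hJ H.hX hb h1 (by linarith [not_le.1 hc]) (by linarith [not_le.1 hc, H.zlo1])
    rcases Nat.eq_zero_or_pos j with hj0 | hj0
    · subst hj0
      simp only [mul_zero, pow_zero, mul_one, if_true]
      have hX0 : 0 ≤ l8d7fZ0 J r ^ 2 * J.d.Z ^ 2 * r ^ 3 := by positivity
      refine hW0.trans (l8p_iv7_mono ?_ hr0.le hX0)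
      split_ifs
      · exact hA.a3
      · exact hA.a4
    · obtain ⟨k, rfl⟩ : ∃ k, j = k + 1 := ⟨j - 1, by omega⟩
      have e2 : 2 * (k + 1) - 2 = 2 * k := by omega
      rw [if_neg (Nat.succ_ne_zero k), e2]
      have hX0 : 0 ≤ l8d7fZ0 J r ^ 2 * J.d.Z ^ 2 * r ^ 3 * (((J.d.U * J.d.Z) ^ 2 / r) ^ 2 * r ^ (2 * k)) := by positivity
      rcases le_or_gt (4 * S.Cv * J.d.zlo) r with hc | hc
      · exact (l8d7f_W H.hS H.hJ H.hX H.dvn k H.e_hi H.e_n (fun ha => (H.top r h2 ha).2) hc (h2.trans H.vt4) (H.out r h2)).trans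
          (l8p_iv7_mono (hA.a5 k (by omega)) hr0.le hX0)
      · rw [if_neg (not_le.2 hc)] at hW0
        exact (l8d7f_W_low H.hS H.hJ k H.e_hi H.e_lo (by linarith) h1 hc.le (hnbl r h2) hW0).trans
          (l8p_iv7_mono (hA.a6 k (by omega)) hr0.le hX0)
  · -- d7_C
    intro r h1 h2
    have hr0 : 0 < r := lt_of_lt_of_le hx (hxY.trans h1)
    rw [l8p_iv7_z0 H, l8p_iv7_band H]
    have e0 : (fun k => I.ex false fun ω => (I.sp false).xCx k ω + (I.sp false).trC2 k ω)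
        = fun k => (∫ ω, J.P.xCx k ω ∂J.P.μ) + ∫ ω, J.P.trC2 k ω ∂J.P.μ := by
      funext k
      have := hP.prob
      rw [← integral_add ((ivk_xCx_bd hP k).integrable _) ((ivk_trC2_bd hP k).integrable _), H.hP]
      rfl
    rw [e0]
    have hX0 : 0 ≤ l8d7fZ0 J r ^ 2 * J.d.Z ^ 2 * r ^ 2 := by positivity
    rcases le_or_gt (4 * S.Cv * J.d.zlo) r with hc | hc
    · exact (l8d7f_C H.hS H.hJ H.hX H.dvn hn1 hn2 H.sm' hc (h2.trans H.vt4) (H.out r h2)).trans (l8p_iv7_mono hA.a7 hr0.le hX0)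
    · have h7 := l8d7f_D_low H.hS H.hJ H.hX hb hρ h1 (by linarith : 2 * r ≤ b.vtop)
      have hA7 : 0 ≤ (9 + 16 * S.K.cA1 1) * Real.sqrt b.K1 * ρ + 1 := by
        have := H.hS.cA1 1
        have := Real.sqrt_nonneg b.K1
        positivity
      exact (l8d7f_C_low H.hS H.hJ H.hX H.dvn H.D3x hn1 hn2 H.sm hA7 h1 hc.le (h2.trans H.vt4) h7).trans
        (l8p_iv7_mono hA.a8 hr0.le hX0)
  · -- d7_Q
    intro r h1 h2
    rw [l8p_iv7_z0 H, l8p_iv7_band_congr I r (g' := (I.sp false).D2) (fun k hk => ?_), l8p_iv7_band H, ← H.hP]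
    · exact hD r h1 h2
    · show ∫ ω, ((I.sp false).Q ω - I.S k) ^ (2 * 1) ∂(I.sp false).fork k = (I.sp false).D2 k
      rw [H.Sl k hk, mul_one]
      exact (I.sp false).l8s_fork_var_Q (H.hP ▸ hP) k

end one

/-! ## PART 3 : the direct sweep -/

/-- **`L8pIv7H` at the instance of the direct sweep** -/
theorem l8p_iv7_H_dir {I : L8In} {π : L8pPar} {S : SkpS} {cv : ℝ} (hπ : π.Ok S cv) (hI : I.Ok) (hok : L8pOk I π S cv)
    (sm : L8D7Sm S (l8pI I π)) (sm' : I.x * l8d7sCs S ≤ 1) (zlo1 : 4 * S.Cv * (π.c1 * I.Y) ≤ 1) :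
    L8pIv7H I (l8pI I π) S (1 / 4) π.c.Cp (l8pE I π) I.a := by
  have hS := hπ.Sok
  have hJ := hok.pm
  have hX := hok.ivx
  have hn := l8p_iv8_n I
  have hx0 : 0 < I.x := I.x_pos hI
  have hx1 : I.x ≤ 1 := I.x_le_one hI
  exact
    { hP := rfl
      hS := hS
      hJ := hJ
      hX := hX
      hx := rfl
      hl := rfl
      D2 := fun k hk => l8p_iv8_D2 hI hok.fine.adm hk
      Sl := hok.Slink
      dvn := hok.fine.dv_le _ (by show (I.sp false).n ≤ I.n; omega)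
      e_hi := by
        intro i _ hz _
        have hz' : ¬ l8pZc I π i < π.c1 * I.Y := not_lt.2 hz
        unfold l8pE
        rw [if_neg hz']
        rfl
      e_lo := by
        intro i hz
        have hz' : l8pZc I π i < π.c1 * I.Y := hz
        unfold l8pE
        rw [if_pos hz']
        rfl
      e_n := by
        show l8pE I π (I.sp false).n ^ 2 ≤ 1
        rw [hn]
        have hzn : π.c1 * I.Y ≤ l8pZc I π I.n := by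
          have h1 : (l8pI I π).zc (l8pI I π).nb = (l8pI I π).zbuf := hJ.nb
          have h2 := hJ.zreg
          have h3 := hJ.zloreg
          have h4 := hJ.wh.zlo0
          have h5 : S.zreg ≤ l8pZc I π I.n := h2
          have h6 : 16 * (π.c1 * I.Y) ≤ S.zreg := h3
          have h7 : 0 < π.c1 * I.Y := h4
          linarith
        unfold l8pE
        rw [if_neg (not_lt.2 hzn)]
        have hmem : l8pZc I π I.n ∈ Icc (l8pI I π).d.zlo (l8pI I π).zhi := ⟨hzn, le_rfl⟩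
        have hmem' : l8pZc I π I.n ∈ Icc ((l8pI I π).d.zlo / 2) (l8pI I π).zbuf :=
          ⟨by have : 0 < (l8pI I π).d.zlo := hJ.wh.zlo0
              have h8 : (l8pI I π).d.zlo ≤ l8pZc I π I.n := hzn
              linarith, le_rfl⟩
        have h0 := (l8d7s_env_near hS hJ hX hmem hmem' (by rw [sub_self, abs_zero]; exact hJ.δ0.le)).1
        have h1 : skwE (l8pD I π) (l8pH I π) (l8pZc I π I.n) ≤ 1 := (min_le_left _ _).trans (l8d7_R_le_one _)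
        exact pow_le_one₀ h0 h1
      vt4 := hJ.a4
      out := by
        intro r _ k hk _ _
        have hk' : k < I.n := by have : k < (I.sp false).n := hk; omega
        exact ⟨hk', hJ.zmono hk'⟩
      top := by
        intro r _ _
        exact ⟨by show (I.sp false).n ≤ I.n; omega, by show l8pZc I π (I.sp false).n ≤ l8pZc I π I.n; rw [hn]⟩
      D3x := by
        intro k₁ k₂ h12 hk2 hx
        refine hok.D3x k₁ k₂ h12 hk2 ?_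
        have e : (I.sp false).v k₁ - (I.sp false).dv k₁ = l8pVl I k₁ := by
          unfold L8P.dv l8pVl
          rw [sub_sub_cancel]
          rfl
        rw [← e]
        exact hx
      sm := sm
      sm' := sm'
      zlo1 := zlo1 }

/-- **IV7**: the contract -/
def L8pIv7Dir (𝔹 : LlBase) (T : ℝ) : Prop :=
  ∀ F0, L8Fix 𝔹 T F0 → ∀ (pB : LLParB) (pS : ℝ), 0 < pS → pS ≤ 1 → ∀ (κ ε : ℝ) (jm : ℕ), 0 < κ → 0 < ε →
    L8pCons 𝔹 (F0.wExp pB.sStar pB.eta pS) κ fun I π C => L8pIv7 I (l8pE I π) (C * I.x ^ (-ε)) I.Y I.Z I.a jm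

/-- the supply of the lower band with a FREE top `M Y` (= `lw9_in_dir` + `lw9_low` + `lw9_K1` of 150, PM/InstIv9.lean) -/
def L8pLowDir (𝔹 : LlBase) (T : ℝ) : Prop :=
  ∀ F0, L8Fix 𝔹 T F0 → ∀ (pB : LLParB) (pS : ℝ), 0 < pS → pS ≤ 1 → ∃ κ0 : ℝ, 0 < κ0 ∧ ∀ κ ε : ℝ, 0 < κ → 0 < ε → ∃ eps0 : ℝ, 0 < eps0 ∧
    ∀ (π : L8pPar) (S : SkpS) (cv : ℝ), π.Ok S cv → π.eps ≤ eps0 → ∀ M : ℝ, 4 ≤ M → ∃ (C0 : ℝ) (N0 : ℕ) (Kf : ℝ), 1 ≤ C0 ∧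
      ∀ I : L8In, L8pAt 𝔹 (F0.wExp pB.sStar pB.eta pS) N0 Kf κ I → L8pOk I π S cv →
        ∃ b : L8LB, L8D7B (l8pI I π) b κ0 (1 / 4) (I.x ^ 40) ((M + 2) * (C0 * I.x ^ (-ε))) ∧ b.vtop = M * I.Y ∧
          b.K1 = 128 * (M + 2) / (1 / 4 * κ0) * (C0 * I.x ^ (-ε))

/-- **the supply of the lower band on the direct sweep** (adapter: `lw9_in_dir` + `lw9_low` + `lw9_K1` of 150; helper279).   This file IMPORTS PM/InstIv9; PM/InstIv9 must NOT import this file. -/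
theorem l8p_low_dir {𝔹 : LlBase} {T : ℝ} (he : L8pEnvDir 𝔹 T) (h2 : L8pD2Dir 𝔹 T) : L8pLowDir 𝔹 T := by
  intro F0 hF pB pS h0 h1
  obtain ⟨κ0, hκ0, H⟩ := lw9_in_dir he h2 F0 hF pB pS h0 h1
  refine ⟨κ0, hκ0, fun κ ε hκ hε => ?_⟩
  obtain ⟨e0, he0, H⟩ := H κ ε hκ hε
  refine ⟨e0, he0, fun π S cv hπ heps M hM => ?_⟩
  obtain ⟨C0, N0, Kf, hC0, H⟩ := H π S cv hπ heps M hM
  refine ⟨C0, N0, Kf, hC0, fun I hI hok => ?_⟩
  have hin := H I hI hok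
  exact ⟨lw9B I (C0 * I.x ^ (-ε)) M I.Y κ0 (1 / 4), ⟨lw9_low hin, rfl, rfl, le_rfl, rfl, le_rfl, le_rfl⟩, rfl, lw9_K1 hin⟩

theorem l8p_iv7_eqns_cite : True := by
  have := @L8pIv7Dir.eq_1; have := @L8pLowDir.eq_1
  trivial

end Claimed.Agent.R286
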