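import Claimed.Agent.R286.W.Leaves
import Claimed.Agent.R286.Bud.MomBoxA

/-!
# Row 286 (S0533), folder PM, file Defs : vocabulary of LL Prop 8.1 ("Pointwise moments", (D2), (D6)) OVER THE ABSTRACT SINGLE PATH `L8P` of helper75 (L08/SP.lean)     (helper37; prefix `Skp`/`skp`)

v3 (03:40Z): over `L8P` (v1 carrier `SkpD` dropped), GENERAL GRID (alarm of 22): `zc k` = coordinate of the cut `k`, monotone, mesh `≤ δ`.  Moments = NATURAL exponents, norm convention of L08/SPD, Bud/MomBoxA: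
`‖Z‖_q ≤ B` is written `∫ Z ^ q ∂μ ≤ B ^ q`.
An INSTANCE `SkpI` = a path `P : L8P Ω m` + the width data of folder W (`SkwD`, width `hh`) + the coordinates `zc` of the cuts in the coordinate `z` of LL 8.2 + slopes.
All `∫ dz` of the paper are `∑_k (zc (k+1) - zc k)`, all `∫ dv` are `∑_k P.dv k`  (`P.dv k = ∫_{zc k}^{zc (k+1)} G`: right-endpoint rule, as in `ghChain`, L08/IvP).
-/

set_option autoImplicit false

namespace Claimed.Agent.R286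

open Set MeasureTheory

/-- the `L^p` norm of a real random variable, as a real number (used with `p = (r : ℕ)`) -/
noncomputable def skpN {α : Type} [MeasurableSpace α] (μ : Measure α) (p : ℝ) (f : α → ℝ) : ℝ :=
  (∫ ω, |f ω| ^ p ∂μ) ^ (1 / p)

variable {Ω : Type} [mΩ : MeasurableSpace Ω] {m : ℕ}

/-- constants of the imported inequalities, as functions of the moment order -/
structure SkpC where
  /-- pinned moments: `P.Pin r (cA1 r)` -/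
  cA1 : ℕ → ℝ
  /-- projection: `P.Proj r ((cA3 r * (log N)²) ^ (2 r)) ..` -/
  cA3 : ℕ → ℝ

/-- structural constants of the instance -/
structure SkpS where
  c : SkwC
  K : SkpC
  /-- the constant of `SkwConcl` -/
  CW : ℝ
  /-- `v ≍ r` -/
  Cv : ℝ
  /-- the constant of (D3) -/
  cD3 : ℝ
  /-- `1/m ≤ Cm x⁶` -/
  Cm : ℝ
  /-- `g₀ ≤ x^cg` -/
  cg : ℝ
  /-- regular region: `cG ≤ G` on `[0, zreg]` -/
  zreg : ℝ
  cG : ℝ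
  /-- `q ≤ Cq r` -/
  Cq : ℝ
  /-- `zlo ≤ Cz Y` -/
  Cz : ℝ

structure SkpS.Ok (S : SkpS) : Prop where
  c : S.c.Ok
  CW : 1 ≤ S.CW
  Cv : 1 ≤ S.Cv
  cD3 : 0 < S.cD3
  Cm : 1 ≤ S.Cm
  cg : 0 < S.cg
  zreg : 0 < S.zreg
  zreg1 : S.zreg ≤ 1
  cG : 0 < S.cG
  Cq : 1 ≤ S.Cq
  Cz : 1 ≤ S.Cz
  cA1 : ∀ r, 1 ≤ S.K.cA1 r
  cA3 : ∀ r, 1 ≤ S.K.cA3 r

/-- an instance: path + width data + grid + slopes -/
structure SkpI (Ω : Type) [mΩ : MeasurableSpace Ω] (m : ℕ) where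
  P : L8P Ω m
  d : SkwD
  hh : ℝ → ℝ
  zhi : ℝ
  zbuf : ℝ
  zj : ℝ
  /-- coordinate of the cut `k` -/
  zc : ℕ → ℝ
  /-- bound of the mesh of the grid in `z` -/
  δ : ℝ
  /-- index of the cut `zbuf` -/
  nb : ℕ
  lam1 : ℝ
  g0 : ℝ
  /-- `log N` -/
  Lg : ℝ
  /-- lower threshold (an inverse power of `N`) for masses and field lengths in (A3) -/
  lowb : ℝ

/-- coordinate of the cut `k` -/
def SkpI.z (I : SkpI Ω m) (k : ℕ) : ℝ := I.zc k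

/-- weight of the cut `k` in `∫ dz` -/
def SkpI.dz (I : SkpI Ω m) (k : ℕ) : ℝ := I.zc (k + 1) - I.zc k

/-- hypotheses on an instance -/
structure SkpI.Ok (S : SkpS) (I : SkpI Ω m) : Prop where
  sp : I.P.Ok
  m0 : 0 < m
  a1 : 1 ≤ I.P.a
  a4 : I.P.a ≤ 4
  /-- (A1), last line -/
  pin : ∀ r, 1 ≤ r → I.P.Pin r (S.K.cA1 r)
  /-- (A3) = PE (13) -/
  proj : ∀ r, 1 ≤ r → I.P.Proj r ((S.K.cA3 r * I.Lg ^ 2) ^ (2 * r)) I.lowb I.lowb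
  wh : SkwHyp S.c I.d
  wc : SkwConcl S.CW I.d I.zhi I.zbuf I.zj I.hh
  zbuf : I.zbuf ≤ I.d.zmax
  zreg : S.zreg ≤ I.zbuf
  δ0 : 0 < I.δ
  z0 : I.zc 0 = 0
  zmono : Monotone I.zc
  zmesh : ∀ k < I.nb, I.zc (k + 1) - I.zc k ≤ I.δ
  nb : I.zc I.nb = I.zbuf
  nbn : I.nb ≤ I.P.n
  /-- the monotone function of folder W is the step function of the `S_k` -/
  Slink : ∀ k ≤ I.nb, ∀ z ∈ Icc 0 I.zbuf, I.z k ≤ z → z < I.z (k + 1) → I.d.S z = I.P.S k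
  /-- the weight of the cut `k` in mass integrals (so `v k` = the mass function at `z_{k+1}`) -/
  gaplink : ∀ k < I.nb, I.P.dv k = ∫ z in (I.z k)..(I.z (k + 1)), I.d.G z
  vlo : ∀ k ≤ I.nb, I.d.zlo / 4 ≤ I.z k → skwR (I.z k) / S.Cv ≤ I.P.v k
  vhi : ∀ k < I.nb, I.P.v k ≤ S.Cv * skwR (I.z (k + 1))
  /-- (D3) -/
  D3 : ∀ k₁ k₂, k₁ < k₂ → k₂ ≤ I.nb → I.d.zlo / 4 ≤ I.z k₁ →
    S.cD3 * I.lam1 * skwR (I.z k₁) ^ 2 * (I.z k₂ - I.z k₁) ≤ I.P.hlen k₁ k₂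
  msz : 1 / (m : ℝ) ≤ S.Cm * I.d.x ^ 6
  g0a : I.d.x ^ 3 / Real.sqrt I.lam1 ≤ I.g0 * I.d.U ^ 3
  g0b : I.g0 ≤ I.d.x ^ S.cg
  g0c : 0 < I.g0
  lam1a : I.d.x ^ 14 ≤ I.lam1
  lam1b : I.lam1 ≤ 1
  Lg0 : 0 ≤ I.Lg
  Lg : I.Lg ≤ 7 * Real.log (1 / I.d.x)
  mesh : I.δ ≤ I.d.x ^ 40
  lowb0 : 0 < I.lowb
  lowb : I.lowb ≤ I.d.x ^ 80
  /-- `Y ≤ zlo` -/
  Yz : I.d.U * I.d.Z ≤ I.d.zlo
  /-- `zlo ≍ Y`: the cuts near `zlo` are trivial -/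
  zloY : I.d.zlo ≤ S.Cz * (I.d.U * I.d.Z)
  zlox : I.d.x ≤ I.d.zlo
  zloreg : 16 * I.d.zlo ≤ S.zreg
  qr : ∀ z ∈ Icc 0 I.zbuf, I.d.q z ≤ S.Cq * skwR z
  Greg : ∀ z ∈ Icc 0 S.zreg, S.cG ≤ I.d.G z
  zregs : S.zreg ≤ S.c.zs

end Claimed.Agent.R286
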