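import Claimed.Agent.R286.PM.Inst
import Claimed.Agent.R286.L08.IvSkD8

/-!
# Row 286 (S0533), folder PM, file InstIv8 : LEAF IV8 of `l8p_iv_dir` = THE FIELD `I.D8` ON THE DIRECT SWEEP      (owner helper114; prefix `l8p_iv8_`)

TEX[LL:lem:statistics-localized] TEX[LL:eq:D8]
    l8p_iv8_dir : L8pN7Dir 𝔹 T → L8pIv8Dir 𝔹 T            `C_0 = 8`, every `δ' > 0`
* abstract field: `ivd8_field7` (L08/IvSkD8.lean) at `J = l8pI I π`;   (D2) = `skp_ref` at `r = 1`, `skp_raw` at `r = 2` (PM/Contract, closed);   envelope `l8pE I π` (`Ce = 1`, `M = 2 Cv² c1`: no use of ENV);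
* the zone `[Y, 2 Cv zlo)` is paid by the field `n7` of IV7 (298): hypothesis `L8pN7Dir`;   the last cell `(v_(n-1), a]` by the mesh `x^40`;
* `l8p_iv8_int`, `l8p_iv8_D2` : dictionary `I.int = (I.sp false).int`, `I.D2 = (I.sp false).D2`;
* `l8p_iv8_loss` : the loss `(1 + CDt + 3 CM) L b⁻² ≤ K x^(-ε)` for `b = x^eps`, `16 eps ≤ ε`, `tiny = x^K`.
-/

set_option autoImplicit false

namespace Claimed.Agent.R286

open MeasureTheory Set Filter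

/-! ### dictionary -/

theorem l8p_iv8_n (I : L8In) : (I.sp false).n = I.n := by
  show (llMat I.LP).length = I.LP.length
  simp [llMat]

theorem l8p_iv8_int (I : L8In) (lo hi : ℝ) (g : ℕ → ℝ) : I.int lo hi g = (I.sp false).int lo hi g := by
  rw [ivd8_int_eq, l8p_iv8_n]
  rfl

theorem l8p_iv8_D2 {I : L8In} (hI : I.Ok) (hadm : LlStpAdm I.a I.LP) {k : ℕ} (hk : k ≤ I.n) : (I.sp false).D2 k = I.D2 k := by
  have ha0 : 0 < I.a := by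
    unfold L8In.a LlPt.a
    split_ifs
    · norm_num
    · linarith [hI.pt.ell1]
  have hadm' : SkAdm I.a (I.P false) := hadm.1
  have hk' : k ≤ (I.P false).length := by
    have := l8p_iv8_n I
    have e : (I.sp false).n = (I.P false).length := rfl
    omega
  show (I.sp false).B k - (I.sp false).S k ^ 2 = obB I.m I.a I.P0 0 k - obS I.m I.a I.P0 0 k ^ 2
  rw [show (I.sp false).B k = obB I.m I.a (I.P false) 0 k from l8i_B I.m I.a ha0 _ hadm' k hk',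
    show (I.sp false).S k = obS I.m I.a (I.P false) 0 k from l8i_S I.m I.a ha0 _ hadm' k hk']
  rfl

/-- sums over the cuts see `g` at `k ≤ n` only -/
theorem l8p_iv8_int_congr (I : L8In) (lo hi : ℝ) {g g' : ℕ → ℝ} (h : ∀ k ≤ I.n, g k = g' k) : I.int lo hi g = I.int lo hi g' := by
  unfold L8In.int
  refine Finset.sum_congr rfl fun k hk => ?_
  rw [h k (Nat.lt_succ_iff.1 (Finset.mem_range.1 (Finset.mem_filter.1 hk).1))]

/-! ### one instance -/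

/-- TEX[LL:eq:D8] **(D8) at one instance of the direct sweep** -/
theorem l8p_iv8_inst {I : L8In} {π : L8pPar} {S : SkpS} {cv cs Czb : ℝ} (hπ : π.Ok S cv) (hIok : I.Ok) (hok : L8pOk I π S cv)
    (hX : L8D7X S (l8pI I π) cs Czb) (hzhi : (l8pI I π).zhi = l8pZc I π I.n)
    {CD CM A7 δ' : ℝ} (hCD : 0 ≤ CD) (hCM : 0 ≤ CM) (hA7 : 0 ≤ A7) (hδ : 0 < δ')
    (href : ∀ k ≤ I.n, π.c1 * I.Y ≤ l8pZc I π k → ∫ ω, ((I.sp false).nX k ω - (l8pD I π).q (l8pZc I π k)) ^ 2 ∂(I.sp false).μ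
      ≤ (CD * skwE (l8pD I π) (l8pH I π) (l8pZc I π k)) ^ 2)
    (hraw : ∀ k ≤ I.n, ∫ ω, (I.sp false).nX k ω ^ 2 ∂(I.sp false).μ ≤ (CM * (skwR (l8pZc I π k) + π.c1 * I.Y)) ^ 2)
    (hxs : ivd8Kz S cs * I.x ^ S.cg ≤ 1) {n0 : ℕ} (hn0 : 2 * S.Cv * S.Cz ≤ 2 ^ n0) (hY : 2 ^ n0 * I.Y ≤ I.a)
    (h7 : ∀ r, I.Y ≤ r → r ≤ I.a → I.band r I.D2 ≤ A7 * r * (I.z0 r * I.Z * r ^ 2)) :
    I.D8 (l8pE I π) (n0 * A7 * (2 * S.Cv ^ 2 * π.c1) ^ 2 + ivd8Km S (l8pI I π) cs Czb CD CM 1 + 2) 8 δ' := by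
  have hS := hπ.Sok
  have hJ := hok.pm
  have hP : (I.sp false).Ok := hJ.sp
  have hx0 : 0 < I.x := I.x_pos hIok
  have hx1 : I.x ≤ 1 := I.x_le_one hIok
  have hn := l8p_iv8_n I
  have hadm := hok.fine.adm
  have hCv := hS.Cv
  have hc1 : 8 ≤ π.c1 := by
    have h1 := hπ.c1
    have h2 := hπ.cv0
    have h3 := hπ.cv1
    by_contra hc
    have hc' : π.c1 < 8 := not_le.1 hc
    rcases le_or_gt 0 π.c1 with h0 | h0
    · nlinarith
    · nlinarith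
  have hY0 : 0 < I.Y := ivd8_Y_pos hJ
  have hl : 0 < I.lam1 := ivd8_lam_pos hJ
  have hnb : 1 ≤ I.n := l8d7i_nb_pos hS hJ
  have hθ0 : 0 < I.x ^ δ' := Real.rpow_pos_of_pos hx0 _
  have hθ1 : I.x ^ δ' ≤ 1 := Real.rpow_le_one hx0.le hx1 hδ.le
  have hmesh : ∀ k ≤ (I.sp false).n, (I.sp false).dv k ≤ I.x ^ 40 := fun k hk => hok.fine.dv_le k (by omega)
  have key := ivd8_field7 hS hJ hX hCD hCM href hraw (e := l8pE I π) (Ce := 1) (M := 2 * S.Cv ^ 2 * π.c1) (θ := I.x ^ δ')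
    le_rfl hθ0 hθ1 ?_ ?_ hxs (μ := I.x ^ 40) hmesh (pow_le_pow_of_le_one hx0.le hx1 (by norm_num)) hA7 hn0 ?_
    (kt := I.n - 1) (by show I.n - 1 ≤ (I.sp false).n; omega) ?_ ?_
  · -- conversion
    unfold L8In.D8
    have e1 : I.int I.Y I.a (fun k => if I.x ^ δ' ≤ l8pE I π k then I.D2 k else 0)
        = (I.sp false).int I.Y I.a (fun k => if I.x ^ δ' ≤ l8pE I π k then (I.sp false).D2 k else 0) := by
      rw [← l8p_iv8_int]
      exact l8p_iv8_int_congr I _ _ fun k hk => by rw [l8p_iv8_D2 hIok hadm hk]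
    rw [e1]
    refine le_trans key (le_of_eq ?_)
    have e2 : (I.x ^ δ') ^ 8 = I.x ^ (8 * δ') := by
      rw [← Real.rpow_natCast, ← Real.rpow_mul hx0.le]
      congr 1
      push_cast
      ring
    have e3 : I.x ^ (-(8 * δ')) = (I.x ^ (8 * δ'))⁻¹ := Real.rpow_neg hx0.le _
    have e4 : I.z0 1 = ivd8Z0 (l8pI I π) := by
      unfold L8In.z0 ivd8Z0
      show I.x ^ 3 / (Real.sqrt I.lam1 * 1 ^ 3) = I.x ^ 3 / Real.sqrt I.lam1
      rw [one_pow, mul_one]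
    rw [e2, e3, e4]
    show _ * (ivd8Z0 (l8pI I π) * I.Y ^ 2 * I.Z ^ 2) / I.x ^ (8 * δ') = _
    rw [div_eq_mul_inv]
    ring
  · -- the envelope above `zlo`
    intro k _ hz _
    have hz' : ¬ l8pZc I π k < π.c1 * I.Y := not_lt.2 hz
    show l8pE I π k ≤ 1 * skwE (l8pD I π) (l8pH I π) (l8pZc I π k)
    unfold l8pE
    rw [if_neg hz', one_mul]
  · -- the envelope on the zone
    intro k hk _ hv
    have hM : 1 ≤ 2 * S.Cv ^ 2 * π.c1 := by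
      have : 1 ≤ S.Cv ^ 2 := one_le_pow₀ hCv
      nlinarith
    show l8pE I π k ≤ 2 * S.Cv ^ 2 * π.c1 * I.Y
    unfold l8pE
    split_ifs with hz
    · nlinarith
    · have hz' : π.c1 * I.Y ≤ l8pZc I π k := not_lt.1 hz
      have hzlo : 0 < π.c1 * I.Y := hJ.wh.zlo0
      have hk' : k ≤ (I.sp false).n := hk
      have h1 := hJ.vlo k (by show k ≤ I.n; omega) (by show π.c1 * I.Y / 4 ≤ l8pZc I π k; linarith)
      rw [div_le_iff₀ (by linarith)] at h1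
      have h2 : skwE (l8pD I π) (l8pH I π) (l8pZc I π k) ≤ skwR (l8pZc I π k) := min_le_left _ _
      have hv' : (I.sp false).v k < 2 * S.Cv * (π.c1 * I.Y) := hv
      have h3 : skwR (l8pZc I π k) ≤ (I.sp false).v k * S.Cv := h1
      nlinarith
  · -- the last line of (D7)
    intro r hr1 hr2
    have hr0 : 0 < r := lt_of_lt_of_le hY0 hr1
    have h := h7 r hr1 (by
      have : 2 * r ≤ I.a := hr2.trans hY
      linarith)
    have e1 : I.band r I.D2 = (I.sp false).int r (2 * r) (I.sp false).D2 := by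
      unfold L8In.band
      rw [← l8p_iv8_int]
      exact l8p_iv8_int_congr I _ _ fun k hk => (l8p_iv8_D2 hIok hadm hk).symm
    rw [e1] at h
    refine h.trans (le_of_eq ?_)
    unfold L8In.z0 ivd8Z0
    show A7 * r * (I.x ^ 3 / (Real.sqrt I.lam1 * r ^ 3) * I.Z * r ^ 2) = A7 * (I.x ^ 3 / Real.sqrt I.lam1 * I.Z)
    have hs := Real.sqrt_pos.2 hl
    field_simp
  · -- the last cut
    have e : I.n - 1 + 1 = (l8pI I π).nb := by show I.n - 1 + 1 = I.n; omega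
    rw [e, l8d7i_zc_le le_rfl, hzhi]
    exact le_rfl
  · -- the last cell
    have h1 := hmesh (I.sp false).n le_rfl
    have h2 : (I.sp false).dv (I.sp false).n = (I.sp false).a - (I.sp false).v (I.n - 1) := by
      have hne : (I.sp false).n ≠ 0 := by omega
      unfold L8P.dv
      rw [if_neg hne, hP.v_term _ le_rfl, hn]
    rw [h2] at h1
    exact h1.trans (pow_le_pow_of_le_one hx0.le hx1 (by norm_num))

/-! ### the loss -/

/-- `(1 + CDt + 3 CM) L b⁻² ≤ K x^(-ε)` for `b = x^eps`, `16 eps ≤ ε`, `tiny = x^K`, `CD = C3 x^(-ε/4) / b²` -/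
theorem l8p_iv8_loss {u eps ε C3 CM W : ℝ} {K : ℕ} (hu0 : 0 < u) (hu1 : u ≤ 1) (heps : 0 < eps) (hε : 0 < ε) (h16 : 16 * eps ≤ ε)
    (hC3 : 0 ≤ C3) (hCM : 0 ≤ CM) (hW : 0 ≤ W) :
    (1 + (C3 * u ^ (-(ε / 4)) / (u ^ eps) ^ 2 + 3 * CM * (W / u ^ eps)) + 3 * CM) * (1 + Real.log (1 / u ^ K)) / (u ^ eps) ^ 2 * 1 ^ 8
      ≤ (1 + C3 + 3 * CM * W + 3 * CM) * (1 + 4 * K / ε) * u ^ (-ε) := by
  obtain ⟨p, hp⟩ : ∃ p : ℝ, p = u ^ (-(ε / 4)) := ⟨_, rfl⟩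
  obtain ⟨w, hw⟩ : ∃ w : ℝ, w = u ^ (-eps) := ⟨_, rfl⟩
  have hp1 : 1 ≤ p := hp ▸ Real.one_le_rpow_of_pos_of_le_one_of_nonpos hu0 hu1 (by linarith)
  have hw1 : 1 ≤ w := hw ▸ Real.one_le_rpow_of_pos_of_le_one_of_nonpos hu0 hu1 (by linarith)
  have hb : u ^ eps = w⁻¹ := by rw [hw, Real.rpow_neg hu0.le, inv_inv]
  have hw4 : w ^ 4 ≤ p := by
    rw [hw, hp, ← Real.rpow_natCast, ← Real.rpow_mul hu0.le]
    refine Real.rpow_le_rpow_of_exponent_ge hu0 hu1 ?_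
    push_cast
    linarith
  have hp4 : p ^ 4 = u ^ (-ε) := by
    rw [hp, ← Real.rpow_natCast, ← Real.rpow_mul hu0.le]
    congr 1
    push_cast
    ring
  have hlog0 : Real.log u⁻¹ ≤ 4 * p / ε := by
    have h := Real.log_le_rpow_div (inv_nonneg.2 hu0.le) (by positivity : 0 < ε / 4)
    rw [Real.inv_rpow hu0.le, ← Real.rpow_neg hu0.le, ← hp] at h
    refine h.trans (le_of_eq ?_)
    field_simp
  have hlog1 : 0 ≤ Real.log u⁻¹ := Real.log_nonneg ((one_le_inv₀ hu0).2 hu1)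
  have hlogK : Real.log (1 / u ^ K) = K * Real.log u⁻¹ := by
    rw [one_div, ← inv_pow, Real.log_pow]
  have hK0 : (0 : ℝ) ≤ K := Nat.cast_nonneg K
  have hL0 : 0 ≤ 1 + Real.log (1 / u ^ K) := by rw [hlogK]; positivity
  have hL : 1 + Real.log (1 / u ^ K) ≤ (1 + 4 * K / ε) * p := by
    rw [hlogK]
    have h1 : (K : ℝ) * Real.log u⁻¹ ≤ K * (4 * p / ε) := mul_le_mul_of_nonneg_left hlog0 hK0
    have h2 : (K : ℝ) * (4 * p / ε) = 4 * K / ε * p := by ring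
    nlinarith
  have hw2 : 1 ≤ w ^ 2 := one_le_pow₀ hw1
  have hww : w ≤ w ^ 2 := by nlinarith
  have hpw : 1 ≤ p * w ^ 2 := by nlinarith
  have hA : 1 + (C3 * p * w ^ 2 + 3 * CM * (W * w)) + 3 * CM ≤ (1 + C3 + 3 * CM * W + 3 * CM) * (p * w ^ 2) := by
    have a1 : 3 * CM * (W * w) ≤ 3 * CM * W * (p * w ^ 2) := by
      have : w ≤ p * w ^ 2 := by nlinarith
      have h0 : 0 ≤ 3 * CM * W := by positivity
      nlinarith
    have a2 : 3 * CM ≤ 3 * CM * (p * w ^ 2) := by nlinarith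
    nlinarith
  have hA0 : 0 ≤ 1 + (C3 * p * w ^ 2 + 3 * CM * (W * w)) + 3 * CM := by positivity
  have e : (1 + (C3 * u ^ (-(ε / 4)) / (u ^ eps) ^ 2 + 3 * CM * (W / u ^ eps)) + 3 * CM) * (1 + Real.log (1 / u ^ K)) / (u ^ eps) ^ 2 * 1 ^ 8
      = (1 + (C3 * p * w ^ 2 + 3 * CM * (W * w)) + 3 * CM) * (1 + Real.log (1 / u ^ K)) * w ^ 2 := by
    rw [hb, ← hp]
    have hw0 : w ≠ 0 := by linarith
    field_simp
  rw [e, ← hp4]
  have hK1 : 0 ≤ 1 + C3 + 3 * CM * W + 3 * CM := by positivity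
  have hK2 : 0 ≤ 1 + 4 * K / ε := by positivity
  calc (1 + (C3 * p * w ^ 2 + 3 * CM * (W * w)) + 3 * CM) * (1 + Real.log (1 / u ^ K)) * w ^ 2
      ≤ ((1 + C3 + 3 * CM * W + 3 * CM) * (p * w ^ 2)) * ((1 + 4 * K / ε) * p) * w ^ 2 := by
        refine mul_le_mul_of_nonneg_right (mul_le_mul hA hL hL0 (by positivity)) (by positivity)
    _ = (1 + C3 + 3 * CM * W + 3 * CM) * (1 + 4 * K / ε) * (p ^ 2 * w ^ 4) := by ring
    _ ≤ (1 + C3 + 3 * CM * W + 3 * CM) * (1 + 4 * K / ε) * (p ^ 2 * p) := by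
        refine mul_le_mul_of_nonneg_left (mul_le_mul_of_nonneg_left hw4 (by positivity)) (by positivity)
    _ ≤ (1 + C3 + 3 * CM * W + 3 * CM) * (1 + 4 * K / ε) * p ^ 4 := by
        refine mul_le_mul_of_nonneg_left ?_ (by positivity)
        have : p ^ 2 * p = p ^ 3 := by ring
        rw [this]
        exact pow_le_pow_right₀ hp1 (by norm_num)

/-! ### the contract -/

/-- the field `n7` of IV7 (298) as a consumer contract -/
def L8pN7Dir (𝔹 : LlBase) (T : ℝ) : Prop :=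
  ∀ F0, L8Fix 𝔹 T F0 → ∀ (pB : LLParB) (pS : ℝ), 0 < pS → pS ≤ 1 → ∀ κ ε : ℝ, 0 < κ → 0 < ε →
    L8pCons 𝔹 (F0.wExp pB.sStar pB.eta pS) κ fun I _ C => ∀ r, I.Y ≤ r → r ≤ I.a → I.band r I.D2 ≤ C * I.x ^ (-ε) * r * (I.z0 r * I.Z * r ^ 2)

/-- **IV8**: `C_0 = 8`, every `δ' > 0` -/
def L8pIv8Dir (𝔹 : LlBase) (T : ℝ) : Prop :=
  ∀ F0, L8Fix 𝔹 T F0 → ∀ (pB : LLParB) (pS : ℝ), 0 < pS → pS ≤ 1 → ∀ κ ε δ' : ℝ, 0 < κ → 0 < ε → 0 < δ' →
    L8pCons 𝔹 (F0.wExp pB.sStar pB.eta pS) κ fun I π C => I.D8 (l8pE I π) (C * I.x ^ (-ε)) 8 δ'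

/-- TEX[LL:lem:statistics-localized] TEX[LL:eq:D8] **IV8 on the direct sweep**.   `hiv` = the two facts of the instance v2 of 37 (`L8pOk.ivx`, `zhi = zbuf = zc n`) -/
theorem l8p_iv8_dir_of {𝔹 : LlBase} {T : ℝ}
    (hiv : ∀ (I : L8In) (π : L8pPar) (S : SkpS) (cv : ℝ), L8pOk I π S cv → L8D7X S (l8pI I π) (1 / 4) π.c.Cp ∧ (l8pI I π).zhi = l8pZc I π I.n)
    (h7 : L8pN7Dir 𝔹 T) : L8pIv8Dir 𝔹 T := by
  intro F0 hF pB pS h0 h1 κ ε δ' hκ hε hδ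
  obtain ⟨e7, he7, H7⟩ := h7 F0 hF pB pS h0 h1 κ ε hκ hε
  refine ⟨min e7 (ε / 16), lt_min he7 (by positivity), fun π S cv hπ heps => ?_⟩
  have hS := hπ.Sok
  obtain ⟨C7, N7, K7, H7⟩ := H7 π S cv hπ (heps.trans (min_le_left _ _))
  have heps16 : 16 * π.eps ≤ ε := by have := heps.trans (min_le_right _ _); linarith
  obtain ⟨C2, hC2, H2⟩ := skp_raw S hS 2 (by norm_num)
  obtain ⟨C3, hC3, H3⟩ := skp_ref S hS 1 (ε / 4) le_rfl (by positivity)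
  obtain ⟨Cm, hCmd⟩ : ∃ Cm : ℝ, Cm = C2 + C3 := ⟨_, rfl⟩
  have hCm2 : C2 ≤ Cm := by linarith
  have hCm3 : C3 ≤ Cm := by linarith
  have hCm0 : 0 < Cm := by linarith
  obtain ⟨n0, hn0⟩ := pow_unbounded_of_one_lt (2 * S.Cv * S.Cz) (by norm_num : (1 : ℝ) < 2)
  have hKz0 : 0 ≤ ivd8Kz S (1 / 4) := by unfold ivd8Kz; positivity
  obtain ⟨Na, hNa⟩ := skw_llb_small 1 (1 / Cm) one_pos (by positivity)
  obtain ⟨Nb, hNb⟩ := skw_llb_small π.eps (1 / Cm) hπ.eps0 (by positivity)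
  obtain ⟨Nc, hNc⟩ := skw_llb_small κ (min (1 / Cm) (1 / 2 ^ n0)) hκ (lt_min (by positivity) (by positivity))
  obtain ⟨Nd, hNd⟩ := skw_llb_small S.cg (1 / (ivd8Kz S (1 / 4) + 1)) hS.cg (by positivity)
  have hCW := hS.CW
  have hCz := hS.Cz
  have hCv := hS.Cv
  have hCp : ∀ I : L8In, L8pOk I π S cv → 1 ≤ π.c.Cp := fun I hok => ((hiv I π S cv hok).1).Czb1
  -- the constants
  obtain ⟨Kst, hKst⟩ : ∃ Kst : ℝ, Kst = 2 * ivd8Ks S π.c.Cp * (3 * S.CW ^ 2) ^ 8 * π.c.Cp := ⟨_, rfl⟩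
  obtain ⟨K1, hK1⟩ : ∃ K1 : ℝ, K1 = (1 + C3 + 3 * C2 * (S.CW * S.Cz ^ 2) + 3 * C2) * (1 + 4 * π.K / ε) := ⟨_, rfl⟩
  refine ⟨n0 * max C7 0 * (2 * S.Cv ^ 2 * π.c1) ^ 2 + Kst * K1 * ivd8Kz S (1 / 4) + 2, max (max (max Na Nb) (max Nc Nd)) N7, K7,
    fun I hI hok C hC => ?_⟩
  obtain ⟨hX, hzhi⟩ := hiv I π S cv hok
  have hJ := hok.pm
  have hx0 : 0 < I.x := I.x_pos hI.ok
  have hx1 : I.x ≤ 1 := I.x_le_one hI.ok
  have hNN : ∀ N', N' ≤ max (max (max Na Nb) (max Nc Nd)) N7 → N' ≤ I.p.N := fun N' h => h.trans hI.hN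
  have hinv : ∀ c : ℝ, 1 ≤ c → c ≤ Cm → 1 / Cm ≤ 1 / c := fun c hc hcm => one_div_le_one_div_of_le (by linarith) hcm
  have sx : I.x ≤ 1 / Cm := by
    have := hNa I.p (hNN _ (((le_max_left _ _).trans (le_max_left _ _)).trans (le_max_left _ _)))
    rwa [Real.rpow_one] at this
  have sb : I.x ^ π.eps ≤ 1 / Cm := hNb I.p (hNN _ (((le_max_right _ _).trans (le_max_left _ _)).trans (le_max_left _ _)))
  have sκ : I.x ^ κ ≤ min (1 / Cm) (1 / 2 ^ n0) := hNc I.p (hNN _ (((le_max_left _ _).trans (le_max_right _ _)).trans (le_max_left _ _)))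
  have sg : I.x ^ S.cg ≤ 1 / (ivd8Kz S (1 / 4) + 1) := hNd I.p (hNN _ (((le_max_right _ _).trans (le_max_right _ _)).trans (le_max_left _ _)))
  have hU0 : 0 ≤ I.U := hx0.le.trans hok.xU
  have hUY : I.U ≤ I.Y := by
    have : I.U * 1 ≤ I.U * I.Z := mul_le_mul_of_nonneg_left hok.Z1 hU0
    simpa [L8In.Y] using this
  have sU : I.U ≤ 1 / Cm := hUY.trans (hI.hY.trans (sκ.trans (min_le_left _ _)))
  have hsmall : SkwSmall C3 (l8pD I π) := ⟨sb.trans (hinv C3 hC3 hCm3), sU.trans (hinv C3 hC3 hCm3), sx.trans (hinv C3 hC3 hCm3)⟩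
  have hxe : 1 ≤ I.x ^ (-ε) := Real.one_le_rpow_of_pos_of_le_one_of_nonpos hx0 hx1 (by linarith)
  have hxs : ivd8Kz S (1 / 4) * I.x ^ S.cg ≤ 1 := by
    calc ivd8Kz S (1 / 4) * I.x ^ S.cg ≤ ivd8Kz S (1 / 4) * (1 / (ivd8Kz S (1 / 4) + 1)) := mul_le_mul_of_nonneg_left sg hKz0
      _ ≤ 1 := by rw [mul_one_div, div_le_one (by linarith)]; linarith
  have hY2 : 2 ^ n0 * I.Y ≤ I.a := by
    have h2 : I.Y ≤ 1 / 2 ^ n0 := hI.hY.trans (sκ.trans (min_le_right _ _))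
    have h3 : (2 : ℝ) ^ n0 * I.Y ≤ 1 := by
      rw [le_div_iff₀ (by positivity)] at h2
      linarith
    exact h3.trans hJ.a1
  have hA7 : 0 ≤ max C7 0 * I.x ^ (-ε) := mul_nonneg (le_max_right _ _) (by linarith)
  have hd8 := l8p_iv8_inst hπ hI.ok hok hX hzhi (CD := C3 * I.x ^ (-(ε / 4)) / (I.x ^ π.eps) ^ 2) (CM := C2) (A7 := max C7 0 * I.x ^ (-ε))
    (δ' := δ')
    (by have := Real.rpow_nonneg hx0.le (-(ε / 4)); have := Real.rpow_nonneg hx0.le π.eps; positivity) (by linarith) hA7 hδ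
    (fun k hk hz => by
      have h := (H3 _ _ (l8pI I π) hJ hsmall k hk hz).1
      simp only [mul_one] at h
      exact h)
    (fun k hk => (H2 _ _ (l8pI I π) hJ (sx.trans (hinv C2 hC2 hCm2)) k hk).1)
    hxs hn0.le hY2
    (H7 I (hI.mono (le_max_right _ _) le_rfl) hok (max C7 0) (le_max_left _ _))
  refine hd8.mono ?_
  -- the constant
  have hloss := l8p_iv8_loss (u := I.x) (eps := π.eps) (ε := ε) (C3 := C3) (CM := C2) (W := S.CW * S.Cz ^ 2) (K := π.K) hx0 hx1 hπ.eps0 hε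
    heps16 (by linarith) (by linarith) (by positivity)
  have hKs := ivd8_Ks_nonneg hS hX.Czb1
  have hKst0 : 0 ≤ Kst := by
    rw [hKst]
    have := hX.Czb1
    positivity
  have hKm : ivd8Km S (l8pI I π) (1 / 4) π.c.Cp (C3 * I.x ^ (-(ε / 4)) / (I.x ^ π.eps) ^ 2) C2 1 ≤ Kst * K1 * ivd8Kz S (1 / 4) * I.x ^ (-ε) := by
    unfold ivd8Km ivd8CD skwL
    show 2 * ivd8Ks S π.c.Cp * (3 * S.CW ^ 2) ^ 8 * π.c.Cp
        * ((1 + (C3 * I.x ^ (-(ε / 4)) / (I.x ^ π.eps) ^ 2 + 3 * C2 * (S.CW * S.Cz ^ 2 / I.x ^ π.eps)) + 3 * C2)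
            * (1 + Real.log (1 / I.x ^ π.K)) / (I.x ^ π.eps) ^ 2 * 1 ^ 8) * ivd8Kz S (1 / 4) ≤ _
    rw [← hKst]
    calc Kst * ((1 + (C3 * I.x ^ (-(ε / 4)) / (I.x ^ π.eps) ^ 2 + 3 * C2 * (S.CW * S.Cz ^ 2 / I.x ^ π.eps)) + 3 * C2)
            * (1 + Real.log (1 / I.x ^ π.K)) / (I.x ^ π.eps) ^ 2 * 1 ^ 8) * ivd8Kz S (1 / 4)
        ≤ Kst * ((1 + C3 + 3 * C2 * (S.CW * S.Cz ^ 2) + 3 * C2) * (1 + 4 * π.K / ε) * I.x ^ (-ε)) * ivd8Kz S (1 / 4) :=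
          mul_le_mul_of_nonneg_right (mul_le_mul_of_nonneg_left hloss hKst0) hKz0
      _ = _ := by rw [hK1]; ring
  have hfin : (n0 : ℝ) * (max C7 0 * I.x ^ (-ε)) * (2 * S.Cv ^ 2 * π.c1) ^ 2
        + ivd8Km S (l8pI I π) (1 / 4) π.c.Cp (C3 * I.x ^ (-(ε / 4)) / (I.x ^ π.eps) ^ 2) C2 1 + 2
      ≤ (n0 * max C7 0 * (2 * S.Cv ^ 2 * π.c1) ^ 2 + Kst * K1 * ivd8Kz S (1 / 4) + 2) * I.x ^ (-ε) := by
    nlinarith
  exact hfin.trans (mul_le_mul_of_nonneg_right hC (by linarith))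

/-- TEX[LL:lem:statistics-localized] TEX[LL:eq:D8] **IV8** at the instance v2 of 37 : the (D8) field of `l8p_iv_dir`, given the field `n7` of IV7 -/
theorem l8p_iv8_dir {𝔹 : LlBase} {T : ℝ} (h7 : L8pN7Dir 𝔹 T) : L8pIv8Dir 𝔹 T :=
  l8p_iv8_dir_of (fun _ _ _ _ h => ⟨h.ivx, rfl⟩) h7

theorem l8p_iv8_eqns_cite : True := by
  have := @L8pN7Dir.eq_1; have := @L8pIv8Dir.eq_1
  trivial

end Claimed.Agent.R286
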