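-- KEEP
import Claimed.Agent.R286.PM.InstA
import Claimed.Agent.R286.PM.InstEnv
import Claimed.Agent.R286.PM.InstIv8
import Claimed.Agent.R286.PM.InstIv7
import Claimed.Agent.R286.PM.InstIv9
import Claimed.Agent.R286.L08.IvSk
import Claimed.Agent.R286.L08.IvD7T
import Claimed.Agent.R286.L08.TlTil

/-!
# Row 286 (S0533), folder PM, file InstIv : CUT OF `l8p_iv_dir` (IV = (D7), (D8), (D9) untilted, on the W + PM instance `l8pI I π`, envelope `l8pE I π`)      (assembler helper199; head helper37; unit IV: 298 / 114 / 71; prefix `l8v` / `L8v`)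

    l8v_iv_dir : L8pEnvDir 𝔹 T → L8pD2Dir 𝔹 T → L8pIvDir 𝔹 T            **PROVED, 0 sorry**      (= `l8p_iv_dir` of PM/InstZ.lean)
    l8v_iv_of   : (D9) `L8vD9Dir` (150: `lw9_d9_dir`, PM/InstIv9.lean)  +  (D7) `L8vD7Dir`  +  (D8) (114: `l8p_iv8_dir`, PM/InstIv8.lean)
    l8v_d7_of   : l8v_d7_hi (bands `r ≥ 4 Cv zlo`: closed forms of 298, L08/IvD7T)  +  l8v_d7_lo (bands `Y ≤ r ≤ 4 Cv zlo`: lower band of 150 with the top `M = 8 Cv c1`, abstract forms `l8d7f_*_low` of 298, L08/IvD7F)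

* `L8vCons` = the shape `L8pCons` of PM/Inst.lean with the structural constants `S` visible in the conclusion (the border `4 Cv zlo` of the two zones).
* `L8vD7Z`  = the (D7) fields on the bands `lo ≤ r ≤ hi`.
-/

set_option autoImplicit false

namespace Claimed.Agent.R286

open MeasureTheory Set Filter

noncomputable section

/-! ## 1. Records -/

/-- the three (D9) fields of `L8pIv`, untilted -/
structure L8vD9 (I : L8In) (A Y : ℝ) : Prop where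
  n9 : ∀ w, 0 < w → w ≤ 2 * Y → I.int (max w I.x) (2 * w) I.D2 ≤ A * Y * I.epsw Y w
  d9_W : ∀ w, 0 < w → w ≤ 2 * Y → I.int (max w I.x) (2 * w) (fun k => I.ex false ((I.sp false).W k)) ≤ A * I.epsw Y w ^ 2
  d9_Q : ∀ w, 0 < w → w ≤ 2 * Y → I.int (max w I.x) (2 * w) (fun k => I.moF false k 1 fun ω => (I.sp false).Q ω - I.S k) ≤ A * Y * I.epsw Y w

/-- the (D7) fields of `L8pIv`, untilted, on the bands `lo ≤ r ≤ hi`      (`d7_Q = n7`: `l8v_Q_eq`) -/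
structure L8vD7Z (I : L8In) (e : ℕ → ℝ) (A Y Zh lo hi : ℝ) (jm : ℕ) : Prop where
  n7 : ∀ r, lo ≤ r → r ≤ hi → I.band r I.D2 ≤ A * r * (I.z0 r * Zh * r ^ 2)
  d7_W : ∀ r, lo ≤ r → r ≤ hi → ∀ j ≤ jm, I.band r (fun k => I.ex false ((I.sp false).W k) * e k ^ (2 * j)) ≤
    A * r * (I.z0 r ^ 2 * Zh ^ 2 * r ^ 3 * (if j = 0 then 1 else (Y ^ 2 / r) ^ 2 * r ^ (2 * j - 2)))
  d7_C : ∀ r, lo ≤ r → r ≤ hi → I.band r (fun k => I.ex false fun ω => (I.sp false).xCx k ω + (I.sp false).trC2 k ω) ≤ A * r * (I.z0 r ^ 2 * Zh ^ 2 * r ^ 2)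

/-- two zones -/
theorem L8vD7Z.join {I : L8In} {e : ℕ → ℝ} {A Y Zh lo mid hi : ℝ} {jm : ℕ} (h1 : L8vD7Z I e A Y Zh lo mid jm) (h2 : L8vD7Z I e A Y Zh mid hi jm) :
    L8vD7Z I e A Y Zh lo hi jm where
  n7 := fun r a b => (le_total r mid).elim (fun h => h1.n7 r a h) (fun h => h2.n7 r h b)
  d7_W := fun r a b => (le_total r mid).elim (fun h => h1.d7_W r a h) (fun h => h2.d7_W r h b)
  d7_C := fun r a b => (le_total r mid).elim (fun h => h1.d7_C r a h) (fun h => h2.d7_C r h b)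

/-! ## 2. Shapes and contracts -/

/-- **SHAPE**: `L8pCons` with `S` visible -/
def L8vCons (𝔹 : LlBase) (F : LlFix) (κ : ℝ) (Φ : L8In → L8pPar → SkpS → ℝ → Prop) : Prop :=
  ∃ eps0 : ℝ, 0 < eps0 ∧ ∀ (π : L8pPar) (S : SkpS) (cv : ℝ), π.Ok S cv → π.eps ≤ eps0 →
    ∃ (C0 : ℝ) (N0 : ℕ) (Kf : ℝ), ∀ I : L8In, L8pAt 𝔹 F N0 Kf κ I → L8pOk I π S cv → ∀ C : ℝ, C0 ≤ C → Φ I π S C

/-- **(D9)** TEX[LL:lem:statistics-lower-band] -/
def L8vD9Dir (𝔹 : LlBase) (T : ℝ) : Prop :=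
  ∀ F0, L8Fix 𝔹 T F0 → ∀ (pB : LLParB) (pS : ℝ), 0 < pS → pS ≤ 1 → ∀ κ ε : ℝ, 0 < κ → 0 < ε →
    L8pCons 𝔹 (F0.wExp pB.sStar pB.eta pS) κ fun I _ C => L8vD9 I (C * I.x ^ (-ε)) I.Y

/-- **(D7)** TEX[LL:lem:statistics-integrated] -/
def L8vD7Dir (𝔹 : LlBase) (T : ℝ) : Prop :=
  ∀ F0, L8Fix 𝔹 T F0 → ∀ (pB : LLParB) (pS : ℝ), 0 < pS → pS ≤ 1 → ∀ (κ ε : ℝ) (jm : ℕ), 0 < κ → 0 < ε →
    L8pCons 𝔹 (F0.wExp pB.sStar pB.eta pS) κ fun I π C => L8vD7Z I (l8pE I π) (C * I.x ^ (-ε)) I.Y I.Z I.Y I.a jm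

/-- (D7) on the bands `r ≥ 4 Cv zlo` -/
def L8vD7Hi (𝔹 : LlBase) (T : ℝ) : Prop :=
  ∀ F0, L8Fix 𝔹 T F0 → ∀ (pB : LLParB) (pS : ℝ), 0 < pS → pS ≤ 1 → ∀ (κ ε : ℝ) (jm : ℕ), 0 < κ → 0 < ε →
    L8vCons 𝔹 (F0.wExp pB.sStar pB.eta pS) κ fun I π S C => L8vD7Z I (l8pE I π) (C * I.x ^ (-ε)) I.Y I.Z (4 * S.Cv * (π.c1 * I.Y)) I.a jm

/-- (D7) on the bands `Y ≤ r ≤ 4 Cv zlo` -/
def L8vD7Lo (𝔹 : LlBase) (T : ℝ) : Prop :=
  ∀ F0, L8Fix 𝔹 T F0 → ∀ (pB : LLParB) (pS : ℝ), 0 < pS → pS ≤ 1 → ∀ (κ ε : ℝ) (jm : ℕ), 0 < κ → 0 < ε →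
    L8vCons 𝔹 (F0.wExp pB.sStar pB.eta pS) κ fun I π S C => L8vD7Z I (l8pE I π) (C * I.x ^ (-ε)) I.Y I.Z I.Y (4 * S.Cv * (π.c1 * I.Y)) jm

theorem l8v_iv_eqns_cite : True := by
  have := @L8vCons.eq_1; have := @L8vD9Dir.eq_1; have := @L8vD7Dir.eq_1; have := @L8vD7Hi.eq_1; have := @L8vD7Lo.eq_1
  trivial

end

theorem L8pCons.mono {𝔹 : LlBase} {F : LlFix} {κ : ℝ} {Φ Ψ : L8In → L8pPar → ℝ → Prop} (h : L8pCons 𝔹 F κ Φ)
    (hi : ∀ I π C, Φ I π C → Ψ I π C) : L8pCons 𝔹 F κ Ψ := by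
  obtain ⟨e1, he1, H1⟩ := h
  refine ⟨e1, he1, fun π S cv hπ he => ?_⟩
  obtain ⟨C1, N1, K1, H1⟩ := H1 π S cv hπ he
  exact ⟨C1, N1, K1, fun I hI hok C hC => hi I π C (H1 I hI hok C hC)⟩

theorem L8vCons.and {𝔹 : LlBase} {F : LlFix} {κ : ℝ} {Φ Ψ : L8In → L8pPar → SkpS → ℝ → Prop} (h : L8vCons 𝔹 F κ Φ) (h' : L8vCons 𝔹 F κ Ψ) :
    L8vCons 𝔹 F κ fun I π S C => Φ I π S C ∧ Ψ I π S C := by
  obtain ⟨e1, he1, H1⟩ := h
  obtain ⟨e2, he2, H2⟩ := h'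
  refine ⟨min e1 e2, lt_min he1 he2, fun π S cv hπ he => ?_⟩
  obtain ⟨C1, N1, K1, H1⟩ := H1 π S cv hπ (he.trans (min_le_left _ _))
  obtain ⟨C2, N2, K2, H2⟩ := H2 π S cv hπ (he.trans (min_le_right _ _))
  refine ⟨max C1 C2, max N1 N2, max K1 K2, fun I hI hok C hC => ⟨?_, ?_⟩⟩
  · exact H1 I (hI.mono (le_max_left _ _) (le_max_left _ _)) hok C ((le_max_left _ _).trans hC)
  · exact H2 I (hI.mono (le_max_right _ _) (le_max_right _ _)) hok C ((le_max_right _ _).trans hC)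

/-- back to the shape of PM/Inst.lean -/
theorem L8vCons.cons {𝔹 : LlBase} {F : LlFix} {κ : ℝ} {Φ : L8In → L8pPar → SkpS → ℝ → Prop} {Ψ : L8In → L8pPar → ℝ → Prop} (h : L8vCons 𝔹 F κ Φ)
    (hi : ∀ I π S C, Φ I π S C → Ψ I π C) : L8pCons 𝔹 F κ Ψ := by
  obtain ⟨e1, he1, H1⟩ := h
  refine ⟨e1, he1, fun π S cv hπ he => ?_⟩
  obtain ⟨C1, N1, K1, H1⟩ := H1 π S cv hπ he
  exact ⟨C1, N1, K1, fun I hI hok C hC => hi I π S C (H1 I hI hok C hC)⟩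

/-! ## 3. Dictionary -/

variable {I : L8In} {π : L8pPar} {S : SkpS} {cv : ℝ}

theorem l8v_hout (hok : L8pOk I π S cv) {r : ℝ} : ∀ k < (l8pI I π).P.n, r ≤ (l8pI I π).P.v k → (l8pI I π).P.v k ≤ 2 * r →
    k < (l8pI I π).nb ∧ (l8pI I π).zc (k + 1) ≤ (l8pI I π).zhi := by
  intro k hk _ _
  have hn : (I.sp false).n = I.n := l8p_iv8_n I
  have hk' : k < I.n := by
    have : k < (I.sp false).n := hk
    omega
  exact ⟨hk', hok.pm.zmono (by show k + 1 ≤ I.n; omega)⟩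

/-- scales at the instance -/
theorem l8v_pos (hI : I.Ok) (hok : L8pOk I π S cv) : 0 < I.x ∧ I.x ≤ 1 ∧ 0 < I.lam1 ∧ I.lam1 ≤ 1 ∧ 1 ≤ I.Z ∧ I.x ≤ I.U ∧ I.x ≤ I.Y ∧ I.a ≤ 4 ∧ 1 ≤ I.a := by
  have hx0 := I.x_pos hI
  refine ⟨hx0, I.x_le_one hI, ivd8_lam_pos hok.pm, hok.pm.lam1b, hok.Z1, hok.xU, ?_, hok.pm.a4, hok.pm.a1⟩
  have : I.U * 1 ≤ I.U * I.Z := mul_le_mul_of_nonneg_left hok.Z1 (hx0.le.trans hok.xU)
  have h2 : I.Y = I.U * I.Z := rfl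
  linarith [hok.xU]

/-- sums over a band see `g` at the cuts of the band only -/
theorem l8v_band_congr (I : L8In) (r : ℝ) {g g' : ℕ → ℝ} (h : ∀ k ≤ I.n, r ≤ I.v k → g k = g' k) : I.band r g = I.band r g' := by
  unfold L8In.band L8In.int
  refine Finset.sum_congr rfl fun k hk => ?_
  obtain ⟨h1, h2⟩ := Finset.mem_filter.1 hk
  rw [h k (Nat.lt_succ_iff.1 (Finset.mem_range.1 h1)) h2.1]

theorem l8v_band_D2 (hI : I.Ok) (hok : L8pOk I π S cv) (r : ℝ) : I.band r I.D2 = (I.sp false).int r (2 * r) (I.sp false).D2 := by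
  unfold L8In.band
  rw [← l8p_iv8_int]
  exact l8p_iv8_int_congr I _ _ fun k hk => (l8p_iv8_D2 hI hok.fine.adm hk).symm

/-- `d7_Q = n7` -/
theorem l8v_Q_eq (hI : I.Ok) (hok : L8pOk I π S cv) {k : ℕ} (hk : k ≤ I.n) :
    (I.moF false k 1 fun ω => (I.sp false).Q ω - I.S k) = I.D2 k := by
  rw [← l8p_iv8_D2 hI hok.fine.adm hk, hok.Slink k hk, ← (I.sp false).l8s_fork_var_Q hok.pm.sp k]
  unfold L8In.moF
  simp only [mul_one]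

theorem l8v_ex_CC (hP : (I.sp false).Ok) (k : ℕ) : (I.ex false fun ω => (I.sp false).xCx k ω + (I.sp false).trC2 k ω)
    = (∫ ω, (I.sp false).xCx k ω ∂(I.sp false).μ) + ∫ ω, (I.sp false).trC2 k ω ∂(I.sp false).μ := by
  have := hP.prob
  exact integral_add ((ivk_xCx_bd hP k).integrable _) ((ivk_trC2_bd hP k).integrable _)

/-- **GLUE of (D7)** -/
theorem l8v_d7_of {𝔹 : LlBase} {T : ℝ} (hlo : L8vD7Lo 𝔹 T) (hhi : L8vD7Hi 𝔹 T) : L8vD7Dir 𝔹 T := by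
  intro F0 hF pB pS h0 h1 κ ε jm hκ hε
  refine ((hlo F0 hF pB pS h0 h1 κ ε jm hκ hε).and (hhi F0 hF pB pS h0 h1 κ ε jm hκ hε)).cons ?_
  rintro I π S C ⟨a1, a2⟩
  exact a1.join a2

/-- the field `n7` for 114 -/
theorem l8v_n7_of {𝔹 : LlBase} {T : ℝ} (h7 : L8vD7Dir 𝔹 T) : L8pN7Dir 𝔹 T := by
  intro F0 hF pB pS h0 h1 κ ε hκ hε
  exact (h7 F0 hF pB pS h0 h1 κ ε 0 hκ hε).mono fun I π C h => h.n7

/-- **GLUE of IV** -/
theorem l8v_iv_of {𝔹 : LlBase} {T : ℝ} (h9 : L8vD9Dir 𝔹 T) (h7 : L8vD7Dir 𝔹 T) : L8pIvDir 𝔹 T := by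
  intro F0 hF pB pS h0 h1
  refine ⟨8, 1, by norm_num, one_pos, fun κ ε δ' jm hκ hε hδ' _ => ?_⟩
  obtain ⟨e1, he1, H1⟩ := ((h7 F0 hF pB pS h0 h1 κ ε jm hκ hε).and (h9 F0 hF pB pS h0 h1 κ ε hκ hε)).and
    (l8p_iv8_dir (l8v_n7_of h7) F0 hF pB pS h0 h1 κ ε δ' hκ hε hδ')
  refine ⟨e1, he1, fun π S cv hπ he => ?_⟩
  obtain ⟨C1, N1, K1, H1⟩ := H1 π S cv hπ he
  refine ⟨C1, N1, K1, fun I hI hok C hC => ?_⟩
  obtain ⟨⟨a7, a9⟩, a8⟩ := H1 I hI hok C hC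
  refine ⟨⟨a7.n7, a9.n9, a7.d7_W, a7.d7_C, fun r hr1 hr2 => ?_, a9.d9_W, a9.d9_Q⟩, a8⟩
  rw [l8v_band_congr I r (g' := I.D2) fun k hk _ => l8v_Q_eq hI.ok hok hk]
  exact a7.n7 r hr1 hr2

/-! ## 4. The losses -/

/-- the three elementary losses in terms of `p = u^(-ε/4)` -/
theorem l8v_loss_p {u eps ε : ℝ} (hu0 : 0 < u) (hu1 : u ≤ 1) (heps : 0 < eps) (hε : 0 < ε) (h4 : 4 * eps ≤ ε) :
    ∃ p : ℝ, 1 ≤ p ∧ p ^ 4 = u ^ (-ε) ∧ 1 / u ^ eps ≤ p ∧ Real.log (1 / u) ≤ 4 / ε * p ∧ 0 ≤ Real.log (1 / u) := by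
  refine ⟨u ^ (-(ε / 4)), Real.one_le_rpow_of_pos_of_le_one_of_nonpos hu0 hu1 (by linarith), ?_, ?_, ?_, ?_⟩
  · rw [← Real.rpow_natCast, ← Real.rpow_mul hu0.le]
    congr 1
    push_cast
    ring
  · rw [one_div, ← Real.rpow_neg hu0.le]
    exact Real.rpow_le_rpow_of_exponent_ge hu0 hu1 (by linarith)
  · have h := Real.log_le_rpow_div (inv_nonneg.2 hu0.le) (by positivity : 0 < ε / 4)
    rw [Real.inv_rpow hu0.le, ← Real.rpow_neg hu0.le] at h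
    rw [one_div]
    refine h.trans (le_of_eq ?_)
    field_simp
  · exact Real.log_nonneg (by rw [le_div_iff₀ hu0]; linarith)

theorem l8v_loss_D {u eps ε c : ℝ} (hu0 : 0 < u) (hu1 : u ≤ 1) (heps : 0 < eps) (hε : 0 < ε) (h4 : 4 * eps ≤ ε) :
    c / u ^ eps + 1 ≤ (|c| + 1) * u ^ (-ε) := by
  obtain ⟨p, hp1, hp4, hb, -, -⟩ := l8v_loss_p hu0 hu1 heps hε h4
  rw [← hp4]
  have hb0 : 0 < 1 / u ^ eps := by have := Real.rpow_pos_of_pos hu0 eps; positivity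
  have h1 : p ≤ p ^ 4 := by
    calc p = p ^ 1 := (pow_one p).symm
      _ ≤ p ^ 4 := pow_le_pow_right₀ hp1 (by norm_num)
  have h2 : c / u ^ eps ≤ |c| * p ^ 4 := by
    calc c / u ^ eps = c * (1 / u ^ eps) := by ring
      _ ≤ |c| * (1 / u ^ eps) := mul_le_mul_of_nonneg_right (le_abs_self c) hb0.le
      _ ≤ |c| * p ^ 4 := mul_le_mul_of_nonneg_left (hb.trans h1) (abs_nonneg c)
  nlinarith

theorem l8v_loss_W0 {u eps ε c M : ℝ} (hu0 : 0 < u) (hu1 : u ≤ 1) (heps : 0 < eps) (hε : 0 < ε) (h4 : 4 * eps ≤ ε) (hM : 0 ≤ M) :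
    c / (u ^ eps) ^ 2 + M ≤ (|c| + M) * u ^ (-ε) := by
  obtain ⟨p, hp1, hp4, hb, -, -⟩ := l8v_loss_p hu0 hu1 heps hε h4
  rw [← hp4]
  have hb0 : 0 < 1 / u ^ eps := by have := Real.rpow_pos_of_pos hu0 eps; positivity
  have h1 : p ^ 2 ≤ p ^ 4 := pow_le_pow_right₀ hp1 (by norm_num)
  have h0 : 1 ≤ p ^ 4 := one_le_pow₀ hp1
  have h2 : c / (u ^ eps) ^ 2 ≤ |c| * p ^ 4 := by
    calc c / (u ^ eps) ^ 2 = c * (1 / u ^ eps) ^ 2 := by rw [div_pow, one_pow]; ring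
      _ ≤ |c| * (1 / u ^ eps) ^ 2 := mul_le_mul_of_nonneg_right (le_abs_self c) (by positivity)
      _ ≤ |c| * p ^ 4 := mul_le_mul_of_nonneg_left ((pow_le_pow_left₀ hb0.le hb 2).trans h1) (abs_nonneg c)
  nlinarith

theorem l8v_loss_W {u eps ε c M : ℝ} {K : ℕ} (hu0 : 0 < u) (hu1 : u ≤ 1) (heps : 0 < eps) (hε : 0 < ε) (h4 : 4 * eps ≤ ε) (hM : 0 ≤ M) :
    c * (1 + Real.log (1 / u ^ K)) / (u ^ eps) ^ 2 + M ≤ (|c| * (1 + 4 * K / ε) + M) * u ^ (-ε) := by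
  obtain ⟨p, hp1, hp4, hb, hl, hl0⟩ := l8v_loss_p hu0 hu1 heps hε h4
  rw [← hp4]
  have hb0 : 0 < 1 / u ^ eps := by have := Real.rpow_pos_of_pos hu0 eps; positivity
  have h0 : 1 ≤ p ^ 4 := one_le_pow₀ hp1
  have hK0 : (0 : ℝ) ≤ K := Nat.cast_nonneg K
  have hlogK : Real.log (1 / u ^ K) = K * Real.log (1 / u) := by
    rw [one_div, one_div, ← inv_pow, Real.log_pow]
  have hL0 : 0 ≤ 1 + Real.log (1 / u ^ K) := by rw [hlogK]; positivity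
  have hL : 1 + Real.log (1 / u ^ K) ≤ (1 + 4 * K / ε) * p := by
    rw [hlogK]
    have h1 : (K : ℝ) * Real.log (1 / u) ≤ K * (4 / ε * p) := mul_le_mul_of_nonneg_left hl hK0
    have h2 : (K : ℝ) * (4 / ε * p) = 4 * K / ε * p := by ring
    nlinarith
  have hKε : 0 ≤ 1 + 4 * K / ε := by positivity
  have h2 : c * (1 + Real.log (1 / u ^ K)) / (u ^ eps) ^ 2 ≤ |c| * (1 + 4 * K / ε) * p ^ 4 := by
    calc c * (1 + Real.log (1 / u ^ K)) / (u ^ eps) ^ 2 = c * ((1 + Real.log (1 / u ^ K)) * (1 / u ^ eps) ^ 2) := by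
          rw [div_pow, one_pow]; ring
      _ ≤ |c| * ((1 + Real.log (1 / u ^ K)) * (1 / u ^ eps) ^ 2) := mul_le_mul_of_nonneg_right (le_abs_self c) (by positivity)
      _ ≤ |c| * (((1 + 4 * K / ε) * p) * p ^ 2) :=
          mul_le_mul_of_nonneg_left (mul_le_mul hL (pow_le_pow_left₀ hb0.le hb 2) (by positivity) (by positivity)) (abs_nonneg c)
      _ = |c| * (1 + 4 * K / ε) * p ^ 3 := by ring
      _ ≤ |c| * (1 + 4 * K / ε) * p ^ 4 := mul_le_mul_of_nonneg_left (pow_le_pow_right₀ hp1 (by norm_num)) (by positivity)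
  nlinarith

theorem l8v_loss_C {u eps ε c M : ℝ} {n' : ℕ} (hu0 : 0 < u) (hu1 : u ≤ 1) (heps : 0 < eps) (hε : 0 < ε) (h4 : 4 * eps ≤ ε) (hM : 0 ≤ M)
    (hn : (n' : ℝ) ≤ 1 + 9 * Real.log (1 / u)) :
    c * (((n' : ℝ) + 2) ^ 2 * 2) / (u ^ eps) ^ 2 + M ≤ (|c| * (2 * (3 + 36 / ε) ^ 2) + M) * u ^ (-ε) := by
  obtain ⟨p, hp1, hp4, hb, hl, hl0⟩ := l8v_loss_p hu0 hu1 heps hε h4
  rw [← hp4]
  have hb0 : 0 < 1 / u ^ eps := by have := Real.rpow_pos_of_pos hu0 eps; positivity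
  have h0 : 1 ≤ p ^ 4 := one_le_pow₀ hp1
  have hn0 : (0 : ℝ) ≤ n' := Nat.cast_nonneg n'
  have hN : (n' : ℝ) + 2 ≤ (3 + 36 / ε) * p := by
    have h2 : 9 * (4 / ε * p) = 36 / ε * p := by ring
    nlinarith
  have h2 : c * (((n' : ℝ) + 2) ^ 2 * 2) / (u ^ eps) ^ 2 ≤ |c| * (2 * (3 + 36 / ε) ^ 2) * p ^ 4 := by
    calc c * (((n' : ℝ) + 2) ^ 2 * 2) / (u ^ eps) ^ 2 = c * ((((n' : ℝ) + 2) ^ 2 * 2) * (1 / u ^ eps) ^ 2) := by
          rw [div_pow, one_pow]; ring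
      _ ≤ |c| * ((((n' : ℝ) + 2) ^ 2 * 2) * (1 / u ^ eps) ^ 2) := mul_le_mul_of_nonneg_right (le_abs_self c) (by positivity)
      _ ≤ |c| * (((((3 + 36 / ε) * p) ^ 2) * 2) * p ^ 2) := by
          refine mul_le_mul_of_nonneg_left (mul_le_mul ?_ (pow_le_pow_left₀ hb0.le hb 2) (by positivity) (by positivity)) (abs_nonneg c)
          exact mul_le_mul_of_nonneg_right (pow_le_pow_left₀ (by positivity) hN 2) (by norm_num)
      _ = |c| * (2 * (3 + 36 / ε) ^ 2) * p ^ 4 := by ring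
  nlinarith

/-! ## 5. (D7) on the bands `r ≥ 4 Cv zlo`, one instance      (closed forms of 298, L08/IvD7T.lean; the term of the last cut is paid by the mesh) -/

/-- the cuts of a band `r ≥ 4 Cv zlo` lie above `zlo` -/
theorem l8v_hi_zc (X : L8peCtx I π S cv) {r : ℝ} (hr : 4 * S.Cv * (π.c1 * I.Y) ≤ r) {k : ℕ} (hk : k ≤ I.n) (hv : r ≤ I.v k) :
    π.c1 * I.Y ≤ l8pZc I π k := by
  rcases hk.eq_or_lt with rfl | hk'
  · exact X.zlo_le_zn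
  · have hCv := X.par.Sok.Cv
    have h1 := l8d7s_cell_lo X.par.Sok X.inst.pm X.inst.ivx hr (k := k) hk' hv
    refine le_trans ?_ h1
    rw [le_div_iff₀ (by positivity)]
    linarith

theorem l8v_hi_D (hπ : π.Ok S cv) (hI : I.Ok) (hok : L8pOk I π S cv) {B : ℝ} (hB : 0 ≤ B)
    (hraw : ∀ k ≤ I.n, ∫ ω, (I.sp false).nX k ω ^ 2 ∂(I.sp false).μ ≤ (B * (skwR (l8pZc I π k) + π.c1 * I.Y)) ^ 2 ∧
      ∫ η, (I.sp false).Q η ^ 2 ∂((I.sp false).fork k) ≤ (B * (skwR (l8pZc I π k) + π.c1 * I.Y)) ^ 2)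
    {r : ℝ} (hr : 4 * S.Cv * (π.c1 * I.Y) ≤ r) (hra : r ≤ I.a) :
    I.band r I.D2 ≤ (l8d7sCD S (1 / 4) π.c.Cp * (3 * B + 2 * (S.c.Cf + S.Cq)) / I.x ^ π.eps + 1) * r * (I.z0 r * I.Z * r ^ 2) := by
  obtain ⟨hx0, hx1, hl0, hl1, hZ1, hxU, hxY, ha4, ha1⟩ := l8v_pos hI hok
  have hS := hπ.Sok
  have hJ := hok.pm
  have hP : (I.sp false).Ok := hJ.sp
  have hn := l8p_iv8_n I
  have hzlo : 0 < π.c1 * I.Y := hJ.wh.zlo0
  have hr0 : 0 < r := lt_of_lt_of_le (by have := hS.Cv; positivity) hr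
  have key := l8d7s_D_cl hS hJ hok.ivx hB hraw hr (hra.trans ha4) (l8v_hout hok)
  rw [l8v_band_D2 hI hok]
  refine key.trans ?_
  have hs := Real.sqrt_pos.2 hl0
  have hs1 : Real.sqrt I.lam1 ≤ 1 := Real.sqrt_le_one.2 hl1
  have hb0 : 0 < I.x ^ π.eps := Real.rpow_pos_of_pos hx0 _
  have hlast : (I.sp false).dv (I.sp false).n * (I.sp false).D2 (I.sp false).n ≤ I.Z * I.x ^ 3 / Real.sqrt I.lam1 := by
    have h1 : (I.sp false).dv (I.sp false).n ≤ I.x ^ 40 := hok.fine.dv_le _ (by omega)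
    have h2 := ivs_D2_le_one hP (I.sp false).n
    have h3 := ivs_D2_nonneg hP (I.sp false).n
    have h4 := ivk_dv_nonneg hP (I.sp false).n
    have h5 : I.x ^ 40 ≤ I.x ^ 3 := pow_le_pow_of_le_one hx0.le hx1 (by norm_num)
    have h6 : I.x ^ 3 ≤ I.Z * I.x ^ 3 / Real.sqrt I.lam1 := by
      rw [le_div_iff₀ hs]
      have : 0 < I.x ^ 3 := by positivity
      nlinarith
    calc _ ≤ I.x ^ 40 * 1 := mul_le_mul h1 h2 h3 (by positivity)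
      _ ≤ _ := by linarith
  show l8d7sCD S (1 / 4) π.c.Cp * ((3 * B + 2 * (S.c.Cf + S.Cq)) * (I.Z * I.x ^ 3 / (I.x ^ π.eps * Real.sqrt I.lam1)))
      + (I.sp false).dv (I.sp false).n * (I.sp false).D2 (I.sp false).n ≤ _
  have e : (l8d7sCD S (1 / 4) π.c.Cp * (3 * B + 2 * (S.c.Cf + S.Cq)) / I.x ^ π.eps + 1) * r * (I.z0 r * I.Z * r ^ 2)
      = l8d7sCD S (1 / 4) π.c.Cp * ((3 * B + 2 * (S.c.Cf + S.Cq)) * (I.Z * I.x ^ 3 / (I.x ^ π.eps * Real.sqrt I.lam1)))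
        + I.Z * I.x ^ 3 / Real.sqrt I.lam1 := by
    unfold L8In.z0
    field_simp
  rw [e]
  linarith

theorem l8v_hi_W0 (X : L8peCtx I π S cv) {r : ℝ} (hr : 4 * S.Cv * (π.c1 * I.Y) ≤ r) (hra : r ≤ I.a) :
    I.band r (fun k => I.ex false ((I.sp false).W k)) ≤ (l8d7sCW0 S (1 / 4) π.c.Cp / (I.x ^ π.eps) ^ 2 + 256) * r * (I.z0 r ^ 2 * I.Z ^ 2 * r ^ 3) := by
  have hok := X.inst
  obtain ⟨hx0, hx1, hl0, hl1, hZ1, hxU, hxY, ha4, ha1⟩ := l8v_pos X.ok hok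
  have hS := X.par.Sok
  have hJ := hok.pm
  have hP : (I.sp false).Ok := hJ.sp
  have hn := l8p_iv8_n I
  have hzlo : 0 < π.c1 * I.Y := hJ.wh.zlo0
  have hr0 : 0 < r := lt_of_lt_of_le (by have := hS.Cv; positivity) hr
  have hr4 := hra.trans ha4
  have key := l8d7s_W0_cl hS hJ hok.ivx hr hr4 (l8v_hout hok)
  unfold L8In.band
  rw [l8p_iv8_int]
  refine key.trans ?_
  have hs2 : Real.sqrt I.lam1 ^ 2 = I.lam1 := Real.sq_sqrt hl0.le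
  have hs := Real.sqrt_pos.2 hl0
  have hb0 : 0 < I.x ^ π.eps := Real.rpow_pos_of_pos hx0 _
  have hlast : (I.sp false).dv (I.sp false).n * ∫ ω, (I.sp false).W (I.sp false).n ω ∂(I.sp false).μ ≤ 256 * (I.Z ^ 2 * I.x ^ 6 / (I.lam1 * r ^ 2)) := by
    have h1 : (I.sp false).dv (I.sp false).n ≤ I.x ^ 40 := hok.fine.dv_le _ (by omega)
    have h2 := ivs_int_W_le hP (I.sp false).n
    have h3 := ivk_int_W_nonneg hP (I.sp false).n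
    have h5 : I.x ^ 40 ≤ I.x ^ 6 := pow_le_pow_of_le_one hx0.le hx1 (by norm_num)
    have h6 : I.x ^ 6 ≤ 16 * (I.Z ^ 2 * I.x ^ 6 / (I.lam1 * r ^ 2)) := by
      rw [mul_div_assoc', le_div_iff₀ (by positivity)]
      have a1 : 0 < I.x ^ 6 := by positivity
      have a2 : I.lam1 * r ^ 2 ≤ 1 * 4 ^ 2 := mul_le_mul hl1 (pow_le_pow_left₀ hr0.le hr4 2) (by positivity) (by norm_num)
      have a3 : 1 ≤ I.Z ^ 2 := one_le_pow₀ hZ1
      nlinarith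
    have h7 : (4 : ℝ) * (I.sp false).a ≤ 16 := by have : (I.sp false).a ≤ 4 := ha4; linarith
    calc _ ≤ I.x ^ 40 * 16 := mul_le_mul h1 (h2.trans h7) h3 (by positivity)
      _ ≤ _ := by linarith
  show l8d7sCW0 S (1 / 4) π.c.Cp * (I.Z ^ 2 * I.x ^ 6 / ((I.x ^ π.eps) ^ 2 * I.lam1 * r ^ 2))
      + (I.sp false).dv (I.sp false).n * ∫ ω, (I.sp false).W (I.sp false).n ω ∂(I.sp false).μ ≤ _
  have e : (l8d7sCW0 S (1 / 4) π.c.Cp / (I.x ^ π.eps) ^ 2 + 256) * r * (I.z0 r ^ 2 * I.Z ^ 2 * r ^ 3)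
      = l8d7sCW0 S (1 / 4) π.c.Cp * (I.Z ^ 2 * I.x ^ 6 / ((I.x ^ π.eps) ^ 2 * I.lam1 * r ^ 2))
        + 256 * (I.Z ^ 2 * I.x ^ 6 / (I.lam1 * r ^ 2)) := by
    unfold L8In.z0
    rw [div_pow, mul_pow, hs2]
    field_simp
  rw [e]
  linarith

theorem l8v_hi_W (X : L8peCtx I π S cv) (k : ℕ) {Km : ℕ} (hKm : 2 * k + 10 ≤ Km) (hmesh : I.dv I.n ≤ I.x ^ Km)
    {r : ℝ} (hr : 4 * S.Cv * (π.c1 * I.Y) ≤ r) (hra : r ≤ I.a) :
    I.band r (fun i => I.ex false ((I.sp false).W i) * l8pE I π i ^ (2 * (k + 1)))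
      ≤ (l8d7sCW S (1 / 4) π.c.Cp k * (1 + Real.log (1 / I.x ^ π.K)) / (I.x ^ π.eps) ^ 2 + 4096) * r
        * (I.z0 r ^ 2 * I.Z ^ 2 * r ^ 3 * ((I.Y ^ 2 / r) ^ 2 * r ^ (2 * (k + 1) - 2))) := by
  have hok := X.inst
  obtain ⟨hx0, hx1, hl0, hl1, hZ1, hxU, hxY, ha4, ha1⟩ := l8v_pos X.ok hok
  have hS := X.par.Sok
  have hJ := hok.pm
  have hP : (I.sp false).Ok := hJ.sp
  have hn := l8p_iv8_n I
  have hCv := hS.Cv
  have hc1 := X.c18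
  have hY0 := X.Y0
  have hzlo : 0 < π.c1 * I.Y := hJ.wh.zlo0
  have hr0 : 0 < r := lt_of_lt_of_le (by positivity) hr
  have hr4 := hra.trans ha4
  have hxr : I.x ≤ r := by nlinarith
  obtain ⟨w, hw⟩ : ∃ w : ℕ → ℝ, w = fun i => if π.c1 * I.Y ≤ l8pZc I π i then l8pE I π i ^ (2 * (k + 1)) else 0 := ⟨_, rfl⟩
  have hw0 : ∀ i, 0 ≤ w i := fun i => by
    rw [hw]
    show 0 ≤ if π.c1 * I.Y ≤ l8pZc I π i then l8pE I π i ^ (2 * (k + 1)) else 0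
    split_ifs
    · exact pow_nonneg (X.e_pos i).le _
    · exact le_rfl
  have key := l8d7s_W_cl hS hJ hok.ivx k (w := w) (ζ := l8pZc I π) (Mw := 1) hw0 zero_le_one
    (fun i _ => ⟨le_rfl, hJ.zmono (Nat.le_succ i)⟩)
    (fun i _ _ => by
      rw [hw, one_mul]
      show (if π.c1 * I.Y ≤ l8pZc I π i then l8pE I π i ^ (2 * (k + 1)) else 0) ≤ skwE (l8pD I π) (l8pH I π) (l8pZc I π i) ^ (2 * (k + 1))
      split_ifs with h
      · rw [X.e_hic h]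
      · rw [pow_mul]; positivity) hr hr4 (l8v_hout hok)
  rw [l8v_band_congr I r (g' := fun i => I.ex false ((I.sp false).W i) * w i) (fun i hi hv => by
    rw [hw]
    show _ = _ * (if π.c1 * I.Y ≤ l8pZc I π i then l8pE I π i ^ (2 * (k + 1)) else 0)
    rw [if_pos (l8v_hi_zc X hr hi hv)])]
  unfold L8In.band
  rw [l8p_iv8_int]
  refine key.trans ?_
  have hs2 : Real.sqrt I.lam1 ^ 2 = I.lam1 := Real.sq_sqrt hl0.le
  have hs := Real.sqrt_pos.2 hl0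
  have hb0 : 0 < I.x ^ π.eps := Real.rpow_pos_of_pos hx0 _
  have hwn : w (I.sp false).n ≤ 1 := by
    rw [hw, hn]
    show (if π.c1 * I.Y ≤ l8pZc I π I.n then l8pE I π I.n ^ (2 * (k + 1)) else 0) ≤ 1
    rw [if_pos X.zlo_le_zn]
    refine pow_le_one₀ (X.e_pos _).le ?_
    rw [X.e_hic X.zlo_le_zn]
    exact (min_le_left _ _).trans (min_le_right _ _)
  have hlast : (I.sp false).dv (I.sp false).n * ((∫ ω, (I.sp false).W (I.sp false).n ω ∂(I.sp false).μ) * w (I.sp false).n)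
      ≤ 4096 * (I.Z ^ 2 * I.x ^ 6 * I.Y ^ 4 * r ^ (2 * k) / (I.lam1 * r ^ 4)) := by
    have h1 : (I.sp false).dv (I.sp false).n ≤ I.x ^ Km := by rw [hn]; exact hmesh
    have h2 := ivs_int_W_le hP (I.sp false).n
    have h3 := ivk_int_W_nonneg hP (I.sp false).n
    have h5 : I.x ^ Km ≤ I.x ^ (2 * k + 10) := pow_le_pow_of_le_one hx0.le hx1 hKm
    have h6 : I.x ^ (2 * k + 10) ≤ 256 * (I.Z ^ 2 * I.x ^ 6 * I.Y ^ 4 * r ^ (2 * k) / (I.lam1 * r ^ 4)) := by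
      rw [mul_div_assoc', le_div_iff₀ (by positivity)]
      have a2 : I.lam1 * r ^ 4 ≤ 1 * 4 ^ 4 := mul_le_mul hl1 (pow_le_pow_left₀ hr0.le hr4 4) (by positivity) (by norm_num)
      have a3 : 1 ≤ I.Z ^ 2 := one_le_pow₀ hZ1
      have a4 : I.x ^ 4 ≤ I.Y ^ 4 := pow_le_pow_left₀ hx0.le hxY 4
      have a5 : I.x ^ (2 * k) ≤ r ^ (2 * k) := pow_le_pow_left₀ hx0.le hxr _
      have a6 : I.x ^ (2 * k + 10) = 1 * I.x ^ 6 * I.x ^ 4 * I.x ^ (2 * k) := by ring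
      have a7 : 1 * I.x ^ 6 * I.x ^ 4 * I.x ^ (2 * k) ≤ I.Z ^ 2 * I.x ^ 6 * I.Y ^ 4 * r ^ (2 * k) := by gcongr
      have a8 : 0 ≤ I.x ^ (2 * k + 10) := by positivity
      calc I.x ^ (2 * k + 10) * (I.lam1 * r ^ 4) ≤ I.x ^ (2 * k + 10) * (1 * 4 ^ 4) := mul_le_mul_of_nonneg_left a2 a8
        _ = 256 * I.x ^ (2 * k + 10) := by ring
        _ ≤ _ := by rw [a6]; linarith
    have h7 : (4 : ℝ) * (I.sp false).a ≤ 16 := by have : (I.sp false).a ≤ 4 := ha4; linarith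
    have h8 : (∫ ω, (I.sp false).W (I.sp false).n ω ∂(I.sp false).μ) * w (I.sp false).n ≤ 16 * 1 :=
      mul_le_mul (h2.trans h7) hwn (hw0 _) (by norm_num)
    calc _ ≤ I.x ^ Km * (16 * 1) := mul_le_mul h1 h8 (mul_nonneg h3 (hw0 _)) (by positivity)
      _ ≤ _ := by linarith
  show l8d7sCW S (1 / 4) π.c.Cp k * (1 * (1 + Real.log (1 / I.x ^ π.K)) * (I.Z ^ 2 * I.x ^ 6 / ((I.x ^ π.eps) ^ 2 * I.lam1)) * (I.U * I.Z) ^ 4 * r ^ (2 * k) / r ^ 4)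
      + (I.sp false).dv (I.sp false).n * ((∫ ω, (I.sp false).W (I.sp false).n ω ∂(I.sp false).μ) * w (I.sp false).n) ≤ _
  have e : (l8d7sCW S (1 / 4) π.c.Cp k * (1 + Real.log (1 / I.x ^ π.K)) / (I.x ^ π.eps) ^ 2 + 4096) * r
        * (I.z0 r ^ 2 * I.Z ^ 2 * r ^ 3 * ((I.Y ^ 2 / r) ^ 2 * r ^ (2 * (k + 1) - 2)))
      = l8d7sCW S (1 / 4) π.c.Cp k * (1 * (1 + Real.log (1 / I.x ^ π.K)) * (I.Z ^ 2 * I.x ^ 6 / ((I.x ^ π.eps) ^ 2 * I.lam1)) * (I.U * I.Z) ^ 4 * r ^ (2 * k) / r ^ 4)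
        + 4096 * (I.Z ^ 2 * I.x ^ 6 * I.Y ^ 4 * r ^ (2 * k) / (I.lam1 * r ^ 4)) := by
    have e1 : 2 * (k + 1) - 2 = 2 * k := by omega
    have e2 : I.U * I.Z = I.Y := rfl
    rw [e1, e2]
    unfold L8In.z0
    rw [div_pow, mul_pow, hs2]
    field_simp
  rw [e]
  linarith

theorem l8v_hi_C (X : L8peCtx I π S cv) {n' : ℕ} (hn1 : 1 ≤ I.x ^ 6 * 2 ^ n') (hn2 : I.x ^ 6 * 2 ^ n' ≤ 2) (hsm : I.x * l8d7sCs S ≤ 1)
    {r : ℝ} (hr : 4 * S.Cv * (π.c1 * I.Y) ≤ r) (hra : r ≤ I.a) :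
    I.band r (fun k => I.ex false fun ω => (I.sp false).xCx k ω + (I.sp false).trC2 k ω)
      ≤ (l8d7sCC S (1 / 4) π.c.Cp * (((n' : ℝ) + 2) ^ 2 * 2) / (I.x ^ π.eps) ^ 2 + 64) * r * (I.z0 r ^ 2 * I.Z ^ 2 * r ^ 2) := by
  have hok := X.inst
  obtain ⟨hx0, hx1, hl0, hl1, hZ1, hxU, hxY, ha4, ha1⟩ := l8v_pos X.ok hok
  have hS := X.par.Sok
  have hJ := hok.pm
  have hP : (I.sp false).Ok := hJ.sp
  have hn := l8p_iv8_n I
  have hzlo : 0 < π.c1 * I.Y := hJ.wh.zlo0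
  have hr0 : 0 < r := lt_of_lt_of_le (by have := hS.Cv; positivity) hr
  have hr4 := hra.trans ha4
  have key := l8d7s_C_cl hS hJ hok.ivx hn1 hn2 hsm hr hr4 (l8v_hout hok)
  simp only [l8v_ex_CC hP]
  unfold L8In.band
  rw [l8p_iv8_int]
  refine key.trans ?_
  have hs2 : Real.sqrt I.lam1 ^ 2 = I.lam1 := Real.sq_sqrt hl0.le
  have hs := Real.sqrt_pos.2 hl0
  have hb0 : 0 < I.x ^ π.eps := Real.rpow_pos_of_pos hx0 _
  have hlast : (I.sp false).dv (I.sp false).n * ((∫ ω, (I.sp false).xCx (I.sp false).n ω ∂(I.sp false).μ) + ∫ ω, (I.sp false).trC2 (I.sp false).n ω ∂(I.sp false).μ)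
      ≤ 64 * (I.Z ^ 2 * I.x ^ 6 / (I.lam1 * r ^ 3)) := by
    have h1 : (I.sp false).dv (I.sp false).n ≤ I.x ^ 40 := hok.fine.dv_le _ (by omega)
    have hpr := hP.prob
    have h2 : (∫ ω, (I.sp false).xCx (I.sp false).n ω ∂(I.sp false).μ) + ∫ ω, (I.sp false).trC2 (I.sp false).n ω ∂(I.sp false).μ ≤ 1 := by
      rw [← l8v_ex_CC hP]
      calc _ ≤ ∫ _ω, (1 : ℝ) ∂(I.sp false).μ :=
            integral_mono (((ivk_xCx_bd hP _).integrable _).add ((ivk_trC2_bd hP _).integrable _)) (integrable_const _)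
              fun ω => tlk_k_CC_le hP _ ω
        _ = 1 := by simp
    have h3 : 0 ≤ (∫ ω, (I.sp false).xCx (I.sp false).n ω ∂(I.sp false).μ) + ∫ ω, (I.sp false).trC2 (I.sp false).n ω ∂(I.sp false).μ :=
      add_nonneg (integral_nonneg fun ω => ivk_xCx_nonneg hP _ ω) (integral_nonneg fun ω => ivk_trC2_nonneg _ ω)
    have h5 : I.x ^ 40 ≤ I.x ^ 6 := pow_le_pow_of_le_one hx0.le hx1 (by norm_num)
    have h6 : I.x ^ 6 ≤ 64 * (I.Z ^ 2 * I.x ^ 6 / (I.lam1 * r ^ 3)) := by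
      rw [mul_div_assoc', le_div_iff₀ (by positivity)]
      have a1 : 0 < I.x ^ 6 := by positivity
      have a2 : I.lam1 * r ^ 3 ≤ 1 * 4 ^ 3 := mul_le_mul hl1 (pow_le_pow_left₀ hr0.le hr4 3) (by positivity) (by norm_num)
      have a3 : 1 ≤ I.Z ^ 2 := one_le_pow₀ hZ1
      nlinarith
    calc _ ≤ I.x ^ 40 * 1 := mul_le_mul h1 h2 h3 (by positivity)
      _ ≤ _ := by linarith
  show l8d7sCC S (1 / 4) π.c.Cp * (((n' : ℝ) + 2) ^ 2 * (1 + (1 : ℝ) ^ 4) * (I.Z ^ 2 * I.x ^ 6 / ((I.x ^ π.eps) ^ 2 * I.lam1 * r ^ 3)))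
      + (I.sp false).dv (I.sp false).n * ((∫ ω, (I.sp false).xCx (I.sp false).n ω ∂(I.sp false).μ) + ∫ ω, (I.sp false).trC2 (I.sp false).n ω ∂(I.sp false).μ) ≤ _
  have e : (l8d7sCC S (1 / 4) π.c.Cp * (((n' : ℝ) + 2) ^ 2 * 2) / (I.x ^ π.eps) ^ 2 + 64) * r * (I.z0 r ^ 2 * I.Z ^ 2 * r ^ 2)
      = l8d7sCC S (1 / 4) π.c.Cp * (((n' : ℝ) + 2) ^ 2 * (1 + (1 : ℝ) ^ 4) * (I.Z ^ 2 * I.x ^ 6 / ((I.x ^ π.eps) ^ 2 * I.lam1 * r ^ 3)))
        + 64 * (I.Z ^ 2 * I.x ^ 6 / (I.lam1 * r ^ 3)) := by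
    unfold L8In.z0
    rw [div_pow, mul_pow, hs2]
    field_simp
    ring
  rw [e]
  linarith

/-! ## 6. (D7) on the bands `r ≥ 4 Cv zlo` -/

/-- TEX[LL:lem:statistics-integrated] TEX[LL:eq:D7] **(D7) on the bands `4 Cv zlo ≤ r ≤ a`** -/
theorem l8v_d7_hi (𝔹 : LlBase) (T : ℝ) : L8vD7Hi 𝔹 T := by
  intro F0 _ pB pS _ _ κ ε jm _ hε
  refine ⟨ε / 4, by positivity, fun π S cv hπ heps => ?_⟩
  have hS := hπ.Sok
  have h4 : 4 * π.eps ≤ ε := by linarith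
  obtain ⟨C2, hC2, H2⟩ := skp_raw S hS 2 (by norm_num)
  obtain ⟨C1, hC1, H1⟩ := skp_raw S hS 1 le_rfl
  obtain ⟨Cm, hCmd⟩ : ∃ Cm : ℝ, Cm = C1 + C2 + (S.CW + S.c.Lq + 2) + |l8d7sCs S| := ⟨_, rfl⟩
  have hCW := hS.CW
  have hLq := hS.c.Lq
  have hCm0 : 0 < Cm := by have := abs_nonneg (l8d7sCs S); linarith
  obtain ⟨Na, hNa⟩ := skw_llb_small 1 (1 / Cm) one_pos (by positivity)
  obtain ⟨cD, hcD⟩ : ∃ c : ℝ, c = |l8d7sCD S (1 / 4) π.c.Cp * (3 * (C1 + C2) + 2 * (S.c.Cf + S.Cq))| + 1 := ⟨_, rfl⟩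
  obtain ⟨cW0, hcW0⟩ : ∃ c : ℝ, c = |l8d7sCW0 S (1 / 4) π.c.Cp| + 256 := ⟨_, rfl⟩
  obtain ⟨cW, hcW⟩ : ∃ c : ℝ, c = (∑ k ∈ Finset.range jm, |l8d7sCW S (1 / 4) π.c.Cp k|) * (1 + 4 * π.K / ε) + 4096 := ⟨_, rfl⟩
  obtain ⟨cC, hcC⟩ : ∃ c : ℝ, c = |l8d7sCC S (1 / 4) π.c.Cp| * (2 * (3 + 36 / ε) ^ 2) + 64 := ⟨_, rfl⟩
  have hcD0 : 0 ≤ cD := by rw [hcD]; positivity
  have hcW00 : 0 ≤ cW0 := by rw [hcW0]; positivity
  have hcW1 : 0 ≤ cW := by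
    rw [hcW]
    have : 0 ≤ ∑ k ∈ Finset.range jm, |l8d7sCW S (1 / 4) π.c.Cp k| := Finset.sum_nonneg fun _ _ => abs_nonneg _
    positivity
  have hcC0 : 0 ≤ cC := by rw [hcC]; positivity
  refine ⟨cD + cW0 + cW + cC, Na, ((2 * jm + 40 : ℕ) : ℝ), fun I hI hok C hC => ?_⟩
  have hx0 : 0 < I.x := I.x_pos hI.ok
  have hx1 : I.x ≤ 1 := I.x_le_one hI.ok
  have sx : I.x ≤ 1 / Cm := by
    have := hNa I.p hI.hN
    rwa [Real.rpow_one] at this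
  have sx' : Cm * I.x ≤ 1 := by
    rw [le_div_iff₀ hCm0] at sx
    linarith
  have hle : ∀ c : ℝ, 0 ≤ c → c ≤ Cm → c * I.x ≤ 1 := fun c _ h => (mul_le_mul_of_nonneg_right h hx0.le).trans sx'
  have habs := abs_nonneg (l8d7sCs S)
  have X : L8peCtx I π S cv := ⟨hπ, hI.ok, hI.dir, hok, hle _ (by linarith) (by rw [hCmd]; linarith)⟩
  have hinv : ∀ c : ℝ, 1 ≤ c → c ≤ Cm → I.x ≤ 1 / c := fun c hc hcm => sx.trans (one_div_le_one_div_of_le (by linarith) hcm)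
  have hJ := hok.pm
  have hxe : 0 < I.x ^ (-ε) := Real.rpow_pos_of_pos hx0 _
  have hmesh : I.dv I.n ≤ I.x ^ (2 * jm + 40) := by
    have := hI.fine.dv_le I.n le_rfl
    rwa [Real.rpow_natCast] at this
  have hsm : I.x * l8d7sCs S ≤ 1 := by
    have h1 : I.x * l8d7sCs S ≤ |l8d7sCs S| * I.x := by
      rw [mul_comm]
      exact mul_le_mul_of_nonneg_right (le_abs_self _) hx0.le
    exact h1.trans (hle _ habs (by rw [hCmd]; linarith))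
  have hraw : ∀ k ≤ I.n, ∫ ω, (I.sp false).nX k ω ^ 2 ∂(I.sp false).μ ≤ ((C1 + C2) * (skwR (l8pZc I π k) + π.c1 * I.Y)) ^ 2 ∧
      ∫ η, (I.sp false).Q η ^ 2 ∂((I.sp false).fork k) ≤ ((C1 + C2) * (skwR (l8pZc I π k) + π.c1 * I.Y)) ^ 2 := by
    intro k hk
    have hz0 : 0 ≤ skwR (l8pZc I π k) + π.c1 * I.Y := add_nonneg (l8d7i_R_nonneg (X.zc_mem k).1) X.zlo0.le
    have a1 := (H2 _ _ (l8pI I π) hJ (hinv C2 hC2 (by rw [hCmd]; linarith)) k hk).1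
    have a2 := (H1 _ _ (l8pI I π) hJ (hinv C1 hC1 (by rw [hCmd]; linarith)) k hk).2.2
    simp only [mul_one] at a2
    constructor
    · refine a1.trans (pow_le_pow_left₀ (by positivity) (mul_le_mul_of_nonneg_right (by linarith) hz0) 2)
    · refine a2.trans (pow_le_pow_left₀ (by positivity) (mul_le_mul_of_nonneg_right (by linarith) hz0) 2)
  obtain ⟨n', hn1, hn2, hn3⟩ := l8d7s_layers hx0 hx1
  have hup : ∀ (c t : ℝ), 0 ≤ t → c ≤ cD + cW0 + cW + cC → c * I.x ^ (-ε) * t ≤ C * I.x ^ (-ε) * t := fun c t ht hc =>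
    mul_le_mul_of_nonneg_right (mul_le_mul_of_nonneg_right (hc.trans hC) hxe.le) ht
  have hr0 : ∀ r, 4 * S.Cv * (π.c1 * I.Y) ≤ r → 0 < r := fun r hr =>
    lt_of_lt_of_le (by have := hS.Cv; have := X.zlo0; positivity) hr
  have hz0 : ∀ r, 0 < r → 0 ≤ I.z0 r := fun r hr => by
    unfold L8In.z0
    have := Real.sqrt_nonneg I.lam1
    positivity
  have hZ0 : 0 ≤ I.Z := by linarith [hok.Z1]
  constructor
  · intro r hr hra
    have hr' := hr0 r hr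
    have hz := hz0 r hr'
    refine (l8v_hi_D hπ hI.ok hok (by linarith) hraw hr hra).trans ?_
    have h := l8v_loss_D (c := l8d7sCD S (1 / 4) π.c.Cp * (3 * (C1 + C2) + 2 * (S.c.Cf + S.Cq))) hx0 hx1 hπ.eps0 hε h4
    rw [← hcD] at h
    rw [mul_assoc, mul_assoc (C * I.x ^ (-ε))]
    exact (mul_le_mul_of_nonneg_right h (by positivity)).trans (hup cD _ (by positivity) (by linarith))
  · intro r hr hra j hj
    have hr' := hr0 r hr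
    have hz := hz0 r hr'
    rcases Nat.eq_zero_or_pos j with rfl | hj0
    · simp only [mul_zero, pow_zero, mul_one, if_true]
      refine (l8v_hi_W0 X hr hra).trans ?_
      have h := l8v_loss_W0 (c := l8d7sCW0 S (1 / 4) π.c.Cp) (M := 256) hx0 hx1 hπ.eps0 hε h4 (by norm_num)
      rw [← hcW0] at h
      rw [mul_assoc, mul_assoc (C * I.x ^ (-ε))]
      exact (mul_le_mul_of_nonneg_right h (by positivity)).trans (hup cW0 _ (by positivity) (by linarith))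
    · obtain ⟨k, rfl⟩ : ∃ k, j = k + 1 := ⟨j - 1, by omega⟩
      rw [if_neg (Nat.succ_ne_zero k)]
      refine (l8v_hi_W X k (Km := 2 * jm + 40) (by omega) hmesh hr hra).trans ?_
      have h := l8v_loss_W (c := l8d7sCW S (1 / 4) π.c.Cp k) (M := 4096) (K := π.K) hx0 hx1 hπ.eps0 hε h4 (by norm_num)
      have hk : |l8d7sCW S (1 / 4) π.c.Cp k| ≤ ∑ k ∈ Finset.range jm, |l8d7sCW S (1 / 4) π.c.Cp k| :=
        Finset.single_le_sum (f := fun k => |l8d7sCW S (1 / 4) π.c.Cp k|) (fun _ _ => abs_nonneg _) (Finset.mem_range.2 (by omega))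
      have hKε : (0 : ℝ) ≤ 1 + 4 * π.K / ε := by positivity
      have h' : |l8d7sCW S (1 / 4) π.c.Cp k| * (1 + 4 * π.K / ε) + 4096 ≤ cW := by
        rw [hcW]
        linarith [mul_le_mul_of_nonneg_right hk hKε]
      have hY0 := X.Y0
      rw [mul_assoc, mul_assoc (C * I.x ^ (-ε))]
      refine (mul_le_mul_of_nonneg_right h (by positivity)).trans ?_
      exact hup _ _ (by positivity) (by linarith)
  · intro r hr hra
    have hr' := hr0 r hr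
    have hz := hz0 r hr'
    refine (l8v_hi_C X hn1 hn2 hsm hr hra).trans ?_
    have h := l8v_loss_C (c := l8d7sCC S (1 / 4) π.c.Cp) (M := 64) hx0 hx1 hπ.eps0 hε h4 (by norm_num) hn3
    rw [← hcC] at h
    rw [mul_assoc, mul_assoc (C * I.x ^ (-ε))]
    exact (mul_le_mul_of_nonneg_right h (by positivity)).trans (hup cC _ (by positivity) (by linarith))

/-! ## 7. (D7) on the bands `Y ≤ r ≤ 4 Cv zlo`      (`r ≍ Y`) -/

/-- the losses of the lower zone in terms of `p = u^(-ε/4)`, `A0 = C0 p` -/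
theorem l8v_loss_lo {u ε C0 k1 c9 M2 : ℝ} (hu0 : 0 < u) (hu1 : u ≤ 1) (hε : 0 < ε) (hC0 : 1 ≤ C0) (hk1 : 0 ≤ k1) (hc9 : 0 ≤ c9) (hM2 : 0 ≤ M2) :
    k1 * (C0 * u ^ (-(ε / 4))) + 16 ≤ (k1 * C0 + 16) * u ^ (-(ε / 2)) ∧
    c9 * Real.sqrt (k1 * (C0 * u ^ (-(ε / 4)))) * (M2 * (C0 * u ^ (-(ε / 4)))) + 1 ≤ (c9 * Real.sqrt (k1 * C0) * (M2 * C0) + 1) * u ^ (-(ε / 2)) := by
  obtain ⟨p, hp⟩ : ∃ p : ℝ, p = u ^ (-(ε / 4)) := ⟨_, rfl⟩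
  have hp1 : 1 ≤ p := hp ▸ Real.one_le_rpow_of_pos_of_le_one_of_nonpos hu0 hu1 (by linarith)
  have hp2 : p ^ 2 = u ^ (-(ε / 2)) := by
    rw [hp, ← Real.rpow_natCast, ← Real.rpow_mul hu0.le]
    congr 1
    push_cast
    ring
  rw [← hp, ← hp2]
  have hpp : p ≤ p ^ 2 := by nlinarith
  have h1p : 1 ≤ p ^ 2 := by nlinarith
  constructor
  · have : 0 ≤ k1 * C0 := by positivity
    nlinarith
  · have hs : Real.sqrt (k1 * (C0 * p)) ≤ Real.sqrt (k1 * C0) * p := by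
      rw [← mul_assoc, Real.sqrt_mul (by positivity)]
      refine mul_le_mul_of_nonneg_left ?_ (Real.sqrt_nonneg _)
      rw [Real.sqrt_le_left (by linarith)]
      nlinarith
    have hs0 := Real.sqrt_nonneg (k1 * C0)
    have h1 : c9 * Real.sqrt (k1 * (C0 * p)) * (M2 * (C0 * p)) ≤ c9 * (Real.sqrt (k1 * C0) * p) * (M2 * (C0 * p)) := by
      gcongr
    have h2 : c9 * (Real.sqrt (k1 * C0) * p) * (M2 * (C0 * p)) = c9 * Real.sqrt (k1 * C0) * (M2 * C0) * p ^ 2 := by ring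
    have h3 : 0 ≤ c9 * Real.sqrt (k1 * C0) * (M2 * C0) := by positivity
    nlinarith


/-- TEX[LL:lem:statistics-integrated] TEX[LL:eq:D7] **(D7) on the bands `Y ≤ r ≤ 4 Cv zlo`**: the lower band of 150 (`lw9_in_dir`, `lw9_low`, top `M = 8 Cv c1`) in the abstract forms of 298 (`l8d7f_*_low`, L08/IvD7F.lean) -/
theorem l8v_d7_lo {𝔹 : LlBase} {T : ℝ} (he : L8pEnvDir 𝔹 T) (h2 : L8pD2Dir 𝔹 T) : L8vD7Lo 𝔹 T := by
  intro F0 hF pB pS h0 h1 κ ε jm hκ hε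
  obtain ⟨κ0, hκ0, H⟩ := lw9_in_dir he h2 F0 hF pB pS h0 h1
  obtain ⟨e0, he0, H⟩ := H κ (ε / 4) hκ (by positivity)
  refine ⟨min e0 (ε / 4), lt_min he0 (by positivity), fun π S cv hπ heps => ?_⟩
  have hS := hπ.Sok
  have hCv := hS.Cv
  have hCz := hS.Cz
  have h4 : 4 * π.eps ≤ ε := by have := heps.trans (min_le_right _ _); linarith
  have hc1 : 8 ≤ π.c1 := by
    have a1 := hπ.c1
    have a2 := hπ.cv0
    have a3 := hπ.cv1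
    by_contra hc
    have hc' : π.c1 < 8 := not_le.1 hc
    rcases le_or_gt 0 π.c1 with h0 | h0
    · nlinarith
    · nlinarith
  obtain ⟨M, hMd⟩ : ∃ M : ℝ, M = 8 * S.Cv * π.c1 := ⟨_, rfl⟩
  have hM4 : 4 ≤ M := by rw [hMd]; nlinarith
  obtain ⟨C0, N0, Kf, hC0, H⟩ := H π S cv hπ (heps.trans (min_le_left _ _)) M hM4
  -- thresholds
  obtain ⟨v1, _, _⟩ := l8d7l_Cv hS
  have hTh := l8d7f_Th_one hS
  obtain ⟨w1, _, _, _, _, _⟩ := l8d7l_CW hS hTh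
  have hCv' : 1 ≤ l8d7lCv S := hCv.trans v1
  have hCW' : 1 ≤ l8d7lCW S (l8d7lTh S) := hS.CW.trans w1
  obtain ⟨Cm, hCmd⟩ : ∃ Cm : ℝ, Cm = |l8d7lCs S| + |l8d7sCs S| + 4 * l8d7lCv S * l8d7lCW S (l8d7lTh S) + (S.CW + S.c.Lq + 2) := ⟨_, rfl⟩
  have hLq := hS.c.Lq
  have hCW := hS.CW
  have habs := abs_nonneg (l8d7lCs S)
  have habs' := abs_nonneg (l8d7sCs S)
  have hCm0 : 0 < Cm := by rw [hCmd]; positivity
  obtain ⟨Na, hNa⟩ := skw_llb_small 1 (1 / Cm) one_pos (by positivity)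
  obtain ⟨Nb, hNb⟩ := skw_llb_small (S.cg / 2) (1 / l8d7lTh S ^ 3) (by have := hS.cg; positivity) (by positivity)
  obtain ⟨Nc, hNc⟩ := skw_llb_small κ (min (S.cG * S.zreg / (40 * S.Cv * π.c1)) (1 / (4 * S.Cv * π.c1))) hκ
    (lt_min (by have := hS.cG; have := hS.zreg; positivity) (by positivity))
  -- constants
  obtain ⟨k1, hk1d⟩ : ∃ k : ℝ, k = 128 * (M + 2) / (1 / 4 * κ0) := ⟨_, rfl⟩
  have hk1 : 0 ≤ k1 := by rw [hk1d]; positivity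
  obtain ⟨c9, hc9d⟩ : ∃ c : ℝ, c = 9 + 16 * S.K.cA1 1 := ⟨_, rfl⟩
  have hc9 : 0 ≤ c9 := by rw [hc9d]; have := hS.cA1 1; positivity
  obtain ⟨cD, hcD⟩ : ∃ c : ℝ, c = c9 * Real.sqrt (k1 * C0) * ((M + 2) * C0) + 1 := ⟨_, rfl⟩
  obtain ⟨cW0, hcW0⟩ : ∃ c : ℝ, c = k1 * C0 + 16 := ⟨_, rfl⟩
  obtain ⟨cW, hcW⟩ : ∃ c : ℝ, c = cW0 * (2 * S.Cv) ^ (2 * jm) * (4 * S.Cv * S.Cz) ^ 4 := ⟨_, rfl⟩
  obtain ⟨cC, hcC⟩ : ∃ c : ℝ, c = cD * l8d7fCt S ^ 3 + (|l8d7lCC S (1 / 4)| * (2 * (3 + 36 / ε) ^ 2) + 64) := ⟨_, rfl⟩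
  have hcD0 : 0 ≤ cD := by rw [hcD]; have := Real.sqrt_nonneg (k1 * C0); positivity
  have hcW00 : 0 ≤ cW0 := by rw [hcW0]; positivity
  have hcW1 : 0 ≤ cW := by rw [hcW]; positivity
  obtain ⟨t1, _, _⟩ := l8d7f_Ct hS
  have hcC0 : 0 ≤ cC := by rw [hcC]; positivity
  refine ⟨cD + cW0 + cW + cC, max (max Na Nb) (max Nc N0), Kf, fun I hI hok C hC => ?_⟩
  have hx0 : 0 < I.x := I.x_pos hI.ok
  have hx1 : I.x ≤ 1 := I.x_le_one hI.ok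
  have hNN : ∀ N', N' ≤ max (max Na Nb) (max Nc N0) → N' ≤ I.p.N := fun N' h => h.trans hI.hN
  have sx : I.x ≤ 1 / Cm := by
    have := hNa I.p (hNN _ ((le_max_left _ _).trans (le_max_left _ _)))
    rwa [Real.rpow_one] at this
  have sg : I.x ^ (S.cg / 2) ≤ 1 / l8d7lTh S ^ 3 := hNb I.p (hNN _ ((le_max_right _ _).trans (le_max_left _ _)))
  have sκ := hNc I.p (hNN _ ((le_max_left _ _).trans (le_max_right _ _)))
  have hin := H I (hI.mono ((le_max_right _ _).trans (le_max_right _ _)) le_rfl) hok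
  have hJ := hok.pm
  have hX := hok.ivx
  have hP : (I.sp false).Ok := hJ.sp
  have hn := l8p_iv8_n I
  have sx' : Cm * I.x ≤ 1 := by
    rw [le_div_iff₀ hCm0] at sx
    linarith
  have hpos4 : 0 ≤ 4 * l8d7lCv S * l8d7lCW S (l8d7lTh S) := by positivity
  have hle : ∀ c : ℝ, c ≤ Cm → c * I.x ≤ 1 := fun c h => (mul_le_mul_of_nonneg_right h hx0.le).trans sx'
  have X : L8peCtx I π S cv := ⟨hπ, hI.ok, hI.dir, hok, hle _ (by rw [hCmd]; linarith)⟩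
  have hY0 := X.Y0
  have hYκ := hI.hY.trans sκ
  have hzlo1 : 4 * S.Cv * (π.c1 * I.Y) ≤ 1 := by
    have := hYκ.trans (min_le_right _ _)
    rw [le_div_iff₀ (by positivity)] at this
    linarith
  have hs4 : 20 * S.Cv * (π.c1 * I.Y) < S.cG * S.zreg := by
    have := hYκ.trans (min_le_left _ _)
    rw [le_div_iff₀ (by positivity)] at this
    have h5 : 0 < S.cG * S.zreg := mul_pos hS.cG hS.zreg
    linarith
  have sm : L8D7Sm S (l8pI I π) := by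
    refine ⟨?_, ?_, ?_, hs4⟩
    · have h5 : I.x * l8d7lCs S ≤ |l8d7lCs S| * I.x := by
        rw [mul_comm]
        exact mul_le_mul_of_nonneg_right (le_abs_self _) hx0.le
      exact h5.trans (hle _ (by rw [hCmd]; linarith))
    · show I.x ≤ _
      rw [le_div_iff₀ (by positivity)]
      have := hle (4 * l8d7lCv S * l8d7lCW S (l8d7lTh S)) (by rw [hCmd]; linarith)
      linarith
    · show l8d7lTh S ^ 3 * I.x ^ (S.cg / 2) ≤ 1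
      rw [le_div_iff₀ (by positivity)] at sg
      linarith
  have sm' : I.x * l8d7sCs S ≤ 1 := by
    have h5 : I.x * l8d7sCs S ≤ |l8d7sCs S| * I.x := by
      rw [mul_comm]
      exact mul_le_mul_of_nonneg_right (le_abs_self _) hx0.le
    exact h5.trans (hle _ (by rw [hCmd]; linarith))
  have H7 := l8p_iv7_H_dir hπ hI.ok hok sm sm' hzlo1
  obtain ⟨A0, hA0d⟩ : ∃ A0 : ℝ, A0 = C0 * I.x ^ (-(ε / 4)) := ⟨_, rfl⟩
  rw [← hA0d] at hin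
  have hA00 : 0 ≤ A0 := by rw [hA0d]; have := Real.rpow_nonneg hx0.le (-(ε / 4)); positivity
  have hb : L8D7B (l8pI I π) (lw9B I A0 M I.Y κ0 (1 / 4)) κ0 (1 / 4) (I.x ^ 40) ((M + 2) * A0) :=
    ⟨lw9_low hin, rfl, rfl, le_rfl, rfl, le_rfl, le_refl _⟩
  have hK1 : (lw9B I A0 M I.Y κ0 (1 / 4)).K1 = k1 * A0 := by rw [lw9_K1 hin, hk1d]
  have hρ : 0 ≤ (M + 2) * A0 := by positivity
  obtain ⟨l1, l2⟩ := l8v_loss_lo (u := I.x) (ε := ε) (C0 := C0) (k1 := k1) (c9 := c9) (M2 := M + 2) hx0 hx1 hε hC0 hk1 hc9 (by linarith)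
  rw [← hA0d, ← hcW0] at l1
  rw [← hA0d, ← hcD] at l2
  have hxe : 0 < I.x ^ (-ε) := Real.rpow_pos_of_pos hx0 _
  have hxe2 : I.x ^ (-(ε / 2)) ≤ I.x ^ (-ε) := Real.rpow_le_rpow_of_exponent_ge hx0 hx1 (by linarith)
  have hxe1 : 1 ≤ I.x ^ (-ε) := Real.one_le_rpow_of_pos_of_le_one_of_nonpos hx0 hx1 (by linarith)
  have l1' : k1 * A0 + 16 ≤ cW0 * I.x ^ (-ε) := l1.trans (mul_le_mul_of_nonneg_left hxe2 hcW00)
  have l2' : c9 * Real.sqrt (k1 * A0) * ((M + 2) * A0) + 1 ≤ cD * I.x ^ (-ε) := l2.trans (mul_le_mul_of_nonneg_left hxe2 hcD0)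
  obtain ⟨n', hn1, hn2, hn3⟩ := l8d7s_layers hx0 hx1
  have hup : ∀ (c t : ℝ), 0 ≤ t → c ≤ cD + cW0 + cW + cC → c * I.x ^ (-ε) * t ≤ C * I.x ^ (-ε) * t := fun c t ht hc =>
    mul_le_mul_of_nonneg_right (mul_le_mul_of_nonneg_right (hc.trans hC) hxe.le) ht
  have hz0 : ∀ r, 0 < r → 0 ≤ I.z0 r := fun r hr => by
    unfold L8In.z0
    have := Real.sqrt_nonneg I.lam1
    positivity
  have hZ0 : 0 ≤ I.Z := by linarith [hok.Z1]
  have hrt : ∀ r, r ≤ 4 * S.Cv * (π.c1 * I.Y) → 2 * r ≤ (lw9B I A0 M I.Y κ0 (1 / 4)).vtop := fun r hr => by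
    show 2 * r ≤ M * I.Y
    rw [hMd]
    linarith
  -- the last line
  have hD : ∀ r, I.Y ≤ r → r ≤ 4 * S.Cv * (π.c1 * I.Y) →
      (I.sp false).int r (2 * r) (I.sp false).D2 ≤ cD * I.x ^ (-ε) * r * (I.z0 r * I.Z * r ^ 2) := by
    intro r hr1 hr2
    have hr0 : 0 < r := lt_of_lt_of_le hY0 hr1
    have hz := hz0 r hr0
    have key := l8d7f_D_low hS hJ hX hb hρ hr1 (hrt r hr2)
    rw [hK1, ← hc9d] at key
    refine key.trans ?_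
    show _ * r * (I.z0 r * I.Z * r ^ 2) ≤ _
    rw [mul_assoc, mul_assoc (cD * I.x ^ (-ε))]
    exact mul_le_mul_of_nonneg_right l2' (by positivity)
  have hW0 : ∀ r, I.Y ≤ r → r ≤ 4 * S.Cv * (π.c1 * I.Y) →
      (I.sp false).int r (2 * r) (fun k => ∫ ω, (I.sp false).W k ω ∂(I.sp false).μ) ≤ cW0 * I.x ^ (-ε) * r * (I.z0 r ^ 2 * I.Z ^ 2 * r ^ 3) := by
    intro r hr1 hr2
    have hr0 : 0 < r := lt_of_lt_of_le hY0 hr1
    have hz := hz0 r hr0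
    have key := l8d7f_W0_low hS hJ hX hb hr1 (hrt r hr2) (hr2.trans hzlo1)
    rw [hK1] at key
    refine key.trans ?_
    show _ * r * (I.z0 r ^ 2 * I.Z ^ 2 * r ^ 3) ≤ _
    rw [mul_assoc, mul_assoc (cW0 * I.x ^ (-ε))]
    exact mul_le_mul_of_nonneg_right l1' (by positivity)
  constructor
  · intro r hr1 hr2
    have hr0 : 0 < r := lt_of_lt_of_le hY0 hr1
    have hz := hz0 r hr0
    rw [l8v_band_D2 hI.ok hok]
    refine (hD r hr1 hr2).trans ?_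
    rw [mul_assoc, mul_assoc (C * I.x ^ (-ε))]
    exact hup cD _ (by positivity) (by linarith)
  · intro r hr1 hr2 j hj
    have hr0 : 0 < r := lt_of_lt_of_le hY0 hr1
    have hz := hz0 r hr0
    unfold L8In.band
    rw [l8p_iv8_int]
    rcases Nat.eq_zero_or_pos j with rfl | hj0
    · simp only [mul_zero, pow_zero, mul_one, if_true]
      refine (hW0 r hr1 hr2).trans ?_
      rw [mul_assoc, mul_assoc (C * I.x ^ (-ε))]
      exact hup cW0 _ (by positivity) (by linarith)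
    · obtain ⟨k, rfl⟩ : ∃ k, j = k + 1 := ⟨j - 1, by omega⟩
      rw [if_neg (Nat.succ_ne_zero k)]
      have key := l8d7f_W_low hS hJ k (e := l8pE I π) H7.e_hi H7.e_lo (A0 := cW0 * I.x ^ (-ε)) (by positivity) hr1 hr2
        (fun i hi _ _ => ⟨by show i ≤ I.n; have : i ≤ (I.sp false).n := hi; omega,
          hJ.zmono (by show i ≤ I.n; have : i ≤ (I.sp false).n := hi; omega)⟩) (hW0 r hr1 hr2)
      refine key.trans ?_
      have e1 : 2 * (k + 1) - 2 = 2 * k := by omega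
      rw [e1]
      show _ * r * (I.z0 r ^ 2 * I.Z ^ 2 * r ^ 3 * ((I.Y ^ 2 / r) ^ 2 * r ^ (2 * k))) ≤ _
      have hpw : (2 * S.Cv) ^ (2 * (k + 1)) ≤ (2 * S.Cv) ^ (2 * jm) := pow_le_pow_right₀ (by linarith) (by omega)
      have hc : cW0 * I.x ^ (-ε) * (2 * S.Cv) ^ (2 * (k + 1)) * (4 * S.Cv * S.Cz) ^ 4 ≤ cW * I.x ^ (-ε) := by
        rw [hcW]
        calc cW0 * I.x ^ (-ε) * (2 * S.Cv) ^ (2 * (k + 1)) * (4 * S.Cv * S.Cz) ^ 4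
            ≤ cW0 * I.x ^ (-ε) * (2 * S.Cv) ^ (2 * jm) * (4 * S.Cv * S.Cz) ^ 4 := by gcongr
          _ = _ := by ring
      rw [mul_assoc, mul_assoc (C * I.x ^ (-ε))]
      refine (mul_le_mul_of_nonneg_right hc (by positivity)).trans ?_
      exact hup cW _ (by positivity) (by linarith)
  · intro r hr1 hr2
    have hr0 : 0 < r := lt_of_lt_of_le hY0 hr1
    have hz := hz0 r hr0
    simp only [l8v_ex_CC hP]
    unfold L8In.band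
    rw [l8p_iv8_int]
    have key := l8d7f_C_low hS hJ hX H7.dvn H7.D3x hn1 hn2 sm (A7 := cD * I.x ^ (-ε)) (by positivity) hr1 hr2
      ((hr2.trans hzlo1).trans (by norm_num)) (hD r hr1 hr2)
    refine key.trans ?_
    show (cD * I.x ^ (-ε) * l8d7fCt S ^ 3 + l8d7lCC S (1 / 4) * (((n' : ℝ) + 2) ^ 2 * (1 + (1 : ℝ) ^ 4)) / (I.x ^ π.eps) ^ 2 + 64) * r
      * (I.z0 r ^ 2 * I.Z ^ 2 * r ^ 2) ≤ _
    have h := l8v_loss_C (c := l8d7lCC S (1 / 4)) (M := 64) hx0 hx1 hπ.eps0 hε h4 (by norm_num) hn3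
    have e2 : (1 : ℝ) + 1 ^ 4 = 2 := by norm_num
    rw [e2]
    have hc : cD * I.x ^ (-ε) * l8d7fCt S ^ 3 + l8d7lCC S (1 / 4) * (((n' : ℝ) + 2) ^ 2 * 2) / (I.x ^ π.eps) ^ 2 + 64 ≤ cC * I.x ^ (-ε) := by
      rw [hcC, add_mul]
      have e3 : cD * l8d7fCt S ^ 3 * I.x ^ (-ε) = cD * I.x ^ (-ε) * l8d7fCt S ^ 3 := by ring
      rw [e3]
      linarith
    rw [mul_assoc, mul_assoc (C * I.x ^ (-ε))]
    refine (mul_le_mul_of_nonneg_right hc (by positivity)).trans ?_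
    exact hup cC _ (by positivity) (by linarith)

/-! ## 8. IV -/

/-- (D9): the record of 150 is ours -/
theorem l8v_d9 {𝔹 : LlBase} {T : ℝ} (he : L8pEnvDir 𝔹 T) (h2 : L8pD2Dir 𝔹 T) : L8vD9Dir 𝔹 T := by
  intro F0 hF pB pS h0 h1 κ ε hκ hε
  exact (lw9_d9_dir he h2 F0 hF pB pS h0 h1 κ ε hκ hε).mono fun I π C h => ⟨h.n9, h.d9_W, h.d9_Q⟩

/-- TEX[LL:lem:statistics-integrated] TEX[LL:eq:D7] **(D7), untilted, on the direct sweep** -/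
theorem l8v_d7 {𝔹 : LlBase} {T : ℝ} (he : L8pEnvDir 𝔹 T) (h2 : L8pD2Dir 𝔹 T) : L8vD7Dir 𝔹 T :=
  l8v_d7_of (l8v_d7_lo he h2) (l8v_d7_hi 𝔹 T)

/-- TEX[LL:lem:statistics-integrated] TEX[LL:lem:statistics-localized] TEX[LL:lem:statistics-lower-band] **IV: (D7), (D8), (D9), untilted, on the direct sweep** -/
theorem l8v_iv_dir {𝔹 : LlBase} {T : ℝ} (he : L8pEnvDir 𝔹 T) (h2 : L8pD2Dir 𝔹 T) : L8pIvDir 𝔹 T :=
  l8v_iv_of (l8v_d9 he h2) (l8v_d7 he h2)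

end Claimed.Agent.R286
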