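import Claimed.Agent.R286.PM.InstIvL9
import Claimed.Agent.R286.L08.IvD7F

/-!
# Row 286 (S0533), folder PM, file InstIvL7 : IV7-LOW = the four lines of (D7) of `L8pIv` for `l8q_iv` (LOW REGION of the smoothed size paths) + THE ASSEMBLY `l8q7_iv : L8qIv 𝔹 T`      (helper223; prefix `l8q7_` / `L8q7`)

TEX[LL:lem:statistics-integrated] TEX[LL:eq:D7]
    l8q7_d7 : L8qCons .. fun I π C => L8q7D7 I (l8qE I π) (C * I.x ^ (-ε)) (I.Yc llDStar) 1 (π.zw / 4) jm      (= fields `n7`, `d7_W`, `d7_C`, `d7_Q` of `L8pIv`, verbatim)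
    l8q7_iv : L8qIv 𝔹 T                                                                                      (`l8q7_d7` + `l8qw_iv9` of 200)
ROUTE.   `J = l8qI I π` (`z` = mass, `G = 1`, `(U, Z) = (Y_c, 1)`, `zc k = v_(k-1)`, `zhi = zw`).
* MAIN RANGE `4 Cv zlo ≤ r ≤ zw / 4`: `l8d7f_D`, `l8d7f_W0`, `l8d7f_W`, `l8d7f_C` (298, L08/IvD7F) at `J`;   `hout`: `v_k ≤ 2 r ≤ zw / 2` (`l8q7_hout`);
  the envelope `l8qE` is `skwR` above `zw`: the lemmas are called with `l8q7E` (continued by `skwE`), equal to `l8qE` at the cuts of the band.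
* LOW RANGE `Y_c ≤ r ≤ 4 Cv zlo`: `n7`, `d7_Q`, `d7_W` at `j = 0` from (D9) on the window `[r, 2 r]` with the FREE top `M Y_c`, `M = 8 Cv c1` (`L8qwLow` of 200, `ε_r² ≤ x⁶ / (λ₁ r²)`);   `j ≥ 1`: `l8d7f_W_low`;   `d7_C`: `l8d7f_C_low`.
* dictionary `I.band = P.int` (`l8p_iv8_int`), `I.D2 = P.D2` (`l8p_iv8_D2`), fork variance (`l8s_fork_var_Q`);   loss `b = x^eps`, `8 eps ≤ ε`, `skwL`, layers `n' ≤ 1 + 9 log (1/x)`.
-/

set_option autoImplicit false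

namespace Claimed.Agent.R286

open MeasureTheory Set Filter

/-! ## 1. records -/

/-- the four (D7) fields of `L8pIv`, untilted -/
structure L8q7D7 (I : L8In) (e : ℕ → ℝ) (A Y Zh vt : ℝ) (jm : ℕ) : Prop where
  n7 : ∀ r, Y ≤ r → r ≤ vt → I.band r I.D2 ≤ A * r * (I.z0 r * Zh * r ^ 2)
  d7_W : ∀ r, Y ≤ r → r ≤ vt → ∀ j ≤ jm, I.band r (fun k => I.ex false ((I.sp false).W k) * e k ^ (2 * j)) ≤
    A * r * (I.z0 r ^ 2 * Zh ^ 2 * r ^ 3 * (if j = 0 then 1 else (Y ^ 2 / r) ^ 2 * r ^ (2 * j - 2)))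
  d7_C : ∀ r, Y ≤ r → r ≤ vt → I.band r (fun k => I.ex false fun ω => (I.sp false).xCx k ω + (I.sp false).trC2 k ω) ≤ A * r * (I.z0 r ^ 2 * Zh ^ 2 * r ^ 2)
  d7_Q : ∀ r, Y ≤ r → r ≤ vt → I.band r (fun k => I.moF false k 1 fun ω => (I.sp false).Q ω - I.S k) ≤ A * r * (I.z0 r * Zh * r ^ 2)

/-- the envelope of the instance, continued by `skwE` above the working interval -/
noncomputable def l8q7E (I : L8In) (π : L8qPar) (k : ℕ) : ℝ :=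
  if l8pVl I k < π.c1 * I.Yc llDStar then I.Yc llDStar else skwE (l8qD I π) (l8qH I π) (l8pVl I k)

theorem l8q7_eqns_cite : True := by
  have := @l8q7E.eq_1
  trivial

/-! ## 2. one instance -/

section inst

variable {I : L8In} {π : L8qPar} {S : SkpS} {Cc : ℝ}

theorem l8q7_E_eq {k : ℕ} (h : l8pVl I k ≤ π.zw) : l8qE I π k = l8q7E I π k := by
  unfold l8qE l8q7E
  split_ifs with h1 <;> rfl

theorem l8q7_Y1 (X : L8qeCtx I π S Cc) : I.Yc llDStar ≤ 1 := by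
  have := X.zlo16; have := X.c18; have := X.Y0
  nlinarith

theorem l8q7_E_mem (X : L8qeCtx I π S Cc) (k : ℕ) : 0 ≤ l8q7E I π k ∧ l8q7E I π k ≤ 1 := by
  unfold l8q7E
  split_ifs with h
  · exact ⟨X.Y0.le, l8q7_Y1 X⟩
  · have h0 : 0 ≤ l8qH I π (l8pVl I k) := by
      unfold l8qH skwHact
      exact le_max_of_le_right (le_max_left _ _)
    refine ⟨le_min (le_min (X.Vl_nonneg k) zero_le_one) ?_, (min_le_left _ _).trans (min_le_right _ _)⟩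
    exact mul_nonneg (sq_nonneg _) h0

/-- `I.band ≤ P.int`, comparison at the cuts of the band -/
theorem l8q7_band_le (X : L8qeCtx I π S Cc) {r : ℝ} {g g' : ℕ → ℝ}
    (h : ∀ k ≤ I.n, r ≤ I.v k → I.v k ≤ 2 * r → g k ≤ g' k) : I.band r g ≤ (I.sp false).int r (2 * r) g' := by
  unfold L8In.band
  rw [l8p_iv8_int]
  exact ivs_int_mono X.spOk _ _ fun k hk h1 h2 => h k (by rw [← X.spn]; exact hk) h1 h2

theorem l8q7_le_band (X : L8qeCtx I π S Cc) {r : ℝ} {g g' : ℕ → ℝ}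
    (h : ∀ k ≤ I.n, r ≤ I.v k → I.v k ≤ 2 * r → g' k ≤ g k) : (I.sp false).int r (2 * r) g' ≤ I.band r g := by
  unfold L8In.band
  rw [l8p_iv8_int]
  exact ivs_int_mono X.spOk _ _ fun k hk h1 h2 => h k (by rw [← X.spn]; exact hk) h1 h2

theorem l8q7_D2 (X : L8qeCtx I π S Cc) {k : ℕ} (hk : k ≤ I.n) : (I.sp false).D2 k = I.D2 k :=
  l8p_iv8_D2 X.ok X.inst.fine.adm hk

theorem l8q7_Q (X : L8qeCtx I π S Cc) {k : ℕ} (hk : k ≤ I.n) :
    I.moF false k 1 (fun ω => (I.sp false).Q ω - I.S k) = (I.sp false).D2 k := by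
  rw [← (I.sp false).l8s_fork_var_Q X.spOk k, X.S_eq hk]
  rfl

theorem l8q7_C (X : L8qeCtx I π S Cc) (k : ℕ) :
    I.ex false (fun ω => (I.sp false).xCx k ω + (I.sp false).trC2 k ω)
      = (∫ ω, (I.sp false).xCx k ω ∂(I.sp false).μ) + ∫ ω, (I.sp false).trC2 k ω ∂(I.sp false).μ :=
  integral_add (ivk_intμ X.spOk (ivk_xCx_bd X.spOk k)) (ivk_intμ X.spOk (ivk_trC2_bd X.spOk k))

theorem l8q7_hout (X : L8qeCtx I π S Cc) {r : ℝ} (hr : r ≤ π.zw / 4) :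
    ∀ k < (l8qI I π).P.n, r ≤ (l8qI I π).P.v k → (l8qI I π).P.v k ≤ 2 * r →
      k < (l8qI I π).nb ∧ (l8qI I π).zc (k + 1) ≤ (l8qI I π).zhi := by
  intro k hk _ h2
  have hk2 : k < (I.sp false).n := hk
  rw [X.spn] at hk2
  have hv : I.v k ≤ 2 * r := h2
  have e := X.Vl_succ k
  have hzw := X.zw0
  have hzws := X.zws
  refine ⟨X.le_nb (k := k + 1) hk2 (by rw [e]; linarith), ?_⟩
  show l8pVl I (k + 1) ≤ π.zw
  rw [e]; linarith

theorem l8q7_vl_ge (X : L8qeCtx I π S Cc) {k : ℕ} (hk : k ≤ I.n) : I.v k - I.x ^ 40 ≤ l8pVl I k := by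
  have := X.dv_le hk
  have := X.dv_eq k
  linarith

theorem l8q7_dvn (X : L8qeCtx I π S Cc) : (l8qI I π).P.dv (l8qI I π).P.n ≤ (l8qI I π).d.x ^ 40 := by
  have h : I.dv (I.sp false).n ≤ I.x ^ 40 := X.dv_le (by rw [X.spn])
  exact h

theorem l8q7_UZ (I : L8In) (π : L8qPar) : (l8qI I π).d.U * (l8qI I π).d.Z = I.Yc llDStar := mul_one _

theorem l8q7_lam1 (X : L8qeCtx I π S Cc) : 0 < I.lam1 := lt_of_lt_of_le (pow_pos X.x0 14) X.inst.pm.lam1a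

/-- `ε_r² ≤ r (z_r^0)² r³` for `r ≥ Y_c` -/
theorem l8q7_eps2 (X : L8qeCtx I π S Cc) {r : ℝ} (hr : I.Yc llDStar ≤ r) :
    I.epsw (I.Yc llDStar) r ^ 2 ≤ r * (I.z0 r ^ 2 * 1 ^ 2 * r ^ 3) := by
  have hx := X.x0
  have hY := X.Y0
  have hU := X.U0
  have hl := l8q7_lam1 X
  have hr0 : 0 < r := hY.trans_le hr
  rw [l8qw_epsw_sq hY.le hl.le hU.le, max_eq_left (X.UY.trans hr)]
  have e : r * (I.z0 r ^ 2 * 1 ^ 2 * r ^ 3) = I.x ^ 6 / (I.lam1 * r ^ 2) := by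
    unfold L8In.z0
    rw [div_pow, mul_pow, Real.sq_sqrt hl.le]
    field_simp
  rw [e, div_le_div_iff₀ (by positivity) (by positivity)]
  have h0 : 0 ≤ I.x ^ 6 * I.lam1 * r ^ 2 := by positivity
  nlinarith [mul_le_mul_of_nonneg_left hr h0]

/-- `Y_c ε_r ≤ r z_r^0 r²` for `r ≥ Y_c` -/
theorem l8q7_eps1 (X : L8qeCtx I π S Cc) {r : ℝ} (hr : I.Yc llDStar ≤ r) :
    I.Yc llDStar * I.epsw (I.Yc llDStar) r ≤ r * (I.z0 r * 1 * r ^ 2) := by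
  have hx := X.x0
  have hY := X.Y0
  have hr0 : 0 < r := hY.trans_le hr
  have h2 := l8q7_eps2 X hr
  have hz : 0 ≤ I.z0 r := by unfold L8In.z0; positivity
  have ht0 : 0 ≤ I.z0 r * r ^ 2 := by positivity
  have e : r * (I.z0 r ^ 2 * 1 ^ 2 * r ^ 3) = (I.z0 r * r ^ 2) ^ 2 := by ring
  rw [e] at h2
  have h3 : I.epsw (I.Yc llDStar) r ≤ I.z0 r * r ^ 2 := by
    by_contra hc
    have := pow_lt_pow_left₀ (not_le.1 hc) ht0 (by norm_num : 2 ≠ 0)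
    linarith
  calc I.Yc llDStar * I.epsw (I.Yc llDStar) r ≤ r * (I.z0 r * r ^ 2) :=
        mul_le_mul hr h3 (l8qw_epsw_nonneg hx.le X.U0.le _ _) hr0.le
    _ = _ := by ring

/-- TEX[LL:lem:statistics-integrated] TEX[LL:eq:D7] **(D7) at one instance of the low region**, explicit constants -/
theorem l8q7_one (X : L8qeCtx I π S Cc) {B A9 A : ℝ} {jm n' : ℕ} (hB : 0 ≤ B)
    (hraw : ∀ k ≤ l8qNb I π, ∫ ω, (I.sp false).nX k ω ^ 2 ∂(I.sp false).μ ≤ (B * (skwR (l8pVl I k) + π.c1 * I.Yc llDStar)) ^ 2 ∧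
      ∫ η, (I.sp false).Q η ^ 2 ∂((I.sp false).fork k) ≤ (B * (skwR (l8pVl I k) + π.c1 * I.Yc llDStar)) ^ 2)
    (hn1 : 1 ≤ I.x ^ 6 * 2 ^ n') (hn2 : I.x ^ 6 * 2 ^ n' ≤ 2) (hsm : I.x * l8d7sCs S ≤ 1) (hSm : L8D7Sm S (l8qI I π))
    (hA9 : 0 ≤ A9) (hlow : L8qwLow I A9 (8 * S.Cv * π.c1))
    (a1 : l8d7sCD S (1 / 4) 1 * (3 * B + 2 * (S.c.Cf + S.Cq)) / I.x ^ π.eps + 1 ≤ A)
    (a2 : l8d7sCW0 S (1 / 4) 1 / (I.x ^ π.eps) ^ 2 + 256 ≤ A)
    (a3 : l8d7sCC S (1 / 4) 1 * (((n' : ℝ) + 2) ^ 2 * (1 + 1 ^ 4)) / (I.x ^ π.eps) ^ 2 + 64 ≤ A)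
    (a4 : ∀ k < jm, l8d7sCW S (1 / 4) 1 k * (1 + Real.log (1 / I.x ^ π.K)) / (I.x ^ π.eps) ^ 2 + 4096 * 4 ^ k ≤ A)
    (a5 : A9 ≤ A)
    (a6 : ∀ k < jm, A9 * (2 * S.Cv) ^ (2 * (k + 1)) * (4 * S.Cv * S.Cz) ^ 4 ≤ A)
    (a7 : A9 * l8d7fCt S ^ 3 + l8d7lCC S (1 / 4) * (((n' : ℝ) + 2) ^ 2 * (1 + 1 ^ 4)) / (I.x ^ π.eps) ^ 2 + 64 ≤ A) :
    L8q7D7 I (l8qE I π) A (I.Yc llDStar) 1 (π.zw / 4) jm := by
  have hS := X.par.Sok
  have hJ := X.inst.pm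
  have hX := X.inst.ivx
  have hP := X.spOk
  have hdvn := l8q7_dvn X
  have hx := X.x0
  have hY := X.Y0
  have hCv := hS.Cv
  have hc1 := X.c18
  have hzw0 := X.zw0
  have hzws := X.zws
  have hzs1 := X.zs1
  have hr0 : ∀ {r : ℝ}, I.Yc llDStar ≤ r → 0 < r := fun h => hY.trans_le h
  have hz0 : ∀ {r : ℝ}, 0 < r → 0 ≤ I.z0 r := fun {r} h => by unfold L8In.z0; positivity
  have mono : ∀ {c r t : ℝ}, c ≤ A → 0 < r → 0 ≤ t → c * r * t ≤ A * r * t := fun hc hr ht =>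
    mul_le_mul_of_nonneg_right (mul_le_mul_of_nonneg_right hc hr.le) ht
  have hwin : ∀ {r : ℝ}, I.Yc llDStar ≤ r → r ≤ 4 * S.Cv * (π.c1 * I.Yc llDStar) →
      I.int r (2 * r) (fun k => I.ex false ((I.sp false).W k)) ≤ A9 * I.epsw (I.Yc llDStar) r ^ 2 ∧
      I.int r (2 * r) I.D2 ≤ A9 * I.Yc llDStar * I.epsw (I.Yc llDStar) r := fun {r} h1 h2 => by
    have h := hlow r (2 * r) (X.xY.trans h1) (by linarith [hr0 h1]) (by linarith)
    exact ⟨h.1, (h.2 le_rfl).1⟩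
  -- the low range, constant `A9`
  have hDlow : ∀ {r : ℝ}, I.Yc llDStar ≤ r → r ≤ 4 * S.Cv * (π.c1 * I.Yc llDStar) →
      (I.sp false).int r (2 * r) (I.sp false).D2 ≤ A9 * r * (I.z0 r * 1 * r ^ 2) := fun {r} h1 hc => by
    have h4 : (I.sp false).int r (2 * r) (I.sp false).D2 ≤ I.band r I.D2 := l8q7_le_band X fun k hk _ _ => (l8q7_D2 X hk).le
    refine h4.trans ((hwin h1 hc).2.trans ?_)
    calc A9 * I.Yc llDStar * I.epsw (I.Yc llDStar) r = A9 * (I.Yc llDStar * I.epsw (I.Yc llDStar) r) := by ring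
      _ ≤ A9 * (r * (I.z0 r * 1 * r ^ 2)) := mul_le_mul_of_nonneg_left (l8q7_eps1 X h1) hA9
      _ = _ := by ring
  have hWlow : ∀ {r : ℝ}, I.Yc llDStar ≤ r → r ≤ 4 * S.Cv * (π.c1 * I.Yc llDStar) →
      (I.sp false).int r (2 * r) (fun k => ∫ ω, (I.sp false).W k ω ∂(I.sp false).μ) ≤ A9 * r * (I.z0 r ^ 2 * 1 ^ 2 * r ^ 3) := fun {r} h1 hc => by
    rw [← l8p_iv8_int]
    refine (hwin h1 hc).1.trans ?_
    calc A9 * I.epsw (I.Yc llDStar) r ^ 2 ≤ A9 * (r * (I.z0 r ^ 2 * 1 ^ 2 * r ^ 3)) := mul_le_mul_of_nonneg_left (l8q7_eps2 X h1) hA9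
      _ = _ := by ring
  -- the last line at the level of the path
  have hD : ∀ r, I.Yc llDStar ≤ r → r ≤ π.zw / 4 → (I.sp false).int r (2 * r) (I.sp false).D2 ≤ A * r * (I.z0 r * 1 * r ^ 2) := by
    intro r h1 h2
    have hr := hr0 h1
    have ht : 0 ≤ I.z0 r * 1 * r ^ 2 := by have := hz0 hr; positivity
    rcases le_total (4 * S.Cv * (π.c1 * I.Yc llDStar)) r with hc | hc
    · exact (l8d7f_D hS hJ hX hdvn hB hraw hc (by linarith) (l8q7_hout X h2)).trans (mono a1 hr ht)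
    · exact (hDlow h1 hc).trans (mono a5 hr ht)
  have hW0 : ∀ r, I.Yc llDStar ≤ r → r ≤ π.zw / 4 →
      (I.sp false).int r (2 * r) (fun k => ∫ ω, (I.sp false).W k ω ∂(I.sp false).μ) ≤ A * r * (I.z0 r ^ 2 * 1 ^ 2 * r ^ 3) := by
    intro r h1 h2
    have hr := hr0 h1
    have ht : 0 ≤ I.z0 r ^ 2 * 1 ^ 2 * r ^ 3 := by have := hz0 hr; positivity
    rcases le_total (4 * S.Cv * (π.c1 * I.Yc llDStar)) r with hc | hc
    · exact (l8d7f_W0 hS hJ hX hdvn hc (by linarith) (l8q7_hout X h2)).trans (mono a2 hr ht)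
    · exact (hWlow h1 hc).trans (mono a5 hr ht)
  have he : ∀ i ≤ (l8qI I π).nb, (l8qI I π).d.zlo ≤ (l8qI I π).zc i → l8q7E I π i = skwE (l8qI I π).d (l8qI I π).hh ((l8qI I π).zc i) :=
    fun i _ hi => if_neg (not_lt.2 hi)
  have hD3x : ∀ k₁ k₂, k₁ < k₂ → k₂ ≤ (l8qI I π).nb → (l8qI I π).d.x < (l8qI I π).P.v k₁ - (l8qI I π).P.dv k₁ →
      S.cD3 * (l8qI I π).lam1 * skwR ((l8qI I π).z k₁) ^ 2 * ((l8qI I π).z k₂ - (l8qI I π).z k₁) ≤ (l8qI I π).P.hlen k₁ k₂ := by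
    intro k₁ k₂ h12 h2 h3
    refine X.inst.D3x k₁ k₂ h12 h2 ?_
    have e : I.v k₁ - I.dv k₁ = l8pVl I k₁ := by rw [X.dv_eq]; ring
    rw [← e]; exact h3
  refine ⟨fun r h1 h2 => ?_, fun r h1 h2 j hj => ?_, fun r h1 h2 => ?_, fun r h1 h2 => ?_⟩
  · exact (l8q7_band_le X fun k hk _ _ => (l8q7_D2 X hk).ge).trans (hD r h1 h2)
  · have hr := hr0 h1
    rcases j with _ | k
    · have e : (fun k => I.ex false ((I.sp false).W k) * l8qE I π k ^ (2 * 0))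
          = fun k => ∫ ω, (I.sp false).W k ω ∂(I.sp false).μ := by
        funext k
        rw [Nat.mul_zero, pow_zero, mul_one]
        rfl
      rw [e, if_pos rfl, mul_one]
      exact (l8q7_band_le X fun k _ _ _ => le_rfl).trans (hW0 r h1 h2)
    · have hk : k < jm := hj
      rw [if_neg (Nat.succ_ne_zero k), show 2 * (k + 1) - 2 = 2 * k by omega]
      have ht : 0 ≤ I.z0 r ^ 2 * 1 ^ 2 * r ^ 3 * ((I.Yc llDStar ^ 2 / r) ^ 2 * r ^ (2 * k)) := by have := hz0 hr; positivity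
      have hb : I.band r (fun i => I.ex false ((I.sp false).W i) * l8qE I π i ^ (2 * (k + 1)))
          ≤ (I.sp false).int r (2 * r) (fun i => (∫ ω, (I.sp false).W i ω ∂(I.sp false).μ) * l8q7E I π i ^ (2 * (k + 1))) := by
        refine l8q7_band_le X fun i _ _ h4 => ?_
        rw [l8q7_E_eq (by linarith [X.Vl_le i])]
        exact le_rfl
      refine hb.trans ?_
      rcases le_total (4 * S.Cv * (π.c1 * I.Yc llDStar)) r with hc | hc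
      · have key := l8d7f_W hS hJ hX hdvn k (fun i hi h3 _ => he i hi h3)
          (by have := l8q7_E_mem X (l8qI I π).P.n; nlinarith) (fun h => by have := hJ.a1; linarith) hc (by linarith) (l8q7_hout X h2)
        rw [l8q7_UZ] at key
        exact key.trans (mono (a4 k hk) hr ht)
      · have key := l8d7f_W_low hS hJ k (fun i hi h3 _ => he i hi h3) (fun i hi => by rw [l8q7_UZ]; exact if_pos hi) hA9
          (by rw [l8q7_UZ]; exact h1) hc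
          (fun i hi _ h4 => by
            have h5 : I.v i ≤ 2 * r := h4
            have h6 := X.Vl_le i
            exact ⟨X.le_nb (by rw [← X.spn]; exact hi) (by linarith), show l8pVl I i ≤ π.zw by linarith⟩)
          (hWlow h1 hc)
        rw [l8q7_UZ] at key
        exact key.trans (mono (a6 k hk) hr ht)
  · have hr := hr0 h1
    have ht : 0 ≤ I.z0 r ^ 2 * 1 ^ 2 * r ^ 2 := by have := hz0 hr; positivity
    refine (l8q7_band_le X fun k _ _ _ => (l8q7_C X k).le).trans ?_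
    rcases le_total (4 * S.Cv * (π.c1 * I.Yc llDStar)) r with hc | hc
    · exact (l8d7f_C hS hJ hX hdvn hn1 hn2 hsm hc (by linarith) (l8q7_hout X h2)).trans (mono a3 hr ht)
    · exact (l8d7f_C_low hS hJ hX hdvn hD3x hn1 hn2 hSm hA9 (by rw [l8q7_UZ]; exact h1) hc (by linarith) (hDlow h1 hc)).trans
        (mono a7 hr ht)
  · exact (l8q7_band_le X fun k hk _ _ => (l8q7_Q X hk).le).trans (hD r h1 h2)

end inst

/-! ## 3. the contract -/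

theorem l8q7_abs_le {c L b c' : ℝ} (hL : 0 ≤ L) (hb : 0 < b) : c * L / b + c' ≤ |c| * L / b + c' := by
  have h : c * L / b ≤ |c| * L / b := div_le_div_of_nonneg_right (mul_le_mul_of_nonneg_right (le_abs_self c) hL) hb.le
  linarith

/-- TEX[LL:lem:statistics-integrated] TEX[LL:eq:D7] **IV7-low**: the fields `n7`, `d7_W`, `d7_C`, `d7_Q` of `L8pIv` for `l8q_iv` -/
theorem l8q7_d7 (𝔹 : LlBase) (T : ℝ) : ∀ F0, L8Fix 𝔹 T F0 → ∀ (pB : LLParB) (pS : ℝ), 0 < pS → pS ≤ 1 → ∀ (ε : ℝ) (jm : ℕ), 0 < ε →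
    L8qCons 𝔹 (F0.wExp pB.sStar pB.eta pS) fun I π C => L8q7D7 I (l8qE I π) (C * I.x ^ (-ε)) (I.Yc llDStar) 1 (π.zw / 4) jm := by
  intro F0 hF pB pS h0 h1 ε jm hε
  refine ⟨ε / 8, by positivity, fun π S Cc hπ hCc heps => ?_⟩
  have hS := hπ.Sok
  have h8 : 8 * π.eps ≤ ε := by linarith
  have hCv := hS.Cv
  have hc1 := hπ.c1
  have hCz := hS.Cz
  have hcG := hS.cG
  have hzreg := hS.zreg
  have hM : 1 ≤ 8 * S.Cv * π.c1 := by nlinarith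
  obtain ⟨A9, N9, K9, hA9, H9⟩ := l8qw_low_consS 𝔹 T F0 hF pB pS h0 h1 π S Cc hπ hCc (8 * S.Cv * π.c1) hM
  obtain ⟨C1, hC1, H1⟩ := skp_raw S hS 2 (by norm_num)
  obtain ⟨C2, hC2, H2⟩ := skp_raw S hS 1 le_rfl
  obtain ⟨B, hBd⟩ : ∃ B : ℝ, B = C1 + C2 := ⟨_, rfl⟩
  have hB1 : C1 ≤ B := by linarith
  have hB2 : C2 ≤ B := by linarith
  have hB0 : 0 < B := by linarith
  -- smallness
  have hTh := l8d7f_Th_one hS
  have hKs2 : 0 < 4 * l8d7lCv S * l8d7lCW S (l8d7lTh S) := by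
    have a := (l8d7l_Cv hS).1
    have b := (l8d7l_CW hS hTh).1
    have := hS.CW
    have a' : 0 < l8d7lCv S := by linarith
    have b' : 0 < l8d7lCW S (l8d7lTh S) := by linarith
    positivity
  have hQ : 0 < S.CW + S.c.Lq + 2 := by linarith [hS.CW, hS.c.Lq]
  obtain ⟨Kt, hKt⟩ : ∃ Kt : ℝ, Kt = |l8d7sCs S| + |l8d7lCs S| + 4 * l8d7lCv S * l8d7lCW S (l8d7lTh S) + B + (S.CW + S.c.Lq + 2) := ⟨_, rfl⟩
  have hab1 := abs_nonneg (l8d7sCs S)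
  have hab2 := abs_nonneg (l8d7lCs S)
  have hKt0 : 0 < Kt := by rw [hKt]; linarith
  obtain ⟨Na, hNa⟩ := skw_llb_small 1 (1 / Kt) one_pos (by positivity)
  obtain ⟨Nb, hNb⟩ := skw_llb_small (S.cg / 2) (1 / l8d7lTh S ^ 3) (by have := hS.cg; positivity) (by positivity)
  obtain ⟨Nc, hNc⟩ := skw_llb_small (llDStar / 3) (S.cG * S.zreg / (40 * S.Cv * π.c1)) (by unfold llDStar; norm_num) (by positivity)
  -- the constants
  obtain ⟨L3, hL3⟩ : ∃ L3 : ℝ, L3 = 2 * (3 + 36 / ε) ^ 2 := ⟨_, rfl⟩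
  have hL30 : 0 ≤ L3 := by rw [hL3]; positivity
  have hCt := (l8d7f_Ct hS).1
  obtain ⟨K1, hK1⟩ : ∃ K : ℝ, K = |l8d7sCD S (1 / 4) 1 * (3 * B + 2 * (S.c.Cf + S.Cq))| + 1 := ⟨_, rfl⟩
  obtain ⟨K2, hK2⟩ : ∃ K : ℝ, K = |l8d7sCW0 S (1 / 4) 1| + 256 := ⟨_, rfl⟩
  obtain ⟨K3, hK3⟩ : ∃ K : ℝ, K = |l8d7sCC S (1 / 4) 1| * L3 + 64 := ⟨_, rfl⟩
  obtain ⟨K4, hK4⟩ : ∃ K : ℝ, K = ∑ k ∈ Finset.range jm, (|l8d7sCW S (1 / 4) 1 k| * (1 + 4 * π.K / ε) + 4096 * 4 ^ k) := ⟨_, rfl⟩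
  obtain ⟨K6, hK6⟩ : ∃ K : ℝ, K = ∑ k ∈ Finset.range jm, A9 * (2 * S.Cv) ^ (2 * (k + 1)) * (4 * S.Cv * S.Cz) ^ 4 := ⟨_, rfl⟩
  obtain ⟨K7, hK7⟩ : ∃ K : ℝ, K = |l8d7lCC S (1 / 4)| * L3 + (A9 * l8d7fCt S ^ 3 + 64) := ⟨_, rfl⟩
  have t4 : ∀ k, 0 ≤ |l8d7sCW S (1 / 4) 1 k| * (1 + 4 * π.K / ε) + 4096 * 4 ^ k := fun k => by positivity
  have t6 : ∀ k, 0 ≤ A9 * (2 * S.Cv) ^ (2 * (k + 1)) * (4 * S.Cv * S.Cz) ^ 4 := fun k => by positivity
  have p1 : 0 ≤ K1 := by rw [hK1]; positivity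
  have p2 : 0 ≤ K2 := by rw [hK2]; positivity
  have p3 : 0 ≤ K3 := by rw [hK3]; positivity
  have p4 : 0 ≤ K4 := by rw [hK4]; exact Finset.sum_nonneg fun k _ => t4 k
  have p6 : 0 ≤ K6 := by rw [hK6]; exact Finset.sum_nonneg fun k _ => t6 k
  have p7 : 0 ≤ K7 := by rw [hK7]; positivity
  refine ⟨K1 + K2 + K3 + K4 + A9 + K6 + K7, max (max Na Nb) (max Nc N9), K9, fun I hI hok C hC => ?_⟩
  have hJ := hok.pm
  have hx0 : 0 < I.x := I.x_pos hI.ok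
  have hx1 : I.x ≤ 1 := I.x_le_one hI.ok
  have hb0 : 0 < I.x ^ π.eps := Real.rpow_pos_of_pos hx0 _
  have hxe : 1 ≤ I.x ^ (-ε) := Real.one_le_rpow_of_pos_of_le_one_of_nonpos hx0 hx1 (by linarith)
  have sx : I.x ≤ 1 / Kt := by
    have := hNa I.p (((le_max_left _ _).trans (le_max_left _ _)).trans hI.hN)
    rwa [Real.rpow_one] at this
  have sxt : I.x * Kt ≤ 1 := by rwa [le_div_iff₀ hKt0] at sx
  have sxK : ∀ K : ℝ, K ≤ Kt → I.x * K ≤ 1 := fun K hK => (mul_le_mul_of_nonneg_left hK hx0.le).trans sxt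
  have sxi : ∀ K : ℝ, 0 < K → K ≤ Kt → I.x ≤ 1 / K := fun K hK0 hK => sx.trans (one_div_le_one_div_of_le hK0 hK)
  have X : L8qeCtx I π S Cc := ⟨hπ, hI.ok, hok, by
    have := sxK (S.CW + S.c.Lq + 2) (by rw [hKt]; linarith)
    linarith⟩
  have hU0 := X.U0
  have hY0 := X.Y0
  have sY : I.Yc llDStar ≤ S.cG * S.zreg / (40 * S.Cv * π.c1) := by
    have h2 : I.Yc llDStar ≤ I.x ^ (llDStar / 3) := by
      have h3 : I.U * I.Zc llDStar ≤ I.U * (I.x ^ (llDStar / 3) / I.U) := mul_le_mul_of_nonneg_left (min_le_right _ _) hU0.le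
      rwa [mul_div_cancel₀ _ hU0.ne'] at h3
    exact h2.trans (hNc I.p (((le_max_left _ _).trans (le_max_right _ _)).trans hI.hN))
  have hSm : L8D7Sm S (l8qI I π) := by
    refine ⟨sxK _ (by rw [hKt]; linarith [le_abs_self (l8d7lCs S)]), sxi _ hKs2 (by rw [hKt]; linarith), ?_, ?_⟩
    · have := hNb I.p (((le_max_right _ _).trans (le_max_left _ _)).trans hI.hN)
      rw [le_div_iff₀ (by positivity)] at this
      have e : (l8qI I π).d.x = I.p.x := rfl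
      rw [e]; linarith
    · show 20 * S.Cv * (π.c1 * I.Yc llDStar) < S.cG * S.zreg
      rw [le_div_iff₀ (by positivity)] at sY
      have : 0 < S.cG * S.zreg := by positivity
      nlinarith
  have hsc : ∀ k, 0 ≤ skwR (l8pVl I k) + π.c1 * I.Yc llDStar := fun k => by
    have h3 : 0 ≤ skwR (l8pVl I k) := le_min (X.Vl_nonneg k) zero_le_one
    linarith [X.zlo0]
  have hraw : ∀ k ≤ l8qNb I π, ∫ ω, (I.sp false).nX k ω ^ 2 ∂(I.sp false).μ ≤ (B * (skwR (l8pVl I k) + π.c1 * I.Yc llDStar)) ^ 2 ∧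
      ∫ η, (I.sp false).Q η ^ 2 ∂((I.sp false).fork k) ≤ (B * (skwR (l8pVl I k) + π.c1 * I.Yc llDStar)) ^ 2 := by
    intro k hk
    constructor
    · refine (H1 _ _ (l8qI I π) hJ (sxi C1 (by linarith) (by rw [hKt]; linarith)) k hk).1.trans ?_
      exact pow_le_pow_left₀ (mul_nonneg (by linarith) (hsc k)) (mul_le_mul_of_nonneg_right hB1 (hsc k)) 2
    · have := (H2 _ _ (l8qI I π) hJ (sxi C2 (by linarith) (by rw [hKt]; linarith)) k hk).2.2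
      simp only [mul_one] at this
      refine this.trans ?_
      exact pow_le_pow_left₀ (mul_nonneg (by linarith) (hsc k)) (mul_le_mul_of_nonneg_right hB2 (hsc k)) 2
  obtain ⟨n', hn1, hn2, hn3⟩ := l8d7s_layers hx0 hx1
  have hb2 : 0 < (I.x ^ π.eps) ^ 2 := by positivity
  have hLn : 0 ≤ ((n' : ℝ) + 2) ^ 2 * (1 + 1 ^ 4) := by positivity
  have hLK : 0 ≤ 1 + Real.log (1 / I.x ^ π.K) := by
    have : 0 ≤ Real.log (1 / I.x ^ π.K) := Real.log_nonneg (by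
      rw [le_div_iff₀ (pow_pos hx0 _), one_mul]
      exact pow_le_one₀ hx0.le hx1)
    linarith
  have fin : ∀ {t K : ℝ}, t ≤ K * I.x ^ (-ε) → K ≤ K1 + K2 + K3 + K4 + A9 + K6 + K7 → t ≤ C * I.x ^ (-ε) := fun h hK =>
    h.trans (mul_le_mul_of_nonneg_right (hK.trans hC) (by linarith))
  refine l8q7_one X hB0.le hraw hn1 hn2 (sxK _ (by rw [hKt]; linarith [le_abs_self (l8d7sCs S)])) hSm hA9
    (H9 I (hI.mono ((le_max_right _ _).trans (le_max_right _ _)) le_rfl) hok) ?_ ?_ ?_ ?_ ?_ ?_ ?_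
  · refine fin (K := K1) ?_ (by linarith)
    have h := l8q7_abs_le (c := l8d7sCD S (1 / 4) 1 * (3 * B + 2 * (S.c.Cf + S.Cq))) (L := 1) (c' := 1) zero_le_one hb0
    rw [mul_one, mul_one] at h
    rw [hK1]
    exact h.trans (l8q7_loss1' hx0 hx1 hπ.eps0 hε h8 (abs_nonneg _) zero_le_one)
  · refine fin (K := K2) ?_ (by linarith)
    have h := l8q7_abs_le (c := l8d7sCW0 S (1 / 4) 1) (L := 1) (c' := 256) zero_le_one hb2
    rw [mul_one, mul_one] at h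
    rw [hK2]
    exact h.trans (l8q7_loss1 hx0 hx1 hπ.eps0 hε h8 (abs_nonneg _) (by norm_num))
  · refine fin (K := K3) ?_ (by linarith)
    rw [hK3, hL3]
    exact (l8q7_abs_le hLn hb2).trans (l8q7_loss3 n' hn3 hx0 hx1 hπ.eps0 hε h8 (abs_nonneg _) (by norm_num))
  · intro k hk
    refine fin (K := |l8d7sCW S (1 / 4) 1 k| * (1 + 4 * π.K / ε) + 4096 * 4 ^ k) ?_ ?_
    · exact (l8q7_abs_le hLK hb2).trans (l8q7_loss2 π.K hx0 hx1 hπ.eps0 hε h8 (abs_nonneg _) (by positivity))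
    · have : |l8d7sCW S (1 / 4) 1 k| * (1 + 4 * π.K / ε) + 4096 * 4 ^ k ≤ K4 := by
        rw [hK4]
        exact Finset.single_le_sum (f := fun k => |l8d7sCW S (1 / 4) 1 k| * (1 + 4 * π.K / ε) + 4096 * 4 ^ k) (fun k _ => t4 k)
          (Finset.mem_range.2 hk)
      linarith
  · exact fin (K := A9) (le_mul_of_one_le_right hA9 hxe) (by linarith)
  · intro k hk
    refine fin (K := A9 * (2 * S.Cv) ^ (2 * (k + 1)) * (4 * S.Cv * S.Cz) ^ 4) (le_mul_of_one_le_right (t6 k) hxe) ?_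
    have : A9 * (2 * S.Cv) ^ (2 * (k + 1)) * (4 * S.Cv * S.Cz) ^ 4 ≤ K6 := by
      rw [hK6]
      exact Finset.single_le_sum (f := fun k => A9 * (2 * S.Cv) ^ (2 * (k + 1)) * (4 * S.Cv * S.Cz) ^ 4) (fun k _ => t6 k)
        (Finset.mem_range.2 hk)
    linarith
  · refine fin (K := K7) ?_ (by linarith)
    rw [hK7, hL3]
    have h := (l8q7_abs_le (c := l8d7lCC S (1 / 4)) (c' := A9 * l8d7fCt S ^ 3 + 64) hLn hb2).trans
      (l8q7_loss3 n' hn3 hx0 hx1 hπ.eps0 hε h8 (abs_nonneg _) (by positivity))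
    linarith

/-! ## 4. the assembly -/

/-- **IVL** = `L8qIv`: (D7) (`l8q7_d7`) + (D9) (`l8qw_iv9`, helper200), for every base.      TEX[LL:lem:statistics-integrated] TEX[LL:lem:statistics-lower-band] -/
theorem l8q7_iv (𝔹 : LlBase) (T : ℝ) : L8qIv 𝔹 T := by
  intro F0 hF pB pS h0 h1 ε jm hε
  obtain ⟨e0, he0, H⟩ := (l8q7_d7 𝔹 T F0 hF pB pS h0 h1 ε jm hε).and (l8qw_iv9 𝔹 T F0 hF pB pS h0 h1 ε hε)
  refine ⟨e0, he0, fun π S Cc hπ hCc he => ?_⟩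
  obtain ⟨C0, N0, Kf, H'⟩ := H π S Cc hπ hCc he
  refine ⟨C0, N0, Kf, fun I hI hok C hC => ?_⟩
  obtain ⟨a7, a9, b9, c9⟩ := H' I hI hok C hC
  exact ⟨a7.n7, a9, a7.d7_W, a7.d7_C, a7.d7_Q, b9, c9⟩

end Claimed.Agent.R286
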