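import Claimed.Agent.R286.PM.InstA
import Claimed.Agent.R286.PM.InstD2
import Claimed.Agent.R286.PM.InstD2L
import Claimed.Agent.R286.PM.InstDefE
import Claimed.Agent.R286.PM.InstEnv
import Claimed.Agent.R286.PM.InstL
import Claimed.Agent.R286.PM.InstIv
import Claimed.Agent.R286.Exit.Cap
import Claimed.Agent.R286.PM.InstEnvL
import Claimed.Agent.R286.PM.InstDefL
import Claimed.Agent.R286.PM.InstIvL7
import Claimed.Agent.R286.L08.DdDefD

/-!
# Row 286 (S0533), folder PM, file InstZ : FINAL ASSEMBLY OF THE CORES OF `Exit/DDir`, `Exit/DLow`      (head helper37)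

    l8p_core_dir : L8gCoreDir llBase T        (replaces the sorried `l8g_core_dir` of L08/Glue.lean)
    l8q_core_low : L8gCoreLow llBase T        (replaces the sorried `l8g_core_low`;   contracts + cut of INSTL: PM/InstL.lean;   open here: LKL (link of DEFL, 103), IVL;   ENVL: PROVED in PM/InstEnvL.lean;   DEFL: PROVED in PM/InstDefL.lean (103, 117) from the link;   D2L: PROVED in PM/InstD2L.lean, 145)

OPEN LEAVES HERE (contracts in PM/Inst.lean, sec. 3): LK, IV  (ENV: PROVED in PM/InstEnv.lean, 237; D2: PROVED in PM/InstD2.lean, 145; DEF: glue + envelope PROVED in PM/InstDefE.lean, path leaves in PM/InstDef.lean, 247 / 58 / 246).   An owner proves his leaf in his OWN file `PM/Inst<Name>.lean` (import PM/Inst.lean, NOT this file), with the SAME theorem name; in the landing commit he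
adds the import here and deletes the sorried copy.
* `l8p_env_dir`  ENV  bookkeeping from `L8pOk` (`SkwConcl.lower/upper/dev/budget/qlip`, grid, mesh `x^40`);   (D1) on the chain by the definition of `I.Z`;   `S ≲ v + Y`.   Cuts with an empty cell (`zc k = zc (k+1)`): sandwich `S` by monotonicity.
* `l8p_def_dir`  DEF  `|d| + |ḋ| ≲ λ r² e`.
* `l8p_d2_dir`   D2   `skp_raw`, `skp_ref` at `l8pI I π` + `qlink` + Jensen on the fork for the projected endpoints (`skp_tail_qx`, 113);   below `zlo`: raw bound and `e = Y`.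
* `l8p_iv_dir`   IV   (D7), (D8), (D9).
-/

set_option autoImplicit false

namespace Claimed.Agent.R286

/-- LK = the link chain / path of DEF (contract `L8pLkDir`, `L8pDefLk` in PM/Inst.lean).   PROVED: L08/DdDefD.lean (37) from `l8dd_exit` (226), `l8g_fine` (118), `l8f_consts` (214) -/
theorem l8p_lk_dir (T : ℝ) (hT : 1 < T) : L8pLkDir llBase T := l8dg_lk_dir T hT

/-- IV: PROVED in PM/InstIv.lean (199; IV7 = 298 + 199, IV8 = 114, IV9 = 150) -/
theorem l8p_iv_dir (T : ℝ) (_hT : 1 < T) (he : L8pEnvDir llBase T) (h2 : L8pD2Dir llBase T) : L8pIvDir llBase T :=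
  l8v_iv_dir he h2

/-- **`L8gCoreDir`** -/
theorem l8p_core_dir (T : ℝ) (hT : 1 < T) : L8gCoreDir llBase T :=
  l8p_core_dir_of (l8g_fine T hT) (l8p_inst_dir T hT) (l8p_env_dir T hT) (l8p_lk_dir T hT) (l8p_def_dir T hT) (l8p_d2_dir T hT)
    (l8p_iv_dir T hT (l8p_env_dir T hT) (l8p_d2_dir T hT))

/-! ### low region of the size paths -/

/-- LKL = the link chain / path of DEFL (contract `L8qLk`, `L8qDefLk` in PM/InstL.lean).   PROVED: L08/DdDefD.lean (37), `l8dg_lk_low` (the same text, unfolded) -/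
theorem l8q_lk (T : ℝ) (hT : 1 < T) : L8qLk llBase T := l8dg_lk_low T hT

/-- IVL: PROVED in PM/InstIvL7.lean (223: (D7) `l8q7_d7`, assembly `l8q7_iv`) + PM/InstIvL9.lean (200: (D9) `l8qw_iv9`), on L08/IvD7F (298); axiom clean -/
theorem l8q_iv (T : ℝ) (_hT : 1 < T) (_he : L8qEnv llBase T) (_h2 : L8qD2 llBase T) : L8qIv llBase T := l8q7_iv llBase T

/-- **`L8gCoreLow`** -/
theorem l8q_core_low (T : ℝ) (hT : 1 < T) : L8gCoreLow llBase T :=
  l8q_core_low_of (l8g_fine T hT) (exit_cap T hT) (l8q_inst T hT) (l8q_env T hT) (l8q_lk T hT) (l8q_def T hT) (l8q_d2 T hT) (l8q_iv T hT (l8q_env T hT) (l8q_d2 T hT))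

end Claimed.Agent.R286
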