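import Claimed.Agent.R286.PM.Leaves
import Claimed.Agent.R286.PM.Kit

/-!
# Row 286 (S0533), folder PM, file Inc : EXIT INC of LL Prop 8.1 (increments of the posterior mean)      (helper139; prefix `skp_inc_`)

TEX[LL:prop:statistics-pointwise], LL 08 l.518-612.   `skp_inc_of : SkpRaw → SkpLeafRWb → SkpInc`  and  `skp_inc_of_rw : SkpRaw → SkpLeafRW → SkpInc`, NO sorry.
(`SkpLeafRWb` = leaf RW with the extra hypothesis `x ≤ b`: enough for INC, `skp_rwb_of_rw : SkpLeafRW → SkpLeafRWb`.)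

Plan.
* 0. norms `skpN` <-> integral form; 1. `r(z)`, grid cells inside an interval (general grid `zc`, prescribed lower index, strict upper end);
* 2. grid facts, nontrivial cuts (`skp_inc_nontriv`, `skp_inc_nontriv_far`), variation of `S` near a cut (`skp_inc_var`);
* 3. masses of the cells of a (D4) window (`skp_inc_mass`);   4. THE WINDOW STEP `skp_inc_winbd` (`Pin` + RW + (D4) + `g0a`);
* 5. raw bound at trivial cuts (`skp_inc_raw_bd`);   6. both cuts nontrivial: common past buffer + one future buffer for each cut, `l8s_buffer` twice (`skp_inc_nn`);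
* 7. the bootstrap step `skp_inc_step` : `IncB r B ⇒ IncB r (K1/b + K2 sqrt(x^(-ε) B))`, least constant, quadratic inequality;   8. the exit.
The link `Slink` is used only at cells of positive mass (nondegenerate cells), the centre of the buffers is `d.S (z k)`.
-/

set_option autoImplicit false
set_option linter.unusedVariables false

namespace Claimed.Agent.R286

open Set MeasureTheory

/-! ## 0. norms -/

section N

variable {α : Type} [MeasurableSpace α] {μ : Measure α}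

theorem skp_inc_top {f : α → ℝ} (hf : L8Bd f) : MemLp f ⊤ μ := by
  obtain ⟨h1, C, h2⟩ := hf
  exact skpn_top_of_bound h1.aestronglyMeasurable C h2

theorem skp_inc_N_pow {r : ℕ} (hr : 1 ≤ r) {f : α → ℝ} (h0 : ∀ ω, 0 ≤ f ω) :
    skpN μ r f ^ r = ∫ ω, f ω ^ r ∂μ := by
  have hp : (0 : ℝ) < r := by exact_mod_cast hr
  have := skpn_rpow (μ := μ) hp f
  rw [Real.rpow_natCast] at this
  rw [this]
  refine integral_congr_ae (ae_of_all _ fun ω => ?_)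
  simp only [Real.rpow_natCast, abs_of_nonneg (h0 ω)]

theorem skp_inc_N_le {r : ℕ} (hr : 1 ≤ r) {f : α → ℝ} (h0 : ∀ ω, 0 ≤ f ω) {c : ℝ} (hc : 0 ≤ c)
    (h : ∫ ω, f ω ^ r ∂μ ≤ c ^ r) : skpN μ r f ≤ c := by
  rw [← skp_inc_N_pow hr h0] at h
  exact le_of_pow_le_pow_left₀ (by omega) hc h

theorem skp_inc_of_N_le {r : ℕ} (hr : 1 ≤ r) {f : α → ℝ} (h0 : ∀ ω, 0 ≤ f ω) {c : ℝ}
    (h : skpN μ r f ≤ c) : ∫ ω, f ω ^ r ∂μ ≤ c ^ r := by
  rw [← skp_inc_N_pow hr h0]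
  exact pow_le_pow_left₀ (skpn_nonneg _ _) h r

end N

/-! ## 1. the function `r(z)` and the grid -/

theorem skp_inc_R_le_one (z : ℝ) : skwR z ≤ 1 := min_le_right _ _

theorem skp_inc_R_le (z : ℝ) : skwR z ≤ z := min_le_left _ _

theorem skp_inc_R_mono {z z' : ℝ} (h : z ≤ z') : skwR z ≤ skwR z' := min_le_min_right _ h

theorem skp_inc_R_lip {z z' : ℝ} (h : z ≤ z') : skwR z' ≤ skwR z + (z' - z) := by
  unfold skwR
  rcases le_total z 1 with h1 | h1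
  · rw [min_eq_left h1]
    linarith [min_le_left z' 1]
  · rw [min_eq_right h1]
    linarith [min_le_right z' 1]

theorem skp_inc_R_ge {c z : ℝ} (h : c ≤ z) (h1 : c ≤ 1) : c ≤ skwR z := le_min h h1

/-- grid cells inside an interval, above a prescribed index `k0` -/
theorem skp_inc_cells (z : ℕ → ℝ) (hz : Monotone z) {δ a l : ℝ} {nb k0 : ℕ} (hδ : 0 ≤ δ)
    (hstep : ∀ k < nb, z (k + 1) - z k ≤ δ) (hk0 : k0 ≤ nb) (h0 : z k0 ≤ a) (hl : 2 * δ < l) (hb : a + l ≤ z nb) :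
    ∃ k1 k2, k0 ≤ k1 ∧ k1 < k2 ∧ k2 ≤ nb ∧ a ≤ z k1 ∧ z k1 ≤ a + δ ∧ z k2 < a + l ∧ a + l - δ ≤ z k2 := by
  classical
  have hex : ∃ k, k0 ≤ k ∧ a ≤ z k := ⟨nb, hk0, by linarith⟩
  set k1 := Nat.find hex with hk1
  have h1 : a ≤ z k1 := (Nat.find_spec hex).2
  have h10 : k0 ≤ k1 := (Nat.find_spec hex).1
  have h1nb : k1 ≤ nb := Nat.find_min' hex ⟨hk0, by linarith⟩
  have h1' : z k1 ≤ a + δ := by
    rcases h10.eq_or_lt with e | hpos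
    · rw [← e]; linarith
    · have hlt : k1 - 1 < k1 := by omega
      have := Nat.find_min hex hlt
      have h2 := hstep (k1 - 1) (by omega)
      have e : k1 - 1 + 1 = k1 := by omega
      rw [e] at h2
      have h3 : z (k1 - 1) < a := by
        by_contra hcon
        exact this ⟨by omega, not_lt.1 hcon⟩
      linarith
  set k2 := Nat.findGreatest (fun k => z k < a + l) nb with hk2
  have hP1 : z k1 < a + l := by linarith
  have h2 : z k2 < a + l := Nat.findGreatest_spec (P := fun k => z k < a + l) h1nb hP1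
  have h2nb : k2 ≤ nb := Nat.findGreatest_le nb
  have h2' : a + l - δ ≤ z k2 := by
    rcases h2nb.eq_or_lt with e | hlt
    · rw [e] at h2; linarith
    · have := Nat.findGreatest_is_greatest (P := fun k => z k < a + l) (n := nb) (k := k2 + 1) (by omega) (by omega)
      have h3 := hstep k2 hlt
      push Not at this
      linarith
  refine ⟨k1, k2, h10, ?_, h2nb, h1, h1', h2, h2'⟩
  by_contra hcon
  have := hz (not_lt.1 hcon)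
  linarith

section P2

variable {Ω : Type} [mΩ : MeasurableSpace Ω] {m : ℕ} {S : SkpS} {I : SkpI Ω m}

theorem skp_inc_z_step (h : I.Ok S) {k : ℕ} (hk : k < I.nb) : I.z (k + 1) - I.z k ≤ I.δ := h.zmesh k hk

theorem skp_inc_z_mono (h : I.Ok S) : Monotone I.z := h.zmono

theorem skp_inc_z_nb (h : I.Ok S) : I.z I.nb = I.zbuf := h.nb

theorem skp_inc_z_zero (h : I.Ok S) : I.z 0 = 0 := h.z0

theorem skp_inc_z_nonneg (h : I.Ok S) (k : ℕ) : 0 ≤ I.z k := by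
  rw [← skp_inc_z_zero h]; exact skp_inc_z_mono h (Nat.zero_le k)

theorem skp_inc_z_le (h : I.Ok S) {k : ℕ} (hk : k ≤ I.nb) : I.z k ≤ I.zbuf := by
  rw [← skp_inc_z_nb h]; exact skp_inc_z_mono h hk

theorem skp_inc_lt_of_z (h : I.Ok S) {j k : ℕ} (hjk : I.z j < I.z k) : j < k := by
  by_contra hcon
  exact absurd (skp_inc_z_mono h (not_lt.1 hcon)) (not_le.2 hjk)

/-- the link with the function `S` of folder W, at a nondegenerate cell -/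
theorem skp_inc_S_link (h : I.Ok S) {k : ℕ} (hk : k ≤ I.nb) (hlt : I.z k < I.z (k + 1)) : I.P.S k = I.d.S (I.z k) :=
  (h.Slink k hk (I.z k) ⟨skp_inc_z_nonneg h k, skp_inc_z_le h hk⟩ le_rfl hlt).symm

theorem skp_inc_zlo_le (hS : S.Ok) (h : I.Ok S) : I.d.zlo ≤ 1 / 16 := by
  have := h.zloreg
  have := hS.zreg1
  linarith

theorem skp_inc_x_le_one (h : I.Ok S) : I.d.x ≤ 1 := h.wh.xU.trans h.wh.U1

/-- positivity of the width -/
theorem skp_inc_hh_pos (hS : S.Ok) (h : I.Ok S) {w : ℝ} (hw : w ∈ Icc (I.d.zlo / 2) I.zbuf) : 0 < I.hh w := by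
  have hzlo := h.wh.zlo0
  have hr : 0 < skwR w := lt_of_lt_of_le (by linarith) (skp_inc_R_ge hw.1 (by linarith [skp_inc_zlo_le hS h]))
  have hU : 0 < I.d.U := lt_of_lt_of_le h.wh.x0 h.wh.xU
  have h1 : 0 < min (I.d.b * skwR w) (I.d.U ^ 2 / skwR w) / S.CW :=
    div_pos (lt_min (mul_pos h.wh.b0 hr) (by positivity)) (by linarith [hS.CW])
  exact lt_of_lt_of_le h1 (h.wc.lower w hw)

/-- what a nontrivial cut knows -/
theorem skp_inc_nontriv (hS : S.Ok) (h : I.Ok S) {w : ℝ} (hw : w ∈ Icc I.d.zlo I.zbuf)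
    (hn : I.d.Z ^ 2 * I.hh w < I.d.b * skwR w / S.CW) :
    (I.d.U * I.d.Z) ^ 2 < I.d.b * skwR w ^ 2 ∧ I.d.U ^ 2 / (S.CW * skwR w) ≤ I.hh w ∧
      S.CW * I.hh w < I.d.b * skwR w := by
  have hCW : 1 ≤ S.CW := hS.CW
  have hCW0 : 0 < S.CW := by linarith
  have hZ := h.wh.Z1
  have hb := h.wh.b0
  have hzlo := h.wh.zlo0
  have hr : 0 < skwR w := lt_of_lt_of_le hzlo (skp_inc_R_ge hw.1 (by linarith [skp_inc_zlo_le hS h]))
  have hw' : w ∈ Icc (I.d.zlo / 2) I.zbuf := ⟨by linarith [hw.1], hw.2⟩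
  have hlow := h.wc.lower w hw'
  have hh0 := skp_inc_hh_pos hS h hw'
  have hZ2 : 1 ≤ I.d.Z ^ 2 := one_le_pow₀ hZ
  rw [div_le_iff₀ hCW0] at hlow
  rw [lt_div_iff₀ hCW0] at hn
  have h3 : S.CW * I.hh w < I.d.b * skwR w := by nlinarith [mul_pos hh0 hCW0]
  have h1 : I.d.Z ^ 2 * min (I.d.b * skwR w) (I.d.U ^ 2 / skwR w) < I.d.b * skwR w := by
    have := mul_le_mul_of_nonneg_left hlow (by positivity : 0 ≤ I.d.Z ^ 2)
    nlinarith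
  rcases le_total (I.d.b * skwR w) (I.d.U ^ 2 / skwR w) with hc | hc
  · rw [min_eq_left hc] at h1
    nlinarith [mul_pos hb hr]
  · rw [min_eq_right hc] at h1 hlow
    refine ⟨?_, ?_, h3⟩
    · have : I.d.Z ^ 2 * (I.d.U ^ 2 / skwR w) * skwR w < I.d.b * skwR w * skwR w :=
        mul_lt_mul_of_pos_right h1 hr
      have e : I.d.Z ^ 2 * (I.d.U ^ 2 / skwR w) * skwR w = (I.d.U * I.d.Z) ^ 2 := by field_simp
      rw [e] at this
      nlinarith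
    · rw [div_le_iff₀ (by positivity)]
      have e : I.d.U ^ 2 / skwR w * skwR w = I.d.U ^ 2 := by field_simp
      have := mul_le_mul_of_nonneg_right hlow hr.le
      rw [e] at this
      nlinarith

/-- a nontrivial cut lies above `2 zlo` as soon as `4 Cz² b ≤ 1` -/
theorem skp_inc_nontriv_far (hS : S.Ok) (h : I.Ok S) {w : ℝ} (hw : w ∈ Icc I.d.zlo I.zbuf)
    (hn : I.d.Z ^ 2 * I.hh w < I.d.b * skwR w / S.CW) (hb : 4 * S.Cz ^ 2 * I.d.b ≤ 1) :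
    2 * I.d.zlo < skwR w := by
  obtain ⟨h1, -, -⟩ := skp_inc_nontriv hS h hw hn
  have hzlo := h.wh.zlo0
  have hr : 0 < skwR w := lt_of_lt_of_le hzlo (skp_inc_R_ge hw.1 (by linarith [skp_inc_zlo_le hS h]))
  have hY := h.zloY
  have hY0 : 0 ≤ I.d.U * I.d.Z := mul_nonneg (h.wh.x0.le.trans h.wh.xU) (by linarith [h.wh.Z1])
  have hCz : 1 ≤ S.Cz := hS.Cz
  -- zlo² ≤ Cz² Y² < Cz² b r² ≤ r²/4
  have h2 : I.d.zlo ^ 2 ≤ S.Cz ^ 2 * (I.d.U * I.d.Z) ^ 2 := by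
    rw [← mul_pow]; exact pow_le_pow_left₀ hzlo.le hY 2
  have h3 : S.Cz ^ 2 * (I.d.U * I.d.Z) ^ 2 < S.Cz ^ 2 * (I.d.b * skwR w ^ 2) :=
    mul_lt_mul_of_pos_left h1 (by positivity)
  have h4 : 4 * (S.Cz ^ 2 * (I.d.b * skwR w ^ 2)) ≤ skwR w ^ 2 := by
    have := mul_le_mul_of_nonneg_right hb (sq_nonneg (skwR w))
    nlinarith
  have h5 : (2 * I.d.zlo) ^ 2 < skwR w ^ 2 := by nlinarith
  exact lt_of_pow_lt_pow_left₀ 2 hr.le h5

/-- the variation of `S` near a cut `w`, in terms of `Λ ≥ hh w` -/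
theorem skp_inc_var (hS : S.Ok) (h : I.Ok S) {w z1 z2 Λ K : ℝ} (hw : w ∈ Icc (I.d.zlo / 2) I.zbuf)
    (h1 : z1 ∈ Icc (I.d.zlo / 2) I.zbuf) (h2 : z2 ∈ Icc (I.d.zlo / 2) I.zbuf) (hΛ : I.hh w ≤ Λ) (hK : 0 ≤ K)
    (hd1 : |w - z1| ≤ K * Λ) (hd2 : |w - z2| ≤ K * Λ) :
    |I.d.S z2 - I.d.S z1| ≤ (2 * S.c.Lq * K + 2 * S.CW ^ 2 * (1 + K)) / I.d.b * (I.d.Z ^ 2 * Λ) := by
  have hCW : 1 ≤ S.CW := hS.CW
  have hLq : 1 ≤ S.c.Lq := hS.c.Lq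
  have hZ := h.wh.Z1
  have hZ2 : 1 ≤ I.d.Z ^ 2 := one_le_pow₀ hZ
  have hb := h.wh.b0
  have hb1 : I.d.b ≤ 1 := by linarith [h.wh.b1]
  have hzlo := h.wh.zlo0
  have hΛ0 : 0 < Λ := lt_of_lt_of_le (skp_inc_hh_pos hS h hw) hΛ
  have hmem : ∀ z ∈ Icc (I.d.zlo / 2) I.zbuf, z ∈ Icc 0 I.d.zmax := fun z hz =>
    ⟨by linarith [hz.1], hz.2.trans h.zbuf⟩
  have hF : ∀ z ∈ Icc (I.d.zlo / 2) I.zbuf, |w - z| ≤ K * Λ →
      |skwF I.d z| ≤ S.CW ^ 2 * (1 + K) / I.d.b * (I.d.Z ^ 2 * Λ) := by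
    intro z hz hd
    have a1 := h.wc.dev z hz
    have a2 : skwE I.d I.hh z ≤ I.d.Z ^ 2 * I.hh z := min_le_right _ _
    have a3 := h.wc.qlip w hw z hz
    have a4 : I.hh z ≤ S.CW * ((1 + K) * Λ) := by
      refine a3.trans (mul_le_mul_of_nonneg_left ?_ (by linarith))
      linarith
    have a5 : skwE I.d I.hh z ≤ I.d.Z ^ 2 * (S.CW * ((1 + K) * Λ)) :=
      a2.trans (mul_le_mul_of_nonneg_left a4 (by positivity))
    calc |skwF I.d z| ≤ S.CW * skwE I.d I.hh z / I.d.b := a1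
      _ ≤ S.CW * (I.d.Z ^ 2 * (S.CW * ((1 + K) * Λ))) / I.d.b := by
          refine div_le_div_of_nonneg_right (mul_le_mul_of_nonneg_left a5 (by linarith)) hb.le
      _ = _ := by ring
  have hq := h.wh.qlip z2 (hmem z2 h2) z1 (hmem z1 h1)
  have hz12 : |z2 - z1| ≤ 2 * K * Λ := by
    have e : z2 - z1 = (w - z1) - (w - z2) := by ring
    rw [e]
    have := abs_sub (w - z1) (w - z2)
    linarith
  have e : I.d.S z2 - I.d.S z1 = (I.d.q z2 - I.d.q z1) + skwF I.d z2 - skwF I.d z1 := by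
    unfold skwF; ring
  have b1 : |I.d.q z2 - I.d.q z1| ≤ 2 * S.c.Lq * K / I.d.b * (I.d.Z ^ 2 * Λ) := by
    refine hq.trans ?_
    have c1 : S.c.Lq * |z2 - z1| ≤ S.c.Lq * (2 * K * Λ) := mul_le_mul_of_nonneg_left hz12 (by linarith)
    have c2 : S.c.Lq * (2 * K * Λ) ≤ S.c.Lq * (2 * K * Λ) * (I.d.Z ^ 2 / I.d.b) := by
      have : 1 ≤ I.d.Z ^ 2 / I.d.b := by rw [le_div_iff₀ hb]; linarith
      exact le_mul_of_one_le_right (by positivity) this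
    calc S.c.Lq * |z2 - z1| ≤ S.c.Lq * (2 * K * Λ) * (I.d.Z ^ 2 / I.d.b) := c1.trans c2
      _ = _ := by ring
  rw [e]
  have t1 := abs_sub ((I.d.q z2 - I.d.q z1) + skwF I.d z2) (skwF I.d z1)
  have t2 := abs_add_le (I.d.q z2 - I.d.q z1) (skwF I.d z2)
  have f1 := hF z1 h1 hd1
  have f2 := hF z2 h2 hd2
  calc |I.d.q z2 - I.d.q z1 + skwF I.d z2 - skwF I.d z1|
      ≤ 2 * S.c.Lq * K / I.d.b * (I.d.Z ^ 2 * Λ) + S.CW ^ 2 * (1 + K) / I.d.b * (I.d.Z ^ 2 * Λ)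
        + S.CW ^ 2 * (1 + K) / I.d.b * (I.d.Z ^ 2 * Λ) := by linarith
    _ = _ := by ring

end P2

section P3

variable {Ω : Type} [mΩ : MeasurableSpace Ω] {m : ℕ} {S : SkpS} {I : SkpI Ω m}

theorem skp_inc_G_int (h : I.Ok S) {u v : ℝ} (hu : u ∈ Icc 0 I.zbuf) (hv : v ∈ Icc 0 I.zbuf) :
    IntervalIntegrable I.d.G volume u v := by
  refine h.wh.Gi.mono_set ?_
  have hz : (0 : ℝ) ≤ I.d.zmax := hu.1.trans (hu.2.trans h.zbuf)
  rw [uIcc_of_le hz]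
  exact uIcc_subset_Icc ⟨hu.1, hu.2.trans h.zbuf⟩ ⟨hv.1, hv.2.trans h.zbuf⟩

theorem skp_inc_dv_nonneg (h : I.Ok S) (k : ℕ) : 0 ≤ I.P.dv k := by
  unfold L8P.dv
  by_cases hk : k = 0
  · simp only [hk, if_true, sub_zero]; exact h.sp.v_nonneg 0
  · simp only [hk, if_false]
    exact sub_nonneg.2 (h.sp.v_mono (Nat.sub_le k 1))

/-- a cell of positive mass is nondegenerate -/
theorem skp_inc_dv_ne (h : I.Ok S) {k : ℕ} (hk : k < I.nb) (hne : I.P.dv k ≠ 0) : I.z k < I.z (k + 1) := by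
  rcases (skp_inc_z_mono h (Nat.le_succ k)).lt_or_eq with h1 | h1
  · exact h1
  · exfalso
    apply hne
    rw [h.gaplink k hk, h1, intervalIntegral.integral_same]

/-- masses of the grid cells inside a (D4) window -/
theorem skp_inc_mass (hS : S.Ok) (h : I.Ok S) {z0 a l : ℝ} (hwin : SkwWin S.CW I.d z0 (I.hh z0) a l)
    (ha : 0 ≤ a) (hl : 0 < l) (hal : a + l ≤ I.zbuf) {k1 k2 : ℕ} (h12 : k1 ≤ k2) (hk2 : k2 ≤ I.nb)
    (h1 : a ≤ I.z k1) (h1' : I.z k1 ≤ a + I.δ) (h2 : I.z k2 ≤ a + l) (h2' : a + l - I.δ ≤ I.z k2) :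
    0 ≤ (∫ t in a..(a + l), I.d.G t) / l ∧
    (∀ k ∈ Finset.Ico k1 k2, I.P.dv k ≤ I.dz k * (S.CW * ((∫ t in a..(a + l), I.d.G t) / l))) ∧
    (∫ t in a..(a + l), I.d.G t) / l * (l - 2 * S.CW * I.δ) ≤ ∑ k ∈ Finset.Ico k1 k2, I.P.dv k := by
  set Gs := (∫ t in a..(a + l), I.d.G t) / l with hGs
  have hCW : 1 ≤ S.CW := hS.CW
  have hmono := (skp_inc_z_mono h)
  have hGs0 : 0 ≤ Gs := by
    refine div_nonneg (intervalIntegral.integral_nonneg (by linarith) fun u hu => ?_) hl.le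
    exact h.wh.G0 u ⟨ha.trans hu.1, hu.2.trans (hal.trans h.zbuf)⟩
  have hin : ∀ u, a ≤ u → u ≤ a + l → u ∈ Icc 0 I.zbuf := fun u h1 h2 => ⟨ha.trans h1, h2.trans hal⟩
  have hpiece : ∀ u v, a ≤ u → u ≤ v → v ≤ a + l → ∫ t in u..v, I.d.G t ≤ (v - u) * (S.CW * Gs) := by
    intro u v hu huv hv
    have := intervalIntegral.integral_mono_on_of_le_Ioo (μ := volume) huv
      (skp_inc_G_int h (hin u hu (huv.trans hv)) (hin v (hu.trans huv) hv))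
      (intervalIntegrable_const (c := S.CW * Gs))
      (fun x hx => hwin.sup x ⟨lt_of_le_of_lt hu hx.1, lt_of_lt_of_le hx.2 hv⟩)
    rwa [intervalIntegral.integral_const, smul_eq_mul] at this
  refine ⟨hGs0, ?_, ?_⟩
  · intro k hk
    obtain ⟨hk1, hk2'⟩ := Finset.mem_Ico.1 hk
    rw [h.gaplink k (lt_of_lt_of_le hk2' hk2)]
    exact hpiece (I.z k) (I.z (k + 1)) (h1.trans (hmono hk1)) (hmono (Nat.le_succ k))
      ((hmono (Nat.succ_le_of_lt hk2')).trans h2)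
  · have hsum : ∑ k ∈ Finset.Ico k1 k2, I.P.dv k = ∫ t in (I.z k1)..(I.z k2), I.d.G t := by
      rw [← intervalIntegral.sum_integral_adjacent_intervals_Ico h12 (fun k hk => ?_)]
      · refine Finset.sum_congr rfl fun k hk => ?_
        exact h.gaplink k (lt_of_lt_of_le (Finset.mem_Ico.1 hk).2 hk2)
      · have hk' : k < k2 := hk.2
        exact skp_inc_G_int h ⟨skp_inc_z_nonneg h k, skp_inc_z_le h (by omega)⟩
          ⟨skp_inc_z_nonneg h _, skp_inc_z_le h (by omega)⟩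
    have hz1 : I.z k1 ∈ Icc 0 I.zbuf := ⟨skp_inc_z_nonneg h _, skp_inc_z_le h (h12.trans hk2)⟩
    have hz2 : I.z k2 ∈ Icc 0 I.zbuf := ⟨skp_inc_z_nonneg h _, skp_inc_z_le h hk2⟩
    have ha' : a ∈ Icc 0 I.zbuf := hin a le_rfl (by linarith)
    have hal' : a + l ∈ Icc 0 I.zbuf := hin (a + l) (by linarith) le_rfl
    have e1 := intervalIntegral.integral_add_adjacent_intervals (skp_inc_G_int h ha' hz1) (skp_inc_G_int h hz1 hz2)
    have e2 := intervalIntegral.integral_add_adjacent_intervals (skp_inc_G_int h ha' hz2) (skp_inc_G_int h hz2 hal')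
    have p1 := hpiece a (I.z k1) le_rfl h1 ((hmono h12).trans h2)
    have p2 := hpiece (I.z k2) (a + l) (h1.trans (hmono h12)) h2 le_rfl
    have hGl : Gs * l = ∫ t in a..(a + l), I.d.G t := by rw [hGs]; field_simp
    have hc : 0 ≤ S.CW * Gs := mul_nonneg (by linarith) hGs0
    have q1 : (I.z k1 - a) * (S.CW * Gs) ≤ I.δ * (S.CW * Gs) := mul_le_mul_of_nonneg_right (by linarith) hc
    have q2 : (a + l - I.z k2) * (S.CW * Gs) ≤ I.δ * (S.CW * Gs) := mul_le_mul_of_nonneg_right (by linarith) hc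
    rw [hsum]
    nlinarith

end P3

section P4

variable {Ω : Type} [mΩ : MeasurableSpace Ω] {m : ℕ} {S : SkpS} {I : SkpI Ω m}

/-- the conclusion of RW for one instance, `A = C x^(-ε) B` -/
def SkpI.RWB (I : SkpI Ω m) (S : SkpS) (r : ℕ) (A : ℝ) : Prop :=
  ∀ z₀ ∈ Icc I.d.zlo I.zbuf, I.d.Z ^ 2 * I.hh z₀ < I.d.b * skwR z₀ / S.CW →
    ∀ k₁ k₂, k₁ ≤ k₂ → I.d.zlo ≤ I.z k₁ → |I.z k₁ - z₀| ≤ 2 * S.CW * I.hh z₀ → I.z k₂ - I.z k₁ ≤ I.hh z₀ →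
    ∫ ω, (∑ k ∈ Finset.Ico k₁ k₂, I.dz k * I.P.W k ω) ^ r ∂I.P.μ ≤
      (A * (I.d.x ^ 6 / (I.lam1 * skwR z₀ ^ 3)) * I.hh z₀ * I.d.Z ^ 2) ^ r

theorem skp_inc_arith {CW Gs M l h0 r0 U x lam1 g0 A Z : ℝ} (hCW : 1 ≤ CW) (hGs : 0 < Gs) (hl : 0 < l)
    (hM : Gs * l / 2 ≤ M) (hlh : h0 / CW ≤ l) (hh0 : 0 < h0) (hr0 : 0 < r0) (hU : 0 < U)
    (hbig : U ^ 6 / (CW * r0 ^ 3) ≤ Gs * h0 ^ 3) (hlam : 0 < lam1) (hg : x ^ 6 / lam1 ≤ g0 ^ 2 * U ^ 6)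
    (hA : 0 ≤ A) (hx : 0 < x) :
    CW * Gs / M ^ 2 * (A * (x ^ 6 / (lam1 * r0 ^ 3)) * h0 * Z ^ 2) ≤ 4 * CW ^ 4 * A * g0 ^ 2 * h0 ^ 2 * Z ^ 2 := by
  have hCW0 : 0 < CW := by linarith
  have hM0 : 0 < M := lt_of_lt_of_le (by positivity) hM
  have hM1 : Gs * h0 / (2 * CW) ≤ M := by
    refine le_trans ?_ hM
    have : Gs * (h0 / CW) ≤ Gs * l := mul_le_mul_of_nonneg_left hlh hGs.le
    calc Gs * h0 / (2 * CW) = Gs * (h0 / CW) / 2 := by field_simp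
      _ ≤ Gs * l / 2 := by linarith
  have hM2 : (Gs * h0 / (2 * CW)) ^ 2 ≤ M ^ 2 := pow_le_pow_left₀ (by positivity) hM1 2
  have hT : CW * Gs / M ^ 2 ≤ 4 * CW ^ 4 * r0 ^ 3 * h0 / U ^ 6 := by
    rw [div_le_iff₀ (by positivity)]
    have h1 : 4 * CW ^ 4 * r0 ^ 3 * h0 / U ^ 6 * (Gs * h0 / (2 * CW)) ^ 2 ≤ 4 * CW ^ 4 * r0 ^ 3 * h0 / U ^ 6 * M ^ 2 :=
      mul_le_mul_of_nonneg_left hM2 (by positivity)
    refine le_trans ?_ h1
    have e : 4 * CW ^ 4 * r0 ^ 3 * h0 / U ^ 6 * (Gs * h0 / (2 * CW)) ^ 2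
        = CW ^ 2 * Gs * r0 ^ 3 / U ^ 6 * (Gs * h0 ^ 3) := by field_simp; ring
    rw [e]
    have h2 : CW ^ 2 * Gs * r0 ^ 3 / U ^ 6 * (U ^ 6 / (CW * r0 ^ 3)) ≤ CW ^ 2 * Gs * r0 ^ 3 / U ^ 6 * (Gs * h0 ^ 3) :=
      mul_le_mul_of_nonneg_left hbig (by positivity)
    refine le_trans (le_of_eq ?_) h2
    field_simp
  have hnn : 0 ≤ A * (x ^ 6 / (lam1 * r0 ^ 3)) * h0 * Z ^ 2 := by positivity
  refine (mul_le_mul_of_nonneg_right hT hnn).trans ?_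
  have e : 4 * CW ^ 4 * r0 ^ 3 * h0 / U ^ 6 * (A * (x ^ 6 / (lam1 * r0 ^ 3)) * h0 * Z ^ 2)
      = 4 * CW ^ 4 * A * h0 ^ 2 * Z ^ 2 / U ^ 6 * (x ^ 6 / lam1) := by field_simp
  rw [e]
  refine (mul_le_mul_of_nonneg_left hg (by positivity)).trans (le_of_eq ?_)
  field_simp

/-- **the window step**: grid cells inside a (D4) window, mass weights, `Pin` + RW + (D4) + `g0a` -/
theorem skp_inc_winbd (hS : S.Ok) (h : I.Ok S) {r : ℕ} (hr : 1 ≤ r) {A : ℝ} (hA : 0 ≤ A) (hRW : I.RWB S r A)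
    (hx : 4 * S.CW ^ 3 * I.d.x ≤ 1) {z0 : ℝ} (hz0 : z0 ∈ Icc I.d.zlo I.zbuf)
    (hn : I.d.Z ^ 2 * I.hh z0 < I.d.b * skwR z0 / S.CW) {a l : ℝ} (hwin : SkwWin S.CW I.d z0 (I.hh z0) a l)
    (ha : I.d.zlo ≤ a) (hal : a + l ≤ I.zbuf) {k0 : ℕ} (hk0 : k0 ≤ I.nb) (hk0a : I.z k0 ≤ a) :
    ∃ k1 k2 : ℕ, k0 ≤ k1 ∧ k1 < k2 ∧ k2 ≤ I.nb ∧ a ≤ I.z k1 ∧ I.z k2 < a + l ∧ 0 < ∑ k ∈ Finset.Ico k1 k2, I.P.dv k ∧
      ∫ ω, ((∑ k ∈ Finset.Ico k1 k2, I.P.dv k / (∑ k ∈ Finset.Ico k1 k2, I.P.dv k) * I.P.L k ω)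
          - ∫ ω', (∑ k ∈ Finset.Ico k1 k2, I.P.dv k / (∑ k ∈ Finset.Ico k1 k2, I.P.dv k) * I.P.L k ω') ∂I.P.μ) ^ (2 * r) ∂I.P.μ
        ≤ (S.K.cA1 r * (4 * S.CW ^ 4 * A * I.g0 ^ 2 * I.hh z0 ^ 2 * I.d.Z ^ 2)) ^ r := by
  have hprob := h.sp.prob
  have hCW : 1 ≤ S.CW := hS.CW
  have hCW0 : 0 < S.CW := by linarith
  have hx0 := h.wh.x0
  have hx1 := skp_inc_x_le_one h
  have hU : 0 < I.d.U := lt_of_lt_of_le hx0 h.wh.xU
  have hzlo := h.wh.zlo0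
  have hz0' : z0 ∈ Icc (I.d.zlo / 2) I.zbuf := ⟨by linarith [hz0.1], hz0.2⟩
  have hh0 := skp_inc_hh_pos hS h hz0'
  have hr0 : 0 < skwR z0 := lt_of_lt_of_le hzlo (skp_inc_R_ge hz0.1 (by linarith [skp_inc_zlo_le hS h]))
  have hr1 := skp_inc_R_le_one z0
  obtain ⟨-, hlow, -⟩ := skp_inc_nontriv hS h hz0 hn
  -- the mesh is small
  have hh_lo : I.d.x ^ 2 / S.CW ≤ I.hh z0 := by
    refine le_trans ?_ hlow
    rw [div_le_div_iff₀ hCW0 (by positivity)]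
    have h1 : I.d.x ^ 2 ≤ I.d.U ^ 2 := pow_le_pow_left₀ hx0.le h.wh.xU 2
    have h2 : S.CW * skwR z0 ≤ S.CW := by nlinarith
    calc I.d.x ^ 2 * (S.CW * skwR z0) ≤ I.d.x ^ 2 * S.CW := mul_le_mul_of_nonneg_left h2 (by positivity)
      _ ≤ I.d.U ^ 2 * S.CW := mul_le_mul_of_nonneg_right h1 hCW0.le
  have hl_lo : I.d.x ^ 2 / S.CW ^ 2 ≤ l := by
    refine le_trans ?_ hwin.len_lo
    calc I.d.x ^ 2 / S.CW ^ 2 = I.d.x ^ 2 / S.CW / S.CW := by field_simp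
      _ ≤ I.hh z0 / S.CW := div_le_div_of_nonneg_right hh_lo hCW0.le
  have hδl : 4 * S.CW * I.δ ≤ l := by
    refine le_trans ?_ hl_lo
    rw [le_div_iff₀ (by positivity)]
    have h1 : I.d.x ^ 38 ≤ I.d.x := by
      calc I.d.x ^ 38 ≤ I.d.x ^ 1 := pow_le_pow_of_le_one hx0.le hx1 (by norm_num)
        _ = I.d.x := pow_one _
    have h2 : I.δ ≤ I.d.x ^ 38 * I.d.x ^ 2 := by
      have := h.mesh
      calc I.δ ≤ I.d.x ^ 40 := this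
        _ = _ := by ring
    have h3 : I.δ ≤ I.d.x * I.d.x ^ 2 := h2.trans (mul_le_mul_of_nonneg_right h1 (by positivity))
    calc 4 * S.CW * I.δ * S.CW ^ 2 = 4 * S.CW ^ 3 * I.δ := by ring
      _ ≤ 4 * S.CW ^ 3 * (I.d.x * I.d.x ^ 2) := mul_le_mul_of_nonneg_left h3 (by positivity)
      _ = (4 * S.CW ^ 3 * I.d.x) * I.d.x ^ 2 := by ring
      _ ≤ 1 * I.d.x ^ 2 := mul_le_mul_of_nonneg_right hx (by positivity)
      _ = I.d.x ^ 2 := one_mul _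
  have hδ0 := h.δ0
  have hl0 : 0 < l := lt_of_lt_of_le (by positivity) hδl
  have h4δ : 4 * I.δ ≤ l := le_trans (by nlinarith) hδl
  -- the cells
  obtain ⟨k1, k2, h01, h12, hk2, c1, c1', c2, c2'⟩ := skp_inc_cells I.z (skp_inc_z_mono h) hδ0.le
    (fun k hk => skp_inc_z_step h hk) (a := a) (l := l) (nb := I.nb) hk0 hk0a
    (by linarith) (by rw [skp_inc_z_nb h]; exact hal)
  obtain ⟨hGs0, hdv, hMlo⟩ := skp_inc_mass hS h hwin (by linarith) hl0 hal h12.le hk2 c1 c1' c2.le c2'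
  set Gs := (∫ t in a..(a + l), I.d.G t) / l with hGs
  set M := ∑ k ∈ Finset.Ico k1 k2, I.P.dv k with hM
  have hGspos : 0 < Gs := by
    have hb := hwin.big
    have : 0 < I.d.U ^ 6 / (S.CW * skwR z0 ^ 3) := by positivity
    by_contra hcon
    have hz : Gs = 0 := le_antisymm (not_lt.1 hcon) hGs0
    rw [← hGs, hz, zero_mul] at hb
    linarith
  have hMlo' : Gs * l / 2 ≤ M := by
    refine le_trans ?_ hMlo
    have : l / 2 ≤ l - 2 * S.CW * I.δ := by linarith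
    calc Gs * l / 2 = Gs * (l / 2) := by ring
      _ ≤ _ := mul_le_mul_of_nonneg_left this hGs0
  have hM0 : 0 < M := lt_of_lt_of_le (by positivity) hMlo'
  refine ⟨k1, k2, h01, h12, hk2, c1, c2, hM0, ?_⟩
  -- Pin
  classical
  have hpin := h.pin r hr (fun k => if k ∈ Finset.Ico k1 k2 then 1 / M else 0) (fun _ => Polynomial.X)
  have hsub : Finset.Ico k1 k2 ⊆ Finset.range (I.P.n + 1) := by
    intro k hk
    have := (Finset.mem_Ico.1 hk).2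
    have := h.nbn
    exact Finset.mem_range.2 (by omega)
  have hLint : ∀ k, Integrable (I.P.L k) I.P.μ := fun k => (I.P.l8s_L_bd h.sp k).integrable _
  have eL : ∀ ω, ∑ k ∈ Finset.range (I.P.n + 1), I.P.dv k * (if k ∈ Finset.Ico k1 k2 then 1 / M else 0) *
        ((Polynomial.X : Polynomial ℝ).eval (I.P.L k ω) - ∫ ω', (Polynomial.X : Polynomial ℝ).eval (I.P.L k ω') ∂I.P.μ)
      = (∑ k ∈ Finset.Ico k1 k2, I.P.dv k / M * I.P.L k ω)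
          - ∫ ω', (∑ k ∈ Finset.Ico k1 k2, I.P.dv k / M * I.P.L k ω') ∂I.P.μ := by
    intro ω
    rw [← Finset.sum_subset hsub (fun k _ hk => by simp [hk]),
      integral_finsetSum _ (fun k _ => (hLint k).const_mul _), ← Finset.sum_sub_distrib]
    refine Finset.sum_congr rfl fun k hk => ?_
    rw [if_pos hk, integral_const_mul]
    simp only [Polynomial.eval_X]
    ring
  have eR : ∀ ω, ∑ k ∈ Finset.range (I.P.n + 1), I.P.dv k * (if k ∈ Finset.Ico k1 k2 then 1 / M else 0) ^ 2 *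
        ((Polynomial.X : Polynomial ℝ).derivative.eval (I.P.L k ω)) ^ 2 * I.P.W k ω
      = ∑ k ∈ Finset.Ico k1 k2, I.P.dv k / M ^ 2 * I.P.W k ω := by
    intro ω
    rw [← Finset.sum_subset hsub (fun k _ hk => by simp [hk])]
    refine Finset.sum_congr rfl fun k hk => ?_
    rw [if_pos hk]
    simp only [Polynomial.derivative_X, Polynomial.eval_one]
    ring
  simp only [eL, eR] at hpin
  refine hpin.trans ?_
  -- the right side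
  have hW0 : ∀ k ω, 0 ≤ I.P.W k ω := fun k ω => I.P.l8s_W_nonneg h.sp k ω
  have hptw : ∀ ω, ∑ k ∈ Finset.Ico k1 k2, I.P.dv k / M ^ 2 * I.P.W k ω
      ≤ S.CW * Gs / M ^ 2 * ∑ k ∈ Finset.Ico k1 k2, I.dz k * I.P.W k ω := by
    intro ω
    rw [Finset.mul_sum]
    refine Finset.sum_le_sum fun k hk => ?_
    have h1 := hdv k hk
    have h2 : I.P.dv k / M ^ 2 ≤ I.dz k * (S.CW * Gs) / M ^ 2 := div_le_div_of_nonneg_right h1 (by positivity)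
    calc I.P.dv k / M ^ 2 * I.P.W k ω ≤ I.dz k * (S.CW * Gs) / M ^ 2 * I.P.W k ω :=
          mul_le_mul_of_nonneg_right h2 (hW0 k ω)
      _ = _ := by ring
  have hbdF : L8Bd (fun ω => ∑ k ∈ Finset.Ico k1 k2, I.dz k * I.P.W k ω) :=
    L8Bd.sum _ fun k _ => (I.P.l8s_W_bd h.sp k).const_mul _
  have hbdG : L8Bd (fun ω => ∑ k ∈ Finset.Ico k1 k2, I.P.dv k / M ^ 2 * I.P.W k ω) :=
    L8Bd.sum _ fun k _ => (I.P.l8s_W_bd h.sp k).const_mul _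
  have hG0 : ∀ ω, 0 ≤ ∑ k ∈ Finset.Ico k1 k2, I.P.dv k / M ^ 2 * I.P.W k ω := fun ω =>
    Finset.sum_nonneg fun k _ => mul_nonneg (div_nonneg (skp_inc_dv_nonneg h k) (by positivity)) (hW0 k ω)
  have hint : ∫ ω, (∑ k ∈ Finset.Ico k1 k2, I.P.dv k / M ^ 2 * I.P.W k ω) ^ r ∂I.P.μ
      ≤ (S.CW * Gs / M ^ 2) ^ r * ∫ ω, (∑ k ∈ Finset.Ico k1 k2, I.dz k * I.P.W k ω) ^ r ∂I.P.μ := by
    rw [← integral_const_mul]
    refine integral_mono ((hbdG.pow r).integrable _) (((hbdF.pow r).const_mul _).integrable _) fun ω => ?_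
    show (∑ k ∈ Finset.Ico k1 k2, I.P.dv k / M ^ 2 * I.P.W k ω) ^ r
      ≤ (S.CW * Gs / M ^ 2) ^ r * (∑ k ∈ Finset.Ico k1 k2, I.dz k * I.P.W k ω) ^ r
    rw [← mul_pow]
    exact pow_le_pow_left₀ (hG0 ω) (hptw ω) r
  have hnear : |I.z k1 - z0| ≤ 2 * S.CW * I.hh z0 := by
    have h1 := hwin.near
    have h2 : |I.z k1 - a| ≤ I.δ := by rw [abs_of_nonneg (by linarith)]; linarith
    have h3 : I.δ ≤ I.hh z0 := by have := hwin.len_hi; linarith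
    have e : I.z k1 - z0 = (I.z k1 - a) + (a - z0) := by ring
    rw [e]
    have := abs_add_le (I.z k1 - a) (a - z0)
    nlinarith
  have hrw := hRW z0 hz0 hn k1 k2 h12.le (ha.trans c1) hnear (by have := hwin.len_hi; linarith)
  have hlam : 0 < I.lam1 := lt_of_lt_of_le (by positivity) h.lam1a
  have hg : I.d.x ^ 6 / I.lam1 ≤ I.g0 ^ 2 * I.d.U ^ 6 := by
    have := pow_le_pow_left₀ (by positivity) h.g0a 2
    rw [div_pow, Real.sq_sqrt hlam.le] at this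
    calc I.d.x ^ 6 / I.lam1 = (I.d.x ^ 3) ^ 2 / I.lam1 := by ring
      _ ≤ (I.g0 * I.d.U ^ 3) ^ 2 := this
      _ = _ := by ring
  have har := skp_inc_arith (Z := I.d.Z) hCW hGspos hl0 hMlo' hwin.len_lo hh0 hr0 hU hwin.big hlam hg hA hx0
  have hT0 : 0 ≤ S.CW * Gs / M ^ 2 := by positivity
  have hc1 : 1 ≤ S.K.cA1 r := hS.cA1 r
  calc S.K.cA1 r * ∫ ω, (∑ k ∈ Finset.Ico k1 k2, I.P.dv k / M ^ 2 * I.P.W k ω) ^ r ∂I.P.μ
      ≤ S.K.cA1 r * ((S.CW * Gs / M ^ 2) ^ r *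
          (A * (I.d.x ^ 6 / (I.lam1 * skwR z0 ^ 3)) * I.hh z0 * I.d.Z ^ 2) ^ r) :=
        mul_le_mul_of_nonneg_left (hint.trans (mul_le_mul_of_nonneg_left hrw (by positivity))) (by linarith)
    _ = S.K.cA1 r * (S.CW * Gs / M ^ 2 * (A * (I.d.x ^ 6 / (I.lam1 * skwR z0 ^ 3)) * I.hh z0 * I.d.Z ^ 2)) ^ r := by
        rw [← mul_pow]
    _ ≤ S.K.cA1 r * (4 * S.CW ^ 4 * A * I.g0 ^ 2 * I.hh z0 ^ 2 * I.d.Z ^ 2) ^ r :=
        mul_le_mul_of_nonneg_left (pow_le_pow_left₀ (by positivity) har r) (by linarith)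
    _ ≤ S.K.cA1 r ^ r * (4 * S.CW ^ 4 * A * I.g0 ^ 2 * I.hh z0 ^ 2 * I.d.Z ^ 2) ^ r :=
        mul_le_mul_of_nonneg_right (le_self_pow₀ hc1 (by omega)) (by positivity)
    _ = _ := (mul_pow _ _ _).symm

end P4

section P5

variable {Ω : Type} [mΩ : MeasurableSpace Ω] {m : ℕ} {S : SkpS} {I : SkpI Ω m}

theorem skp_inc_XX_bd (h : I.Ok S) (k l : ℕ) : L8Bd (I.P.nXX k l) :=
  L8Bd.sum _ fun i _ => (I.P.l8s_W_bd_XX h.sp k l i).pow 2

theorem skp_inc_XX_nonneg (I : SkpI Ω m) (k l : ℕ) (ω : Ω) : 0 ≤ I.P.nXX k l ω :=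
  Finset.sum_nonneg fun i _ => sq_nonneg _

theorem skp_inc_XX_le_nX (I : SkpI Ω m) (k l : ℕ) (ω : Ω) : I.P.nXX k l ω ≤ 2 * I.P.nX l ω + 2 * I.P.nX k ω := by
  unfold L8P.nXX L8P.nX L8P.XX
  rw [Finset.mul_sum, Finset.mul_sum, ← Finset.sum_add_distrib]
  refine Finset.sum_le_sum fun i _ => ?_
  nlinarith [sq_nonneg (I.P.X l i ω + I.P.X k i ω)]

theorem skp_inc_XX_le_four (h : I.Ok S) (k l : ℕ) (ω : Ω) : I.P.nXX k l ω ≤ 4 := by
  have := skp_inc_XX_le_nX I k l ω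
  have := I.P.l8s_nX_le_one h.sp k ω
  have := I.P.l8s_nX_le_one h.sp l ω
  linarith

theorem skp_inc_XX_tri (I : SkpI Ω m) (l k k' : ℕ) (ω : Ω) :
    I.P.nXX k k' ω ≤ 2 * (∑ i, I.P.XX l k' i ω ^ 2) + 2 * ∑ i, I.P.XX l k i ω ^ 2 := by
  unfold L8P.nXX L8P.XX
  rw [Finset.mul_sum, Finset.mul_sum, ← Finset.sum_add_distrib]
  refine Finset.sum_le_sum fun i _ => ?_
  nlinarith [sq_nonneg ((I.P.X k' i ω - I.P.X l i ω) + (I.P.X k i ω - I.P.X l i ω))]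

theorem skp_inc_nX_nonneg (I : SkpI Ω m) (k : ℕ) (ω : Ω) : 0 ≤ I.P.nX k ω :=
  Finset.sum_nonneg fun i _ => sq_nonneg _

/-- the raw bound for an increment -/
theorem skp_inc_raw_bd (hS : S.Ok) (h : I.Ok S) {r : ℕ} (hr : 1 ≤ r) {Craw : ℝ} (hCraw : 1 ≤ Craw)
    (hraw : ∀ k ≤ I.nb, ∫ ω, I.P.nX k ω ^ r ∂I.P.μ ≤ (Craw * (skwR (I.z k) + I.d.zlo)) ^ r)
    {k k' : ℕ} (hkk : k ≤ k') (hk' : k' ≤ I.nb) (hzk : I.d.zlo ≤ I.z k) :
    skpN I.P.μ r (I.P.nXX k k') ≤ 8 * Craw * skwR (I.z k') := by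
  have hprob := h.sp.prob
  have hr' : (1 : ℝ) ≤ r := by exact_mod_cast hr
  have hr0 : (0 : ℝ) < r := by linarith
  have hzlo := h.wh.zlo0
  have hzz : I.z k ≤ I.z k' := (skp_inc_z_mono h) hkk
  have hR1 : I.d.zlo ≤ skwR (I.z k) := skp_inc_R_ge hzk (by linarith [skp_inc_zlo_le hS h])
  have hR2 : skwR (I.z k) ≤ skwR (I.z k') := skp_inc_R_mono hzz
  have hN : ∀ j ≤ I.nb, skpN I.P.μ r (I.P.nX j) ≤ Craw * (skwR (I.z j) + I.d.zlo) := fun j hj =>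
    skp_inc_N_le hr (skp_inc_nX_nonneg I j)
      (mul_nonneg (by linarith) (add_nonneg (le_min (skp_inc_z_nonneg h j) zero_le_one) hzlo.le)) (hraw j hj)
  have hb1 : MemLp (fun ω => 2 * I.P.nX k' ω) ⊤ I.P.μ := skp_inc_top ((I.P.l8s_W_bd_nX h.sp k').const_mul 2)
  have hb2 : MemLp (fun ω => 2 * I.P.nX k ω) ⊤ I.P.μ := skp_inc_top ((I.P.l8s_W_bd_nX h.sp k).const_mul 2)
  have h1 : skpN I.P.μ r (I.P.nXX k k') ≤ skpN I.P.μ r (fun ω => 2 * I.P.nX k' ω) + skpN I.P.μ r (fun ω => 2 * I.P.nX k ω) := by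
    refine skpn_le_add hr' hb1 hb2 (ae_of_all _ fun ω => ?_)
    rw [abs_of_nonneg (skp_inc_XX_nonneg I k k' ω), abs_of_nonneg (mul_nonneg zero_le_two (skp_inc_nX_nonneg I k' ω)),
      abs_of_nonneg (mul_nonneg zero_le_two (skp_inc_nX_nonneg I k ω))]
    exact skp_inc_XX_le_nX I k k' ω
  rw [skpn_const_mul hr0, skpn_const_mul hr0] at h1
  have a1 := hN k' hk'
  have a2 := hN k (hkk.trans hk')
  have e2 : |(2 : ℝ)| = 2 := abs_of_pos two_pos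
  rw [e2] at h1
  have b1 : Craw * (skwR (I.z k') + I.d.zlo) ≤ Craw * (2 * skwR (I.z k')) :=
    mul_le_mul_of_nonneg_left (by linarith) (by linarith)
  have b2 : Craw * (skwR (I.z k) + I.d.zlo) ≤ Craw * (2 * skwR (I.z k')) :=
    mul_le_mul_of_nonneg_left (by linarith) (by linarith)
  linarith

theorem skp_inc_IncB_mono (hS : S.Ok) (h : I.Ok S) {r : ℕ} {B B' : ℝ} (hB : 0 ≤ B) (hBB : B ≤ B') (hI : I.IncB r B) :
    I.IncB r B' := by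
  intro k k' hkk hk' hzk
  refine (hI k k' hkk hk' hzk).trans (pow_le_pow_left₀ ?_ ?_ r)
  · have hzz : I.z k ≤ I.z k' := (skp_inc_z_mono h) hkk
    have := skp_inc_hh_pos hS h (w := I.z k) ⟨by linarith [h.wh.zlo0], skp_inc_z_le h (hkk.trans hk')⟩
    have : 0 ≤ I.z k' - I.z k + I.hh (I.z k) := by linarith
    positivity
  · have hzz : I.z k ≤ I.z k' := (skp_inc_z_mono h) hkk
    have := skp_inc_hh_pos hS h (w := I.z k) ⟨by linarith [h.wh.zlo0], skp_inc_z_le h (hkk.trans hk')⟩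
    have h0 : 0 ≤ I.z k' - I.z k + I.hh (I.z k) := by linarith
    exact mul_le_mul_of_nonneg_right (mul_le_mul_of_nonneg_right hBB (by positivity)) h0

end P5

section P6

variable {Ω : Type} [mΩ : MeasurableSpace Ω] {m : ℕ} {S : SkpS} {I : SkpI Ω m}

theorem skp_inc_g0_le_one (hS : S.Ok) (h : I.Ok S) : I.g0 ≤ 1 :=
  h.g0b.trans (Real.rpow_le_one h.wh.x0.le (skp_inc_x_le_one h) hS.cg.le)

theorem skp_inc_K {c : ℝ} (hc : 1 ≤ c) : c ≤ 3 * c ^ 2 ∧ c + 1 ≤ 3 * c ^ 2 ∧ 1 + c ^ 2 + c ≤ 3 * c ^ 2 := by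
  have h1 : c ≤ c ^ 2 := le_self_pow₀ hc (by norm_num)
  have h2 : 1 ≤ c ^ 2 := one_le_pow₀ hc
  exact ⟨by linarith, by linarith, by linarith⟩

/-- from the two averaged bounds over a common past buffer to the increment -/
theorem skp_inc_comb (h : I.Ok S) {r : ℕ} (hr : 1 ≤ r) {s : Finset ℕ} {ρ : ℕ → ℝ} (hρ0 : ∀ l, 0 ≤ ρ l)
    (hρ1 : ∑ l ∈ s, ρ l = 1) {T : ℝ} (hT0 : 0 ≤ T) {k k' : ℕ}
    (B1 : ∫ ω, (∑ l ∈ s, ρ l * ∑ i, I.P.XX l k i ω ^ 2) ^ (2 * r) ∂I.P.μ ≤ T ^ (2 * r))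
    (B2 : ∫ ω, (∑ l ∈ s, ρ l * ∑ i, I.P.XX l k' i ω ^ 2) ^ (2 * r) ∂I.P.μ ≤ T ^ (2 * r)) :
    skpN I.P.μ r (I.P.nXX k k') ≤ 4 * T := by
  have hprob := h.sp.prob
  set U1 : Ω → ℝ := fun ω => ∑ l ∈ s, ρ l * ∑ i, I.P.XX l k i ω ^ 2 with hU1
  set U2 : Ω → ℝ := fun ω => ∑ l ∈ s, ρ l * ∑ i, I.P.XX l k' i ω ^ 2 with hU2
  have hU1nn : ∀ ω, 0 ≤ U1 ω := fun ω =>
    Finset.sum_nonneg fun l _ => mul_nonneg (hρ0 l) (Finset.sum_nonneg fun i _ => sq_nonneg _)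
  have hU2nn : ∀ ω, 0 ≤ U2 ω := fun ω =>
    Finset.sum_nonneg fun l _ => mul_nonneg (hρ0 l) (Finset.sum_nonneg fun i _ => sq_nonneg _)
  have hU1bd : L8Bd U1 := L8Bd.sum _ fun l _ => (skp_inc_XX_bd h l k).const_mul _
  have hU2bd : L8Bd U2 := L8Bd.sum _ fun l _ => (skp_inc_XX_bd h l k').const_mul _
  have h2r : 1 ≤ 2 * r := by omega
  have N1 : skpN I.P.μ ((2 * r : ℕ) : ℝ) U1 ≤ T := skp_inc_N_le h2r hU1nn hT0 B1
  have N2 : skpN I.P.μ ((2 * r : ℕ) : ℝ) U2 ≤ T := skp_inc_N_le h2r hU2nn hT0 B2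
  have hptw : ∀ ω, I.P.nXX k k' ω ≤ 2 * U2 ω + 2 * U1 ω := by
    intro ω
    have e : I.P.nXX k k' ω = ∑ l ∈ s, ρ l * I.P.nXX k k' ω := by
      rw [← Finset.sum_mul, hρ1, one_mul]
    rw [e, hU1, hU2]
    simp only
    rw [Finset.mul_sum, Finset.mul_sum, ← Finset.sum_add_distrib]
    refine Finset.sum_le_sum fun l _ => ?_
    have := mul_le_mul_of_nonneg_left (skp_inc_XX_tri I l k k' ω) (hρ0 l)
    linarith
  have hr0 : (0 : ℝ) < r := by exact_mod_cast hr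
  have hrr : (r : ℝ) ≤ ((2 * r : ℕ) : ℝ) := by exact_mod_cast (by omega : r ≤ 2 * r)
  have h2r' : (1 : ℝ) ≤ ((2 * r : ℕ) : ℝ) := by exact_mod_cast h2r
  have h2r0 : (0 : ℝ) < ((2 * r : ℕ) : ℝ) := by linarith
  have n1 : skpN I.P.μ r (I.P.nXX k k') ≤ skpN I.P.μ ((2 * r : ℕ) : ℝ) (I.P.nXX k k') :=
    skpn_exp_mono hr0 hrr (skp_inc_top (skp_inc_XX_bd h k k'))
  have n2 : skpN I.P.μ ((2 * r : ℕ) : ℝ) (I.P.nXX k k')
      ≤ skpN I.P.μ ((2 * r : ℕ) : ℝ) (fun ω => 2 * U2 ω) + skpN I.P.μ ((2 * r : ℕ) : ℝ) (fun ω => 2 * U1 ω) := by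
    refine skpn_le_add h2r' (skp_inc_top (hU2bd.const_mul 2)) (skp_inc_top (hU1bd.const_mul 2)) (ae_of_all _ fun ω => ?_)
    rw [abs_of_nonneg (skp_inc_XX_nonneg I k k' ω), abs_of_nonneg (mul_nonneg zero_le_two (hU2nn ω)),
      abs_of_nonneg (mul_nonneg zero_le_two (hU1nn ω))]
    exact hptw ω
  rw [skpn_const_mul h2r0, skpn_const_mul h2r0, abs_of_pos (two_pos : (0 : ℝ) < 2)] at n2
  linarith

/-- both cuts nontrivial: common past buffer, one future buffer for each cut -/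
theorem skp_inc_nn (hS : S.Ok) (h : I.Ok S) {r : ℕ} (hr : 1 ≤ r) {A : ℝ} (hA : 0 ≤ A) (hRW : I.RWB S r A)
    (hx : 4 * S.CW ^ 3 * I.d.x ≤ 1) (hb : 4 * S.Cz ^ 2 * I.d.b ≤ 1)
    {k k' : ℕ} (hkk : k ≤ k') (hk' : k' ≤ I.nb) (hzk : I.d.zlo ≤ I.z k)
    (hn : I.d.Z ^ 2 * I.hh (I.z k) < I.d.b * skwR (I.z k) / S.CW)
    (hn' : I.d.Z ^ 2 * I.hh (I.z k') < I.d.b * skwR (I.z k') / S.CW) :
    skpN I.P.μ r (I.P.nXX k k') ≤
      (64 * (2 * S.c.Lq * (3 * S.CW ^ 2) + 2 * S.CW ^ 2 * (1 + 3 * S.CW ^ 2)) / I.d.b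
        + 64 * S.CW * Real.sqrt (S.K.cA1 r * (4 * S.CW ^ 4 * A))) * (I.d.Z ^ 2 * (I.z k' - I.z k + I.hh (I.z k))) := by
  have hprob := h.sp.prob
  have hCW : 1 ≤ S.CW := hS.CW
  have hCW0 : 0 < S.CW := by linarith
  have hzlo := h.wh.zlo0
  have hZ := h.wh.Z1
  have hb0 := h.wh.b0
  have hsm := skp_inc_z_mono h
  have hzz : I.z k ≤ I.z k' := hsm hkk
  set w := I.z k with hwdef
  set w' := I.z k' with hwdef'
  have hw : w ∈ Icc I.d.zlo I.zbuf := ⟨hzk, skp_inc_z_le h (hkk.trans hk')⟩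
  have hw' : w' ∈ Icc I.d.zlo I.zbuf := ⟨hzk.trans hzz, skp_inc_z_le h hk'⟩
  have hw2 : w ∈ Icc (I.d.zlo / 2) I.zbuf := ⟨by linarith [hw.1], hw.2⟩
  have hw2' : w' ∈ Icc (I.d.zlo / 2) I.zbuf := ⟨by linarith [hw'.1], hw'.2⟩
  have hh0 := skp_inc_hh_pos hS h hw2
  have hh0' := skp_inc_hh_pos hS h hw2'
  set Λ := w' - w + I.hh w with hΛdef
  have hΛ : I.hh w ≤ Λ := by linarith
  have hΛ0 : 0 < Λ := lt_of_lt_of_le hh0 hΛ
  have hhw' : I.hh w' ≤ S.CW * Λ := by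
    have := h.wc.qlip w hw2 w' hw2'
    rw [abs_of_nonpos (by linarith : w - w' ≤ 0)] at this
    refine this.trans (le_of_eq ?_)
    rw [hΛdef]; ring
  have hhw : I.hh w ≤ S.CW * Λ := hΛ.trans (le_mul_of_one_le_left hΛ0.le hCW)
  obtain ⟨⟨a1, l1, ha1, hal1, win1⟩, ⟨a2, l2, ha2, hal2, win2⟩, -⟩ := h.wc.win w hw hn
  obtain ⟨-, ⟨a3, l3, ha3, hal3, win3⟩, -⟩ := h.wc.win w' hw' hn'
  have far := skp_inc_nontriv_far hS h hw hn hb
  obtain ⟨-, -, hsmall⟩ := skp_inc_nontriv hS h hw hn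
  have hRw := skp_inc_R_le w
  have hn1 := abs_le.1 win1.near
  have hn2 := abs_le.1 win2.near
  have hn3 := abs_le.1 win3.near
  have hza1 : I.d.zlo ≤ a1 := by
    have hb8 := h.wh.b1
    have : I.d.b * skwR w ≤ 1 / 8 * skwR w := mul_le_mul_of_nonneg_right hb8 (by linarith)
    linarith [hn1.1]
  obtain ⟨p1, p2, -, hp12, hp2, cp1, cp2, hM1, E1⟩ := skp_inc_winbd hS h hr hA hRW hx hw hn win1 hza1 (hal1.trans hw.2)
    (Nat.zero_le I.nb) (by rw [skp_inc_z_zero h]; linarith)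
  obtain ⟨q1, q2, hkq, hq12, hq2, cq1, cq2, hM2, E2⟩ := skp_inc_winbd hS h hr hA hRW hx hw hn win2 (hzk.trans ha2) hal2
    (hkk.trans hk') ha2
  obtain ⟨s1, s2, hks, hs12, hs2, cs1, cs2, hM3, E3⟩ := skp_inc_winbd hS h hr hA hRW hx hw' hn' win3 (hw'.1.trans ha3) hal3
    hk' ha3
  set M1 := ∑ k ∈ Finset.Ico p1 p2, I.P.dv k with hM1def
  set M2 := ∑ k ∈ Finset.Ico q1 q2, I.P.dv k with hM2def
  set M3 := ∑ k ∈ Finset.Ico s1 s2, I.P.dv k with hM3def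
  have hc1 : 1 ≤ S.K.cA1 r := hS.cA1 r
  have hg0 := h.g0c
  -- the centered error
  set ε := Real.sqrt (S.K.cA1 r * (4 * S.CW ^ 4 * A)) * (I.g0 * (S.CW * Λ) * I.d.Z) with hεdef
  have hε0 : 0 ≤ ε := by positivity
  have hE : ∀ h' : ℝ, 0 ≤ h' → h' ≤ S.CW * Λ →
      (S.K.cA1 r * (4 * S.CW ^ 4 * A * I.g0 ^ 2 * h' ^ 2 * I.d.Z ^ 2)) ^ r ≤ ε ^ (2 * r) := by
    intro h' h0 h1
    rw [pow_mul]
    refine pow_le_pow_left₀ (by positivity) ?_ r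
    rw [hεdef, mul_pow, Real.sq_sqrt (by positivity)]
    have : h' ^ 2 ≤ (S.CW * Λ) ^ 2 := pow_le_pow_left₀ h0 h1 2
    calc S.K.cA1 r * (4 * S.CW ^ 4 * A * I.g0 ^ 2 * h' ^ 2 * I.d.Z ^ 2)
        = S.K.cA1 r * (4 * S.CW ^ 4 * A) * I.g0 ^ 2 * I.d.Z ^ 2 * h' ^ 2 := by ring
      _ ≤ S.K.cA1 r * (4 * S.CW ^ 4 * A) * I.g0 ^ 2 * I.d.Z ^ 2 * (S.CW * Λ) ^ 2 :=
          mul_le_mul_of_nonneg_left this (by positivity)
      _ = _ := by ring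
  -- the variation of the means
  set K := 3 * S.CW ^ 2 with hKdef
  have hK0 : 0 ≤ K := by positivity
  set η := (2 * S.c.Lq * K + 2 * S.CW ^ 2 * (1 + K)) / I.d.b * (I.d.Z ^ 2 * Λ) with hηdef
  have hLq : 1 ≤ S.c.Lq := hS.c.Lq
  have hη0 : 0 ≤ η := by positivity
  have hvar : ∀ j < I.nb, I.P.dv j ≠ 0 → I.d.zlo / 2 ≤ I.z j → |w - I.z j| ≤ K * Λ → |I.P.S j - I.d.S w| ≤ η := by
    intro j hj hne hj1 hj2
    rw [skp_inc_S_link h hj.le (skp_inc_dv_ne h hj hne)]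
    exact skp_inc_var hS h hw2 hw2 ⟨hj1, skp_inc_z_le h hj.le⟩ hΛ hK0 (by rw [sub_self, abs_zero]; positivity) hj2
  have hne : ∀ (M : ℝ) (j : ℕ), I.P.dv j / M ≠ 0 → I.P.dv j ≠ 0 := by
    intro M j h1 h2
    exact h1 (by rw [h2, zero_div])
  obtain ⟨hK1, hK2, hK3⟩ := skp_inc_K hCW
  have hcell : ∀ (u1 u2 : ℕ) (a l : ℝ), a ≤ I.z u1 → I.z u2 ≤ a + l → ∀ j ∈ Finset.Ico u1 u2, a ≤ I.z j ∧ I.z j ≤ a + l := by
    intro u1 u2 a l h1 h2 j hj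
    obtain ⟨j1, j2⟩ := Finset.mem_Ico.1 hj
    exact ⟨h1.trans (hsm j1), (hsm j2.le).trans h2⟩
  have hS1 : ∀ j ∈ Finset.Ico p1 p2, I.P.dv j / M1 ≠ 0 → |I.P.S j - I.d.S w| ≤ η := by
    intro j hj hj0
    obtain ⟨j1, j2⟩ := hcell p1 p2 a1 l1 cp1 cp2.le j hj
    refine hvar j (by have := (Finset.mem_Ico.1 hj).2; omega) (hne _ _ hj0) (by linarith) ?_
    rw [abs_of_nonneg (by linarith)]
    have : S.CW * I.hh w ≤ K * Λ := by
      calc S.CW * I.hh w ≤ S.CW * Λ := mul_le_mul_of_nonneg_left hΛ hCW0.le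
        _ ≤ K * Λ := mul_le_mul_of_nonneg_right hK1 hΛ0.le
    linarith [hn1.1]
  have hS2 : ∀ j ∈ Finset.Ico q1 q2, I.P.dv j / M2 ≠ 0 → |I.P.S j - I.d.S w| ≤ η := by
    intro j hj hj0
    obtain ⟨j1, j2⟩ := hcell q1 q2 a2 l2 cq1 cq2.le j hj
    refine hvar j (by have := (Finset.mem_Ico.1 hj).2; omega) (hne _ _ hj0) (by linarith) ?_
    rw [abs_of_nonpos (by linarith)]
    have h1 := win2.len_hi
    have : S.CW * I.hh w + I.hh w ≤ K * Λ := by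
      calc S.CW * I.hh w + I.hh w ≤ S.CW * Λ + Λ := by
            have := mul_le_mul_of_nonneg_left hΛ hCW0.le
            linarith
        _ = (S.CW + 1) * Λ := by ring
        _ ≤ K * Λ := mul_le_mul_of_nonneg_right hK2 hΛ0.le
    linarith [hn2.2]
  have hS3 : ∀ j ∈ Finset.Ico s1 s2, I.P.dv j / M3 ≠ 0 → |I.P.S j - I.d.S w| ≤ η := by
    intro j hj hj0
    obtain ⟨j1, j2⟩ := hcell s1 s2 a3 l3 cs1 cs2.le j hj
    refine hvar j (by have := (Finset.mem_Ico.1 hj).2; omega) (hne _ _ hj0) (by linarith [hw'.1]) ?_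
    rw [abs_of_nonpos (by linarith)]
    have h1 := win3.len_hi
    have h2 : S.CW * I.hh w' ≤ S.CW * (S.CW * Λ) := mul_le_mul_of_nonneg_left hhw' hCW0.le
    have h3 : w' - w ≤ Λ := by linarith
    have : Λ + S.CW * (S.CW * Λ) + S.CW * Λ ≤ K * Λ := by
      calc Λ + S.CW * (S.CW * Λ) + S.CW * Λ = (1 + S.CW ^ 2 + S.CW) * Λ := by ring
        _ ≤ K * Λ := mul_le_mul_of_nonneg_right hK3 hΛ0.le
    linarith [hn3.2]
  -- order of the cells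
  have hle1 : ∀ j ∈ Finset.Ico p1 p2, j ≤ k := by
    intro j hj
    have h1 : p2 < k := skp_inc_lt_of_z h (lt_of_lt_of_le cp2 hal1)
    have := (Finset.mem_Ico.1 hj).2
    omega
  have hle2 : ∀ j ∈ Finset.Ico q1 q2, k ≤ j := fun j hj => hkq.trans (Finset.mem_Ico.1 hj).1
  have hle3 : ∀ j ∈ Finset.Ico s1 s2, k' ≤ j := fun j hj => hks.trans (Finset.mem_Ico.1 hj).1
  have hρ0 : ∀ M : ℝ, 0 < M → ∀ l, 0 ≤ I.P.dv l / M := fun M hM l => div_nonneg (skp_inc_dv_nonneg h l) hM.le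
  have hρ1 : ∑ l ∈ Finset.Ico p1 p2, I.P.dv l / M1 = 1 := by rw [← Finset.sum_div]; exact div_self hM1.ne'
  have hρ2 : ∑ l ∈ Finset.Ico q1 q2, I.P.dv l / M2 = 1 := by rw [← Finset.sum_div]; exact div_self hM2.ne'
  have hρ3 : ∑ l ∈ Finset.Ico s1 s2, I.P.dv l / M3 = 1 := by rw [← Finset.sum_div]; exact div_self hM3.ne'
  have B1 := (I.P.l8s_buffer h.sp r hr k (Finset.Ico p1 p2) (Finset.Ico q1 q2) (fun l => I.P.dv l / M1)
    (fun l => I.P.dv l / M2) (I.d.S w) η ε hle1 hle2 (hρ0 M1 hM1) (hρ0 M2 hM2) hρ1 hρ2 hη0 hε0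
    hS1 hS2 (E1.trans (hE _ hh0.le hhw)) (E2.trans (hE _ hh0.le hhw))).2
  have B2 := (I.P.l8s_buffer h.sp r hr k' (Finset.Ico p1 p2) (Finset.Ico s1 s2) (fun l => I.P.dv l / M1)
    (fun l => I.P.dv l / M3) (I.d.S w) η ε (fun l hl => (hle1 l hl).trans hkk) hle3 (hρ0 M1 hM1) (hρ0 M3 hM3) hρ1 hρ3 hη0 hε0
    hS1 hS3 (E1.trans (hE _ hh0.le hhw)) (E3.trans (hE _ hh0'.le hhw'))).2
  have n3 : skpN I.P.μ r (I.P.nXX k k') ≤ 64 * (η + ε) := by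
    have := skp_inc_comb h hr (hρ0 M1 hM1) hρ1 (by positivity : 0 ≤ 16 * (η + ε)) B1 B2
    linarith
  refine n3.trans ?_
  have hZ2 : I.d.Z ≤ I.d.Z ^ 2 := le_self_pow₀ hZ (by norm_num)
  have hg1 := skp_inc_g0_le_one hS h
  have hεle : ε ≤ S.CW * Real.sqrt (S.K.cA1 r * (4 * S.CW ^ 4 * A)) * (I.d.Z ^ 2 * Λ) := by
    rw [hεdef]
    have hs0 := Real.sqrt_nonneg (S.K.cA1 r * (4 * S.CW ^ 4 * A))
    have h1 : I.g0 * (S.CW * Λ) * I.d.Z ≤ 1 * (S.CW * Λ) * I.d.Z ^ 2 := by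
      refine mul_le_mul (mul_le_mul_of_nonneg_right hg1 (by positivity)) hZ2 (by linarith) (by positivity)
    calc Real.sqrt (S.K.cA1 r * (4 * S.CW ^ 4 * A)) * (I.g0 * (S.CW * Λ) * I.d.Z)
        ≤ Real.sqrt (S.K.cA1 r * (4 * S.CW ^ 4 * A)) * (1 * (S.CW * Λ) * I.d.Z ^ 2) := mul_le_mul_of_nonneg_left h1 hs0
      _ = _ := by ring
  calc 64 * (η + ε) ≤ 64 * (η + S.CW * Real.sqrt (S.K.cA1 r * (4 * S.CW ^ 4 * A)) * (I.d.Z ^ 2 * Λ)) := by linarith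
    _ = _ := by rw [hηdef]; ring

end P6

section P7

variable {Ω : Type} [mΩ : MeasurableSpace Ω] {m : ℕ} {S : SkpS} {I : SkpI Ω m}

/-- the first constant of the bootstrap -/
noncomputable def skpIncK1 (S : SkpS) (Craw : ℝ) : ℝ :=
  64 * (2 * S.c.Lq * (3 * S.CW ^ 2) + 2 * S.CW ^ 2 * (1 + 3 * S.CW ^ 2)) + 8 * Craw * S.CW ^ 2

/-- **the bootstrap step** -/
theorem skp_inc_step (hS : S.Ok) (h : I.Ok S) {r : ℕ} (hr : 1 ≤ r) {A Craw : ℝ} (hA : 0 ≤ A) (hRW : I.RWB S r A)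
    (hCraw : 1 ≤ Craw) (hraw : ∀ k ≤ I.nb, ∫ ω, I.P.nX k ω ^ r ∂I.P.μ ≤ (Craw * (skwR (I.z k) + I.d.zlo)) ^ r)
    (hx : 4 * S.CW ^ 3 * I.d.x ≤ 1) (hb : 4 * S.Cz ^ 2 * I.d.b ≤ 1) :
    I.IncB r (skpIncK1 S Craw / I.d.b + 64 * S.CW * Real.sqrt (S.K.cA1 r * (4 * S.CW ^ 4 * A))) := by
  intro k k' hkk hk' hzk
  refine skp_inc_of_N_le hr (skp_inc_XX_nonneg I k k') ?_
  have hCW : 1 ≤ S.CW := hS.CW
  have hCW0 : 0 < S.CW := by linarith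
  have hLq : 1 ≤ S.c.Lq := hS.c.Lq
  have hzlo := h.wh.zlo0
  have hZ := h.wh.Z1
  have hZ2 : 1 ≤ I.d.Z ^ 2 := one_le_pow₀ hZ
  have hb0 := h.wh.b0
  have hb1 : I.d.b ≤ 1 := by linarith [h.wh.b1]
  have hzz : I.z k ≤ I.z k' := (skp_inc_z_mono h) hkk
  have hw2 : I.z k ∈ Icc (I.d.zlo / 2) I.zbuf := ⟨by linarith, skp_inc_z_le h (hkk.trans hk')⟩
  have hw2' : I.z k' ∈ Icc (I.d.zlo / 2) I.zbuf := ⟨by linarith, skp_inc_z_le h hk'⟩
  have hh0 := skp_inc_hh_pos hS h hw2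
  set Λ := I.z k' - I.z k + I.hh (I.z k) with hΛdef
  have hΛ0 : 0 < Λ := by linarith
  have hs0 := Real.sqrt_nonneg (S.K.cA1 r * (4 * S.CW ^ 4 * A))
  have hX0 : 0 ≤ I.d.Z ^ 2 * Λ := by positivity
  have hrawbd := skp_inc_raw_bd hS h hr hCraw hraw hkk hk' hzk
  -- the raw bound suffices as soon as `r(z_k') ≤ CW² Z² Λ / b`
  have hfin : skwR (I.z k') ≤ S.CW ^ 2 / I.d.b * (I.d.Z ^ 2 * Λ) →
      skpN I.P.μ r (I.P.nXX k k') ≤
        (skpIncK1 S Craw / I.d.b + 64 * S.CW * Real.sqrt (S.K.cA1 r * (4 * S.CW ^ 4 * A))) * I.d.Z ^ 2 * Λ := by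
    intro hR
    refine hrawbd.trans ?_
    have h1 : 8 * Craw * skwR (I.z k') ≤ 8 * Craw * (S.CW ^ 2 / I.d.b * (I.d.Z ^ 2 * Λ)) :=
      mul_le_mul_of_nonneg_left hR (by linarith)
    refine h1.trans ?_
    have h2 : 0 ≤ 64 * (2 * S.c.Lq * (3 * S.CW ^ 2) + 2 * S.CW ^ 2 * (1 + 3 * S.CW ^ 2)) / I.d.b * (I.d.Z ^ 2 * Λ) := by
      positivity
    have h3 : 0 ≤ 64 * S.CW * Real.sqrt (S.K.cA1 r * (4 * S.CW ^ 4 * A)) * (I.d.Z ^ 2 * Λ) := by positivity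
    have e : (skpIncK1 S Craw / I.d.b + 64 * S.CW * Real.sqrt (S.K.cA1 r * (4 * S.CW ^ 4 * A))) * I.d.Z ^ 2 * Λ
        = 64 * (2 * S.c.Lq * (3 * S.CW ^ 2) + 2 * S.CW ^ 2 * (1 + 3 * S.CW ^ 2)) / I.d.b * (I.d.Z ^ 2 * Λ)
          + 8 * Craw * (S.CW ^ 2 / I.d.b * (I.d.Z ^ 2 * Λ))
          + 64 * S.CW * Real.sqrt (S.K.cA1 r * (4 * S.CW ^ 4 * A)) * (I.d.Z ^ 2 * Λ) := by
      unfold skpIncK1; ring
    rw [e]
    linarith
  by_cases hn : I.d.Z ^ 2 * I.hh (I.z k) < I.d.b * skwR (I.z k) / S.CW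
  · by_cases hn' : I.d.Z ^ 2 * I.hh (I.z k') < I.d.b * skwR (I.z k') / S.CW
    · refine (skp_inc_nn hS h hr hA hRW hx hb hkk hk' hzk hn hn').trans ?_
      have h2 : 0 ≤ 8 * Craw * (S.CW ^ 2 / I.d.b * (I.d.Z ^ 2 * Λ)) := by positivity
      have e : (skpIncK1 S Craw / I.d.b + 64 * S.CW * Real.sqrt (S.K.cA1 r * (4 * S.CW ^ 4 * A))) * I.d.Z ^ 2 * Λ
          = (64 * (2 * S.c.Lq * (3 * S.CW ^ 2) + 2 * S.CW ^ 2 * (1 + 3 * S.CW ^ 2)) / I.d.b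
              + 64 * S.CW * Real.sqrt (S.K.cA1 r * (4 * S.CW ^ 4 * A))) * (I.d.Z ^ 2 * Λ)
            + 8 * Craw * (S.CW ^ 2 / I.d.b * (I.d.Z ^ 2 * Λ)) := by
        unfold skpIncK1; ring
      rw [e]
      linarith
    · -- the later cut is trivial
      refine hfin ?_
      have h1 : I.d.b * skwR (I.z k') / S.CW ≤ I.d.Z ^ 2 * I.hh (I.z k') := not_lt.1 hn'
      have h2 : I.hh (I.z k') ≤ S.CW * Λ := by
        have := h.wc.qlip (I.z k) hw2 (I.z k') hw2'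
        rw [abs_of_nonpos (by linarith : I.z k - I.z k' ≤ 0)] at this
        refine this.trans (le_of_eq ?_)
        rw [hΛdef]; ring
      have h3 : I.d.b * skwR (I.z k') / S.CW ≤ I.d.Z ^ 2 * (S.CW * Λ) :=
        h1.trans (mul_le_mul_of_nonneg_left h2 (by positivity))
      rw [div_le_iff₀ hCW0] at h3
      rw [div_mul_eq_mul_div, le_div_iff₀ hb0]
      linarith
  · -- the earlier cut is trivial
    refine hfin ?_
    have h1 : I.d.b * skwR (I.z k) / S.CW ≤ I.d.Z ^ 2 * I.hh (I.z k) := not_lt.1 hn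
    rw [div_le_iff₀ hCW0] at h1
    have h2 := skp_inc_R_lip hzz
    rw [div_mul_eq_mul_div, le_div_iff₀ hb0]
    have h3 : skwR (I.z k') * I.d.b ≤ skwR (I.z k) * I.d.b + (I.z k' - I.z k) * I.d.b := by
      have := mul_le_mul_of_nonneg_right h2 hb0.le
      linarith
    have hCW2 : S.CW ≤ S.CW ^ 2 := le_self_pow₀ hCW (by norm_num)
    have hCW21 : 1 ≤ S.CW ^ 2 := one_le_pow₀ hCW
    have hΔ : 0 ≤ I.z k' - I.z k := by linarith
    have h4 : (I.z k' - I.z k) * I.d.b ≤ S.CW ^ 2 * (I.d.Z ^ 2 * (I.z k' - I.z k)) := by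
      have a1 : (I.z k' - I.z k) * I.d.b ≤ (I.z k' - I.z k) * 1 := mul_le_mul_of_nonneg_left hb1 hΔ
      have a2 : 1 * (1 * (I.z k' - I.z k)) ≤ S.CW ^ 2 * (I.d.Z ^ 2 * (I.z k' - I.z k)) :=
        mul_le_mul hCW21 (mul_le_mul_of_nonneg_right hZ2 hΔ) (by positivity) (by positivity)
      linarith
    have h5 : I.d.Z ^ 2 * I.hh (I.z k) * S.CW ≤ S.CW ^ 2 * (I.d.Z ^ 2 * I.hh (I.z k)) := by
      have := mul_le_mul_of_nonneg_right hCW2 (by positivity : 0 ≤ I.d.Z ^ 2 * I.hh (I.z k))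
      linarith
    have e : S.CW ^ 2 * (I.d.Z ^ 2 * Λ) = S.CW ^ 2 * (I.d.Z ^ 2 * (I.z k' - I.z k)) + S.CW ^ 2 * (I.d.Z ^ 2 * I.hh (I.z k)) := by
      rw [hΛdef]; ring
    rw [e]
    linarith

/-- the trivial bound -/
theorem skp_inc_triv (h : I.Ok S) {r : ℕ} (hr : 1 ≤ r) (k k' : ℕ) {c : ℝ} (hc : 4 ≤ c) :
    ∫ ω, I.P.nXX k k' ω ^ r ∂I.P.μ ≤ c ^ r := by
  have hprob := h.sp.prob
  refine skp_inc_of_N_le hr (skp_inc_XX_nonneg I k k') ?_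
  refine (skpn_le_of_bound (by exact_mod_cast hr) (ae_of_all _ fun ω => ?_)).trans hc
  rw [abs_of_nonneg (skp_inc_XX_nonneg I k k' ω)]
  exact skp_inc_XX_le_four h k k' ω

/-- a lower bound of the width on `[zlo, zbuf]` -/
theorem skp_inc_hh_ge (hS : S.Ok) (h : I.Ok S) {w : ℝ} (hw : w ∈ Icc I.d.zlo I.zbuf) :
    min (I.d.b * I.d.zlo) (I.d.U ^ 2) / S.CW ≤ I.hh w := by
  have hCW0 : 0 < S.CW := by linarith [hS.CW]
  have hzlo := h.wh.zlo0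
  have hR : I.d.zlo ≤ skwR w := skp_inc_R_ge hw.1 (by linarith [skp_inc_zlo_le hS h])
  have hR0 : 0 < skwR w := lt_of_lt_of_le hzlo hR
  refine le_trans ?_ (h.wc.lower w ⟨by linarith [hw.1], hw.2⟩)
  refine div_le_div_of_nonneg_right (min_le_min (mul_le_mul_of_nonneg_left hR h.wh.b0.le) ?_) hCW0.le
  rw [le_div_iff₀ hR0]
  have : I.d.U ^ 2 * skwR w ≤ I.d.U ^ 2 * 1 := mul_le_mul_of_nonneg_left (skp_inc_R_le_one w) (by positivity)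
  linarith

/-- the least constant -/
theorem skp_inc_least (hS : S.Ok) (h : I.Ok S) {r : ℕ} (hr : 1 ≤ r) :
    ∃ B : ℝ, 1 ≤ B ∧ I.IncB r B ∧ ∀ B', 1 ≤ B' → I.IncB r B' → B ≤ B' := by
  set T : Set ℝ := {B | 1 ≤ B ∧ I.IncB r B} with hT
  have hU : 0 < I.d.U := lt_of_lt_of_le h.wh.x0 h.wh.xU
  have hCW0 : 0 < S.CW := by linarith [hS.CW]
  have hZ2 : 1 ≤ I.d.Z ^ 2 := one_le_pow₀ h.wh.Z1
  have hne : T.Nonempty := by
    set hm := min (I.d.b * I.d.zlo) (I.d.U ^ 2) / S.CW with hhm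
    have hm0 : 0 < hm := div_pos (lt_min (mul_pos h.wh.b0 h.wh.zlo0) (by positivity)) hCW0
    refine ⟨max 1 (4 / hm), le_max_left _ _, fun k k' hkk hk' hzk => ?_⟩
    refine skp_inc_triv h hr k k' ?_
    have hzz : I.z k ≤ I.z k' := (skp_inc_z_mono h) hkk
    have h1 := skp_inc_hh_ge hS h (w := I.z k) ⟨hzk, skp_inc_z_le h (hkk.trans hk')⟩
    have h2 : hm ≤ I.z k' - I.z k + I.hh (I.z k) := by linarith
    have h3 : 4 / hm ≤ max 1 (4 / hm) * I.d.Z ^ 2 := by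
      calc 4 / hm ≤ max 1 (4 / hm) := le_max_right _ _
        _ ≤ max 1 (4 / hm) * I.d.Z ^ 2 := le_mul_of_one_le_right (by positivity) hZ2
    calc (4 : ℝ) = 4 / hm * hm := by field_simp
      _ ≤ max 1 (4 / hm) * I.d.Z ^ 2 * (I.z k' - I.z k + I.hh (I.z k)) :=
          mul_le_mul h3 h2 hm0.le (by positivity)
  have hbd : BddBelow T := ⟨1, fun B hB => hB.1⟩
  have hcl : IsClosed T := by
    have e : T = Ici 1 ∩ ⋂ (k : ℕ), ⋂ (k' : ℕ), {B : ℝ | k ≤ k' → k' ≤ I.nb → I.d.zlo ≤ I.z k →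
        ∫ ω, I.P.nXX k k' ω ^ r ∂I.P.μ ≤ (B * I.d.Z ^ 2 * (I.z k' - I.z k + I.hh (I.z k))) ^ r} := by
      ext B
      simp only [hT, SkpI.IncB, mem_setOf_eq, mem_inter_iff, mem_Ici, mem_iInter]
    rw [e]
    refine isClosed_Ici.inter (isClosed_iInter fun k => isClosed_iInter fun k' => ?_)
    by_cases hc : k ≤ k' ∧ k' ≤ I.nb ∧ I.d.zlo ≤ I.z k
    · have e2 : {B : ℝ | k ≤ k' → k' ≤ I.nb → I.d.zlo ≤ I.z k →
          ∫ ω, I.P.nXX k k' ω ^ r ∂I.P.μ ≤ (B * I.d.Z ^ 2 * (I.z k' - I.z k + I.hh (I.z k))) ^ r}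
          = {B : ℝ | ∫ ω, I.P.nXX k k' ω ^ r ∂I.P.μ ≤ (B * I.d.Z ^ 2 * (I.z k' - I.z k + I.hh (I.z k))) ^ r} := by
        ext B
        simp only [mem_setOf_eq]
        exact ⟨fun hh => hh hc.1 hc.2.1 hc.2.2, fun hh _ _ _ => hh⟩
      rw [e2]
      exact isClosed_le continuous_const (by fun_prop)
    · have e2 : {B : ℝ | k ≤ k' → k' ≤ I.nb → I.d.zlo ≤ I.z k →
          ∫ ω, I.P.nXX k k' ω ^ r ∂I.P.μ ≤ (B * I.d.Z ^ 2 * (I.z k' - I.z k + I.hh (I.z k))) ^ r} = univ := by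
        ext B
        simp only [mem_setOf_eq, mem_univ, iff_true]
        exact fun h1 h2 h3 => absurd ⟨h1, h2, h3⟩ hc
      rw [e2]
      exact isClosed_univ
  have hmem := hcl.csInf_mem hne hbd
  exact ⟨sInf T, hmem.1, hmem.2, fun B' h1 h2 => csInf_le hbd ⟨h1, h2⟩⟩

theorem skp_inc_quad {B P Q : ℝ} (hB : 0 ≤ B) (h : B ≤ P + Q * Real.sqrt B) : B ≤ 2 * P + Q ^ 2 := by
  have e := Real.sq_sqrt hB
  nlinarith [sq_nonneg (Q - Real.sqrt B)]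

end P7

/-- **Leaf RW with the hypothesis `x ≤ b`** (remark of helper145: without it the statement is out of reach for tiny `b`) -/
def SkpLeafRWb : Prop :=
  ∀ S : SkpS, S.Ok → ∀ (r : ℕ) (ε : ℝ), 1 ≤ r → 0 < ε → ∃ C : ℝ, 1 ≤ C ∧
    ∀ (Ω : Type) [mΩ : MeasurableSpace Ω] (m : ℕ) (I : SkpI Ω m), I.Ok S → SkwSmall C I.d → I.d.x ≤ I.d.b →
    ∀ B : ℝ, 1 ≤ B → I.IncB r B → ∀ z₀ ∈ Icc I.d.zlo I.zbuf, I.d.Z ^ 2 * I.hh z₀ < I.d.b * skwR z₀ / S.CW →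
    ∀ k₁ k₂, k₁ ≤ k₂ → I.d.zlo ≤ I.z k₁ → |I.z k₁ - z₀| ≤ 2 * S.CW * I.hh z₀ → I.z k₂ - I.z k₁ ≤ I.hh z₀ →
    ∫ ω, (∑ k ∈ Finset.Ico k₁ k₂, I.dz k * I.P.W k ω) ^ r ∂I.P.μ ≤
      (C * I.d.x ^ (-ε) * (I.d.x ^ 6 / (I.lam1 * skwR z₀ ^ 3)) * I.hh z₀ * B * I.d.Z ^ 2) ^ r

theorem skp_rwb_of_rw (h : SkpLeafRW) : SkpLeafRWb := by
  intro S hS r ε hr hε
  obtain ⟨C, hC, H⟩ := h S hS r ε hr hε
  exact ⟨C, hC, fun Ω _ m I hI hs _ => H Ω m I hI hs⟩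

theorem skp_inc_small {C C' : ℝ} (hC' : 0 < C') (hCC : C' ≤ C) {d : SkwD} (h : SkwSmall C d) : SkwSmall C' d :=
  ⟨h.b.trans (one_div_le_one_div_of_le hC' hCC), h.U.trans (one_div_le_one_div_of_le hC' hCC),
    h.x.trans (one_div_le_one_div_of_le hC' hCC)⟩

theorem skp_inc_mul_le_one {C c t : ℝ} (hC : 0 < C) (hc : c ≤ C) (ht0 : 0 ≤ t) (ht : t ≤ 1 / C) : c * t ≤ 1 := by
  rw [le_div_iff₀ hC] at ht
  have := mul_le_mul_of_nonneg_right hc ht0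
  linarith

/-- **EXIT INC** from RAW and RW.   TEX[LL:prop:statistics-pointwise] l.518-612 (refined-moment bootstrap) -/
theorem skp_inc_of (hraw : SkpRaw) (hrw : SkpLeafRWb) : SkpInc := by
  intro S hS r ε hr hε
  obtain ⟨Craw, hCraw, Hraw⟩ := hraw S hS r hr
  obtain ⟨CR, hCR, HRW⟩ := hrw S hS r ε hr hε
  have hCW : 1 ≤ S.CW := hS.CW
  have hCW0 : 0 < S.CW := by linarith
  have hCz : 1 ≤ S.Cz := hS.Cz
  have hLq : 1 ≤ S.c.Lq := hS.c.Lq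
  have hc1 : 1 ≤ S.K.cA1 r := hS.cA1 r
  set K1 := skpIncK1 S Craw with hK1
  have hK1pos : 1 ≤ K1 := by
    rw [hK1]; unfold skpIncK1
    have h1 : 1 ≤ S.CW ^ 2 := one_le_pow₀ hCW
    have h2 : 0 ≤ 64 * (2 * S.c.Lq * (3 * S.CW ^ 2) + 2 * S.CW ^ 2 * (1 + 3 * S.CW ^ 2)) := by positivity
    have h3 : 1 * 1 ≤ Craw * S.CW ^ 2 := mul_le_mul hCraw h1 zero_le_one (by linarith)
    linarith
  set K2 := 64 * S.CW * Real.sqrt (S.K.cA1 r * (4 * S.CW ^ 4 * CR)) with hK2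
  have hK20 : 0 ≤ K2 := by positivity
  set C := Craw + CR + 4 * S.CW ^ 3 + 4 * S.Cz ^ 2 + 4 * S.CW + (2 * K1 + K2 ^ 2) with hC
  have t1 : 0 ≤ 4 * S.CW ^ 3 := by positivity
  have t2 : 0 ≤ 4 * S.Cz ^ 2 := by positivity
  have t3 : 0 ≤ K2 ^ 2 := by positivity
  have hC1 : 1 ≤ C := by rw [hC]; linarith
  have hC0 : 0 < C := by linarith
  refine ⟨C, hC1, fun Ω _ m I h hsm => ?_⟩
  have hx0 := h.wh.x0
  have hx1 := skp_inc_x_le_one h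
  have hb0 := h.wh.b0
  have hb1 : I.d.b ≤ 1 := by linarith [h.wh.b1]
  have hZ2 : 1 ≤ I.d.Z ^ 2 := one_le_pow₀ h.wh.Z1
  have hxe : 1 ≤ I.d.x ^ (-ε) := Real.one_le_rpow_of_pos_of_le_one_of_nonpos hx0 hx1 (by linarith)
  by_cases hbx : I.d.x ≤ I.d.b
  · obtain ⟨B, hB1, hBI, hBmin⟩ := skp_inc_least hS h hr
    have hRWB : I.RWB S r (CR * I.d.x ^ (-ε) * B) := by
      intro z0 hz0 hn k1 k2 h12 h1 h2 h3
      have := HRW Ω m I h (skp_inc_small (by linarith) (by rw [hC]; linarith) hsm) hbx B hB1 hBI z0 hz0 hn k1 k2 h12 h1 h2 h3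
      refine this.trans (le_of_eq ?_)
      congr 1
      ring
    have hA0 : 0 ≤ CR * I.d.x ^ (-ε) * B := by positivity
    have hstep := skp_inc_step hS h hr hA0 hRWB hCraw
      (fun k hk => (Hraw Ω m I h (hsm.x.trans (one_div_le_one_div_of_le (by linarith) (by rw [hC]; linarith))) k hk).1)
      (skp_inc_mul_le_one hC0 (by rw [hC]; linarith) hx0.le hsm.x)
      (skp_inc_mul_le_one hC0 (by rw [hC]; linarith) hb0.le hsm.b)
    have hK1b : 1 ≤ K1 / I.d.b := by rw [le_div_iff₀ hb0]; linarith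
    have hle := hBmin _ (by
      have : 0 ≤ 64 * S.CW * Real.sqrt (S.K.cA1 r * (4 * S.CW ^ 4 * (CR * I.d.x ^ (-ε) * B))) := by positivity
      linarith) hstep
    have es : Real.sqrt (S.K.cA1 r * (4 * S.CW ^ 4 * (CR * I.d.x ^ (-ε) * B)))
        = Real.sqrt (S.K.cA1 r * (4 * S.CW ^ 4 * CR)) * Real.sqrt (I.d.x ^ (-ε)) * Real.sqrt B := by
      rw [← Real.sqrt_mul (by positivity), ← Real.sqrt_mul (by positivity)]
      congr 1
      ring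
    rw [es] at hle
    have hle' : B ≤ K1 / I.d.b + (K2 * Real.sqrt (I.d.x ^ (-ε))) * Real.sqrt B := by
      refine hle.trans (le_of_eq ?_)
      rw [hK2]; ring
    have hq := skp_inc_quad (by linarith) hle'
    rw [mul_pow, Real.sq_sqrt (by linarith)] at hq
    refine skp_inc_IncB_mono hS h (by linarith) (hq.trans ?_) hBI
    -- 2 K1 / b + K2² x^(-ε) ≤ C x^(-ε) / b²
    have hb2 : I.d.b ^ 2 ≤ I.d.b := by nlinarith
    have hb21 : I.d.b ^ 2 ≤ 1 := by nlinarith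
    rw [le_div_iff₀ (by positivity)]
    have a1 : 2 * (K1 / I.d.b) * I.d.b ^ 2 = 2 * K1 * I.d.b := by field_simp
    have a2 : 2 * K1 * I.d.b ≤ 2 * K1 * I.d.x ^ (-ε) := by
      refine mul_le_mul_of_nonneg_left (by linarith) (by linarith)
    have a3 : K2 ^ 2 * I.d.x ^ (-ε) * I.d.b ^ 2 ≤ K2 ^ 2 * I.d.x ^ (-ε) * 1 :=
      mul_le_mul_of_nonneg_left hb21 (by positivity)
    have a4 : (2 * K1 + K2 ^ 2) * I.d.x ^ (-ε) ≤ C * I.d.x ^ (-ε) :=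
      mul_le_mul_of_nonneg_right (by rw [hC]; linarith) (by linarith)
    calc (2 * (K1 / I.d.b) + K2 ^ 2 * I.d.x ^ (-ε)) * I.d.b ^ 2
        = 2 * (K1 / I.d.b) * I.d.b ^ 2 + K2 ^ 2 * I.d.x ^ (-ε) * I.d.b ^ 2 := by ring
      _ ≤ C * I.d.x ^ (-ε) := by rw [a1]; linarith
  · -- `b < x`: the right side is at least `4`
    have hbx' : I.d.b < I.d.x := not_le.1 hbx
    intro k k' hkk hk' hzk
    refine skp_inc_triv h hr k k' ?_
    have hzz : I.z k ≤ I.z k' := (skp_inc_z_mono h) hkk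
    have h1 := skp_inc_hh_ge hS h (w := I.z k) ⟨hzk, skp_inc_z_le h (hkk.trans hk')⟩
    have h2 : I.d.b ^ 2 ≤ min (I.d.b * I.d.zlo) (I.d.U ^ 2) := by
      refine le_min ?_ ?_
      · have : I.d.b ≤ I.d.zlo := hbx'.le.trans h.zlox
        calc I.d.b ^ 2 = I.d.b * I.d.b := by ring
          _ ≤ I.d.b * I.d.zlo := mul_le_mul_of_nonneg_left this hb0.le
      · exact pow_le_pow_left₀ hb0.le (hbx'.le.trans h.wh.xU) 2
    have h3 : I.d.b ^ 2 / S.CW ≤ I.z k' - I.z k + I.hh (I.z k) := by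
      have := div_le_div_of_nonneg_right h2 hCW0.le
      linarith
    have h4 : 4 * S.CW / I.d.b ^ 2 ≤ C * I.d.x ^ (-ε) / I.d.b ^ 2 * I.d.Z ^ 2 := by
      have b1 : 4 * S.CW ≤ C * I.d.x ^ (-ε) := by
        calc 4 * S.CW ≤ C := by rw [hC]; linarith
          _ ≤ C * I.d.x ^ (-ε) := le_mul_of_one_le_right hC0.le hxe
      calc 4 * S.CW / I.d.b ^ 2 ≤ C * I.d.x ^ (-ε) / I.d.b ^ 2 := div_le_div_of_nonneg_right b1 (by positivity)
        _ ≤ _ := le_mul_of_one_le_right (by positivity) hZ2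
    calc (4 : ℝ) = 4 * S.CW / I.d.b ^ 2 * (I.d.b ^ 2 / S.CW) := by field_simp
      _ ≤ C * I.d.x ^ (-ε) / I.d.b ^ 2 * I.d.Z ^ 2 * (I.z k' - I.z k + I.hh (I.z k)) :=
          mul_le_mul h4 h3 (by positivity) (by positivity)

/-- **EXIT INC** from RAW and the leaf RW as typed in PM/Leaves -/
theorem skp_inc_of_rw (hraw : SkpRaw) (hrw : SkpLeafRW) : SkpInc := skp_inc_of hraw (skp_rwb_of_rw hrw)

end Claimed.Agent.R286
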