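import Claimed.Agent.R286.PM.Lay

/-!
# Row 286 (S0533), folder PM, file RW : PROOF of the leaf RW (refined integral of `W` over a (D4) window of a nontrivial cut)      (owner helper72; prefix `skprw_`)

TEX[LL:prop:statistics-pointwise] (LL 08 l.534-569).   `skp_leaf_rw : SkpLeafRW`.   No own sorry (stands on `skpl_wl` of PM/Lay = `bud_bm_wl` of Bud/MomBoxA, and `l6p_overlap_fam`).
Route.  `h = hh z₀`, `r₀ = r(z₀)`, first distance `d = x⁶/(λ₁ r₀³)`.  At a nontrivial cut `U²/r₀ ≤ CW h`, `U² < b r₀²` (`skprw_lower`), hence `x⁶ ≤ d ≤ h` (`skprw_d_ge`, `skprw_d_le_h`).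
Dyadic distances `d, 2d, .., D_Bn ∈ (1/(8 CW), 1/(4 CW)]`, then the terminal block (`skprw_geo`: room from `SkwConcl.win`).
Anchors (`skprw_G`): `D' ≤ h`: sliding grid + `IncB` on the enlarged window; `D' > h`: `IncB` pointwise + Minkowski; terminal block: `|y - X|² ≤ 4`.   In all cases `G_i ≤ C B Z² h D_{i+1}`.
Pairs (`skprw_pair`): `mu_j sg_{j'} G_{i'} ≤ C₁ B Z² h d`.   Truncation `th = x^(-ε/2)`, moment `R = N r`, `N ≥ 14/ε`; `(Bn+1), Lg ≤ C (1 + log 1/x)`; `skpl_polylog`.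
RAW is NOT needed (`IncB` is used at all distances up to `zbuf`), and no lower bound on `b`.
-/

set_option autoImplicit false

namespace Claimed.Agent.R286

open Set MeasureTheory

section RW

variable {Ω : Type} [mΩ : MeasurableSpace Ω] {m : ℕ} {S : SkpS} {I : SkpI Ω m}

/-- the first distance `d = x⁶ / (λ₁ r₀³)` -/
noncomputable def skprwD (I : SkpI Ω m) (z₀ : ℝ) : ℝ := I.d.x ^ 6 / (I.lam1 * skwR z₀ ^ 3)

/-- the hypotheses of the leaf RW, with the smallness conditions that are used -/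
structure SkprwHyp (S : SkpS) (I : SkpI Ω m) (r : ℕ) (B z₀ : ℝ) (k₁ k₂ : ℕ) : Prop where
  hS : S.Ok
  hI : I.Ok S
  B1 : 1 ≤ B
  inc : I.IncB r B
  z0 : z₀ ∈ Icc I.d.zlo I.zbuf
  nt : I.d.Z ^ 2 * I.hh z₀ < I.d.b * skwR z₀ / S.CW
  h12 : k₁ ≤ k₂
  zlo : I.d.zlo ≤ I.z k₁
  near : |I.z k₁ - z₀| ≤ 2 * S.CW * I.hh z₀
  len : I.z k₂ - I.z k₁ ≤ I.hh z₀
  sb : I.d.b ≤ 1 / (4 * S.CW)
  sx4 : I.d.x ≤ 1 / 4
  sxv : I.d.x ≤ 1 / S.Cv
  sxd : I.d.x ≤ S.cD3 / 4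

variable {r : ℕ} {B z₀ : ℝ} {k₁ k₂ : ℕ}

theorem skprw_z0pos (H : SkprwHyp S I r B z₀ k₁ k₂) : 0 < z₀ :=
  lt_of_lt_of_le H.hI.wh.zlo0 H.z0.1

theorem skprw_r0pos (H : SkprwHyp S I r B z₀ k₁ k₂) : 0 < skwR z₀ := skpl_R_pos (skprw_z0pos H)

theorem skprw_z0mem (H : SkprwHyp S I r B z₀ k₁ k₂) : z₀ ∈ Icc (I.d.zlo / 2) I.zbuf :=
  ⟨by have := H.hI.wh.zlo0; have := H.z0.1; linarith, H.z0.2⟩

/-- `h < b r₀ / CW` -/
theorem skprw_h_lt (H : SkprwHyp S I r B z₀ k₁ k₂) (hh0 : 0 ≤ I.hh z₀) : I.hh z₀ < I.d.b * skwR z₀ / S.CW := by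
  refine lt_of_le_of_lt ?_ H.nt
  have : 1 ≤ I.d.Z ^ 2 := one_le_pow₀ H.hI.wh.Z1
  nlinarith

/-- at a nontrivial cut the lower width is `U²/r₀` -/
theorem skprw_lower (H : SkprwHyp S I r B z₀ k₁ k₂) :
    0 < I.hh z₀ ∧ I.d.U ^ 2 / skwR z₀ ≤ S.CW * I.hh z₀ ∧ I.d.U ^ 2 / skwR z₀ < I.d.b * skwR z₀ := by
  have hCW := H.hS.CW
  have hr0 := skprw_r0pos H
  have hb0 := H.hI.wh.b0
  have hU0 : 0 < I.d.U := lt_of_lt_of_le H.hI.wh.x0 H.hI.wh.xU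
  have hlow := H.hI.wc.lower z₀ (skprw_z0mem H)
  have hmin : 0 < min (I.d.b * skwR z₀) (I.d.U ^ 2 / skwR z₀) := lt_min (by positivity) (by positivity)
  have hh0 : 0 < I.hh z₀ := lt_of_lt_of_le (div_pos hmin (by linarith)) hlow
  have hlt := skprw_h_lt H hh0.le
  rw [div_le_iff₀ (by linarith)] at hlow
  rw [lt_div_iff₀ (by linarith)] at hlt
  have h1 : min (I.d.b * skwR z₀) (I.d.U ^ 2 / skwR z₀) < I.d.b * skwR z₀ := by linarith
  have h2 : I.d.U ^ 2 / skwR z₀ < I.d.b * skwR z₀ := by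
    by_contra hc
    rw [min_eq_left (not_lt.1 hc)] at h1
    exact lt_irrefl _ h1
  rw [min_eq_right h2.le] at hlow
  exact ⟨hh0, by linarith, h2⟩

theorem skprw_hpos (H : SkprwHyp S I r B z₀ k₁ k₂) : 0 < I.hh z₀ := (skprw_lower H).1

/-- `CW h < b r₀ ≤ r₀ / 8` -/
theorem skprw_CWh (H : SkprwHyp S I r B z₀ k₁ k₂) :
    S.CW * I.hh z₀ < I.d.b * skwR z₀ ∧ I.d.b * skwR z₀ ≤ skwR z₀ / 8 ∧ I.hh z₀ ≤ S.CW * I.hh z₀ := by
  have hCW := H.hS.CW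
  have hlt := skprw_h_lt H (skprw_hpos H).le
  rw [lt_div_iff₀ (by linarith)] at hlt
  have hr0 := skprw_r0pos H
  have hb1 := H.hI.wh.b1
  have hh := skprw_hpos H
  refine ⟨by linarith, by nlinarith, by nlinarith⟩

theorem skprw_x1 (H : SkprwHyp S I r B z₀ k₁ k₂) : I.d.x ≤ 1 := by have := H.sx4; linarith

theorem skprw_d_pos (H : SkprwHyp S I r B z₀ k₁ k₂) : 0 < skprwD I z₀ := by
  have := H.hI.wh.x0; have := skpl_lam_pos H.hI; have := skprw_r0pos H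
  unfold skprwD; positivity

/-- `x⁶ ≤ d` -/
theorem skprw_d_ge (H : SkprwHyp S I r B z₀ k₁ k₂) : I.d.x ^ 6 ≤ skprwD I z₀ := by
  have hx := H.hI.wh.x0; have hl := skpl_lam_pos H.hI; have hr := skprw_r0pos H
  unfold skprwD
  rw [le_div_iff₀ (by positivity)]
  have h1 : skwR z₀ ^ 3 ≤ 1 := pow_le_one₀ hr.le (skpl_R_le_one z₀)
  have h2 : I.lam1 * skwR z₀ ^ 3 ≤ 1 := by
    have := H.hI.lam1b
    have : 0 ≤ skwR z₀ ^ 3 := by positivity
    nlinarith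
  have : 0 < I.d.x ^ 6 := by positivity
  nlinarith

/-- `4 δ ≤ d` -/
theorem skprw_d_mesh (H : SkprwHyp S I r B z₀ k₁ k₂) : 4 * I.δ ≤ skprwD I z₀ := by
  refine le_trans ?_ (skprw_d_ge H)
  have hx := H.hI.wh.x0
  have h1 := H.hI.mesh
  have h2 : I.d.x ^ 34 ≤ 1 / 4 := by
    calc I.d.x ^ 34 ≤ I.d.x ^ 1 := pow_le_pow_of_le_one hx.le (skprw_x1 H) (by norm_num)
      _ = I.d.x := pow_one _
      _ ≤ 1 / 4 := H.sx4
  have h3 : I.d.x ^ 40 = I.d.x ^ 6 * I.d.x ^ 34 := by ring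
  have : 0 < I.d.x ^ 6 := by positivity
  nlinarith

/-- `d ≤ h` -/
theorem skprw_d_le_h (H : SkprwHyp S I r B z₀ k₁ k₂) : skprwD I z₀ ≤ I.hh z₀ := by
  have hx := H.hI.wh.x0; have hl := skpl_lam_pos H.hI; have hr := skprw_r0pos H
  have hCW := H.hS.CW
  have hU0 : 0 < I.d.U := lt_of_lt_of_le hx H.hI.wh.xU
  obtain ⟨hh0, hU1, hU2⟩ := skprw_lower H
  rw [div_le_iff₀ hr] at hU1
  rw [div_lt_iff₀ hr] at hU2
  -- `x⁶ / λ₁ ≤ g₀² U⁶ ≤ U⁶`
  have hg : I.d.x ^ 6 / I.lam1 ≤ I.d.U ^ 6 := by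
    have h1 := H.hI.g0a
    have h2 : 0 ≤ I.d.x ^ 3 / Real.sqrt I.lam1 := by positivity
    have h3 := pow_le_pow_left₀ h2 h1 2
    rw [div_pow, Real.sq_sqrt hl.le] at h3
    have hg1 : I.g0 ≤ 1 := H.hI.g0b.trans (Real.rpow_le_one hx.le (skprw_x1 H) H.hS.cg.le)
    have hg0 := H.hI.g0c
    have h4 : (I.g0 * I.d.U ^ 3) ^ 2 ≤ I.d.U ^ 6 := by
      have : I.g0 ^ 2 ≤ 1 := pow_le_one₀ hg0.le hg1
      have e : (I.g0 * I.d.U ^ 3) ^ 2 = I.g0 ^ 2 * I.d.U ^ 6 := by ring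
      rw [e]
      have : 0 < I.d.U ^ 6 := by positivity
      nlinarith
    calc I.d.x ^ 6 / I.lam1 = (I.d.x ^ 3) ^ 2 / I.lam1 := by ring
      _ ≤ _ := h3
      _ ≤ _ := h4
  -- `U⁶ ≤ (b r₀²)² CW r₀ h`
  have hb0 := H.hI.wh.b0
  have h5 : I.d.U ^ 6 ≤ (I.d.b * skwR z₀ * skwR z₀) ^ 2 * (S.CW * I.hh z₀ * skwR z₀) := by
    have e : I.d.U ^ 6 = (I.d.U ^ 2) ^ 2 * I.d.U ^ 2 := by ring
    rw [e]
    exact mul_le_mul (pow_le_pow_left₀ (by positivity) hU2.le 2) hU1 (by positivity) (by positivity)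
  have hb2 : S.CW * I.d.b ^ 2 ≤ 1 := by
    have h6 := H.sb
    have h7 : I.d.b * (4 * S.CW) ≤ 1 := by rwa [le_div_iff₀ (by linarith)] at h6
    have h8 := H.hI.wh.b1
    nlinarith
  unfold skprwD
  rw [div_le_iff₀ (by positivity)]
  have h9 : I.d.x ^ 6 ≤ I.d.U ^ 6 * I.lam1 := by rwa [div_le_iff₀ hl] at hg
  have hr1 := skpl_R_le_one z₀
  have h10 : (I.d.b * skwR z₀ * skwR z₀) ^ 2 * (S.CW * I.hh z₀ * skwR z₀)
      = (S.CW * I.d.b ^ 2) * skwR z₀ ^ 2 * (I.hh z₀ * skwR z₀ ^ 3) := by ring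
  have h11 : (S.CW * I.d.b ^ 2) * skwR z₀ ^ 2 ≤ 1 := by
    have : skwR z₀ ^ 2 ≤ 1 := pow_le_one₀ hr.le hr1
    have : 0 ≤ S.CW * I.d.b ^ 2 := by positivity
    have : 0 ≤ skwR z₀ ^ 2 := by positivity
    nlinarith
  have h12 : I.d.U ^ 6 ≤ I.hh z₀ * skwR z₀ ^ 3 := by
    rw [h10] at h5
    have : 0 ≤ I.hh z₀ * skwR z₀ ^ 3 := by positivity
    nlinarith
  calc I.d.x ^ 6 ≤ I.d.U ^ 6 * I.lam1 := h9
    _ ≤ I.hh z₀ * skwR z₀ ^ 3 * I.lam1 := mul_le_mul_of_nonneg_right h12 hl.le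
    _ = I.hh z₀ * (I.lam1 * skwR z₀ ^ 3) := by ring

end RW

section RW

variable {Ω : Type} [mΩ : MeasurableSpace Ω] {m : ℕ} {S : SkpS} {I : SkpI Ω m}
variable {r : ℕ} {B z₀ : ℝ} {k₁ k₂ : ℕ}

/-- position of the window: `|z₁ - z₀| ≤ r₀/4` -/
theorem skprw_near (H : SkprwHyp S I r B z₀ k₁ k₂) : |I.zc k₁ - z₀| ≤ skwR z₀ / 4 := by
  have h1 := H.near
  have h2 := skprw_CWh H
  unfold SkpI.z at h1
  linarith [h2.1, h2.2.1]

theorem skprw_z1_ge (H : SkprwHyp S I r B z₀ k₁ k₂) : 3 / 4 * skwR z₀ ≤ I.zc k₁ := by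
  have h1 := abs_le.1 (skprw_near H)
  have h2 := skpl_R_le z₀
  linarith [h1.1]

theorem skprw_R1_ge (H : SkprwHyp S I r B z₀ k₁ k₂) : 3 / 4 * skwR z₀ ≤ skwR (I.zc k₁) := by
  refine le_min (skprw_z1_ge H) ?_
  have := skpl_R_le_one z₀
  linarith

theorem skprw_R1_x (H : SkprwHyp S I r B z₀ k₁ k₂) : I.d.x ≤ skwR (I.zc k₁) :=
  le_min (H.hI.zlox.trans H.zlo) (skprw_x1 H)

theorem skprw_len (H : SkprwHyp S I r B z₀ k₁ k₂) : I.zc k₂ - I.zc k₁ ≤ I.hh z₀ := H.len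

theorem skprw_pow_le (H : SkprwHyp S I r B z₀ k₁ k₂) {a b : ℕ} (hab : a ≤ b) : I.d.x ^ b ≤ I.d.x ^ a :=
  pow_le_pow_of_le_one H.hI.wh.x0.le (skprw_x1 H) hab

/-- the geometry of the window -/
theorem skprw_geo (H : SkprwHyp S I r B z₀ k₁ k₂) {Bn : ℕ} (hBn : 1 ≤ Bn)
    (hA : skplD (skprwD I z₀) Bn ≤ 1 / (4 * S.CW)) : SkplGeo S I k₁ k₂ (skprwD I z₀) Bn := by
  have hCW := H.hS.CW
  have hx := H.hI.wh.x0
  have hCv := H.hS.Cv
  refine ⟨H.h12, hBn, skprw_d_mesh H, ?_, ?_, ?_, ?_⟩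
  · -- room
    have h1 := (H.hI.wc.win z₀ H.z0 H.nt).2.2
    have h2 := abs_le.1 H.near
    unfold SkpI.z at h2
    have h3 := skprw_len H
    have h4 := skprw_CWh H
    have h5 : I.d.b * skwR z₀ ≤ 1 / (4 * S.CW) := by
      have := skpl_R_le_one z₀
      have := H.hI.wh.b0
      have := skprw_r0pos H
      calc I.d.b * skwR z₀ ≤ I.d.b * 1 := by nlinarith
        _ ≤ 1 / (4 * S.CW) := by rw [mul_one]; exact H.sb
    have e : 1 / S.CW = 4 * (1 / (4 * S.CW)) := by field_simp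
    rw [e] at h1
    linarith [h2.2, h4.1, h4.2.2]
  · have := H.zlo; have := H.hI.wh.zlo0
    unfold SkpI.z at *
    linarith
  · -- lowv
    have h1 : I.d.x * I.d.x ≤ skwR (I.zc k₁) / S.Cv := by
      rw [le_div_iff₀ (by linarith)]
      have h2 := H.sxv
      rw [le_div_iff₀ (by linarith)] at h2
      have h3 := skprw_R1_x H
      nlinarith
    calc I.lowb ≤ I.d.x ^ 80 := H.hI.lowb
      _ ≤ I.d.x ^ 2 := skprw_pow_le H (by norm_num)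
      _ = I.d.x * I.d.x := by ring
      _ ≤ _ := h1
  · -- lowh
    have h1 : 4 * I.d.x ≤ S.cD3 := by have := H.sxd; linarith
    have h2 := H.hI.lam1a
    have h3 : I.d.x ^ 2 ≤ skwR (I.zc k₁) ^ 2 := pow_le_pow_left₀ hx.le (skprw_R1_x H) 2
    have h4 := skprw_d_ge H
    have h5 : (4 * I.d.x) * I.d.x ^ 14 * I.d.x ^ 2 * (I.d.x ^ 6 / 4)
        ≤ S.cD3 * I.lam1 * skwR (I.zc k₁) ^ 2 * (skprwD I z₀ / 4) := by
      have := skpl_lam_pos H.hI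
      have := skprw_d_pos H
      have := H.hS.cD3
      refine mul_le_mul (mul_le_mul (mul_le_mul h1 h2 (by positivity) (by positivity)) h3
        (by positivity) (by positivity)) (by linarith) (by positivity) (by positivity)
    calc I.lowb ≤ I.d.x ^ 80 := H.hI.lowb
      _ ≤ I.d.x ^ 23 := skprw_pow_le H (by norm_num)
      _ = (4 * I.d.x) * I.d.x ^ 14 * I.d.x ^ 2 * (I.d.x ^ 6 / 4) := by ring
      _ ≤ _ := h5

/-- the width at a later cut -/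
theorem skprw_hh_le (H : SkprwHyp S I r B z₀ k₁ k₂) {z : ℝ} (hz1 : I.zc k₁ ≤ z) (hz2 : z ≤ I.zbuf) :
    I.hh z ≤ S.CW * (I.hh z₀ + (2 * S.CW * I.hh z₀ + (z - I.zc k₁))) := by
  have hCW := H.hS.CW
  have hzlo : I.d.zlo ≤ I.zc k₁ := H.zlo
  have h1 := H.hI.wc.qlip z₀ (skprw_z0mem H) z ⟨by have := H.hI.wh.zlo0; linarith, hz2⟩
  refine h1.trans (mul_le_mul_of_nonneg_left ?_ (by linarith))
  have h2 : |z₀ - z| ≤ |I.zc k₁ - z₀| + |z - I.zc k₁| := by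
    have e : z₀ - z = -(I.zc k₁ - z₀) + -(z - I.zc k₁) := by ring
    rw [e]
    refine (abs_add_le _ _).trans ?_
    rw [abs_neg, abs_neg]
  have h3 : |z - I.zc k₁| = z - I.zc k₁ := abs_of_nonneg (by linarith)
  have h4 := H.near
  unfold SkpI.z at h4
  linarith

/-- the bootstrap hypothesis between two later cuts, in explicit form -/
theorem skprw_inc (H : SkprwHyp S I r B z₀ k₁ k₂) {k k' : ℕ} (h1 : k₁ ≤ k) (hkk : k ≤ k') (hk' : k' ≤ I.nb) {L E : ℝ}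
    (hL : I.zc k' - I.zc k ≤ L) (hE : I.zc k - I.zc k₁ ≤ E) :
    ∫ ω, I.P.nXX k k' ω ^ r ∂I.P.μ ≤
      (B * I.d.Z ^ 2 * (L + S.CW * (I.hh z₀ + (2 * S.CW * I.hh z₀ + E)))) ^ r := by
  have hCW := H.hS.CW
  have hz := H.hI.zmono
  have hzk : I.zc k₁ ≤ I.zc k := hz h1
  have hzlo : I.d.zlo ≤ I.z k := H.zlo.trans hzk
  have h2 := H.inc k k' hkk hk' hzlo
  refine h2.trans (pow_le_pow_left₀ ?_ ?_ r)
  · have hB := H.B1
    have h3 : 0 ≤ I.z k' - I.z k := sub_nonneg.2 (hz hkk)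
    have h4 : 0 ≤ I.hh (I.z k) := by
      have hmem : I.z k ∈ Icc (I.d.zlo / 2) I.zbuf :=
        ⟨by have := H.hI.wh.zlo0; linarith, by rw [← H.hI.nb]; exact hz (hkk.trans hk')⟩
      have h5 := H.hI.wc.lower _ hmem
      refine le_trans ?_ h5
      have hzk0 : 0 < I.z k := lt_of_lt_of_le H.hI.wh.zlo0 hzlo
      have := skpl_R_pos hzk0
      have := H.hI.wh.b0
      have hU0 : 0 < I.d.U := lt_of_lt_of_le H.hI.wh.x0 H.hI.wh.xU
      exact div_nonneg (le_min (by positivity) (by positivity)) (by linarith)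
    have : 0 ≤ I.d.Z ^ 2 := by positivity
    positivity
  · have hB := H.B1
    have h5 := skprw_hh_le H hzk (by rw [← H.hI.nb]; exact hz (hkk.trans hk'))
    have h6 : S.CW * (I.hh z₀ + (2 * S.CW * I.hh z₀ + (I.zc k - I.zc k₁)))
        ≤ S.CW * (I.hh z₀ + (2 * S.CW * I.hh z₀ + E)) :=
      mul_le_mul_of_nonneg_left (by linarith) (by linarith)
    refine mul_le_mul_of_nonneg_left ?_ (by positivity)
    unfold SkpI.z
    linarith

end RW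

theorem skprw_T_upper' {zc : ℕ → ℝ} {nb s : ℕ} {D δ : ℝ} (hs : s ≤ nb) (hD : zc s + D ≤ zc nb) (hD0 : 0 ≤ D) (hδ : 0 ≤ δ)
    (hmesh : ∀ k < nb, zc (k + 1) - zc k ≤ δ) : zc (skplT zc s D) ≤ zc s + D + δ := by
  rcases hD0.eq_or_lt with rfl | h
  · rw [skpl_T_zero]; linarith
  · exact (skpl_T_upper hs hD h hmesh).le

section RW

variable {Ω : Type} [mΩ : MeasurableSpace Ω] {m : ℕ} {S : SkpS} {I : SkpI Ω m}
variable {r : ℕ} {B z₀ : ℝ} {k₁ k₂ : ℕ}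

/-- the integrated squared anchors -/
noncomputable def skprwG (S : SkpS) (I : SkpI Ω m) (r : ℕ) (B z₀ : ℝ) (Bn i : ℕ) : ℝ :=
  if i < Bn then 512 * r * S.CW ^ 2 * (B * I.d.Z ^ 2 * I.hh z₀) * skplD (skprwD I z₀) (i + 1) else 4 * I.hh z₀

theorem skprw_G_nonneg (H : SkprwHyp S I r B z₀ k₁ k₂) (Bn i : ℕ) : 0 ≤ skprwG S I r B z₀ Bn i := by
  have h1 := skprw_hpos H
  have h2 := H.B1
  have h3 := skpl_D_nonneg (skprw_d_pos H).le (i + 1)
  unfold skprwG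
  split_ifs <;> positivity

theorem skprw_G_term (H : SkprwHyp S I r B z₀ k₁ k₂) (hr : 1 ≤ r) (bb ee : ℕ → ℕ) :
    ∫ ω, (∑ s ∈ Finset.Ico k₁ k₂, I.dz s * I.P.nXX (bb s) (ee s) ω) ^ r ∂I.P.μ ≤ (4 * I.hh z₀) ^ r := by
  have := H.hI.sp.prob
  have h1 := skpl_mink H.hI hr k₁ k₂ bb ee (fun _ => 4) (fun _ _ => by norm_num) (fun s _ => by
    have h2 : ∀ ω, I.P.nXX (bb s) (ee s) ω ^ r ≤ 4 ^ r := fun ω =>
      pow_le_pow_left₀ (bud_bm_sq_nonneg I.P _ _ ω) (bud_bm_sq_le_four I.P H.hI.sp _ _ ω) r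
    have h3 := integral_mono (((bud_bm_sq_bd I.P H.hI.sp (bb s) (ee s)).pow r).integrable I.P.μ)
      (integrable_const _) h2
    simpa using h3)
  refine h1.trans (pow_le_pow_left₀ (Finset.sum_nonneg fun s _ =>
    mul_nonneg (skpl_dz_nonneg H.hI s) (by norm_num)) ?_ r)
  rw [← Finset.sum_mul, skpl_sum_dz I H.h12]
  have := skprw_len H
  linarith

theorem skprw_G (H : SkprwHyp S I r B z₀ k₁ k₂) (hr : 1 ≤ r) {Bn : ℕ} (g : SkplGeo S I k₁ k₂ (skprwD I z₀) Bn) {i : ℕ}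
    (hi : i ≤ Bn) :
    ∫ ω, (∑ s ∈ Finset.Ico k₁ k₂, I.dz s *
      I.P.nXX (skplt I (skprwD I z₀) Bn i s) (skplt I (skprwD I z₀) Bn (i + 1) s) ω) ^ r ∂I.P.μ
      ≤ skprwG S I r B z₀ Bn i ^ r := by
  have hCW := H.hS.CW
  have hd := skprw_d_pos H
  have hh := skprw_hpos H
  have hB := H.B1
  have hz := H.hI.zmono
  have hδ0 := H.hI.δ0
  have hZ2 : 0 < I.d.Z ^ 2 := by have := H.hI.wh.Z1; positivity
  have hr' : (1 : ℝ) ≤ r := by exact_mod_cast hr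
  have hCW2 : 1 ≤ S.CW ^ 2 := one_le_pow₀ hCW
  have hCWle : S.CW ≤ S.CW ^ 2 := by nlinarith
  unfold skprwG
  by_cases hiB : i < Bn
  · rw [if_pos hiB]
    set d := skprwD I z₀ with hdd
    set D := skplD d i with hD
    set D' := skplD d (i + 1) with hD'
    set h := I.hh z₀ with hhd
    have hD0 : 0 ≤ D := skpl_D_nonneg hd.le i
    have hDD : D ≤ D' := skpl_D_mono hd.le (Nat.le_succ i)
    have hdD' : d ≤ D' := skpl_D_ge hd.le (by omega)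
    have hD'0 : 0 < D' := lt_of_lt_of_le hd hdD'
    have hD'B : D' ≤ skplD d Bn := skpl_D_mono hd.le (by omega)
    have hδD : I.δ ≤ D' := by have := g.d4; linarith
    have hk2 := skpl_geo_k2 H.hI g
    have e1 : ∀ s, skplt I d Bn i s = skplT I.zc s D := fun s => skpl_t_of_le I d hi s
    have e2 : ∀ s, skplt I d Bn (i + 1) s = skplT I.zc s D' := fun s => skpl_t_of_le I d (by omega) s
    simp_rw [e1, e2]
    have hlen := skprw_len H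
    have hgs : ∀ s, s ≤ k₂ → s ≤ I.nb ∧ I.zc s + D' ≤ I.zc I.nb ∧ I.zc s + D ≤ I.zc I.nb := fun s hs => by
      have a := skpl_geo_s H.hI g hs hD'B
      exact ⟨a.1, a.2, by linarith [a.2]⟩
    rcases le_or_gt D' h with hcase | hcase
    · -- short blocks: sliding grid
      have h1 := skpl_overlap H.hI hr H.h12 hk2 hDD (hgs k₂ le_rfl).2.1
      have a1 := hgs k₁ H.h12
      have a2 := hgs k₂ le_rfl
      have b1 := skpl_T_mem a1.1 a1.2.2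
      have b2 := skprw_T_upper' a1.1 a1.2.2 hD0 hδ0.le H.hI.zmesh
      have b3 := skprw_T_upper' a2.1 a2.2.1 (hD0.trans hDD) hδ0.le H.hI.zmesh
      have b4 : skplT I.zc k₁ D ≤ skplT I.zc k₂ D' :=
        (skpl_T_mono_s hz H.h12 a2.1 a2.2.2).trans (skpl_T_mono_D a2.1 a2.2.1 hDD)
      have h2 := skprw_inc H b1.1 b4 (skpl_T_le a2.1 a2.2.1) (L := h + D' + I.δ) (E := D + I.δ)
        (by linarith [b1.2]) (by linarith)
      have h3 : B * I.d.Z ^ 2 * (h + D' + I.δ + S.CW * (h + (2 * S.CW * h + (D + I.δ))))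
          ≤ B * I.d.Z ^ 2 * (8 * S.CW ^ 2 * h) := by
        refine mul_le_mul_of_nonneg_left ?_ (by positivity)
        have c1 : S.CW * (h + (2 * S.CW * h + (D + I.δ))) ≤ S.CW * (3 * h + 2 * S.CW * h) :=
          mul_le_mul_of_nonneg_left (by linarith) (by linarith)
        nlinarith
      have h4 : 0 ≤ B * I.d.Z ^ 2 * (h + D' + I.δ + S.CW * (h + (2 * S.CW * h + (D + I.δ)))) := by positivity
      have h5 := h2.trans (pow_le_pow_left₀ h4 h3 r)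
      have h6 : 0 ≤ 32 * (r : ℝ) * (D' - D + I.δ) := by
        have : 0 ≤ D' - D + I.δ := by linarith
        positivity
      calc _ ≤ (32 * r * (D' - D + I.δ)) ^ r * _ := h1
        _ ≤ (32 * r * (D' - D + I.δ)) ^ r * (B * I.d.Z ^ 2 * (8 * S.CW ^ 2 * h)) ^ r :=
            mul_le_mul_of_nonneg_left h5 (pow_nonneg h6 r)
        _ = (32 * r * (D' - D + I.δ) * (B * I.d.Z ^ 2 * (8 * S.CW ^ 2 * h))) ^ r := (mul_pow _ _ _).symm
        _ ≤ _ := by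
            refine pow_le_pow_left₀ (by positivity) ?_ r
            have c2 : 32 * (r : ℝ) * (D' - D + I.δ) ≤ 32 * r * (2 * D') :=
              mul_le_mul_of_nonneg_left (by linarith) (by positivity)
            calc 32 * r * (D' - D + I.δ) * (B * I.d.Z ^ 2 * (8 * S.CW ^ 2 * h))
                ≤ 32 * r * (2 * D') * (B * I.d.Z ^ 2 * (8 * S.CW ^ 2 * h)) :=
                  mul_le_mul_of_nonneg_right c2 (by positivity)
              _ = 512 * r * S.CW ^ 2 * (B * I.d.Z ^ 2 * h) * D' := by ring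
    · -- long blocks: pointwise bootstrap hypothesis
      have h1 := skpl_mink H.hI hr k₁ k₂ (fun s => skplT I.zc s D) (fun s => skplT I.zc s D')
        (fun _ => B * I.d.Z ^ 2 * (8 * S.CW ^ 2 * D')) (fun _ _ => by positivity) (fun s hs => by
          have hs1 := (Finset.mem_Ico.1 hs).1
          have hs2 := (Finset.mem_Ico.1 hs).2.le
          have a := hgs s hs2
          have b1 := skpl_T_mem a.1 a.2.2
          have b2 := skprw_T_upper' a.1 a.2.2 hD0 hδ0.le H.hI.zmesh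
          have b3 := skprw_T_upper' a.1 a.2.1 (hD0.trans hDD) hδ0.le H.hI.zmesh
          have hzs2 := hz hs2
          have h2 := skprw_inc H (hs1.trans b1.1) (skpl_T_mono_D a.1 a.2.1 hDD) (skpl_T_le a.1 a.2.1)
            (L := D' + I.δ) (E := h + D + I.δ) (by linarith [b1.2]) (by linarith)
          refine h2.trans (pow_le_pow_left₀ (by positivity) ?_ r)
          refine mul_le_mul_of_nonneg_left ?_ (by positivity)
          have c1 : S.CW * (h + (2 * S.CW * h + (h + D + I.δ))) ≤ S.CW * (4 * D' + 2 * S.CW * D') :=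
            mul_le_mul_of_nonneg_left (by nlinarith) (by linarith)
          nlinarith)
      refine h1.trans (pow_le_pow_left₀ (Finset.sum_nonneg fun s _ =>
        mul_nonneg (skpl_dz_nonneg H.hI s) (by positivity)) ?_ r)
      rw [← Finset.sum_mul, skpl_sum_dz I H.h12]
      have c3 : 0 ≤ B * I.d.Z ^ 2 * (8 * S.CW ^ 2 * D') := by positivity
      calc (I.zc k₂ - I.zc k₁) * (B * I.d.Z ^ 2 * (8 * S.CW ^ 2 * D'))
          ≤ h * (B * I.d.Z ^ 2 * (8 * S.CW ^ 2 * D')) := mul_le_mul_of_nonneg_right hlen c3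
        _ = 8 * 1 * S.CW ^ 2 * (B * I.d.Z ^ 2 * h) * D' := by ring
        _ ≤ 512 * r * S.CW ^ 2 * (B * I.d.Z ^ 2 * h) * D' := by
            have : (8 : ℝ) * 1 ≤ 512 * r := by linarith
            have c4 : 0 ≤ S.CW ^ 2 * (B * I.d.Z ^ 2 * h) * D' := by positivity
            nlinarith
  · rw [if_neg hiB]
    exact skprw_G_term H hr _ _

end RW

section RW

variable {Ω : Type} [mΩ : MeasurableSpace Ω] {m : ℕ} {S : SkpS} {I : SkpI Ω m}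
variable {r : ℕ} {B z₀ : ℝ} {k₁ k₂ : ℕ}

theorem skprw_R_four {a b : ℝ} (_hb : 0 ≤ b) (hab : a ≤ 4 * b) : skwR a ≤ 4 * skwR b := by
  unfold skwR
  rcases le_total b 1 with h | h
  · rw [min_eq_left h]; exact (min_le_left _ _).trans hab
  · rw [min_eq_right h]; exact (min_le_right _ _).trans (by norm_num)

theorem skprw_mu_le (H : SkprwHyp S I r B z₀ k₁ k₂) (Bn j : ℕ) :
    skplMu S I k₂ (skprwD I z₀) Bn j ≤ 4 * S.Cv := by
  have hCv := H.hS.Cv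
  unfold skplMu
  split_ifs
  · have := skpl_R_le_one (I.zc k₂ + skplD (skprwD I z₀) (j + 1) + I.δ)
    nlinarith
  · exact le_rfl

theorem skprw_rho_ge (H : SkprwHyp S I r B z₀ k₁ k₂) (j : ℕ) :
    3 / 4 * skwR z₀ ≤ skplRho I k₁ (skprwD I z₀) j :=
  (skprw_R1_ge H).trans (skpl_R_mono (by have := skpl_D_nonneg (skprw_d_pos H).le j; linarith))

/-- (P1) the mass weights against the radius of the gap of the later block -/
theorem skprw_mu_rho (H : SkprwHyp S I r B z₀ k₁ k₂) {Bn : ℕ} (g : SkplGeo S I k₁ k₂ (skprwD I z₀) Bn)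
    (hA' : 1 / (4 * S.CW) < 2 * skplD (skprwD I z₀) Bn) {j j' : ℕ} (hjj : j ≤ j') (hj1 : 1 ≤ j') (hj' : j' ≤ Bn) :
    skplMu S I k₂ (skprwD I z₀) Bn j ≤ 64 * S.CW * S.Cv * skplRho I k₁ (skprwD I z₀) j' := by
  have hCW := H.hS.CW
  have hCv := H.hS.Cv
  have hd := skprw_d_pos H
  have hr0 := skprw_r0pos H
  have hz1 := skprw_z1_ge H
  set d := skprwD I z₀ with hdd
  have hD0 := skpl_D_nonneg hd.le j'
  have hρ0 : 0 ≤ skplRho I k₁ d j' := (by positivity : (0:ℝ) ≤ 3 / 4 * skwR z₀).trans (skprw_rho_ge H j')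
  unfold skplMu
  by_cases hjB : j < Bn
  · rw [if_pos hjB]
    have h1 : skplD d (j + 1) ≤ 2 * skplD d j' := by
      rw [← skpl_D_double d hj1]
      exact skpl_D_mono hd.le (by omega)
    have h2 := skprw_len H
    have h3 := skprw_CWh H
    have h4 : I.δ ≤ I.hh z₀ := by have := g.d4; have := skprw_d_le_h H; have := H.hI.δ0; linarith
    have h5 : skwR (I.zc k₂ + skplD d (j + 1) + I.δ) ≤ 4 * skwR (I.zc k₁ + skplD d j' / 2) :=
      skprw_R_four (by linarith) (by linarith [h3.1, h3.2.1, h3.2.2])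
    have h6 : skwR (I.zc k₁ + skplD d j' / 2) = skplRho I k₁ d j' := rfl
    rw [h6] at h5
    calc S.Cv * skwR (I.zc k₂ + skplD d (j + 1) + I.δ) ≤ S.Cv * (4 * skplRho I k₁ d j') :=
          mul_le_mul_of_nonneg_left h5 (by linarith)
      _ = 4 * 1 * S.Cv * skplRho I k₁ d j' := by ring
      _ ≤ 64 * S.CW * S.Cv * skplRho I k₁ d j' := by
          have : (4 : ℝ) * 1 ≤ 64 * S.CW := by linarith
          have : 0 ≤ S.Cv * skplRho I k₁ d j' := by positivity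
          nlinarith
  · rw [if_neg hjB]
    have e : j' = Bn := by omega
    subst e
    have h1 : 1 / (16 * S.CW) ≤ skplRho I k₁ d j' := by
      refine le_min ?_ ?_
      · have e2 : 1 / (16 * S.CW) = 1 / (4 * S.CW) / 4 := by field_simp; ring
        rw [e2]
        have : 0 ≤ I.zc k₁ := by linarith
        linarith
      · rw [div_le_one (by linarith)]; linarith
    rw [div_le_iff₀ (by linarith)] at h1
    nlinarith

/-- (P2) the anchors against the distance of the later block -/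
theorem skprw_G_le (H : SkprwHyp S I r B z₀ k₁ k₂) {Bn : ℕ}
    (hA' : 1 / (4 * S.CW) < 2 * skplD (skprwD I z₀) Bn) {i' j' : ℕ} (hij : i' ≤ j') (hj1 : 1 ≤ j') (hj' : j' ≤ Bn) :
    skprwG S I r B z₀ Bn i' ≤
      (1024 * r * S.CW ^ 2 + 32 * S.CW) * (B * I.d.Z ^ 2 * I.hh z₀) * skplD (skprwD I z₀) j' := by
  have hCW := H.hS.CW
  have hd := skprw_d_pos H
  have hh := skprw_hpos H
  have hB := H.B1
  have hZ2 : 1 ≤ I.d.Z ^ 2 := one_le_pow₀ H.hI.wh.Z1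
  set d := skprwD I z₀ with hdd
  have hD0 := skpl_D_nonneg hd.le j'
  have hY : 0 < B * I.d.Z ^ 2 * I.hh z₀ := by positivity
  unfold skprwG
  by_cases hiB : i' < Bn
  · rw [if_pos hiB]
    have h1 : skplD d (i' + 1) ≤ 2 * skplD d j' := by
      rw [← skpl_D_double d hj1]
      exact skpl_D_mono hd.le (by omega)
    calc 512 * r * S.CW ^ 2 * (B * I.d.Z ^ 2 * I.hh z₀) * skplD d (i' + 1)
        ≤ 512 * r * S.CW ^ 2 * (B * I.d.Z ^ 2 * I.hh z₀) * (2 * skplD d j') :=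
          mul_le_mul_of_nonneg_left h1 (by positivity)
      _ = 1024 * r * S.CW ^ 2 * ((B * I.d.Z ^ 2 * I.hh z₀) * skplD d j') := by ring
      _ ≤ (1024 * r * S.CW ^ 2 + 32 * S.CW) * ((B * I.d.Z ^ 2 * I.hh z₀) * skplD d j') :=
          mul_le_mul_of_nonneg_right (by linarith) (by positivity)
      _ = _ := by ring
  · rw [if_neg hiB]
    have e : j' = Bn := by omega
    subst e
    have h1 : 1 ≤ 8 * S.CW * skplD d j' := by
      rw [div_lt_iff₀ (by linarith)] at hA'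
      linarith
    have h2 : I.hh z₀ ≤ B * I.d.Z ^ 2 * I.hh z₀ := by
      have : 1 ≤ B * I.d.Z ^ 2 := by nlinarith
      nlinarith
    calc 4 * I.hh z₀ ≤ 4 * (B * I.d.Z ^ 2 * I.hh z₀) * 1 := by linarith
      _ ≤ 4 * (B * I.d.Z ^ 2 * I.hh z₀) * (8 * S.CW * skplD d j') :=
          mul_le_mul_of_nonneg_left h1 (by positivity)
      _ = 32 * S.CW * ((B * I.d.Z ^ 2 * I.hh z₀) * skplD d j') := by ring
      _ ≤ (1024 * r * S.CW ^ 2 + 32 * S.CW) * ((B * I.d.Z ^ 2 * I.hh z₀) * skplD d j') :=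
          mul_le_mul_of_nonneg_right (by have : (0:ℝ) ≤ 1024 * r * S.CW ^ 2 := by positivity
                                         linarith) (by positivity)
      _ = _ := by ring

/-- the constant of a pair -/
noncomputable def skprwC1 (S : SkpS) (r : ℕ) : ℝ :=
  768 * S.CW * S.Cv ^ 3 * S.Cm * (1024 * r * S.CW ^ 2 + 32 * S.CW) / S.cD3

/-- (P) one pair other than `(0,0)` -/
theorem skprw_pair (H : SkprwHyp S I r B z₀ k₁ k₂) {Bn : ℕ} (g : SkplGeo S I k₁ k₂ (skprwD I z₀) Bn)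
    (hA' : 1 / (4 * S.CW) < 2 * skplD (skprwD I z₀) Bn) {j i' j' : ℕ} (hjj : j ≤ j') (hij : i' ≤ j') (hj1 : 1 ≤ j')
    (hj' : j' ≤ Bn) :
    skplMu S I k₂ (skprwD I z₀) Bn j * (skplSg S I k₁ (skprwD I z₀) j' * skprwG S I r B z₀ Bn i') ≤
      skprwC1 S r * (B * I.d.Z ^ 2 * I.hh z₀) * skprwD I z₀ := by
  have hCW := H.hS.CW
  have hCv := H.hS.Cv
  have hCm := H.hS.Cm
  have hcD := H.hS.cD3
  have hd := skprw_d_pos H
  have hh := skprw_hpos H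
  have hB := H.B1
  have hx := H.hI.wh.x0
  have hl := skpl_lam_pos H.hI
  have hr0 := skprw_r0pos H
  have hZ2 : 0 < I.d.Z ^ 2 := by have := H.hI.wh.Z1; positivity
  have h1 := skprw_mu_rho H g hA' hjj hj1 hj'
  have h2 := skprw_G_le H hA' hij hj1 hj'
  have h3 := skprw_rho_ge H j'
  have hsg := skpl_sg_nonneg H.hS H.hI g j'
  have hG0 := skprw_G_nonneg H Bn i'
  have hmu0 := skpl_mu_nonneg H.hS H.hI g j
  set d := skprwD I z₀ with hdd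
  set ρ := skplRho I k₁ d j' with hρ
  set Y := B * I.d.Z ^ 2 * I.hh z₀ with hY
  set D := skplD d j' with hD
  have hρ0 : 0 < ρ := lt_of_lt_of_le (by positivity) h3
  have hD0 : 0 < D := lt_of_lt_of_le hd (skpl_D_ge hd.le hj1)
  have hY0 : 0 < Y := by positivity
  set a₂ := 1024 * (r : ℝ) * S.CW ^ 2 + 32 * S.CW with ha₂
  have ha₂0 : 0 < a₂ := by positivity
  have step1 : skplMu S I k₂ d Bn j * (skplSg S I k₁ d j' * skprwG S I r B z₀ Bn i')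
      ≤ (64 * S.CW * S.Cv * ρ) * (skplSg S I k₁ d j' * (a₂ * Y * D)) :=
    mul_le_mul h1 (mul_le_mul_of_nonneg_left h2 hsg) (mul_nonneg hsg hG0) (by positivity)
  have step2 : (64 * S.CW * S.Cv * ρ) * (skplSg S I k₁ d j' * (a₂ * Y * D))
      = 256 * S.CW * S.Cv ^ 3 * S.Cm * a₂ / S.cD3 * Y * (I.d.x ^ 6 / (I.lam1 * ρ ^ 3)) := by
    unfold skplSg
    rw [← hρ, ← hD]
    field_simp
    ring
  have step3 : I.d.x ^ 6 / (I.lam1 * ρ ^ 3) ≤ 3 * d := by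
    rw [hdd]
    unfold skprwD
    rw [div_le_iff₀ (by positivity)]
    have h4 : (3 / 4 * skwR z₀) ^ 3 ≤ ρ ^ 3 := pow_le_pow_left₀ (by positivity) h3 3
    have h5 : 3 * (I.d.x ^ 6 / (I.lam1 * skwR z₀ ^ 3)) * (I.lam1 * ρ ^ 3)
        = 3 * I.d.x ^ 6 * (ρ ^ 3 / skwR z₀ ^ 3) := by field_simp
    rw [h5]
    have h6 : 27 / 64 ≤ ρ ^ 3 / skwR z₀ ^ 3 := by
      rw [le_div_iff₀ (by positivity)]
      calc 27 / 64 * skwR z₀ ^ 3 = (3 / 4 * skwR z₀) ^ 3 := by ring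
        _ ≤ _ := h4
    have : 0 < I.d.x ^ 6 := by positivity
    nlinarith
  calc _ ≤ _ := step1
    _ = _ := step2
    _ ≤ 256 * S.CW * S.Cv ^ 3 * S.Cm * a₂ / S.cD3 * Y * (3 * d) :=
        mul_le_mul_of_nonneg_left step3 (by positivity)
    _ = skprwC1 S r * Y * d := by unfold skprwC1; ring

end RW

section RW

variable {Ω : Type} [mΩ : MeasurableSpace Ω] {m : ℕ} {S : SkpS} {I : SkpI Ω m}
variable {r : ℕ} {B z₀ : ℝ} {k₁ k₂ : ℕ}

/-- the refined integral of `W`, before the choice of the truncation parameters -/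
theorem skprw_core (H : SkprwHyp S I r B z₀ k₁ k₂) (hr : 1 ≤ r) {R : ℕ} (hR : 1 ≤ R) {Bn : ℕ} (hBn : 1 ≤ Bn)
    (hA : skplD (skprwD I z₀) Bn ≤ 1 / (4 * S.CW)) (hA' : 1 / (4 * S.CW) < 2 * skplD (skprwD I z₀) Bn)
    {th eps : ℝ} (hth : 1 ≤ th) (heps0 : 0 ≤ eps) (heps : (S.K.cA3 R * I.Lg ^ 2) ^ (2 * R) ≤ eps ^ r * th ^ R) :
    ∫ ω, (∑ k ∈ Finset.Ico k₁ k₂, I.dz k * I.P.W k ω) ^ r ∂I.P.μ ≤
      (((Bn + 1 : ℕ) : ℝ) ^ 3 * ((8192 * r * S.CW ^ 2 * S.Cv + ((S.K.cA3 1 * I.Lg ^ 2) ^ (2 * 1) + th * r) * skprwC1 S r)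
        * (B * I.d.Z ^ 2 * I.hh z₀) * skprwD I z₀ + 64 * S.Cv * I.hh z₀ * eps)) ^ r := by
  have g := skprw_geo H hBn hA
  have hCW := H.hS.CW
  have hCv := H.hS.Cv
  have hd := skprw_d_pos H
  have hh := skprw_hpos H
  have hB := H.B1
  have hZ2 : 0 < I.d.Z ^ 2 := by have := H.hI.wh.Z1; positivity
  have hC1 : 0 ≤ skprwC1 S r := by
    have := H.hS.Cm; have := H.hS.cD3
    unfold skprwC1; positivity
  have hc1 : 0 ≤ (S.K.cA3 1 * I.Lg ^ 2) ^ (2 * 1) := by rw [pow_mul]; positivity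
  refine skpl_wl H.hS H.hI g hr hR (skprwG S I r B z₀ Bn) (skprw_G_nonneg H Bn)
    (fun i hi => skprw_G H hr g hi) hth heps0 heps ?_
  intro i hi j hj
  set Y := B * I.d.Z ^ 2 * I.hh z₀ with hY
  set d := skprwD I z₀ with hdd
  set A := (S.K.cA3 1 * I.Lg ^ 2) ^ (2 * 1) + th * r with hAdef
  have hY0 : 0 < Y := by positivity
  have hA0 : 0 ≤ A := by positivity
  have hmu := skprw_mu_le H Bn j
  have hmu0 := skpl_mu_nonneg H.hS H.hI g j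
  have hlen := skprw_len H
  have hlen0 : 0 ≤ I.zc k₂ - I.zc k₁ := sub_nonneg.2 (H.hI.zmono H.h12)
  by_cases h00 : i = 0 ∧ j = 0
  · rw [if_pos h00]
    have e : skprwG S I r B z₀ Bn 0 = 512 * r * S.CW ^ 2 * Y * d := by
      unfold skprwG
      rw [if_pos (by omega), skpl_D_succ, pow_zero, one_mul]
    rw [e]
    have h1 : skplMu S I k₂ d Bn j * (4 * (512 * r * S.CW ^ 2 * Y * d))
        ≤ 4 * S.Cv * (4 * (512 * r * S.CW ^ 2 * Y * d)) := mul_le_mul_of_nonneg_right hmu (by positivity)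
    have h2 : 0 ≤ A * skprwC1 S r * Y * d := by positivity
    have h3 : 0 ≤ 64 * S.Cv * I.hh z₀ * eps := by positivity
    calc _ ≤ _ := h1
      _ = 8192 * r * S.CW ^ 2 * S.Cv * Y * d := by ring
      _ ≤ 8192 * r * S.CW ^ 2 * S.Cv * Y * d + A * skprwC1 S r * Y * d + 64 * S.Cv * I.hh z₀ * eps := by linarith
      _ = _ := by ring
  · rw [if_neg h00]
    have hj1 : 1 ≤ max i j := by
      rcases Nat.eq_zero_or_pos i with hi0 | hi0
      · rcases Nat.eq_zero_or_pos j with hj0 | hj0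
        · exact absurd ⟨hi0, hj0⟩ h00
        · exact le_trans hj0 (le_max_right _ _)
      · exact le_trans hi0 (le_max_left _ _)
    have hp := skprw_pair H g hA' (j := j) (i' := min i j) (j' := max i j) (le_max_right _ _)
      ((min_le_left _ _).trans (le_max_left _ _)) hj1 (max_le hi hj)
    have h1 : skplMu S I k₂ d Bn j * (16 * (I.zc k₂ - I.zc k₁) * eps) ≤ 4 * S.Cv * (16 * I.hh z₀ * eps) :=
      mul_le_mul hmu (by
        have : 16 * (I.zc k₂ - I.zc k₁) ≤ 16 * I.hh z₀ := by linarith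
        exact mul_le_mul_of_nonneg_right this heps0) (by positivity) (by positivity)
    have h2 : 0 ≤ 8192 * r * S.CW ^ 2 * S.Cv * Y * d := by positivity
    calc skplMu S I k₂ d Bn j * (A * skplSg S I k₁ d (max i j) * skprwG S I r B z₀ Bn (min i j)
          + 16 * (I.zc k₂ - I.zc k₁) * eps)
        = A * (skplMu S I k₂ d Bn j * (skplSg S I k₁ d (max i j) * skprwG S I r B z₀ Bn (min i j)))
          + skplMu S I k₂ d Bn j * (16 * (I.zc k₂ - I.zc k₁) * eps) := by ring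
      _ ≤ A * (skprwC1 S r * Y * d) + 4 * S.Cv * (16 * I.hh z₀ * eps) :=
          add_le_add (mul_le_mul_of_nonneg_left hp hA0) h1
      _ ≤ 8192 * r * S.CW ^ 2 * S.Cv * Y * d + A * (skprwC1 S r * Y * d) + 4 * S.Cv * (16 * I.hh z₀ * eps) := by
          linarith
      _ = _ := by ring

end RW

/-! ### final arithmetic (pure) -/

/-- main term -/
theorem skprw_arith_main {K Λ Lg th a1 c0 C1 rr P7 Yd : ℝ} (hK0 : 0 ≤ K) (hK : K ≤ 12 * Λ) (hΛ : 1 ≤ Λ) (hLg0 : 0 ≤ Lg)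
    (hLg : Lg ≤ 7 * Λ) (hth : 1 ≤ th) (ha1 : 0 ≤ a1) (hc0 : 0 ≤ c0) (hC1 : 0 ≤ C1) (hrr : 0 ≤ rr)
    (hP7 : Λ ^ 7 ≤ P7 * th) (hYd : 0 ≤ Yd) :
    K ^ 3 * ((c0 + ((a1 * Lg ^ 2) ^ (2 * 1) + th * rr) * C1) * Yd)
      ≤ 1728 * (c0 + (2401 * a1 ^ 2 + rr) * C1) * P7 * (th * th) * Yd := by
  have hΛ0 : 0 < Λ := by linarith
  have h1 : K ^ 3 ≤ 1728 * Λ ^ 3 := by
    calc K ^ 3 ≤ (12 * Λ) ^ 3 := pow_le_pow_left₀ hK0 hK 3
      _ = 1728 * Λ ^ 3 := by ring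
  have h2 : (a1 * Lg ^ 2) ^ (2 * 1) ≤ 2401 * a1 ^ 2 * Λ ^ 4 := by
    have a : Lg ^ 2 ≤ (7 * Λ) ^ 2 := pow_le_pow_left₀ hLg0 hLg 2
    calc (a1 * Lg ^ 2) ^ (2 * 1) ≤ (a1 * (7 * Λ) ^ 2) ^ (2 * 1) :=
          pow_le_pow_left₀ (by positivity) (mul_le_mul_of_nonneg_left a ha1) _
      _ = 2401 * a1 ^ 2 * Λ ^ 4 := by ring
  have hΛ4 : 1 ≤ Λ ^ 4 := one_le_pow₀ hΛ
  have hΛth : 1 ≤ Λ ^ 4 * th := by nlinarith
  have h3 : c0 + ((a1 * Lg ^ 2) ^ (2 * 1) + th * rr) * C1 ≤ (c0 + (2401 * a1 ^ 2 + rr) * C1) * (Λ ^ 4 * th) := by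
    have b1 : c0 ≤ c0 * (Λ ^ 4 * th) := by nlinarith
    have b2 : (a1 * Lg ^ 2) ^ (2 * 1) ≤ 2401 * a1 ^ 2 * (Λ ^ 4 * th) := by
      have : 0 ≤ 2401 * a1 ^ 2 * Λ ^ 4 := by positivity
      nlinarith
    have b3 : th * rr ≤ rr * (Λ ^ 4 * th) := by
      have : 0 ≤ th * rr := by positivity
      nlinarith
    have b4 : ((a1 * Lg ^ 2) ^ (2 * 1) + th * rr) * C1 ≤ (2401 * a1 ^ 2 * (Λ ^ 4 * th) + rr * (Λ ^ 4 * th)) * C1 :=
      mul_le_mul_of_nonneg_right (by linarith) hC1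
    nlinarith
  have hc2 : 0 ≤ c0 + (2401 * a1 ^ 2 + rr) * C1 := by positivity
  calc K ^ 3 * ((c0 + ((a1 * Lg ^ 2) ^ (2 * 1) + th * rr) * C1) * Yd)
      ≤ (1728 * Λ ^ 3) * (((c0 + (2401 * a1 ^ 2 + rr) * C1) * (Λ ^ 4 * th)) * Yd) :=
        mul_le_mul h1 (mul_le_mul_of_nonneg_right h3 hYd)
          (mul_nonneg (by have : 0 ≤ (a1 * Lg ^ 2) ^ (2 * 1) := by positivity
                          positivity) hYd) (by positivity)
    _ = 1728 * (c0 + (2401 * a1 ^ 2 + rr) * C1) * (Λ ^ 7) * th * Yd := by ring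
    _ ≤ 1728 * (c0 + (2401 * a1 ^ 2 + rr) * C1) * (P7 * th) * th * Yd := by
        have : 0 ≤ 1728 * (c0 + (2401 * a1 ^ 2 + rr) * C1) := by positivity
        have e := mul_le_mul_of_nonneg_left hP7 this
        exact mul_le_mul_of_nonneg_right (mul_le_mul_of_nonneg_right e (by linarith)) hYd
    _ = _ := by ring

/-- exceptional term -/
theorem skprw_arith_bad {K Λ Lg aR Cv h yR PN xi x6 : ℝ} (N : ℕ) (hK0 : 0 ≤ K) (hK : K ≤ 12 * Λ) (hΛ : 1 ≤ Λ) (hLg0 : 0 ≤ Lg)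
    (hLg : Lg ≤ 7 * Λ) (haR : 0 ≤ aR) (hCv : 0 ≤ Cv) (hh : 0 ≤ h) (hyR : 0 ≤ yR)
    (hPN : Λ ^ (4 * N + 3) ≤ PN * xi) (hPN0 : 0 ≤ PN) (hx : xi * yR ≤ x6) :
    K ^ 3 * (64 * Cv * h * ((aR * Lg ^ 2) ^ (2 * N) * yR))
      ≤ 1728 * 64 * Cv * (49 * aR) ^ (2 * N) * PN * x6 * h := by
  have hΛ0 : 0 < Λ := by linarith
  have h1 : K ^ 3 ≤ 1728 * Λ ^ 3 := by
    calc K ^ 3 ≤ (12 * Λ) ^ 3 := pow_le_pow_left₀ hK0 hK 3
      _ = 1728 * Λ ^ 3 := by ring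
  have h2 : (aR * Lg ^ 2) ^ (2 * N) ≤ (49 * aR) ^ (2 * N) * Λ ^ (4 * N) := by
    have a : Lg ^ 2 ≤ (7 * Λ) ^ 2 := pow_le_pow_left₀ hLg0 hLg 2
    calc (aR * Lg ^ 2) ^ (2 * N) ≤ (aR * (7 * Λ) ^ 2) ^ (2 * N) :=
          pow_le_pow_left₀ (by positivity) (mul_le_mul_of_nonneg_left a haR) _
      _ = ((49 * aR) * Λ ^ 2) ^ (2 * N) := by congr 1; ring
      _ = (49 * aR) ^ (2 * N) * Λ ^ (4 * N) := by
          rw [mul_pow, ← pow_mul]; congr 2; ring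
  calc K ^ 3 * (64 * Cv * h * ((aR * Lg ^ 2) ^ (2 * N) * yR))
      ≤ (1728 * Λ ^ 3) * (64 * Cv * h * (((49 * aR) ^ (2 * N) * Λ ^ (4 * N)) * yR)) :=
        mul_le_mul h1 (mul_le_mul_of_nonneg_left (mul_le_mul_of_nonneg_right h2 hyR) (by positivity))
          (by positivity) (by positivity)
    _ = 1728 * 64 * Cv * (49 * aR) ^ (2 * N) * h * yR * Λ ^ (4 * N + 3) := by ring
    _ ≤ 1728 * 64 * Cv * (49 * aR) ^ (2 * N) * h * yR * (PN * xi) :=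
        mul_le_mul_of_nonneg_left hPN (by positivity)
    _ = 1728 * 64 * Cv * (49 * aR) ^ (2 * N) * h * PN * (xi * yR) := by ring
    _ ≤ 1728 * 64 * Cv * (49 * aR) ^ (2 * N) * h * PN * x6 :=
        mul_le_mul_of_nonneg_left hx (by positivity)
    _ = _ := by ring

/-- the truncation parameters fit -/
theorem skprw_arith_eps {a y : ℝ} (hy : 0 < y) (N r : ℕ) :
    a ^ (2 * (N * r)) ≤ (a ^ (2 * N) * y ^ N) ^ r * (y⁻¹) ^ (N * r) := by
  refine le_of_eq ?_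
  rw [mul_pow, ← pow_mul, ← pow_mul, mul_assoc, ← mul_pow, mul_inv_cancel₀ hy.ne', one_pow, mul_one, mul_assoc]

set_option maxHeartbeats 1600000 in
/-- **Leaf RW** (TEX[LL:prop:statistics-pointwise], LL 08 l.534-569): the refined integral of `W` over a (D4) window of a nontrivial cut. -/
theorem skp_leaf_rw : SkpLeafRW := by
  intro S hS r ε hr hε
  obtain ⟨N, hN⟩ : ∃ N : ℕ, N = ⌈14 / ε⌉₊ + 1 := ⟨_, rfl⟩
  obtain ⟨R, hR⟩ : ∃ R : ℕ, R = N * r := ⟨_, rfl⟩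
  obtain ⟨P7, hP71, hP7⟩ := skpl_polylog 7 (half_pos hε)
  obtain ⟨PN, hPN1, hPN⟩ := skpl_polylog (4 * N + 3) one_pos
  obtain ⟨c2, hc2⟩ : ∃ c2 : ℝ, c2 = 8192 * r * S.CW ^ 2 * S.Cv + (2401 * S.K.cA3 1 ^ 2 + r) * skprwC1 S r := ⟨_, rfl⟩
  obtain ⟨c3, hc3⟩ : ∃ c3 : ℝ, c3 = 1728 * 64 * S.Cv * (49 * S.K.cA3 R) ^ (2 * N) := ⟨_, rfl⟩
  have hCW := hS.CW
  have hCv := hS.Cv
  have hcD := hS.cD3
  have hC1 : 0 ≤ skprwC1 S r := by
    have := hS.Cm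
    unfold skprwC1; positivity
  have hc20 : 0 ≤ c2 := by rw [hc2]; positivity
  have haR : 1 ≤ S.K.cA3 R := hS.cA3 R
  have ha1 : 1 ≤ S.K.cA3 1 := hS.cA3 1
  have hc30 : 0 ≤ c3 := by rw [hc3]; positivity
  obtain ⟨C, hC⟩ : ∃ C : ℝ, C = 1728 * c2 * P7 + c3 * PN + 4 * S.CW + 4 + S.Cv + 4 / S.cD3 := ⟨_, rfl⟩
  have hm1 : 0 ≤ 1728 * c2 * P7 := by positivity
  have hm2 : 0 ≤ c3 * PN := by positivity
  have hm3 : 0 < 4 / S.cD3 := by positivity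
  refine ⟨C, by rw [hC]; linarith, ?_⟩
  intro Ω _ m I hI hsm B hB hinc z₀ hz₀ hnt k₁ k₂ h12 hzlo hnear hlen
  have hCpos : 0 < C := by rw [hC]; linarith
  have hle : ∀ c : ℝ, 0 < c → c ≤ C → 1 / C ≤ 1 / c := fun c hc hcC => one_div_le_one_div_of_le hc hcC
  have H : SkprwHyp S I r B z₀ k₁ k₂ :=
    ⟨hS, hI, hB, hinc, hz₀, hnt, h12, hzlo, hnear, hlen,
      hsm.b.trans (hle _ (by linarith) (by rw [hC]; linarith)),
      hsm.x.trans (hle _ (by norm_num) (by rw [hC]; linarith)),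
      hsm.x.trans (hle _ (by linarith) (by rw [hC]; linarith)),
      (hsm.x.trans (hle _ hm3 (by rw [hC]; linarith))).trans (le_of_eq (by field_simp))⟩
  have hx0 := hI.wh.x0
  have hx1 := skprw_x1 H
  obtain ⟨x, hxd⟩ : ∃ x : ℝ, x = I.d.x := ⟨_, rfl⟩
  rw [← hxd] at hx0 hx1
  obtain ⟨Λ, hΛd⟩ : ∃ Λ : ℝ, Λ = 1 + Real.log (1 / x) := ⟨_, rfl⟩
  have hlog0 : 0 ≤ Real.log (1 / x) := Real.log_nonneg (by rw [le_div_iff₀ hx0]; linarith)
  have hΛ1 : 1 ≤ Λ := by rw [hΛd]; linarith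
  obtain ⟨y, hyd⟩ : ∃ y : ℝ, y = x ^ (ε / 2) := ⟨_, rfl⟩
  have hy0 : 0 < y := by rw [hyd]; exact Real.rpow_pos_of_pos hx0 _
  have hy1 : y ≤ 1 := by rw [hyd]; exact Real.rpow_le_one hx0.le hx1 (half_pos hε).le
  have hth : 1 ≤ y⁻¹ := (one_le_inv₀ hy0).2 hy1
  have hthe : y⁻¹ = x ^ (-(ε / 2)) := by rw [hyd, Real.rpow_neg hx0.le]
  have hthth : y⁻¹ * y⁻¹ = x ^ (-ε) := by
    rw [hthe, ← Real.rpow_add hx0]; congr 1; ring
  have hxe1 : 1 ≤ x ^ (-ε) := by rw [← hthth]; nlinarith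
  -- the number of layers
  have hd := skprw_d_pos H
  have hdh := skprw_d_le_h H
  have hh := skprw_hpos H
  have hdA : skprwD I z₀ ≤ 1 / (4 * S.CW) := by
    rw [le_div_iff₀ (by linarith)]
    have h1 := skprw_CWh H
    have h2 := skpl_R_le_one z₀
    nlinarith [h1.1, h1.2.1]
  obtain ⟨Bn, hBn1, hA, hA', hBnlog⟩ := skpl_exists_Bn hd hdA
  have hK : (((Bn + 1 : ℕ) : ℝ)) ≤ 12 * Λ := by
    have h1 : 1 / (4 * S.CW) / skprwD I z₀ ≤ (1 / x) ^ 6 := by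
      rw [div_le_iff₀ hd]
      have h2 := skprw_d_ge H
      rw [← hxd] at h2
      have h3 : 1 / (4 * S.CW) ≤ 1 := by rw [div_le_one (by linarith)]; linarith
      have h4 : 1 ≤ (1 / x) ^ 6 * x ^ 6 := by rw [← mul_pow, one_div, inv_mul_cancel₀ hx0.ne', one_pow]
      have h5 : (1 / x) ^ 6 * x ^ 6 ≤ (1 / x) ^ 6 * skprwD I z₀ := mul_le_mul_of_nonneg_left h2 (by positivity)
      linarith
    have h6 : Real.log (1 / (4 * S.CW) / skprwD I z₀) ≤ 6 * Real.log (1 / x) := by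
      have := Real.log_le_log (by positivity) h1
      rwa [Real.log_pow] at this
    push_cast
    rw [hΛd]
    linarith
  have hN1 : 1 ≤ N := by omega
  have hR1 : 1 ≤ R := by rw [hR]; exact Nat.mul_pos hN1 hr
  have heps0 : 0 ≤ (S.K.cA3 R * I.Lg ^ 2) ^ (2 * N) * y ^ N := by
    have : 0 ≤ (S.K.cA3 R * I.Lg ^ 2) ^ (2 * N) := by rw [pow_mul]; positivity
    positivity
  have heps : (S.K.cA3 R * I.Lg ^ 2) ^ (2 * R) ≤ ((S.K.cA3 R * I.Lg ^ 2) ^ (2 * N) * y ^ N) ^ r * (y⁻¹) ^ R := by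
    have := skprw_arith_eps (a := S.K.cA3 R * I.Lg ^ 2) hy0 N r
    rwa [← hR] at this
  have core := skprw_core H hr hR1 hBn1 hA hA' hth heps0 heps
  refine core.trans (pow_le_pow_left₀ ?_ ?_ r)
  · have hZ2 : 0 < I.d.Z ^ 2 := by have := hI.wh.Z1; positivity
    have t0 : 0 ≤ (S.K.cA3 1 * I.Lg ^ 2) ^ (2 * 1) := by rw [pow_mul]; positivity
    have t1 : 0 ≤ 8192 * (r : ℝ) * S.CW ^ 2 * S.Cv := by positivity
    have t2 : 0 ≤ (S.K.cA3 1 * I.Lg ^ 2) ^ (2 * 1) + y⁻¹ * r :=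
      add_nonneg t0 (mul_nonneg (by linarith) (Nat.cast_nonneg _))
    have t3 : 0 ≤ B * I.d.Z ^ 2 * I.hh z₀ := by positivity
    have t4 : 0 ≤ 64 * S.Cv * I.hh z₀ := by positivity
    exact mul_nonneg (pow_nonneg (Nat.cast_nonneg _) 3) (add_nonneg (mul_nonneg (mul_nonneg
      (add_nonneg t1 (mul_nonneg t2 hC1)) t3) hd.le) (mul_nonneg t4 heps0))
  -- final arithmetic
  have hZ2 : 1 ≤ I.d.Z ^ 2 := one_le_pow₀ hI.wh.Z1
  obtain ⟨Y, hY⟩ : ∃ Y : ℝ, Y = B * I.d.Z ^ 2 * I.hh z₀ := ⟨_, rfl⟩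
  have hBZ : 1 ≤ B * I.d.Z ^ 2 := by nlinarith
  have hhY : I.hh z₀ ≤ Y := by rw [hY]; nlinarith
  have hY0 : 0 < Y := lt_of_lt_of_le hh hhY
  have hLg : I.Lg ≤ 7 * Λ := by
    have := hI.Lg
    rw [← hxd] at this
    rw [hΛd]; linarith
  have hK0 : (0 : ℝ) ≤ ((Bn + 1 : ℕ) : ℝ) := Nat.cast_nonneg _
  have hmain := skprw_arith_main (K := ((Bn + 1 : ℕ) : ℝ)) (Λ := Λ) (Lg := I.Lg) (th := y⁻¹) (a1 := S.K.cA3 1)
    (c0 := 8192 * r * S.CW ^ 2 * S.Cv) (C1 := skprwC1 S r) (rr := r) (P7 := P7) (Yd := Y * skprwD I z₀)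
    hK0 hK hΛ1 hI.Lg0 hLg hth (by linarith) (by positivity) hC1 (Nat.cast_nonneg _)
    (by rw [hΛd, hthe]; exact hP7 x hx0 hx1) (by positivity)
  have hyN : x ^ (-1 : ℝ) * y ^ N ≤ x ^ 6 := by
    have h1 : y ^ N = x ^ (ε / 2 * N) := by
      rw [hyd, ← Real.rpow_natCast, ← Real.rpow_mul hx0.le]
    have h2 : (7 : ℝ) ≤ ε / 2 * N := by
      have h3 : 14 / ε ≤ (N : ℝ) := by
        have := Nat.le_ceil (14 / ε)
        rw [hN]; push_cast; linarith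
      rw [div_le_iff₀ hε] at h3
      linarith
    have h4 : x ^ (ε / 2 * N) ≤ x ^ (7 : ℝ) := Real.rpow_le_rpow_of_exponent_ge hx0 hx1 h2
    have h5 : x ^ (-1 : ℝ) * x ^ (7 : ℝ) = x ^ 6 := by
      rw [← Real.rpow_add hx0, ← Real.rpow_natCast]; norm_num
    rw [h1, ← h5]
    exact mul_le_mul_of_nonneg_left h4 (Real.rpow_nonneg hx0.le _)
  have hbad := skprw_arith_bad (K := ((Bn + 1 : ℕ) : ℝ)) (Λ := Λ) (Lg := I.Lg) (aR := S.K.cA3 R) (Cv := S.Cv)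
    (h := I.hh z₀) (yR := y ^ N) (PN := PN) (xi := x ^ (-1 : ℝ)) (x6 := x ^ 6) N
    hK0 hK hΛ1 hI.Lg0 hLg (by linarith) (by linarith) hh.le (by positivity)
    (by rw [hΛd]; exact hPN x hx0 hx1) (by linarith) hyN
  rw [hthth] at hmain
  rw [← hc2] at hmain
  rw [← hc3] at hbad
  have hx6 : x ^ 6 * I.hh z₀ ≤ x ^ (-ε) * (Y * skprwD I z₀) := by
    have h2 := skprw_d_ge H
    rw [← hxd] at h2
    have h3 : x ^ 6 * I.hh z₀ ≤ skprwD I z₀ * Y := mul_le_mul h2 hhY hh.le hd.le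
    have h4 : 0 ≤ Y * skprwD I z₀ := by positivity
    nlinarith
  have hYd0 : 0 ≤ x ^ (-ε) * (Y * skprwD I z₀) := by positivity
  rw [← hY]
  calc ((Bn + 1 : ℕ) : ℝ) ^ 3 * ((8192 * r * S.CW ^ 2 * S.Cv + ((S.K.cA3 1 * I.Lg ^ 2) ^ (2 * 1) + y⁻¹ * r) * skprwC1 S r)
        * Y * skprwD I z₀ + 64 * S.Cv * I.hh z₀ * ((S.K.cA3 R * I.Lg ^ 2) ^ (2 * N) * y ^ N))
      = ((Bn + 1 : ℕ) : ℝ) ^ 3 * ((8192 * r * S.CW ^ 2 * S.Cv + ((S.K.cA3 1 * I.Lg ^ 2) ^ (2 * 1) + y⁻¹ * r) * skprwC1 S r)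
        * (Y * skprwD I z₀)) + ((Bn + 1 : ℕ) : ℝ) ^ 3 * (64 * S.Cv * I.hh z₀ * ((S.K.cA3 R * I.Lg ^ 2) ^ (2 * N) * y ^ N)) := by
        ring
    _ ≤ 1728 * c2 * P7 * x ^ (-ε) * (Y * skprwD I z₀) + c3 * PN * x ^ 6 * I.hh z₀ := add_le_add hmain hbad
    _ = 1728 * c2 * P7 * (x ^ (-ε) * (Y * skprwD I z₀)) + c3 * PN * (x ^ 6 * I.hh z₀) := by ring
    _ ≤ 1728 * c2 * P7 * (x ^ (-ε) * (Y * skprwD I z₀)) + c3 * PN * (x ^ (-ε) * (Y * skprwD I z₀)) := by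
        have := mul_le_mul_of_nonneg_left hx6 hm2
        linarith
    _ = (1728 * c2 * P7 + c3 * PN) * (x ^ (-ε) * (Y * skprwD I z₀)) := by ring
    _ ≤ C * (x ^ (-ε) * (Y * skprwD I z₀)) :=
        mul_le_mul_of_nonneg_right (by rw [hC]; linarith) hYd0
    _ = C * I.d.x ^ (-ε) * (I.d.x ^ 6 / (I.lam1 * skwR z₀ ^ 3)) * I.hh z₀ * B * I.d.Z ^ 2 := by
        rw [hY, hxd]; unfold skprwD; ring

end Claimed.Agent.R286
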