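import Claimed.Agent.R286.PM.D6

/-!
# Row 286 (S0533), folder PM, file Raw : LL Prop 8.1, FIRST LINE of (D2) = the raw moments      (OWNER helper188; prefix `skp_raw_`)

Contract v3.1 of helper37.   Exit `skp_raw_all : SkpRaw` (cited by `skp_raw` in PM/Contract.lean).
* Part 1: basics: monotonicity of `RawB`, the trivial constant `1/zlo`, the projection gap `[first cut ≥ ρ, first cut ≥ 2ρ)` (`skp_raw_gap`).
* Part 2: the window `J = [first cut ≥ 2ζ, first cut ≥ 3ζ)`, `ζ = max(z_k, zlo)`: mean of `L_J`, fluctuation of `L_J` from (A1) + (D6), `|X_k|² ≤ 2 E_k L_J`.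
* Part 3: the bootstrap `RawB r B → RawB r (C₁ + B/2)`, iterated (no least constant is needed), `skp_raw_nX`.
* Part 4: `Q` at the fork `k` (synchronised doubling layers, `bud_bm_sync`), `L_k` (conditional Jensen from `Q`), the exit.
-/

set_option autoImplicit false

namespace Claimed.Agent.R286

open Set MeasureTheory

/-! ## Part 1 : basics -/
section basics

variable {Ω : Type} [mΩ : MeasurableSpace Ω] {m : ℕ} {S : SkpS} {I : SkpI Ω m}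

/-- the smallness of `x` that is used everywhere -/
structure SkpRawSm (S : SkpS) (I : SkpI Ω m) : Prop where
  hx2 : I.d.x ≤ 1 / 2
  hxv : I.d.x ≤ 1 / S.Cv
  hxc : I.d.x ≤ S.cD3 / 4

theorem skp_raw_R_nonneg (hI : I.Ok S) (k : ℕ) : 0 ≤ skwR (I.z k) := le_min (skp_d6_z_nonneg hI k) zero_le_one

theorem skp_raw_mono (hI : I.Ok S) {r : ℕ} {B B' : ℝ} (hB : 0 ≤ B) (hBB : B ≤ B') (h : I.RawB r B) : I.RawB r B' := by
  intro k hk
  have h0 : 0 ≤ skwR (I.z k) + I.d.zlo := add_nonneg (skp_raw_R_nonneg hI k) hI.wh.zlo0.le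
  exact (h k hk).trans (pow_le_pow_left₀ (mul_nonneg hB h0) (mul_le_mul_of_nonneg_right hBB h0) r)

/-- a bounded variable has bounded moments -/
theorem skp_raw_le_one {α : Type} [MeasurableSpace α] (μ : Measure α) [IsProbabilityMeasure μ] {f : α → ℝ} (h1 : ∀ ω, |f ω| ≤ 1) (q : ℕ) :
    ∫ ω, f ω ^ q ∂μ ≤ 1 := by
  have h2 : ∀ ω, f ω ^ q ≤ 1 := fun ω => by
    calc f ω ^ q ≤ |f ω ^ q| := le_abs_self _
      _ = |f ω| ^ q := abs_pow _ _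
      _ ≤ 1 := pow_le_one₀ (abs_nonneg _) (h1 ω)
  by_cases hi : Integrable (fun ω => f ω ^ q) μ
  · calc ∫ ω, f ω ^ q ∂μ ≤ ∫ _ω, (1 : ℝ) ∂μ := integral_mono hi (integrable_const _) h2
      _ = 1 := by simp
  · rw [integral_undef hi]; exact zero_le_one

theorem skp_raw_nX_abs (hI : I.Ok S) (k : ℕ) (ω : Ω) : |I.P.nX k ω| ≤ 1 := by
  rw [abs_of_nonneg (skp_d6_nX_nonneg I.P k ω)]; exact I.P.l8s_nX_le_one hI.sp k ω

/-- the trivial constant -/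
theorem skp_raw_triv (hI : I.Ok S) (r : ℕ) : I.RawB r (1 / I.d.zlo) := by
  intro k _
  have := hI.sp.prob
  have hz := hI.wh.zlo0
  have h0 := skp_raw_R_nonneg hI k
  refine (skp_raw_le_one I.P.μ (skp_raw_nX_abs hI k) r).trans (one_le_pow₀ ?_)
  rw [one_div, inv_mul_eq_div, le_div_iff₀ hz]
  linarith

theorem skp_raw_x1 (sm : SkpRawSm S I) : I.d.x ≤ 1 := by have := sm.hx2; linarith

/-- the mesh is far below every scale -/
theorem skp_raw_delta (hI : I.Ok S) (sm : SkpRawSm S I) : I.δ ≤ I.d.x / 2 := by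
  have hx0 := hI.wh.x0
  have h1 : I.d.x ^ 40 = I.d.x * I.d.x ^ 39 := by ring
  have h2 : I.d.x ^ 39 ≤ 1 / 2 := by
    calc I.d.x ^ 39 ≤ I.d.x ^ 1 := pow_le_pow_of_le_one hx0.le (skp_raw_x1 sm) (by norm_num)
      _ = I.d.x := pow_one _
      _ ≤ 1 / 2 := sm.hx2
  have h3 : I.d.x * I.d.x ^ 39 ≤ I.d.x * (1 / 2) := mul_le_mul_of_nonneg_left h2 hx0.le
  have := hI.mesh
  linarith

/-- the first cut after the coordinate `a` -/
theorem skp_raw_ix (hI : I.Ok S) {a : ℝ} (h0 : 0 < a) (ha : a ≤ S.zreg) :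
    a ≤ I.zc (skpIx I a) ∧ I.zc (skpIx I a) < a + I.δ ∧ skpIx I a ≤ I.nb :=
  ⟨skp_ix_ge hI (ha.trans hI.zreg), skp_ix_up hI h0 (ha.trans hI.zreg), skp_ix_le_nb hI (ha.trans hI.zreg)⟩

/-- the projection gap at the scale `ρ` -/
theorem skp_raw_gap (hS : S.Ok) (hI : I.Ok S) (sm : SkpRawSm S I) {ρ : ℝ} (h1 : I.d.zlo ≤ ρ) (h2 : 2 * ρ ≤ S.zreg) :
    skpIx I ρ < skpIx I (2 * ρ) ∧ skpIx I (2 * ρ) ≤ I.nb ∧ I.lowb ≤ I.P.v (skpIx I ρ) ∧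
      I.lowb ≤ I.P.hlen (skpIx I ρ) (skpIx I (2 * ρ)) ∧
      (ρ / S.Cv) ^ 2 * (1 / (S.Cm * I.d.x ^ 6)) * (S.cD3 * I.lam1 * ρ ^ 2 * (ρ / 2)) ≤ mbxDen I.P (skpIx I ρ) (skpIx I (2 * ρ)) := by
  have hx0 := hI.wh.x0
  have hx1 := skp_raw_x1 sm
  have hδ := skp_raw_delta hI sm
  have hCv0 : 0 < S.Cv := by linarith [hS.Cv]
  have hCm0 : 0 < S.Cm := by linarith [hS.Cm]
  have hc := hS.cD3
  have hzr1 := hS.zreg1
  have hzlo0 := hI.wh.zlo0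
  have hxρ : I.d.x ≤ ρ := hI.zlox.trans h1
  have hρ0 : 0 < ρ := lt_of_lt_of_le hx0 hxρ
  have hlam0 : 0 < I.lam1 := lt_of_lt_of_le (by positivity) hI.lam1a
  obtain ⟨hp1, hp2, hp3⟩ := skp_raw_ix hI hρ0 (by linarith : ρ ≤ S.zreg)
  obtain ⟨hT1, -, hT3⟩ := skp_raw_ix hI (by linarith : 0 < 2 * ρ) h2
  have hpT : skpIx I ρ < skpIx I (2 * ρ) := skp_ix_gt hI (h2.trans hI.zreg) (by linarith)
  obtain ⟨T, hT⟩ : ∃ T, T = skpIx I (2 * ρ) := ⟨_, rfl⟩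
  obtain ⟨p, hp⟩ : ∃ p, p = skpIx I ρ := ⟨_, rfl⟩
  rw [← hT, ← hp] at hpT ⊢
  rw [← hT] at hT1 hT3
  rw [← hp] at hp1 hp2 hp3
  obtain ⟨zp, hzp⟩ : ∃ zp : ℝ, zp = I.z p := ⟨_, rfl⟩
  have ezp : I.zc p = zp := hzp.symm
  rw [ezp] at hp1 hp2
  have hzp1 : zp ≤ 1 := by linarith
  have hRp : skwR (I.z p) = zp := by rw [← hzp]; exact min_eq_left hzp1
  have hlo4 : I.d.zlo / 4 ≤ I.z p := by rw [← hzp]; linarith
  have hvlo := hI.vlo p hp3 hlo4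
  rw [hRp] at hvlo
  have hD3 := hI.D3 p T hpT hT3 hlo4
  rw [hRp] at hD3
  have hdz : ρ / 2 ≤ I.z T - I.z p := by
    have e : I.z T = I.zc T := rfl
    rw [e, ← hzp]; linarith
  have hzp0 : 0 < zp := lt_of_lt_of_le hρ0 hp1
  have hlowb := hI.lowb
  have hΔ' : S.cD3 * I.lam1 * zp ^ 2 * (ρ / 2) ≤ I.P.hlen p T :=
    le_trans (mul_le_mul_of_nonneg_left hdz (by positivity)) hD3
  have hΔ : S.cD3 * I.lam1 * ρ ^ 2 * (ρ / 2) ≤ I.P.hlen p T := by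
    refine le_trans ?_ hΔ'
    exact mul_le_mul_of_nonneg_right (mul_le_mul_of_nonneg_left (pow_le_pow_left₀ hρ0.le hp1 2) (by positivity))
      (by positivity)
  refine ⟨hpT, hT3, ?_, ?_, ?_⟩
  · have h1 : I.d.x ^ 80 ≤ I.d.x ^ 2 := pow_le_pow_of_le_one hx0.le hx1 (by norm_num)
    have h2 : I.d.x ^ 2 ≤ zp / S.Cv := by
      rw [sq, div_eq_mul_one_div]
      exact mul_le_mul (hxρ.trans hp1) sm.hxv hx0.le hzp0.le
    linarith
  · have h1 : I.d.x ^ 80 ≤ I.d.x ^ 18 := pow_le_pow_of_le_one hx0.le hx1 (by norm_num)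
    have h2 : I.d.x ^ 18 ≤ S.cD3 / 4 * I.d.x ^ 17 := by
      rw [pow_succ, mul_comm]
      exact mul_le_mul_of_nonneg_right sm.hxc (by positivity)
    have h3 : S.cD3 / 4 * I.d.x ^ 17 ≤ S.cD3 * I.d.x ^ 14 * I.d.x ^ 2 * (I.d.x / 2) := by
      have e : S.cD3 * I.d.x ^ 14 * I.d.x ^ 2 * (I.d.x / 2) = 2 * (S.cD3 / 4 * I.d.x ^ 17) := by ring
      have : 0 ≤ S.cD3 / 4 * I.d.x ^ 17 := by positivity
      rw [e]; linarith
    have h4 : S.cD3 * I.d.x ^ 14 * I.d.x ^ 2 * (I.d.x / 2) ≤ S.cD3 * I.lam1 * ρ ^ 2 * (ρ / 2) := by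
      refine mul_le_mul (mul_le_mul (mul_le_mul_of_nonneg_left hI.lam1a hc.le) (pow_le_pow_left₀ hx0.le hxρ 2)
        (by positivity) (by positivity)) (by linarith) (by positivity) (by positivity)
    linarith
  · have hm0 : (0 : ℝ) < m := by exact_mod_cast hI.m0
    have h1 : 0 < ρ / S.Cv := by positivity
    have h3 : 1 / (S.Cm * I.d.x ^ 6) ≤ m := by
      rw [one_div_le (by positivity) hm0]; exact hI.msz
    have hvm : ρ / S.Cv ≤ I.P.v p := (div_le_div_of_nonneg_right hp1 hCv0.le).trans hvlo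
    have h2 : 0 < S.cD3 * I.lam1 * ρ ^ 2 * (ρ / 2) := by positivity
    unfold mbxDen
    exact mul_le_mul (mul_le_mul (pow_le_pow_left₀ h1.le hvm 2) h3 (by positivity) (by positivity)) hΔ h2.le
      (by positivity)

/-- `x⁶/λ₁ ≤ g₀² ζ⁶` for every scale `ζ ≥ zlo` -/
theorem skp_raw_g0 (hI : I.Ok S) {ζ : ℝ} (h1 : I.d.zlo ≤ ζ) : I.d.x ^ 6 / I.lam1 ≤ I.g0 ^ 2 * ζ ^ 6 := by
  have hx0 := hI.wh.x0
  have hlam0 : 0 < I.lam1 := lt_of_lt_of_le (by positivity) hI.lam1a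
  have hU0 : 0 < I.d.U := lt_of_lt_of_le hx0 hI.wh.xU
  have hUζ : I.d.U ≤ ζ := by
    have h2 : I.d.U * 1 ≤ I.d.U * I.d.Z := mul_le_mul_of_nonneg_left hI.wh.Z1 hU0.le
    have := hI.Yz
    linarith
  have h3 := pow_le_pow_left₀ (by positivity) hI.g0a 2
  rw [div_pow, Real.sq_sqrt hlam0.le] at h3
  calc I.d.x ^ 6 / I.lam1 = (I.d.x ^ 3) ^ 2 / I.lam1 := by ring
    _ ≤ (I.g0 * I.d.U ^ 3) ^ 2 := h3
    _ = I.g0 ^ 2 * I.d.U ^ 6 := by ring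
    _ ≤ I.g0 ^ 2 * ζ ^ 6 := mul_le_mul_of_nonneg_left (pow_le_pow_left₀ hU0.le hUζ 6) (by positivity)

end basics

/-! ## Part 2 : windows -/
section window

variable {Ω : Type} [mΩ : MeasurableSpace Ω] {m : ℕ} {S : SkpS} {I : SkpI Ω m}

theorem skp_raw_z_le_buf (hI : I.Ok S) {l : ℕ} (hl : l ≤ I.nb) : I.z l ≤ I.zbuf := by
  have := hI.zmono hl
  rw [hI.nb] at this
  exact this

/-- the deterministic mean bound, with the weight of the cell -/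
theorem skp_raw_S_le (hI : I.Ok S) {l : ℕ} (hl : l < I.nb) (hlo : I.d.zlo / 4 ≤ I.z l) :
    I.dz l * I.P.S l ≤ I.dz l * ((S.Cq + S.c.Cf) * skwR (I.z l)) := by
  rcases (skp_d6_dz_nonneg hI l).eq_or_lt with h0 | h0
  · rw [← h0]; simp
  · refine mul_le_mul_of_nonneg_left ?_ h0.le
    have hlt : I.z l < I.z (l + 1) := by
      have e : I.dz l = I.z (l + 1) - I.z l := rfl
      rw [e] at h0; linarith
    have hb := skp_raw_z_le_buf hI hl.le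
    have hmem : I.z l ∈ Icc 0 I.zbuf := ⟨skp_d6_z_nonneg hI l, hb⟩
    have h1 := hI.Slink l hl.le (I.z l) hmem le_rfl hlt
    have h2 := hI.wh.fr (I.z l) ⟨hlo, hb.trans hI.zbuf⟩
    have h3 := hI.qr (I.z l) hmem
    have h4 : skwF I.d (I.z l) = I.d.S (I.z l) - I.d.q (I.z l) := rfl
    have h5 := le_abs_self (skwF I.d (I.z l))
    rw [← h1]
    linarith

/-- floor of the density in the regular region -/
theorem skp_raw_dv (hI : I.Ok S) {l : ℕ} (hl : l < I.nb) (hreg : I.z (l + 1) ≤ S.zreg) : S.cG * I.dz l ≤ I.P.dv l := by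
  rw [hI.gaplink l hl]
  have hab : I.z l ≤ I.z (l + 1) := hI.zmono (Nat.le_succ l)
  have h0 := skp_d6_z_nonneg hI l
  have hmax : I.z (l + 1) ≤ I.d.zmax := (hreg.trans hI.zreg).trans hI.zbuf
  have hzm : 0 ≤ I.d.zmax := by linarith
  have hG : IntervalIntegrable I.d.G volume (I.z l) (I.z (l + 1)) := by
    refine hI.wh.Gi.mono_set ?_
    rw [uIcc_of_le hab, uIcc_of_le hzm]
    exact Icc_subset_Icc h0 hmax
  have h1 := intervalIntegral.integral_mono_on hab (intervalIntegrable_const (c := S.cG)) hG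
    (fun x hx => hI.Greg x ⟨h0.trans hx.1, hx.2.trans hreg⟩)
  rw [intervalIntegral.integral_const, smul_eq_mul] at h1
  have e : I.dz l = I.z (l + 1) - I.z l := rfl
  rw [e, mul_comm]
  exact h1

theorem skp_raw_w_sum (I : SkpI Ω m) {k₁ k₂ : ℕ} (hk : k₁ ≤ k₂) {len : ℝ} (hlen : len = I.z k₂ - I.z k₁) (hpos : 0 < len) :
    ∑ l ∈ Finset.Ico k₁ k₂, I.dz l / len = 1 := by
  rw [← Finset.sum_div, skp_d6_sum_dz I hk, ← hlen, div_self hpos.ne']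

theorem skp_raw_LJ_bd (hI : I.Ok S) (k₁ k₂ : ℕ) (len : ℝ) : L8Bd (fun ω => ∑ l ∈ Finset.Ico k₁ k₂, I.dz l / len * I.P.L l ω) :=
  L8Bd.sum _ fun l _ => (I.P.l8s_L_bd hI.sp l).const_mul _

/-- mean of the window average of `L` -/
theorem skp_raw_mean (hS : S.Ok) (hI : I.Ok S) {k₁ k₂ : ℕ} (hk : k₁ ≤ k₂) (hk2 : k₂ ≤ I.nb) (hlo : I.d.zlo / 4 ≤ I.z k₁) {len : ℝ}
    (hlen : len = I.z k₂ - I.z k₁) (hpos : 0 < len) :
    |∫ ω, (∑ l ∈ Finset.Ico k₁ k₂, I.dz l / len * I.P.L l ω) ∂I.P.μ| ≤ (S.Cq + S.c.Cf) * I.z k₂ / 2 := by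
  have := hI.sp.prob
  have hC : 0 ≤ S.Cq + S.c.Cf := by linarith [hS.Cq, hS.c.Cf]
  have e1 : ∫ ω, (∑ l ∈ Finset.Ico k₁ k₂, I.dz l / len * I.P.L l ω) ∂I.P.μ = ∑ l ∈ Finset.Ico k₁ k₂, I.dz l * I.P.S l / (2 * len) := by
    rw [integral_finsetSum _ fun l _ => ((I.P.l8s_L_bd hI.sp l).const_mul _).integrable _]
    refine Finset.sum_congr rfl fun l _ => ?_
    rw [integral_const_mul, ← I.P.l8s_two_integral_L hI.sp l]
    field_simp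
  rw [e1, abs_of_nonneg (Finset.sum_nonneg fun l _ =>
    div_nonneg (mul_nonneg (skp_d6_dz_nonneg hI l) (I.P.l8s_S_nonneg l)) (by positivity))]
  calc ∑ l ∈ Finset.Ico k₁ k₂, I.dz l * I.P.S l / (2 * len)
      ≤ ∑ l ∈ Finset.Ico k₁ k₂, I.dz l / len * ((S.Cq + S.c.Cf) * I.z k₂ / 2) := by
        refine Finset.sum_le_sum fun l hl => ?_
        obtain ⟨hl1, hl2⟩ := Finset.mem_Ico.1 hl
        have h1 := skp_raw_S_le hI (lt_of_lt_of_le hl2 hk2) (hlo.trans (hI.zmono hl1))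
        have h2 : skwR (I.z l) ≤ I.z k₂ := (min_le_left _ _).trans (hI.zmono hl2.le)
        have h3 : I.dz l * ((S.Cq + S.c.Cf) * skwR (I.z l)) ≤ I.dz l * ((S.Cq + S.c.Cf) * I.z k₂) :=
          mul_le_mul_of_nonneg_left (mul_le_mul_of_nonneg_left h2 hC) (skp_d6_dz_nonneg hI l)
        have e : I.dz l / len * ((S.Cq + S.c.Cf) * I.z k₂ / 2) = I.dz l * ((S.Cq + S.c.Cf) * I.z k₂) / (2 * len) := by
          field_simp
        rw [e]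
        exact div_le_div_of_nonneg_right (h1.trans h3) (by positivity)
    _ = (S.Cq + S.c.Cf) * I.z k₂ / 2 := by rw [← Finset.sum_mul, skp_raw_w_sum I hk hlen hpos, one_mul]

/-- fluctuation of the window average of `L`: (A1), third line -/
theorem skp_raw_fluct (hS : S.Ok) (hI : I.Ok S) {r : ℕ} (hr : 1 ≤ r) {k₁ k₂ : ℕ} (hk2 : k₂ ≤ I.nb) (hreg : I.z k₂ ≤ S.zreg)
    {len D : ℝ} (hpos : 0 < len) (hD0 : 0 ≤ D)
    (hD : ∫ ω, (∑ l ∈ Finset.Ico k₁ k₂, I.dz l * I.P.W l ω) ^ r ∂I.P.μ ≤ D ^ r) :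
    ∫ ω, ((∑ l ∈ Finset.Ico k₁ k₂, I.dz l / len * I.P.L l ω)
        - ∫ ω', (∑ l ∈ Finset.Ico k₁ k₂, I.dz l / len * I.P.L l ω') ∂I.P.μ) ^ (2 * r) ∂I.P.μ
      ≤ (S.K.cA1 r * (D / (S.cG * len ^ 2))) ^ r := by
  have hcG := hS.cG
  have hc1 := hS.cA1 r
  have hB : ∫ ω, (∑ l ∈ Finset.Ico k₁ k₂, I.dz l / len * I.P.W l ω) ^ r ∂I.P.μ ≤ (D / len) ^ r := by
    have e : ∀ ω, (∑ l ∈ Finset.Ico k₁ k₂, I.dz l / len * I.P.W l ω) ^ r = (∑ l ∈ Finset.Ico k₁ k₂, I.dz l * I.P.W l ω) ^ r / len ^ r := by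
      intro ω
      rw [← div_pow, Finset.sum_div]
      congr 1
      exact Finset.sum_congr rfl fun l _ => by ring
    simp only [e]
    rw [integral_div, div_pow]
    exact div_le_div_of_nonneg_right hD (by positivity)
  have h1 := bud_bm_win I.P hI.sp hr (by linarith : 0 ≤ S.K.cA1 r) (hI.pin r hr) (Finset.Ico k₁ k₂)
    (fun l hl => ((Finset.mem_Ico.1 hl).2.le.trans hk2).trans hI.nbn) (fun l => I.dz l / len)
    (fun l _ => div_nonneg (skp_d6_dz_nonneg hI l) hpos.le) (kap := S.cG * len) (by positivity)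
    (fun l hl => by
      have hl2 := (Finset.mem_Ico.1 hl).2
      have e : S.cG * len * (I.dz l / len) = S.cG * I.dz l := by field_simp
      rw [e]
      exact skp_raw_dv hI (lt_of_lt_of_le hl2 hk2) ((hI.zmono hl2).trans hreg)) hB
  refine h1.trans ?_
  have e2 : (D / len) ^ r / (S.cG * len) ^ r = (D / (S.cG * len ^ 2)) ^ r := by
    rw [← div_pow]; congr 1; field_simp
  rw [e2, mul_pow]
  refine mul_le_mul_of_nonneg_right ?_ (by positivity)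
  calc S.K.cA1 r = S.K.cA1 r ^ 1 := (pow_one _).symm
    _ ≤ S.K.cA1 r ^ r := pow_le_pow_right₀ hc1 hr

/-- the future bracket identity: `|X_k|² ≤ 2 E_k L_J` -/
theorem skp_raw_nX_le (hI : I.Ok S) {k k₁ k₂ : ℕ} (hkk : k ≤ k₁) (hk : k₁ ≤ k₂) {len : ℝ} (hlen : len = I.z k₂ - I.z k₁) (hpos : 0 < len)
    (ω : Ω) : I.P.nX k ω ≤ 2 * I.P.E k (fun ω' => ∑ l ∈ Finset.Ico k₁ k₂, I.dz l / len * I.P.L l ω') ω := by
  rw [I.P.l8s_E_sum hI.sp k _ fun l _ => (I.P.l8s_L_bd hI.sp l).const_mul _, Finset.mul_sum]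
  calc I.P.nX k ω = ∑ l ∈ Finset.Ico k₁ k₂, I.dz l / len * I.P.nX k ω := by
        rw [← Finset.sum_mul, skp_raw_w_sum I hk hlen hpos, one_mul]
    _ ≤ ∑ l ∈ Finset.Ico k₁ k₂, 2 * I.P.E k (fun ω' => I.dz l / len * I.P.L l ω') ω := by
        refine Finset.sum_le_sum fun l hl => ?_
        have hl1 := (Finset.mem_Ico.1 hl).1
        rw [I.P.l8s_E_const_mul]
        have h1 := I.P.l8s_E_L_future hI.sp (hkk.trans hl1) ω
        have h2 := I.P.l8s_nX_le_E hI.sp (hkk.trans hl1) ω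
        have e : 2 * (I.dz l / len * I.P.E k (I.P.L l) ω) = I.dz l / len * (2 * I.P.E k (I.P.L l) ω) := by ring
        rw [e, h1]
        exact mul_le_mul_of_nonneg_left h2 (div_nonneg (skp_d6_dz_nonneg hI l) hpos.le)

/-- conditional Jensen + Minkowski + Lyapunov -/
theorem skp_raw_comb {P : L8P Ω m} (h : P.Ok) {r : ℕ} (hr : 1 ≤ r) (k : ℕ) {LJ : Ω → ℝ} (hL : L8Bd LJ)
    (hle : ∀ ω, P.nX k ω ≤ 2 * P.E k LJ ω) {M F : ℝ} (hM : |∫ ω, LJ ω ∂P.μ| ≤ M) (hF : 0 ≤ F)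
    (hfl : ∫ ω, (LJ ω - ∫ ω', LJ ω' ∂P.μ) ^ (2 * r) ∂P.μ ≤ F ^ (2 * r)) :
    ∫ ω, P.nX k ω ^ r ∂P.μ ≤ (2 * (F + M)) ^ r := by
  have := h.prob
  have hM0 : 0 ≤ M := (abs_nonneg _).trans hM
  obtain ⟨EL, hEL⟩ : ∃ EL : ℝ, EL = ∫ ω, LJ ω ∂P.μ := ⟨_, rfl⟩
  rw [← hEL] at hM hfl
  have eabs : ∀ x : ℝ, |x| ^ (2 * r) = x ^ (2 * r) := fun x => by rw [pow_mul, pow_mul, sq_abs]
  have h1 : ∫ ω, |(LJ ω - EL) + EL| ^ (2 * r) ∂P.μ ≤ (F + M) ^ (2 * r) := by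
    refine bud_bm_sync_add P.μ (hL.sub (l8Bd_const EL)) (l8Bd_const EL) (2 * r) (by omega) hF hM0 ?_ ?_
    · simp only [eabs]; exact hfl
    · simp only [integral_const, probReal_univ, smul_eq_mul, one_mul]
      exact pow_le_pow_left₀ (abs_nonneg _) hM _
  simp only [sub_add_cancel] at h1
  have h2 := bud_bm_lyap P.μ hL hr (by omega : r ≤ 2 * r) (by positivity) h1
  have h3 := (P.l8s_integral_E_pow_le h k hL r).trans h2
  calc ∫ ω, P.nX k ω ^ r ∂P.μ ≤ ∫ ω, 2 ^ r * |P.E k LJ ω| ^ r ∂P.μ := by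
        refine integral_mono (((P.l8s_W_bd_nX h k).pow r).integrable _) ((((P.l8s_E_bd h k hL).abs.pow r).const_mul _).integrable _) fun ω => ?_
        show P.nX k ω ^ r ≤ 2 ^ r * |P.E k LJ ω| ^ r
        rw [← mul_pow]
        refine pow_le_pow_left₀ (skp_d6_nX_nonneg P k ω) ((hle ω).trans ?_) r
        exact mul_le_mul_of_nonneg_left (le_abs_self _) zero_le_two
    _ = 2 ^ r * ∫ ω, |P.E k LJ ω| ^ r ∂P.μ := integral_const_mul _ _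
    _ ≤ 2 ^ r * (F + M) ^ r := mul_le_mul_of_nonneg_left h3 (by positivity)
    _ = (2 * (F + M)) ^ r := (mul_pow _ _ _).symm

end window

/-! ## Part 3 : the bootstrap -/
section boot

/-- arithmetic of the fluctuation: `q = x⁶/λ₁`, `X = x^cg`, `Xi = x^(-cg)` -/
theorem skp_raw_fl_arith {q g0 ζ z1 len C6 B cG cA X Xi : ℝ} (hq : q ≤ g0 ^ 2 * ζ ^ 6) (hg0 : 0 ≤ g0) (hg : g0 ≤ X)
    (hX : Xi * X = 1) (hXi : 0 ≤ Xi) (hζ : 0 < ζ) (hz1 : ζ ≤ z1) (hlen : ζ / 2 ≤ len) (hC6 : 0 ≤ C6) (hB : 0 ≤ B) (hcG : 0 < cG)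
    (hcA : 0 ≤ cA) :
    cA * (C6 * Xi * (q / z1 ^ 2) * B / (cG * len ^ 2)) ≤ (ζ * (1 + cA * (4 * C6 / cG) * X * B / 4)) ^ 2 := by
  have hX0 : 0 ≤ X := hg0.trans hg
  have h1 : q / z1 ^ 2 ≤ X ^ 2 * ζ ^ 4 := by
    have h2 : q / z1 ^ 2 ≤ g0 ^ 2 * ζ ^ 6 / ζ ^ 2 :=
      div_le_div₀ (by positivity) hq (by positivity) (pow_le_pow_left₀ hζ.le hz1 2)
    have e : g0 ^ 2 * ζ ^ 6 / ζ ^ 2 = g0 ^ 2 * ζ ^ 4 := by field_simp
    rw [e] at h2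
    exact h2.trans (mul_le_mul_of_nonneg_right (pow_le_pow_left₀ hg0 hg 2) (by positivity))
  have h3 : C6 * Xi * (q / z1 ^ 2) * B ≤ C6 * X * ζ ^ 4 * B := by
    have e : C6 * X * ζ ^ 4 * B = C6 * Xi * (X ^ 2 * ζ ^ 4) * B := by
      calc C6 * X * ζ ^ 4 * B = C6 * (1 * X) * ζ ^ 4 * B := by ring
        _ = C6 * ((Xi * X) * X) * ζ ^ 4 * B := by rw [hX]
        _ = _ := by ring
    rw [e]
    exact mul_le_mul_of_nonneg_right (mul_le_mul_of_nonneg_left h1 (by positivity)) hB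
  have h4 : cG * (ζ / 2) ^ 2 ≤ cG * len ^ 2 := mul_le_mul_of_nonneg_left (pow_le_pow_left₀ (by positivity) hlen 2) hcG.le
  have h5 : C6 * Xi * (q / z1 ^ 2) * B / (cG * len ^ 2) ≤ C6 * X * ζ ^ 4 * B / (cG * (ζ / 2) ^ 2) :=
    div_le_div₀ (by positivity) h3 (by positivity) h4
  have e6 : C6 * X * ζ ^ 4 * B / (cG * (ζ / 2) ^ 2) = (4 * C6 / cG) * X * B * ζ ^ 2 := by field_simp; ring
  rw [e6] at h5
  obtain ⟨s, hs⟩ : ∃ s : ℝ, s = cA * (4 * C6 / cG) * X * B := ⟨_, rfl⟩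
  rw [← hs]
  calc cA * (C6 * Xi * (q / z1 ^ 2) * B / (cG * len ^ 2)) ≤ cA * ((4 * C6 / cG) * X * B * ζ ^ 2) :=
        mul_le_mul_of_nonneg_left h5 hcA
    _ = s * ζ ^ 2 := by rw [hs]; ring
    _ ≤ (1 + s / 4) ^ 2 * ζ ^ 2 := by
        refine mul_le_mul_of_nonneg_right ?_ (by positivity)
        have e : (1 + s / 4) ^ 2 - s = (1 - s / 4) ^ 2 := by ring
        have := sq_nonneg (1 - s / 4)
        linarith
    _ = (ζ * (1 + s / 4)) ^ 2 := by ring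

variable {Ω : Type} [mΩ : MeasurableSpace Ω] {m : ℕ} {S : SkpS} {I : SkpI Ω m}

/-- the macroscopic cuts -/
theorem skp_raw_mac (hS : S.Ok) (hI : I.Ok S) {k : ℕ} (hk : S.zreg < 16 * I.z k) {C : ℝ} (hC : 16 / S.zreg ≤ C) :
    1 ≤ C * (skwR (I.z k) + I.d.zlo) := by
  have hz0 := hS.zreg
  have hz1 := hS.zreg1
  have hzlo := hI.wh.zlo0
  have h1 : S.zreg / 16 ≤ skwR (I.z k) := le_min (by linarith) (by linarith)
  have hC0 : 0 ≤ C := le_trans (by positivity) hC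
  calc (1 : ℝ) = 16 / S.zreg * (S.zreg / 16) := by field_simp
    _ ≤ C * (skwR (I.z k) + I.d.zlo) := mul_le_mul hC (by linarith) (by positivity) hC0

/-- the scale of a small cut -/
theorem skp_raw_scale (hS : S.Ok) (hI : I.Ok S) {k : ℕ} (hk : 16 * I.z k ≤ S.zreg) :
    I.z k ≤ max (I.z k) I.d.zlo ∧ I.d.zlo ≤ max (I.z k) I.d.zlo ∧ 16 * max (I.z k) I.d.zlo ≤ S.zreg ∧
      max (I.z k) I.d.zlo ≤ skwR (I.z k) + I.d.zlo := by
  have hz1 := hS.zreg1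
  have hzlo := hI.wh.zlo0
  have h0 := skp_d6_z_nonneg hI k
  refine ⟨le_max_left _ _, le_max_right _ _, ?_, ?_⟩
  · rcases max_cases (I.z k) I.d.zlo with ⟨h, _⟩ | ⟨h, _⟩
    · rw [h]; exact hk
    · rw [h]; exact hI.zloreg
  · have hR : skwR (I.z k) = I.z k := min_eq_left (by linarith)
    rw [hR]
    exact max_le (by linarith) (by linarith)

/-- **one step of the bootstrap** -/
theorem skp_raw_step (hS : S.Ok) (hI : I.Ok S) (sm : SkpRawSm S I) {r : ℕ} (hr : 1 ≤ r) {C6 : ℝ} (hC6 : 1 ≤ C6)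
    (hd6 : ∀ B : ℝ, 1 ≤ B → I.RawB r B → ∀ k₁ k₂, k₁ ≤ k₂ → I.d.zlo ≤ I.z k₁ → I.z k₂ ≤ 2 * I.z k₁ → 4 * I.z k₁ ≤ S.zreg →
      ∫ ω, (∑ k ∈ Finset.Ico k₁ k₂, I.dz k * I.P.W k ω) ^ r ∂I.P.μ ≤
        (C6 * I.d.x ^ (-S.cg) * (I.d.x ^ 6 / (I.lam1 * I.z k₁ ^ 2)) * B) ^ r)
    (hsmall : S.K.cA1 r * (4 * C6 / S.cG) * I.d.x ^ S.cg ≤ 1) {B : ℝ} (hB : 1 ≤ B) (hraw : I.RawB r B) :
    I.RawB r (16 / S.zreg + 4 * (S.Cq + S.c.Cf) + 2 + B / 2) := by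
  intro k hk
  have := hI.sp.prob
  have hzr0 := hS.zreg
  have hCC : 0 ≤ S.Cq + S.c.Cf := by linarith [hS.Cq, hS.c.Cf]
  have h16 : 0 < 16 / S.zreg := by positivity
  rcases lt_or_ge S.zreg (16 * I.z k) with hmac | hsm
  · exact (skp_raw_le_one I.P.μ (skp_raw_nX_abs hI k) r).trans (one_le_pow₀ (skp_raw_mac hS hI hmac (by linarith)))
  · obtain ⟨hζ1, hζ2, hζ3, hζ4⟩ := skp_raw_scale hS hI hsm
    obtain ⟨ζ, hζ⟩ : ∃ ζ : ℝ, ζ = max (I.z k) I.d.zlo := ⟨_, rfl⟩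
    rw [← hζ] at hζ1 hζ2 hζ3 hζ4
    have hx0 := hI.wh.x0
    have hδ := skp_raw_delta hI sm
    have hxζ : I.d.x ≤ ζ := hI.zlox.trans hζ2
    have hζ0 : 0 < ζ := lt_of_lt_of_le hx0 hxζ
    have hlam0 : 0 < I.lam1 := lt_of_lt_of_le (by positivity) hI.lam1a
    obtain ⟨ha1, ha2, -⟩ := skp_raw_ix hI (by linarith : 0 < 2 * ζ) (by linarith)
    obtain ⟨hb1, hb2, hb3⟩ := skp_raw_ix hI (by linarith : 0 < 3 * ζ) (by linarith)
    have hkk : k < skpIx I (2 * ζ) := skp_ix_gt hI (by have := hI.zreg; linarith) (by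
      have e : I.zc k = I.z k := rfl
      rw [e]; linarith)
    have hk12 : skpIx I (2 * ζ) ≤ skpIx I (3 * ζ) := skp_ix_mono hI (by linarith) (by have := hI.zreg; linarith)
    obtain ⟨k₁, hk₁⟩ : ∃ k₁, k₁ = skpIx I (2 * ζ) := ⟨_, rfl⟩
    obtain ⟨k₂, hk₂⟩ : ∃ k₂, k₂ = skpIx I (3 * ζ) := ⟨_, rfl⟩
    rw [← hk₁] at ha1 ha2 hkk hk12
    rw [← hk₂] at hb1 hb2 hb3 hk12
    have e1 : I.zc k₁ = I.z k₁ := rfl
    have e2 : I.zc k₂ = I.z k₂ := rfl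
    rw [e1] at ha1 ha2
    rw [e2] at hb1 hb2
    obtain ⟨len, hlen⟩ : ∃ len : ℝ, len = I.z k₂ - I.z k₁ := ⟨_, rfl⟩
    have hlen2 : ζ / 2 ≤ len := by rw [hlen]; linarith
    have hpos : 0 < len := by linarith
    have hD := hd6 B hB hraw k₁ k₂ hk12 (by linarith) (by linarith) (by linarith)
    have hXi0 : 0 ≤ I.d.x ^ (-S.cg) := Real.rpow_nonneg hx0.le _
    have hX0 : 0 ≤ I.d.x ^ S.cg := Real.rpow_nonneg hx0.le _
    have hz10 : 0 < I.z k₁ := by linarith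
    have hD0 : 0 ≤ C6 * I.d.x ^ (-S.cg) * (I.d.x ^ 6 / (I.lam1 * I.z k₁ ^ 2)) * B := by positivity
    have hfl := skp_raw_fluct hS hI hr hb3 (by linarith : I.z k₂ ≤ S.zreg) hpos hD0 hD
    have hcA0 : 0 ≤ S.K.cA1 r := by linarith [hS.cA1 r]
    have har := skp_raw_fl_arith (q := I.d.x ^ 6 / I.lam1) (z1 := I.z k₁) (len := len) (C6 := C6) (B := B) (cG := S.cG)
      (cA := S.K.cA1 r) (X := I.d.x ^ S.cg) (Xi := I.d.x ^ (-S.cg)) (skp_raw_g0 hI hζ2) hI.g0c.le hI.g0b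
      (by rw [← Real.rpow_add hx0]; simp) hXi0 hζ0 (by linarith) hlen2 (by linarith) (by linarith) hS.cG hcA0
    rw [div_div] at har
    obtain ⟨F, hF⟩ : ∃ F : ℝ, F = ζ * (1 + S.K.cA1 r * (4 * C6 / S.cG) * I.d.x ^ S.cg * B / 4) := ⟨_, rfl⟩
    rw [← hF] at har
    have hcG := hS.cG
    have hF0 : 0 ≤ F := by rw [hF]; positivity
    have hfl2 := hfl.trans (pow_le_pow_left₀ (by positivity) har r)
    rw [← pow_mul] at hfl2
    have hmean := skp_raw_mean hS hI hk12 hb3 (by linarith : I.d.zlo / 4 ≤ I.z k₁) hlen hpos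
    have hcomb := skp_raw_comb hI.sp hr k (skp_raw_LJ_bd hI k₁ k₂ len) (skp_raw_nX_le hI hkk.le hk12 hlen hpos) hmean hF0 hfl2
    have hM0 : 0 ≤ (S.Cq + S.c.Cf) * I.z k₂ / 2 := (abs_nonneg _).trans hmean
    refine hcomb.trans (pow_le_pow_left₀ (by linarith) ?_ r)
    have hFle : F ≤ ζ * (1 + B / 4) := by
      rw [hF]
      refine mul_le_mul_of_nonneg_left ?_ hζ0.le
      have : S.K.cA1 r * (4 * C6 / S.cG) * I.d.x ^ S.cg * B ≤ 1 * B := mul_le_mul_of_nonneg_right hsmall (by linarith)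
      linarith
    have hMle : (S.Cq + S.c.Cf) * I.z k₂ / 2 ≤ (S.Cq + S.c.Cf) * (4 * ζ) / 2 := by
      have : (S.Cq + S.c.Cf) * I.z k₂ ≤ (S.Cq + S.c.Cf) * (4 * ζ) := mul_le_mul_of_nonneg_left (by linarith) hCC
      linarith
    calc 2 * (F + (S.Cq + S.c.Cf) * I.z k₂ / 2) ≤ 2 * (ζ * (1 + B / 4) + (S.Cq + S.c.Cf) * (4 * ζ) / 2) := by linarith
      _ = (4 * (S.Cq + S.c.Cf) + 2 + B / 2) * ζ := by ring
      _ ≤ (16 / S.zreg + 4 * (S.Cq + S.c.Cf) + 2 + B / 2) * ζ := mul_le_mul_of_nonneg_right (by linarith) hζ0.le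
      _ ≤ _ := mul_le_mul_of_nonneg_left hζ4 (by positivity)

/-- iteration of the step -/
theorem skp_raw_iter (hI : I.Ok S) {r : ℕ} {C1 : ℝ} (hC1 : 1 ≤ C1) (hstep : ∀ B : ℝ, 1 ≤ B → I.RawB r B → I.RawB r (C1 + B / 2)) :
    I.RawB r (2 * C1 + 1) := by
  have hz := hI.wh.zlo0
  obtain ⟨B0, hB0⟩ : ∃ B0 : ℝ, B0 = 1 / I.d.zlo := ⟨_, rfl⟩
  have hB00 : 0 < B0 := by rw [hB0]; positivity
  have h0 : I.RawB r B0 := by rw [hB0]; exact skp_raw_triv hI r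
  have hall : ∀ n : ℕ, I.RawB r (2 * C1 + B0 / 2 ^ n) := by
    intro n
    induction n with
    | zero => exact skp_raw_mono hI hB00.le (by simp; linarith) h0
    | succ n ih =>
      have h1 : 0 < B0 / 2 ^ n := by positivity
      have h2 := hstep _ (by linarith) ih
      have e : C1 + (2 * C1 + B0 / 2 ^ n) / 2 = 2 * C1 + B0 / 2 ^ (n + 1) := by
        rw [pow_succ]; field_simp; ring
      rwa [e] at h2
  obtain ⟨n, hn⟩ := pow_unbounded_of_one_lt B0 (one_lt_two : (1 : ℝ) < 2)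
  have h3 : B0 / 2 ^ n ≤ 1 := by rw [div_le_one (by positivity)]; exact hn.le
  have h4 : 0 < B0 / 2 ^ n := by positivity
  exact skp_raw_mono hI (by linarith) (by linarith) (hall n)

/-- smallness of a power of `x` -/
theorem skp_raw_small {x K cg : ℝ} (hx : 0 < x) (hK : 0 < K) (hcg : 0 < cg) (h : x ≤ 1 / K ^ (1 / cg)) : K * x ^ cg ≤ 1 := by
  have h1 := Real.rpow_le_rpow hx.le h hcg.le
  rw [Real.div_rpow zero_le_one (Real.rpow_nonneg hK.le _), Real.one_rpow, ← Real.rpow_mul hK.le, one_div_mul_cancel hcg.ne',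
    Real.rpow_one] at h1
  calc K * x ^ cg ≤ K * (1 / K) := mul_le_mul_of_nonneg_left h1 hK.le
    _ = 1 := by field_simp

end boot

/-- **the raw moments of `|X_k|²`**.   TEX[LL:prop:statistics-pointwise] -/
theorem skp_raw_nX (S : SkpS) (hS : S.Ok) (r : ℕ) (hr : 1 ≤ r) : ∃ C : ℝ, 1 ≤ C ∧
    ∀ (Ω : Type) [_mΩ : MeasurableSpace Ω] (m : ℕ) (I : SkpI Ω m), I.Ok S → I.d.x ≤ 1 / C → I.RawB r C := by
  obtain ⟨C6, hC6, hd6⟩ := skp_leaf_d6 S hS r S.cg hr hS.cg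
  have hCv0 : 0 < S.Cv := by linarith [hS.Cv]
  have hcD3 := hS.cD3
  have hcG := hS.cG
  have hzr := hS.zreg
  have hcA : 0 < S.K.cA1 r := by linarith [hS.cA1 r]
  have hCC : 0 ≤ S.Cq + S.c.Cf := by linarith [hS.Cq, hS.c.Cf]
  obtain ⟨K, hK⟩ : ∃ K : ℝ, K = S.K.cA1 r * (4 * C6 / S.cG) := ⟨_, rfl⟩
  have hK0 : 0 < K := by rw [hK]; positivity
  have hKp : 0 < K ^ (1 / S.cg) := Real.rpow_pos_of_pos hK0 _
  obtain ⟨C1, hC1⟩ : ∃ C1 : ℝ, C1 = 16 / S.zreg + 4 * (S.Cq + S.c.Cf) + 2 := ⟨_, rfl⟩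
  have h16 : 0 < 16 / S.zreg := by positivity
  have h4c : 0 < 4 / S.cD3 := by positivity
  have hC11 : 1 ≤ C1 := by rw [hC1]; linarith
  refine ⟨C6 + 2 + S.Cv + 4 / S.cD3 + K ^ (1 / S.cg) + (2 * C1 + 1), by linarith, ?_⟩
  intro Ω _ m I hI hx
  have hx0 := hI.wh.x0
  have hsm : ∀ c : ℝ, 0 < c → c ≤ C6 + 2 + S.Cv + 4 / S.cD3 + K ^ (1 / S.cg) + (2 * C1 + 1) → I.d.x ≤ 1 / c :=
    fun c hc hle => hx.trans (one_div_le_one_div_of_le hc hle)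
  have sm : SkpRawSm S I := ⟨hsm 2 (by norm_num) (by linarith), hsm _ hCv0 (by linarith), by
    have := hsm _ h4c (by linarith)
    rwa [one_div_div] at this⟩
  have hsmall := skp_raw_small hx0 hK0 hS.cg (hsm _ hKp (by linarith))
  rw [hK] at hsmall
  have hstep : ∀ B : ℝ, 1 ≤ B → I.RawB r B → I.RawB r (C1 + B / 2) := fun B hB hraw => by
    rw [hC1]
    exact skp_raw_step hS hI sm hr hC6 (hd6 Ω m I hI (hsm _ (by linarith) (by linarith))) hsmall hB hraw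
  exact skp_raw_mono hI (by linarith) (by linarith) (skp_raw_iter hI hC11 hstep)

/-! ## Part 4 : the overlap of a fork, `L`, the exit -/
section fork

variable {Ω : Type} [mΩ : MeasurableSpace Ω] {m : ℕ}

theorem skp_raw_Q_bd {P : L8P Ω m} (h : P.Ok) : @L8Bd (Ω × Ω) _ P.Q := ⟨(P.l8s_fork_Q_bd_aux h).1, 1, (P.l8s_fork_Q_bd_aux h).2⟩

theorem skp_raw_QX_bd {P : L8P Ω m} (h : P.Ok) (c : ℕ) : @L8Bd (Ω × Ω) _ (P.QX c c) :=
  L8Bd.sum _ fun i _ => (l8k_bd_comp measurable_fst (P.l8s_X_bd h c i)).mul (l8k_bd_comp measurable_snd (P.l8s_X_bd h c i))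

/-- the projected pair is bounded by the raw moments of one branch -/
theorem skp_raw_QX {P : L8P Ω m} (h : P.Ok) (k c : ℕ) {q : ℕ} (hq : 1 ≤ q) {A : ℝ} (hA : 0 ≤ A) (hn : ∫ ω, P.nX c ω ^ q ∂P.μ ≤ A ^ q) :
    ∫ z, |P.QX c c z| ^ q ∂(P.fork k) ≤ A ^ q := by
  have := h.prob
  have := P.l8s_fork_prob h k
  have hb : L8Bd (fun ω => P.nX c ω / 2) := (P.l8s_W_bd_nX h c).div_const 2
  have e : ∀ ω, |P.nX c ω / 2| ^ q = (1 / 2 : ℝ) ^ q * P.nX c ω ^ q := fun ω => by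
    rw [abs_of_nonneg (div_nonneg (skp_d6_nX_nonneg P c ω) zero_le_two), div_eq_inv_mul, mul_pow]
    norm_num
  have h1 : ∫ ω, |P.nX c ω / 2| ^ q ∂P.μ ≤ (A / 2) ^ q := by
    simp only [e]
    rw [integral_const_mul]
    calc (1 / 2 : ℝ) ^ q * ∫ ω, P.nX c ω ^ q ∂P.μ ≤ (1 / 2 : ℝ) ^ q * A ^ q := mul_le_mul_of_nonneg_left hn (by positivity)
      _ = (A / 2) ^ q := by rw [← mul_pow]; congr 1; ring
  have h2 := bud_bm_sync_add (Ω := Ω × Ω) (P.fork k) (l8k_bd_comp measurable_fst hb) (l8k_bd_comp measurable_snd hb) q hq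
    (by positivity : (0 : ℝ) ≤ A / 2) (by positivity : (0 : ℝ) ≤ A / 2)
    (by rw [bud_bm_polar_fst P h k (g := fun ω => |P.nX c ω / 2| ^ q) (hb.abs.pow q).1]; exact h1)
    (by rw [bud_bm_polar_snd P h k (g := fun ω => |P.nX c ω / 2| ^ q) (hb.abs.pow q).1]; exact h1)
  rw [add_halves] at h2
  refine le_trans (integral_mono (((skp_raw_QX_bd h c).abs.pow q).integrable _)
    ((((l8k_bd_comp measurable_fst hb).add (l8k_bd_comp measurable_snd hb)).abs.pow q).integrable _) fun z => ?_) h2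
  refine pow_le_pow_left₀ (abs_nonneg _) (le_trans ?_ (le_abs_self _)) q
  unfold L8P.QX L8P.nX
  rw [← add_div, ← Finset.sum_add_distrib, abs_le]
  constructor
  · rw [neg_le_iff_add_nonneg, Finset.sum_div, ← Finset.sum_add_distrib]
    exact Finset.sum_nonneg fun i _ => by nlinarith [sq_nonneg (P.X c i z.1 + P.X c i z.2)]
  · rw [Finset.sum_div]
    exact Finset.sum_le_sum fun i _ => by nlinarith [sq_nonneg (P.X c i z.1 - P.X c i z.2)]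

/-- conditional Jensen: `y·X_k` is the average of `Q` over the second branch -/
theorem skp_raw_yX {P : L8P Ω m} (h : P.Ok) (k q : ℕ) :
    ∫ ω, |∑ i, P.y i ω * P.X k i ω| ^ q ∂P.μ ≤ ∫ z, |P.Q z| ^ q ∂(P.fork k) := by
  have := h.prob
  have hQ := ((skp_raw_Q_bd h).abs.pow q)
  obtain ⟨C, hC⟩ := hQ.2
  rw [P.l8s_fork_integral h k hQ.1 hC]
  refine integral_mono (((L8Bd.sum _ fun i _ => (P.l8s_y_bd h i).mul (P.l8s_X_bd h k i)).abs.pow q).integrable _)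
    ((P.l8s_fork_inner_bd_aux h k hQ.1 hC).integrable _) fun ω => ?_
  have hf : L8Bd (fun ω' => ∑ i, P.y i ω * P.y i ω') := L8Bd.sum _ fun i _ => (P.l8s_y_bd h i).const_mul _
  have h1 := P.l8s_E_pow_le h k hf q ω
  have e : P.E k (fun ω' => ∑ i, P.y i ω * P.y i ω') ω = ∑ i, P.y i ω * P.X k i ω := by
    rw [P.l8s_E_sum h k _ fun i _ => (P.l8s_y_bd h i).const_mul _]
    exact Finset.sum_congr rfl fun i _ => P.l8s_E_const_mul k _ _ ω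
  rw [e] at h1
  exact h1

/-- `L` from `Q` and `|X|²` -/
theorem skp_raw_L_of {P : L8P Ω m} (h : P.Ok) (k : ℕ) {q : ℕ} (hq : 1 ≤ q) {A A' : ℝ} (hA : 0 ≤ A) (hA' : 0 ≤ A')
    (hQ : ∫ z, |P.Q z| ^ q ∂(P.fork k) ≤ A ^ q) (hn : ∫ ω, P.nX k ω ^ q ∂P.μ ≤ A' ^ q) :
    ∫ ω, |P.L k ω| ^ q ∂P.μ ≤ (A + A') ^ q := by
  have := h.prob
  have hb1 : L8Bd (fun ω => ∑ i, P.y i ω * P.X k i ω) := L8Bd.sum _ fun i _ => (P.l8s_y_bd h i).mul (P.l8s_X_bd h k i)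
  have hb2 : L8Bd (fun ω => -(P.nX k ω / 2)) := ((P.l8s_W_bd_nX h k).div_const 2).neg
  have h2 : ∫ ω, |-(P.nX k ω / 2)| ^ q ∂P.μ ≤ A' ^ q := by
    refine le_trans (integral_mono ((hb2.abs.pow q).integrable _) (((P.l8s_W_bd_nX h k).pow q).integrable _) fun ω => ?_) hn
    have h0 := skp_d6_nX_nonneg P k ω
    show |-(P.nX k ω / 2)| ^ q ≤ P.nX k ω ^ q
    rw [abs_neg, abs_of_nonneg (by positivity)]
    exact pow_le_pow_left₀ (by positivity) (by linarith) q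
  have h3 := bud_bm_sync_add P.μ hb1 hb2 q hq hA hA' ((skp_raw_yX h k q).trans hQ) h2
  refine le_trans (le_of_eq ?_) h3
  refine integral_congr_ae (ae_of_all _ fun ω => ?_)
  show |P.L k ω| ^ q = |∑ i, P.y i ω * P.X k i ω + -(P.nX k ω / 2)| ^ q
  unfold L8P.L
  rw [sub_eq_add_neg]

end fork

section layers

/-- arithmetic of one synchronised layer: `w = 2^(i+1)`, `x6 = x⁶` -/
theorem skp_raw_e_arith {κ A g0 ζ w Cv Cm cD3 lam1 x6 M Den : ℝ} (hq : x6 / lam1 ≤ g0 ^ 2 * ζ ^ 6)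
    (hDen : (w * ζ / Cv) ^ 2 * (1 / (Cm * x6)) * (cD3 * lam1 * (w * ζ) ^ 2 * (w * ζ / 2)) ≤ Den)
    (hA : 2 * Cv ^ 2 * Cm * M / cD3 ≤ A ^ 2) (hw : 0 < w) (hζ : 0 < ζ) (hCv : 0 < Cv) (hCm : 0 < Cm) (hc : 0 < cD3) (hl : 0 < lam1)
    (hx : 0 < x6) : κ ^ 2 * (M * (w * ζ)) ≤ (κ * A * g0 * ζ / w ^ 2) ^ 2 * Den := by
  have h1 : x6 ≤ g0 ^ 2 * ζ ^ 6 * lam1 := by rwa [div_le_iff₀ hl] at hq
  have h2 : M ≤ A ^ 2 * cD3 / (2 * Cv ^ 2 * Cm) := by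
    rw [le_div_iff₀ (by positivity)]
    rw [div_le_iff₀ hc] at hA
    linarith
  have e : (κ * A * g0 * ζ / w ^ 2) ^ 2 * ((w * ζ / Cv) ^ 2 * (1 / (Cm * x6)) * (cD3 * lam1 * (w * ζ) ^ 2 * (w * ζ / 2)))
      = κ ^ 2 * (A ^ 2 * cD3 / (2 * Cv ^ 2 * Cm)) * (w * ζ) * ((g0 ^ 2 * ζ ^ 6 * lam1) / x6) := by field_simp
  calc κ ^ 2 * (M * (w * ζ)) ≤ κ ^ 2 * (A ^ 2 * cD3 / (2 * Cv ^ 2 * Cm) * (w * ζ)) :=
        mul_le_mul_of_nonneg_left (mul_le_mul_of_nonneg_right h2 (by positivity)) (sq_nonneg κ)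
    _ = κ ^ 2 * (A ^ 2 * cD3 / (2 * Cv ^ 2 * Cm)) * (w * ζ) * 1 := by ring
    _ ≤ κ ^ 2 * (A ^ 2 * cD3 / (2 * Cv ^ 2 * Cm)) * (w * ζ) * ((g0 ^ 2 * ζ ^ 6 * lam1) / x6) := by
        refine mul_le_mul_of_nonneg_left ?_ (by positivity)
        rw [one_le_div hx]; exact h1
    _ = _ := e.symm
    _ ≤ _ := mul_le_mul_of_nonneg_left hDen (by positivity)

theorem skp_raw_geom (K : ℕ) : ∑ i ∈ Finset.range K, 1 / ((2 : ℝ) ^ (i + 1)) ^ 2 ≤ 1 - 1 / (2 ^ K) ^ 2 := by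
  induction K with
  | zero => simp
  | succ K ih =>
    rw [Finset.sum_range_succ]
    have e : 1 / ((2 : ℝ) ^ (K + 1)) ^ 2 = 1 / (2 ^ K) ^ 2 / 4 := by
      rw [pow_succ]; field_simp; ring
    have h0 : 0 ≤ 1 / ((2 : ℝ) ^ K) ^ 2 := by positivity
    rw [e]
    linarith

/-- a squared logarithm against a power -/
theorem skp_raw_log {x cg : ℝ} (hx : 0 < x) (hx1 : x ≤ 1) (hcg : 0 < cg) : Real.log (1 / x) ^ 2 * x ^ cg ≤ (2 / cg) ^ 2 := by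
  have hu : 0 ≤ 1 / x := by positivity
  have h0 : 0 ≤ Real.log (1 / x) := Real.log_nonneg (by rw [le_div_iff₀ hx]; linarith)
  have h1 := Real.log_le_rpow_div hu (show 0 < cg / 2 by positivity)
  have h2 : (1 / x) ^ (cg / 2) / (cg / 2) = (2 / cg) * (1 / x) ^ (cg / 2) := by field_simp
  rw [h2] at h1
  have h3 := pow_le_pow_left₀ h0 h1 2
  rw [mul_pow, ← Real.rpow_natCast ((1 / x) ^ (cg / 2)) 2, ← Real.rpow_mul hu] at h3
  have h4 : (1 / x) ^ (cg / 2 * ((2 : ℕ) : ℝ)) = x ^ (-cg) := by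
    rw [one_div, Real.inv_rpow hx.le, ← Real.rpow_neg hx.le]
    congr 1
    push_cast
    ring
  rw [h4] at h3
  calc Real.log (1 / x) ^ 2 * x ^ cg ≤ (2 / cg) ^ 2 * x ^ (-cg) * x ^ cg :=
        mul_le_mul_of_nonneg_right h3 (Real.rpow_nonneg hx.le _)
    _ = (2 / cg) ^ 2 := by rw [mul_assoc, ← Real.rpow_add hx]; simp

variable {Ω : Type} [mΩ : MeasurableSpace Ω] {m : ℕ} {S : SkpS} {I : SkpI Ω m}

/-- the cuts of the doubling layers: first cuts after `4ζ, 8ζ, .., 2^(n+2) ζ`, then the end -/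
noncomputable def skpRawT (I : SkpI Ω m) (ζ : ℝ) (n i : ℕ) : ℕ := if i ≤ n then skpIx I (2 * (2 ^ (i + 1) * ζ)) else I.P.n + 1

/-- the geometry of the layers of the fork `k` -/
structure SkpRawGeo (S : SkpS) (I : SkpI Ω m) (k : ℕ) (ζ : ℝ) (n : ℕ) : Prop where
  zk : I.z k ≤ ζ
  zlo : I.d.zlo ≤ ζ
  top : 2 ^ n * (4 * ζ) ≤ S.zreg / 2
  top' : S.zreg / 4 < 2 ^ n * (4 * ζ)

variable {k n : ℕ} {ζ : ℝ}

theorem skp_raw_geo_pos (g : SkpRawGeo S I k ζ n) (hI : I.Ok S) : 0 < ζ := lt_of_lt_of_le hI.wh.zlo0 g.zlo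

theorem skp_raw_geo_le (g : SkpRawGeo S I k ζ n) (hI : I.Ok S) {i : ℕ} (hi : i ≤ n) : 2 * (2 ^ (i + 1) * ζ) ≤ S.zreg / 2 := by
  have hζ := skp_raw_geo_pos g hI
  have h1 : (2 : ℝ) ^ i ≤ 2 ^ n := pow_le_pow_right₀ one_le_two hi
  calc 2 * (2 ^ (i + 1) * ζ) = 2 ^ i * (4 * ζ) := by rw [pow_succ]; ring
    _ ≤ 2 ^ n * (4 * ζ) := mul_le_mul_of_nonneg_right h1 (by positivity)
    _ ≤ _ := g.top

theorem skp_raw_geo_ge (g : SkpRawGeo S I k ζ n) (hI : I.Ok S) (i : ℕ) : 2 * ζ ≤ 2 ^ (i + 1) * ζ := by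
  have hζ := skp_raw_geo_pos g hI
  have h1 : (1 : ℝ) ≤ 2 ^ i := one_le_pow₀ one_le_two
  rw [pow_succ]
  nlinarith

theorem skp_raw_T_lo (I : SkpI Ω m) (ζ : ℝ) {n i : ℕ} (hi : i ≤ n) : skpRawT I ζ n i = skpIx I (2 * (2 ^ (i + 1) * ζ)) := by
  unfold skpRawT; rw [if_pos hi]

theorem skp_raw_T_hi (I : SkpI Ω m) (ζ : ℝ) {n i : ℕ} (hi : n < i) : skpRawT I ζ n i = I.P.n + 1 := by
  unfold skpRawT; rw [if_neg (by omega)]

theorem skp_raw_T_mono (g : SkpRawGeo S I k ζ n) (hS : S.Ok) (hI : I.Ok S) : Monotone (skpRawT I ζ n) := by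
  have hζ := skp_raw_geo_pos g hI
  have hzr := hS.zreg
  have hzb := hI.zreg
  refine monotone_nat_of_le_succ fun i => ?_
  rcases Nat.lt_or_ge i n with h | h
  · rw [skp_raw_T_lo I ζ h.le, skp_raw_T_lo I ζ h]
    refine skp_ix_mono hI ?_ (by have := skp_raw_geo_le g hI h; linarith)
    exact mul_le_mul_of_nonneg_left (mul_le_mul_of_nonneg_right (pow_le_pow_right₀ one_le_two (by omega)) hζ.le) zero_le_two
  · rw [skp_raw_T_hi I ζ (by omega : n < i + 1)]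
    rcases Nat.eq_or_lt_of_le h with h' | h'
    · rw [skp_raw_T_lo I ζ (by omega : i ≤ n)]
      have h1 := skp_ix_le_nb hI (a := 2 * (2 ^ (i + 1) * ζ)) (by have := skp_raw_geo_le g hI (by omega : i ≤ n); linarith)
      have := hI.nbn
      omega
    · rw [skp_raw_T_hi I ζ h']

/-- raw moments at the cuts of the layers -/
theorem skp_raw_T_raw (g : SkpRawGeo S I k ζ n) (hS : S.Ok) (hI : I.Ok S) (sm : SkpRawSm S I) {q : ℕ} {Ca : ℝ} (hCa : 0 ≤ Ca)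
    (hraw : I.RawB q Ca) (i : ℕ) : ∫ ω, I.P.nX (skpRawT I ζ n i) ω ^ q ∂I.P.μ ≤ ((6 * Ca + 8 / S.zreg) * (2 ^ i * ζ)) ^ q := by
  have := hI.sp.prob
  have hζ := skp_raw_geo_pos g hI
  have hzr := hS.zreg
  have h8 : 0 < 8 / S.zreg := by positivity
  have hδ := skp_raw_delta hI sm
  have hxζ : I.d.x ≤ ζ := hI.zlox.trans g.zlo
  have h2i : (1 : ℝ) ≤ 2 ^ i := one_le_pow₀ one_le_two
  have hζi : ζ ≤ 2 ^ i * ζ := by nlinarith
  rcases Nat.lt_or_ge n i with h | h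
  · refine (skp_raw_le_one I.P.μ (skp_raw_nX_abs hI _) q).trans (one_le_pow₀ ?_)
    have h1 : (2 : ℝ) ^ (n + 1) ≤ 2 ^ i := pow_le_pow_right₀ one_le_two h
    have h2 : S.zreg / 8 ≤ 2 ^ i * ζ := by
      have h3 := mul_le_mul_of_nonneg_right h1 hζ.le
      have h4 := g.top'
      have e : (2 : ℝ) ^ (n + 1) * ζ = 2 ^ n * (4 * ζ) / 2 := by rw [pow_succ]; ring
      rw [e] at h3
      linarith
    calc (1 : ℝ) = 8 / S.zreg * (S.zreg / 8) := by field_simp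
      _ ≤ (6 * Ca + 8 / S.zreg) * (2 ^ i * ζ) := mul_le_mul (by linarith) h2 (by positivity) (by positivity)
  · rw [skp_raw_T_lo I ζ h]
    have hle := skp_raw_geo_le g hI h
    obtain ⟨-, h2, h3⟩ := skp_raw_ix hI (a := 2 * (2 ^ (i + 1) * ζ)) (by positivity) (by linarith)
    refine (hraw _ h3).trans (pow_le_pow_left₀ (mul_nonneg hCa (add_nonneg (skp_raw_R_nonneg hI _) hI.wh.zlo0.le)) ?_ q)
    have h4 : skwR (I.z (skpIx I (2 * (2 ^ (i + 1) * ζ)))) ≤ I.zc (skpIx I (2 * (2 ^ (i + 1) * ζ))) := min_le_left _ _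
    have e : 2 * ((2 : ℝ) ^ (i + 1) * ζ) = 4 * (2 ^ i * ζ) := by rw [pow_succ]; ring
    have h2' : I.zc (skpIx I (2 * (2 ^ (i + 1) * ζ))) < 4 * (2 ^ i * ζ) + I.δ := lt_of_lt_of_eq h2 (by rw [e])
    have h5 : skwR (I.z (skpIx I (2 * (2 ^ (i + 1) * ζ)))) + I.d.zlo ≤ 6 * (2 ^ i * ζ) := by
      have := g.zlo
      linarith
    calc Ca * (skwR (I.z (skpIx I (2 * (2 ^ (i + 1) * ζ)))) + I.d.zlo) ≤ Ca * (6 * (2 ^ i * ζ)) := mul_le_mul_of_nonneg_left h5 hCa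
      _ = 6 * Ca * (2 ^ i * ζ) := by ring
      _ ≤ _ := mul_le_mul_of_nonneg_right (by linarith) (by positivity)

/-- **the synchronised layers of the fork `k`** -/
theorem skp_raw_sync (g : SkpRawGeo S I k ζ n) (hS : S.Ok) (hI : I.Ok S) (sm : SkpRawSm S I) {r : ℕ} (hr : 1 ≤ r) {Ca A : ℝ} (hCa : 0 ≤ Ca)
    (hraw : I.RawB r Ca) (hA0 : 0 ≤ A) (hA : 2 * S.Cv ^ 2 * S.Cm * (6 * Ca + 8 / S.zreg) / S.cD3 ≤ A ^ 2) :
    ∫ z, (I.P.Q z - I.P.QX (skpRawT I ζ n 0) (skpRawT I ζ n 0) z) ^ (2 * r) ∂(I.P.fork k) ≤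
      (2 * (S.K.cA3 r * I.Lg ^ 2 * A * I.g0 * ζ)) ^ (2 * r) := by
  have hζ := skp_raw_geo_pos g hI
  have hx0 := hI.wh.x0
  have hzr := hS.zreg
  have hCv0 : 0 < S.Cv := by linarith [hS.Cv]
  have hCm0 : 0 < S.Cm := by linarith [hS.Cm]
  have hlam0 : 0 < I.lam1 := lt_of_lt_of_le (by positivity) hI.lam1a
  have hcA : 0 ≤ S.K.cA3 r := by linarith [hS.cA3 r]
  obtain ⟨κ, hκ⟩ : ∃ κ : ℝ, κ = S.K.cA3 r * I.Lg ^ 2 := ⟨_, rfl⟩
  have hκ0 : 0 ≤ κ := by rw [hκ]; positivity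
  have hproj := hI.proj r hr
  rw [← hκ] at hproj ⊢
  have hg0 := hI.g0c
  obtain ⟨E0, hE0⟩ : ∃ E0 : ℝ, E0 = κ * A * I.g0 * ζ := ⟨_, rfl⟩
  have hE00 : 0 ≤ E0 := by rw [hE0]; positivity
  rw [← hE0]
  have hgap : ∀ i, i < n + 1 → skpIx I (2 ^ (i + 1) * ζ) < skpRawT I ζ n i ∧ I.lowb ≤ I.P.v (skpIx I (2 ^ (i + 1) * ζ)) ∧
      I.lowb ≤ I.P.hlen (skpIx I (2 ^ (i + 1) * ζ)) (skpRawT I ζ n i) ∧
      (2 ^ (i + 1) * ζ / S.Cv) ^ 2 * (1 / (S.Cm * I.d.x ^ 6)) * (S.cD3 * I.lam1 * (2 ^ (i + 1) * ζ) ^ 2 * (2 ^ (i + 1) * ζ / 2))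
        ≤ mbxDen I.P (skpIx I (2 ^ (i + 1) * ζ)) (skpRawT I ζ n i) := by
    intro i hi
    rw [skp_raw_T_lo I ζ (by omega : i ≤ n)]
    have h1 := skp_raw_geo_ge g hI i
    have h2 := skp_raw_geo_le g hI (by omega : i ≤ n)
    obtain ⟨a1, -, a3, a4, a5⟩ := skp_raw_gap hS hI sm (ρ := 2 ^ (i + 1) * ζ) (by have := g.zlo; linarith) (by linarith)
    exact ⟨a1, a3, a4, a5⟩
  have hs := bud_bm_sync I.P hI.sp hr (pow_nonneg hκ0 _) hproj k (n + 1) (skpRawT I ζ n) (fun i => skpIx I (2 ^ (i + 1) * ζ))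
    (skp_raw_T_mono g hS hI) (skp_raw_T_hi I ζ (Nat.lt_succ_self n))
    (fun i hi => by
      obtain ⟨a1, a3, a4, a5⟩ := hgap i hi
      refine ⟨?_, a1, a3, a4, lt_of_lt_of_le (by have := hS.cD3; positivity) a5⟩
      refine (skp_ix_gt hI ?_ ?_).le
      · have := skp_raw_geo_le g hI (by omega : i ≤ n)
        have := hI.zreg
        have : 0 < 2 ^ (i + 1) * ζ := by positivity
        linarith
      · have := skp_raw_geo_ge g hI i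
        have e : I.zc k = I.z k := rfl
        have := g.zk
        rw [e]; linarith)
    (fun i => (6 * Ca + 8 / S.zreg) * (2 ^ i * ζ)) (fun i => E0 / (2 ^ (i + 1)) ^ 2) (fun i => by positivity)
    (fun i _ => skp_raw_T_raw g hS hI sm hCa hraw i)
    (fun i hi => by
      obtain ⟨-, -, -, a5⟩ := hgap i hi
      have h1 := skp_raw_e_arith (κ := κ) (A := A) (M := 6 * Ca + 8 / S.zreg) (w := 2 ^ (i + 1)) (skp_raw_g0 hI g.zlo) a5 hA (by positivity) hζ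
        hCv0 hCm0 hS.cD3 hlam0 (by positivity)
      rw [← hE0] at h1
      have h8 : 0 < 8 / S.zreg := by positivity
      have h2 := pow_le_pow_left₀ (by positivity) h1 r
      have gen : ∀ a b : ℝ, a ^ (2 * r) * b ^ r = (a ^ 2 * b) ^ r := fun a b => by rw [mul_pow, ← pow_mul]
      calc κ ^ (2 * r) * ((6 * Ca + 8 / S.zreg) * (2 ^ (i + 1) * ζ)) ^ r = (κ ^ 2 * ((6 * Ca + 8 / S.zreg) * (2 ^ (i + 1) * ζ))) ^ r :=
            gen _ _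
        _ ≤ _ := h2
        _ = _ := (gen _ _).symm)
  refine hs.trans (pow_le_pow_left₀ (mul_nonneg zero_le_two (Finset.sum_nonneg fun i _ => by positivity)) ?_ _)
  refine mul_le_mul_of_nonneg_left ?_ zero_le_two
  have e : ∀ i ∈ Finset.range (n + 1), E0 / ((2 : ℝ) ^ (i + 1)) ^ 2 = E0 * (1 / ((2 : ℝ) ^ (i + 1)) ^ 2) := fun i _ => by ring
  rw [Finset.sum_congr rfl e, ← Finset.mul_sum]
  have h1 := skp_raw_geom (n + 1)
  have h2 : 0 ≤ 1 / ((2 : ℝ) ^ (n + 1)) ^ 2 := by positivity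
  calc E0 * ∑ i ∈ Finset.range (n + 1), 1 / ((2 : ℝ) ^ (i + 1)) ^ 2 ≤ E0 * 1 := mul_le_mul_of_nonneg_left (by linarith) hE00
    _ = E0 := mul_one _

end layers

/-- **the overlap of the fork `k`** (with the raw moments of orders `r`, `2 r`) -/
theorem skp_raw_Q (S : SkpS) (hS : S.Ok) (r : ℕ) (hr : 1 ≤ r) : ∃ C : ℝ, 1 ≤ C ∧
    ∀ (Ω : Type) [_mΩ : MeasurableSpace Ω] (m : ℕ) (I : SkpI Ω m), I.Ok S → I.d.x ≤ 1 / C → I.RawB r C ∧ I.RawB (2 * r) C ∧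
      ∀ k ≤ I.nb, ∫ z, |I.P.Q z| ^ (2 * r) ∂(I.P.fork k) ≤ (C * (skwR (I.z k) + I.d.zlo)) ^ (2 * r) := by
  obtain ⟨Ca, hCa, hA⟩ := skp_raw_nX S hS r hr
  obtain ⟨Cb, hCb, hB⟩ := skp_raw_nX S hS (2 * r) (by omega)
  have hCv0 : 0 < S.Cv := by linarith [hS.Cv]
  have hCm0 : 0 < S.Cm := by linarith [hS.Cm]
  have hcD3 := hS.cD3
  have hzr := hS.zreg
  have hcg := hS.cg
  have hcA : 0 < S.K.cA3 r := by linarith [hS.cA3 r]
  have h8 : 0 < 8 / S.zreg := by positivity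
  have h16 : 0 < 16 / S.zreg := by positivity
  have h4c : 0 < 4 / S.cD3 := by positivity
  obtain ⟨A, hAdef⟩ : ∃ A : ℝ, A = 1 + 2 * S.Cv ^ 2 * S.Cm * (6 * Ca + 8 / S.zreg) / S.cD3 := ⟨_, rfl⟩
  have hA1 : 1 ≤ A := by
    have : 0 ≤ 2 * S.Cv ^ 2 * S.Cm * (6 * Ca + 8 / S.zreg) / S.cD3 := by positivity
    rw [hAdef]; linarith
  have hAA : 2 * S.Cv ^ 2 * S.Cm * (6 * Ca + 8 / S.zreg) / S.cD3 ≤ A ^ 2 := by
    have h1 : A ≤ A ^ 2 := by nlinarith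
    have h2 : 2 * S.Cv ^ 2 * S.Cm * (6 * Ca + 8 / S.zreg) / S.cD3 ≤ A := by rw [hAdef]; linarith
    linarith
  obtain ⟨CE, hCE⟩ : ∃ CE : ℝ, CE = S.K.cA3 r * (49 * (2 / S.cg) ^ 2) * A := ⟨_, rfl⟩
  have hCE0 : 0 ≤ CE := by rw [hCE]; positivity
  refine ⟨Ca + Cb + 2 + S.Cv + 4 / S.cD3 + (2 * CE + (6 * Cb + 8 / S.zreg)) + 16 / S.zreg, by linarith, ?_⟩
  intro Ω _ m I hI hx
  obtain ⟨C, hC⟩ : ∃ C : ℝ, C = Ca + Cb + 2 + S.Cv + 4 / S.cD3 + (2 * CE + (6 * Cb + 8 / S.zreg)) + 16 / S.zreg := ⟨_, rfl⟩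
  rw [← hC] at hx ⊢
  have hx0 := hI.wh.x0
  have hsm : ∀ c : ℝ, 0 < c → c ≤ C → I.d.x ≤ 1 / c := fun c hc hle => hx.trans (one_div_le_one_div_of_le hc hle)
  have sm : SkpRawSm S I := ⟨hsm 2 (by norm_num) (by linarith), hsm _ hCv0 (by linarith), by
    have := hsm _ h4c (by linarith)
    rwa [one_div_div] at this⟩
  have hrawa := hA Ω m I hI (hsm _ (by linarith) (by linarith))
  have hrawb := hB Ω m I hI (hsm _ (by linarith) (by linarith))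
  refine ⟨skp_raw_mono hI (by linarith) (by linarith) hrawa, skp_raw_mono hI (by linarith) (by linarith) hrawb, ?_⟩
  intro k hk
  have := I.P.l8s_fork_prob hI.sp k
  have eabs : ∀ x : ℝ, |x| ^ (2 * r) = x ^ (2 * r) := fun x => by rw [pow_mul, pow_mul, sq_abs]
  rcases lt_or_ge S.zreg (16 * I.z k) with hmac | hsmall
  · simp only [eabs]
    exact (skp_raw_le_one (I.P.fork k) (I.P.l8s_fork_Q_bd_aux hI.sp).2 (2 * r)).trans
      (one_le_pow₀ (skp_raw_mac hS hI hmac (by linarith)))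
  · obtain ⟨hζ1, hζ2, hζ3, hζ4⟩ := skp_raw_scale hS hI hsmall
    obtain ⟨ζ, hζ⟩ : ∃ ζ : ℝ, ζ = max (I.z k) I.d.zlo := ⟨_, rfl⟩
    rw [← hζ] at hζ1 hζ2 hζ3 hζ4
    have hζ0 : 0 < ζ := lt_of_lt_of_le hI.wh.zlo0 hζ2
    obtain ⟨n, hn1, hn2⟩ := skp_d6_B (D1 := 4 * ζ) (zr := S.zreg) (by positivity) (by linarith)
    have g : SkpRawGeo S I k ζ n := ⟨hζ1, hζ2, hn1, hn2⟩
    have hs := skp_raw_sync g hS hI sm hr (by linarith : 0 ≤ Ca) hrawa (by linarith : 0 ≤ A) hAA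
    have hq := skp_raw_QX hI.sp k (skpRawT I ζ n 0) (q := 2 * r) (by omega) (A := (6 * Cb + 8 / S.zreg) * (2 ^ 0 * ζ)) (by positivity)
      (skp_raw_T_raw g hS hI sm (by linarith : 0 ≤ Cb) hrawb 0)
    have hg0 := hI.g0c
    have hE0 : 0 ≤ S.K.cA3 r * I.Lg ^ 2 * A * I.g0 * ζ := by positivity
    have hadd := bud_bm_sync_add (Ω := Ω × Ω) (I.P.fork k) ((skp_raw_Q_bd hI.sp).sub (skp_raw_QX_bd hI.sp (skpRawT I ζ n 0)))
      (skp_raw_QX_bd hI.sp (skpRawT I ζ n 0)) (2 * r) (by omega) (mul_nonneg zero_le_two hE0)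
      (by positivity : 0 ≤ (6 * Cb + 8 / S.zreg) * (2 ^ 0 * ζ)) (by simp only [eabs]; exact hs) hq
    simp only [sub_add_cancel] at hadd
    refine hadd.trans (pow_le_pow_left₀ (by positivity) ?_ _)
    -- the projection scale
    have hΛ0 : 0 ≤ Real.log (1 / I.d.x) := Real.log_nonneg (by rw [le_div_iff₀ hx0]; linarith [skp_raw_x1 sm])
    have hLg : I.Lg ^ 2 * I.g0 ≤ 49 * (2 / S.cg) ^ 2 := by
      have h1 : I.Lg ^ 2 ≤ (7 * Real.log (1 / I.d.x)) ^ 2 := pow_le_pow_left₀ hI.Lg0 hI.Lg 2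
      have h2 := skp_raw_log hx0 (skp_raw_x1 sm) hcg
      calc I.Lg ^ 2 * I.g0 ≤ (7 * Real.log (1 / I.d.x)) ^ 2 * I.d.x ^ S.cg := mul_le_mul h1 hI.g0b hg0.le (by positivity)
        _ = 49 * (Real.log (1 / I.d.x) ^ 2 * I.d.x ^ S.cg) := by ring
        _ ≤ _ := mul_le_mul_of_nonneg_left h2 (by norm_num)
    have hE : S.K.cA3 r * I.Lg ^ 2 * A * I.g0 * ζ ≤ CE * ζ := by
      refine mul_le_mul_of_nonneg_right ?_ hζ0.le
      calc S.K.cA3 r * I.Lg ^ 2 * A * I.g0 = S.K.cA3 r * (I.Lg ^ 2 * I.g0) * A := by ring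
        _ ≤ S.K.cA3 r * (49 * (2 / S.cg) ^ 2) * A :=
            mul_le_mul_of_nonneg_right (mul_le_mul_of_nonneg_left hLg hcA.le) (by linarith)
        _ = CE := hCE.symm
    calc 2 * (S.K.cA3 r * I.Lg ^ 2 * A * I.g0 * ζ) + (6 * Cb + 8 / S.zreg) * (2 ^ 0 * ζ)
        ≤ 2 * (CE * ζ) + (6 * Cb + 8 / S.zreg) * (2 ^ 0 * ζ) := by linarith
      _ = (2 * CE + (6 * Cb + 8 / S.zreg)) * ζ := by ring
      _ ≤ C * ζ := mul_le_mul_of_nonneg_right (by linarith) hζ0.le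
      _ ≤ _ := mul_le_mul_of_nonneg_left hζ4 (by linarith)

/-- **EXIT RAW**: the first line of (D2).   TEX[LL:prop:statistics-pointwise] -/
theorem skp_raw_all : SkpRaw := by
  intro S hS r hr
  obtain ⟨C, hC, h⟩ := skp_raw_Q S hS r hr
  refine ⟨2 * C, by linarith, ?_⟩
  intro Ω _ m I hI hx k hk
  obtain ⟨h1, h2, h3⟩ := h Ω m I hI (hx.trans (one_div_le_one_div_of_le (by linarith) (by linarith)))
  have h0 : 0 ≤ skwR (I.z k) + I.d.zlo := add_nonneg (skp_raw_R_nonneg hI k) hI.wh.zlo0.le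
  have hC0 : 0 ≤ C * (skwR (I.z k) + I.d.zlo) := mul_nonneg (by linarith) h0
  have hle : C * (skwR (I.z k) + I.d.zlo) ≤ 2 * C * (skwR (I.z k) + I.d.zlo) := by linarith
  have eabs : ∀ x : ℝ, |x| ^ (2 * r) = x ^ (2 * r) := fun x => by rw [pow_mul, pow_mul, sq_abs]
  refine ⟨(h1 k hk).trans (pow_le_pow_left₀ hC0 hle r), ?_, ?_⟩
  · have h4 := skp_raw_L_of hI.sp k (q := 2 * r) (by omega) hC0 hC0 (h3 k hk) (h2 k hk)
    simp only [eabs] at h4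
    refine h4.trans (le_of_eq ?_)
    congr 1; ring
  · have h4 := h3 k hk
    simp only [eabs] at h4
    exact h4.trans (pow_le_pow_left₀ hC0 hle _)

theorem skp_raw_eqns_cite : True := by
  have := @skpRawT.eq_1
  trivial

end Claimed.Agent.R286
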