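import Claimed.Agent.R286.PM.Leaves

/-!
# Row 286 (S0533), folder PM, file Ref : EXIT REF = second line of (D2) of LL Prop 8.1      (helper29; prefix `skp_ref_`)

`skp_ref_of : SkpRaw → SkpInc → SkpLeafRW → SkpRef`.
Plan (LL 08 l.570-630):
* trivial cuts (`Z² 𝔥 ≥ b r / CW`): RAW;
* nontrivial cuts: `skp_ref_nt` (elementary facts), `skp_ref_win` ((A1) on a (D4) window, from RW: REUSABLE by INC), `l8s_buffer` at one cut  ⇒  `|X_k|² - q`;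
* `Q - q`: `bud_bm_sync` on the doubling chain `z_k + 2^i 𝔥` (`skpIdx`), `bud_bm_polar` at the first cut of the chain;
* `2 L - q = 2 (y·X_k - q) - (|X_k|² - q)`, `y·X_k - q = E'[Q - q]` (conditional Jensen on the fork kernel).
-/

set_option autoImplicit false
set_option linter.unusedVariables false

namespace Claimed.Agent.R286

open Set MeasureTheory

variable {Ω : Type} [mΩ : MeasurableSpace Ω] {m : ℕ}

/-! ## 0. Generic helpers -/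

/-- Minkowski for two functions, even moments -/
theorem skp_ref_mk {α : Type} [MeasurableSpace α] (μ : Measure α) [IsProbabilityMeasure μ] {f g : α → ℝ} (hf : L8Bd f) (hg : L8Bd g)
    {r : ℕ} (hr : 1 ≤ r) {A B : ℝ} (hA : 0 ≤ A) (hB : 0 ≤ B) (h1 : ∫ x, f x ^ (2 * r) ∂μ ≤ A ^ (2 * r))
    (h2 : ∫ x, g x ^ (2 * r) ∂μ ≤ B ^ (2 * r)) : ∫ x, (f x + g x) ^ (2 * r) ∂μ ≤ (A + B) ^ (2 * r) := by
  have he : Even (2 * r) := even_two_mul r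
  have key := bud_bm_mink μ (Finset.univ : Finset Bool) (fun b => cond b f g) (fun b => cond b A B) (2 * r) (by omega)
    (by intro i _; cases i <;> simpa) (by intro i _; cases i <;> simpa)
    (by
      intro i _
      cases i
      · simpa [he.pow_abs] using h2
      · simpa [he.pow_abs] using h1)
  simpa [he.pow_abs] using key

/-- Minkowski with a constant -/
theorem skp_ref_mkc {α : Type} [MeasurableSpace α] (μ : Measure α) [IsProbabilityMeasure μ] {f : α → ℝ} (hf : L8Bd f)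
    {r : ℕ} (hr : 1 ≤ r) {A B c : ℝ} (hA : 0 ≤ A) (hc : |c| ≤ B) (h1 : ∫ x, f x ^ (2 * r) ∂μ ≤ A ^ (2 * r)) :
    ∫ x, (f x + c) ^ (2 * r) ∂μ ≤ (A + B) ^ (2 * r) := by
  have he : Even (2 * r) := even_two_mul r
  refine skp_ref_mk μ hf (l8k_bd_const c) hr hA ((abs_nonneg c).trans hc) h1 ?_
  simp only [integral_const, probReal_univ, smul_eq_mul, one_mul]
  rw [← he.pow_abs]
  exact pow_le_pow_left₀ (abs_nonneg c) hc _

theorem skp_ref_R_le_one (z : ℝ) : skwR z ≤ 1 := min_le_right _ _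
theorem skp_ref_R_le (z : ℝ) : skwR z ≤ z := min_le_left _ _
theorem skp_ref_R_mono {z z' : ℝ} (h : z ≤ z') : skwR z ≤ skwR z' := min_le_min_right _ h
theorem skp_ref_R_pos {z : ℝ} (h : 0 < z) : 0 < skwR z := lt_min h one_pos
theorem skp_ref_R_add {z D : ℝ} (hD : 0 ≤ D) : skwR (z + D) ≤ skwR z + D := by
  unfold skwR
  rcases le_total z 1 with h | h
  · rw [min_eq_left h]; exact min_le_left _ _
  · rw [min_eq_right h]; exact (min_le_right _ _).trans (by linarith)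

theorem skp_ref_small_mono {C C' : ℝ} {d : SkwD} (h0 : 0 < C') (h : C' ≤ C) (hs : SkwSmall C d) : SkwSmall C' d :=
  ⟨hs.b.trans (one_div_le_one_div_of_le h0 h), hs.U.trans (one_div_le_one_div_of_le h0 h), hs.x.trans (one_div_le_one_div_of_le h0 h)⟩

/-! ## 1. The grid -/

/-- the first cut `j ≥ k` with `t ≤ z_j` -/
noncomputable def skpIdx (I : SkpI Ω m) (k : ℕ) (t : ℝ) : ℕ := sInf {j | k ≤ j ∧ t ≤ I.zc j}

theorem skp_ref_eqns_cite : True := by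
  have := @skpIdx.eq_1
  trivial

theorem skp_ref_idx {S : SkpS} {I : SkpI Ω m} (hI : I.Ok S) {k : ℕ} (hk : k ≤ I.nb) {t : ℝ} (h1 : I.zc k ≤ t) (h2 : t ≤ I.zbuf) :
    k ≤ skpIdx I k t ∧ skpIdx I k t ≤ I.nb ∧ t ≤ I.zc (skpIdx I k t) ∧ I.zc (skpIdx I k t) < t + I.δ := by
  have hne : {j | k ≤ j ∧ t ≤ I.zc j}.Nonempty := ⟨I.nb, hk, by rw [hI.nb]; exact h2⟩
  have hmem : skpIdx I k t ∈ {j | k ≤ j ∧ t ≤ I.zc j} := Nat.sInf_mem hne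
  have hle : skpIdx I k t ≤ I.nb := Nat.sInf_le ⟨hk, by rw [hI.nb]; exact h2⟩
  refine ⟨hmem.1, hle, hmem.2, ?_⟩
  rcases Nat.eq_or_lt_of_le hmem.1 with he | hlt
  · rw [← he]; linarith [hI.δ0]
  · obtain ⟨j, hj⟩ : ∃ j, skpIdx I k t = j + 1 := ⟨skpIdx I k t - 1, by omega⟩
    have hnot : j ∉ {j | k ≤ j ∧ t ≤ I.zc j} := Nat.notMem_of_lt_sInf (by unfold skpIdx at hj; omega)
    have hkj : k ≤ j := by omega
    have hlt' : I.zc j < t := by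
      by_contra hcon
      exact hnot ⟨hkj, not_lt.mp hcon⟩
    have := hI.zmesh j (by omega)
    rw [hj]; linarith

theorem skp_ref_idx_mono {S : SkpS} {I : SkpI Ω m} (hI : I.Ok S) {k : ℕ} (hk : k ≤ I.nb) {t t' : ℝ} (htt : t ≤ t') (h2 : t' ≤ I.zbuf) :
    skpIdx I k t ≤ skpIdx I k t' := by
  have hne : {j | k ≤ j ∧ t' ≤ I.zc j}.Nonempty := ⟨I.nb, hk, by rw [hI.nb]; exact h2⟩
  have hmem : skpIdx I k t' ∈ {j | k ≤ j ∧ t' ≤ I.zc j} := Nat.sInf_mem hne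
  exact Nat.sInf_le ⟨hmem.1, htt.trans hmem.2⟩

theorem skp_ref_z_le {S : SkpS} {I : SkpI Ω m} (hI : I.Ok S) {k : ℕ} (hk : k ≤ I.nb) : I.zc k ≤ I.zbuf := by
  rw [← hI.nb]; exact hI.zmono hk

theorem skp_ref_z_nonneg {S : SkpS} {I : SkpI Ω m} (hI : I.Ok S) (k : ℕ) : 0 ≤ I.zc k := by
  rw [← hI.z0]; exact hI.zmono (Nat.zero_le k)

theorem skp_ref_lt_of_z {S : SkpS} {I : SkpI Ω m} (hI : I.Ok S) {j k : ℕ} (h : I.zc j < I.zc k) : j < k := by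
  by_contra hcon
  exact absurd (hI.zmono (not_lt.mp hcon)) (not_le.mpr h)

/-! ## 2. Nontrivial cuts -/

/-- elementary facts at a nontrivial cut -/
theorem skp_ref_nt {S : SkpS} (hS : S.Ok) {I : SkpI Ω m} (hI : I.Ok S) (hb : 64 * S.Cz ^ 2 * I.d.b ≤ 1) {z₀ : ℝ} (hz : z₀ ∈ Icc I.d.zlo I.zbuf)
    (hnt : I.d.Z ^ 2 * I.hh z₀ < I.d.b * skwR z₀ / S.CW) :
    0 < I.hh z₀ ∧ I.d.U ^ 2 ≤ S.CW * skwR z₀ * I.hh z₀ ∧ S.CW * I.hh z₀ ≤ I.d.b * skwR z₀ ∧ 8 * I.d.zlo ≤ skwR z₀ ∧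
      I.d.x ^ 2 ≤ S.CW * I.hh z₀ := by
  have hCW := hS.CW
  have hCW0 : 0 < S.CW := by linarith
  have hb0 := hI.wh.b0
  have hZ1 := hI.wh.Z1
  have hx0 := hI.wh.x0
  have hU0 : 0 < I.d.U := lt_of_lt_of_le hx0 hI.wh.xU
  have hzlo0 := hI.wh.zlo0
  have hR0 : 0 < skwR z₀ := skp_ref_R_pos (lt_of_lt_of_le hzlo0 hz.1)
  have hR1 : skwR z₀ ≤ 1 := skp_ref_R_le_one z₀
  set R := skwR z₀ with hR
  set w := I.hh z₀ with hw
  have hlow := hI.wc.lower z₀ ⟨by linarith [hz.1], hz.2⟩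
  rw [← hR, ← hw] at hlow
  have hmin0 : 0 < min (I.d.b * R) (I.d.U ^ 2 / R) := lt_min (by positivity) (by positivity)
  have hw0 : 0 < w := lt_of_lt_of_le (by positivity) hlow
  have hZ2 : 1 ≤ I.d.Z ^ 2 := one_le_pow₀ hZ1
  have hwlt : w < I.d.b * R / S.CW := lt_of_le_of_lt (by nlinarith) hnt
  have h3 : S.CW * w < I.d.b * R := by rwa [lt_div_iff₀ hCW0, mul_comm] at hwlt
  have hcase : I.d.U ^ 2 / R < I.d.b * R := by
    by_contra hcon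
    rw [min_eq_left (not_lt.mp hcon)] at hlow
    exact absurd hlow (not_le.mpr hwlt)
  rw [min_eq_right hcase.le, div_div, div_le_iff₀ (by positivity)] at hlow
  have h2 : I.d.U ^ 2 ≤ S.CW * R * w := by linarith
  have hxU2 : I.d.x ^ 2 ≤ I.d.U ^ 2 := pow_le_pow_left₀ hx0.le hI.wh.xU 2
  have h5 : I.d.x ^ 2 ≤ S.CW * w := by
    have : S.CW * R * w ≤ S.CW * 1 * w := by gcongr
    linarith
  have hnt' : S.CW * (I.d.Z ^ 2 * w) < I.d.b * R := by rwa [lt_div_iff₀ hCW0, mul_comm] at hnt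
  have hY : (I.d.U * I.d.Z) ^ 2 ≤ I.d.b * R ^ 2 := by
    calc (I.d.U * I.d.Z) ^ 2 = I.d.U ^ 2 * I.d.Z ^ 2 := by ring
      _ ≤ (S.CW * R * w) * I.d.Z ^ 2 := by gcongr
      _ = R * (S.CW * (I.d.Z ^ 2 * w)) := by ring
      _ ≤ R * (I.d.b * R) := by gcongr
      _ = I.d.b * R ^ 2 := by ring
  have hzl : I.d.zlo ^ 2 ≤ S.Cz ^ 2 * (I.d.b * R ^ 2) := by
    calc I.d.zlo ^ 2 ≤ (S.Cz * (I.d.U * I.d.Z)) ^ 2 := pow_le_pow_left₀ hzlo0.le hI.zloY 2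
      _ = S.Cz ^ 2 * (I.d.U * I.d.Z) ^ 2 := by ring
      _ ≤ S.Cz ^ 2 * (I.d.b * R ^ 2) := by gcongr
  have h4 : 8 * I.d.zlo ≤ R := by
    have h64 : (8 * I.d.zlo) ^ 2 ≤ R ^ 2 := by
      calc (8 * I.d.zlo) ^ 2 = 64 * I.d.zlo ^ 2 := by ring
        _ ≤ 64 * (S.Cz ^ 2 * (I.d.b * R ^ 2)) := by gcongr
        _ = (64 * S.Cz ^ 2 * I.d.b) * R ^ 2 := by ring
        _ ≤ 1 * R ^ 2 := by gcongr
        _ = R ^ 2 := one_mul _
    exact (pow_le_pow_iff_left₀ (by positivity) hR0.le two_ne_zero).mp h64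
  exact ⟨hw0, h2, h3.le, h4, h5⟩

/-! ## 3. (A1) on a (D4) window -/

theorem skp_ref_dv_nonneg (P : L8P Ω m) (h : P.Ok) (j : ℕ) : 0 ≤ P.dv j := by
  unfold L8P.dv
  split_ifs with hj
  · simpa using h.v_nonneg j
  · exact sub_nonneg.mpr (h.v_mono (Nat.sub_le j 1))

/-- **(A1) on a (D4) window** `[a, a+l]` of the cut `z₀`: if `‖∑_{window} dz W‖_r ≤ A` on the grid cells inside the window, then the mass average `∑ ρ L` over these cells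
is centred up to `‖·‖_{2r}² ≤ cA1^{1/r} 4 CW⁴ r³ 𝔥 A / U⁶`.   `k₀` = a prescribed lower bound of the cells. -/
theorem skp_ref_win {S : SkpS} (hS : S.Ok) {I : SkpI Ω m} (hI : I.Ok S) {r : ℕ} (hr : 1 ≤ r)
    {z₀ a l A : ℝ} (hR0 : 0 < skwR z₀) (hw0 : 0 < I.hh z₀) (hδ : 4 * S.CW * I.δ ≤ l)
    (ha : 0 ≤ a) (hal : a + l ≤ I.zbuf) (hwin : SkwWin S.CW I.d z₀ (I.hh z₀) a l) (hA : 0 ≤ A)
    (hRW : ∀ k₁ k₂, k₁ ≤ k₂ → k₂ ≤ I.nb → a ≤ I.zc k₁ → I.zc k₁ < a + I.δ → I.zc k₂ < a + l →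
        ∫ ω, (∑ k ∈ Finset.Ico k₁ k₂, I.dz k * I.P.W k ω) ^ r ∂I.P.μ ≤ A ^ r)
    {k₀ : ℕ} (hk₀ : k₀ ≤ I.nb) (hk₀a : I.zc k₀ ≤ a) :
    ∃ (k₁ k₂ : ℕ) (ρ : ℕ → ℝ), k₀ ≤ k₁ ∧ k₁ ≤ k₂ ∧ k₂ ≤ I.nb ∧ a ≤ I.zc k₁ ∧ I.zc k₂ < a + l ∧ (∀ j, 0 ≤ ρ j) ∧
      ∑ j ∈ Finset.Ico k₁ k₂, ρ j = 1 ∧ (∀ j ∈ Finset.Ico k₁ k₂, ρ j ≠ 0 → I.zc j < I.zc (j + 1)) ∧
      ∫ ω, ((∑ j ∈ Finset.Ico k₁ k₂, ρ j * I.P.L j ω) - ∫ ω', (∑ j ∈ Finset.Ico k₁ k₂, ρ j * I.P.L j ω') ∂I.P.μ) ^ (2 * r) ∂I.P.μ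
        ≤ S.K.cA1 r * (4 * S.CW ^ 4 * skwR z₀ ^ 3 * I.hh z₀ * A / I.d.U ^ 6) ^ r := by
  have hP := hI.sp
  have := hP.prob
  have hCW := hS.CW
  have hCW0 : 0 < S.CW := by linarith
  have hδ0 := hI.δ0
  have hU0 : 0 < I.d.U := lt_of_lt_of_le hI.wh.x0 hI.wh.xU
  have hl0 : 0 < l := lt_of_lt_of_le (by positivity) hδ
  have h2δ : 2 * I.δ ≤ l := by nlinarith
  set R := skwR z₀ with hR
  set w := I.hh z₀ with hw
  -- the cells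
  obtain ⟨h1a, h1b, h1c, h1d⟩ := skp_ref_idx hI hk₀ hk₀a (by linarith : a ≤ I.zbuf)
  set k₁ := skpIdx I k₀ a with hk₁
  obtain ⟨h2a, h2b, h2c, h2d⟩ := skp_ref_idx hI h1b (by linarith : I.zc k₁ ≤ a + l - I.δ) (by linarith : a + l - I.δ ≤ I.zbuf)
  set k₂ := skpIdx I k₁ (a + l - I.δ) with hk₂
  have h2d' : I.zc k₂ < a + l := by linarith
  -- the density
  set Gb : ℝ := (∫ t in a..(a + l), I.d.G t) / l with hGb
  have hzm : I.zbuf ≤ I.d.zmax := hI.zbuf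
  have hint : ∀ α β, 0 ≤ α → α ≤ I.d.zmax → 0 ≤ β → β ≤ I.d.zmax → IntervalIntegrable I.d.G volume α β := by
    intro α β h1 h2 h3 h4
    refine hI.wh.Gi.mono_set ?_
    rw [uIcc_of_le (le_trans h1 h2)]
    exact uIcc_subset_Icc ⟨h1, h2⟩ ⟨h3, h4⟩
  have hbig := hwin.big
  rw [← hGb, ← hR] at hbig
  have hGb0 : 0 < Gb := by
    have h1 : 0 < I.d.U ^ 6 / (S.CW * R ^ 3) := by positivity
    have h2 : 0 < Gb * w ^ 3 := lt_of_lt_of_le h1 hbig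
    exact (pos_iff_pos_of_mul_pos h2).mpr (by positivity)
  have hpiece : ∀ α β, a ≤ α → α ≤ β → β ≤ a + l → ∫ t in α..β, I.d.G t ≤ S.CW * Gb * (β - α) := by
    intro α β h1 h2 h3
    have h4 := intervalIntegral.integral_mono_on_of_le_Ioo (μ := volume) h2
      (hint α β (by linarith) (by linarith) (by linarith) (by linarith)) (intervalIntegrable_const (c := S.CW * Gb))
      (fun s hs => hwin.sup s ⟨by linarith [hs.1], by linarith [hs.2]⟩)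
    rw [intervalIntegral.integral_const, smul_eq_mul] at h4
    linarith
  set M : ℝ := ∫ t in (I.zc k₁)..(I.zc k₂), I.d.G t with hM
  have hk12z : I.zc k₁ ≤ I.zc k₂ := hI.zmono h2a
  have htot : ∫ t in a..(a + l), I.d.G t = (∫ t in a..(I.zc k₁), I.d.G t) + M + ∫ t in (I.zc k₂)..(a + l), I.d.G t := by
    rw [hM, intervalIntegral.integral_add_adjacent_intervals (hint _ _ (by linarith) (by linarith) (by linarith) (by linarith))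
      (hint _ _ (by linarith) (by linarith) (by linarith) (by linarith)),
      intervalIntegral.integral_add_adjacent_intervals (hint _ _ (by linarith) (by linarith) (by linarith) (by linarith))
      (hint _ _ (by linarith) (by linarith) (by linarith) (by linarith))]
  have hGl : ∫ t in a..(a + l), I.d.G t = Gb * l := by rw [hGb]; field_simp
  have hMlo : Gb * l / 2 ≤ M := by
    have e1 := hpiece a (I.zc k₁) le_rfl h1c (by linarith)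
    have e2 := hpiece (I.zc k₂) (a + l) (by linarith) h2d'.le le_rfl
    have e3 : S.CW * Gb * (I.zc k₁ - a) ≤ S.CW * Gb * I.δ := by gcongr; linarith
    have e4 : S.CW * Gb * (a + l - I.zc k₂) ≤ S.CW * Gb * I.δ := by gcongr; linarith
    have e5 : Gb * (4 * S.CW * I.δ) ≤ Gb * l := by gcongr
    nlinarith
  have hM0 : 0 < M := lt_of_lt_of_le (by positivity) hMlo
  have hzj : ∀ j ∈ Finset.Ico k₁ k₂, a ≤ I.zc j ∧ I.zc j ≤ I.zc (j + 1) ∧ I.zc (j + 1) ≤ a + l ∧ j < I.nb := by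
    intro j hj
    rw [Finset.mem_Ico] at hj
    exact ⟨h1c.trans (hI.zmono hj.1), hI.zmono (Nat.le_succ j), (hI.zmono (by omega : j + 1 ≤ k₂)).trans h2d'.le, by omega⟩
  have hdv : ∀ j ∈ Finset.Ico k₁ k₂, I.P.dv j = ∫ t in (I.zc j)..(I.zc (j + 1)), I.d.G t := fun j hj => hI.gaplink j (hzj j hj).2.2.2
  have hsum : ∑ j ∈ Finset.Ico k₁ k₂, I.P.dv j = M := by
    rw [Finset.sum_congr rfl hdv, hM]
    refine intervalIntegral.sum_integral_adjacent_intervals_Ico h2a fun j hj => ?_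
    have hj' := hzj j (Finset.mem_Ico.mpr hj)
    exact hint _ _ (by linarith [hj'.1]) (by linarith [hj'.2.1, hj'.2.2.1]) (by linarith [hj'.1, hj'.2.1]) (by linarith [hj'.2.2.1])
  refine ⟨k₁, k₂, fun j => I.P.dv j / M, h1a, h2a, h2b, h1c, h2d', fun j => div_nonneg (skp_ref_dv_nonneg _ hP j) hM0.le, ?_, ?_, ?_⟩
  · rw [← Finset.sum_div, hsum, div_self hM0.ne']
  · intro j hj hne
    have hj' := hzj j hj
    rcases hj'.2.1.lt_or_eq with h | h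
    · exact h
    · exfalso
      apply hne
      show I.P.dv j / M = 0
      rw [hdv j hj, h, intervalIntegral.integral_same, zero_div]
  · -- (A1)
    have hW : ∫ ω, (∑ j ∈ Finset.Ico k₁ k₂, I.P.dv j / M * I.P.W j ω) ^ r ∂I.P.μ ≤ (S.CW * Gb / M * A) ^ r := by
      have hb1 : L8Bd (fun ω => ∑ j ∈ Finset.Ico k₁ k₂, I.dz j * I.P.W j ω) := L8Bd.sum _ fun j _ => (I.P.l8s_W_bd hP j).const_mul _
      have hb2 : L8Bd (fun ω => ∑ j ∈ Finset.Ico k₁ k₂, I.P.dv j / M * I.P.W j ω) := L8Bd.sum _ fun j _ => (I.P.l8s_W_bd hP j).const_mul _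
      calc ∫ ω, (∑ j ∈ Finset.Ico k₁ k₂, I.P.dv j / M * I.P.W j ω) ^ r ∂I.P.μ
          ≤ ∫ ω, (S.CW * Gb / M) ^ r * (∑ j ∈ Finset.Ico k₁ k₂, I.dz j * I.P.W j ω) ^ r ∂I.P.μ := by
            refine integral_mono ((hb2.pow r).integrable _) (((hb1.pow r).const_mul _).integrable _) fun ω => ?_
            show (∑ j ∈ Finset.Ico k₁ k₂, I.P.dv j / M * I.P.W j ω) ^ r ≤ (S.CW * Gb / M) ^ r * (∑ j ∈ Finset.Ico k₁ k₂, I.dz j * I.P.W j ω) ^ r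
            rw [← mul_pow]
            refine pow_le_pow_left₀ (Finset.sum_nonneg fun j _ => mul_nonneg (div_nonneg (skp_ref_dv_nonneg _ hP j) hM0.le) (I.P.l8s_W_nonneg hP j ω)) ?_ r
            rw [Finset.mul_sum]
            refine Finset.sum_le_sum fun j hj => ?_
            have hj' := hzj j hj
            have e1 := hpiece (I.zc j) (I.zc (j + 1)) hj'.1 hj'.2.1 hj'.2.2.1
            rw [← hdv j hj] at e1
            have e2 : I.P.dv j / M ≤ S.CW * Gb / M * I.dz j := by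
              rw [div_mul_eq_mul_div]
              exact div_le_div_of_nonneg_right e1 hM0.le
            calc I.P.dv j / M * I.P.W j ω ≤ (S.CW * Gb / M * I.dz j) * I.P.W j ω := mul_le_mul_of_nonneg_right e2 (I.P.l8s_W_nonneg hP j ω)
              _ = S.CW * Gb / M * (I.dz j * I.P.W j ω) := by ring
        _ = (S.CW * Gb / M) ^ r * ∫ ω, (∑ j ∈ Finset.Ico k₁ k₂, I.dz j * I.P.W j ω) ^ r ∂I.P.μ := integral_const_mul _ _
        _ ≤ (S.CW * Gb / M) ^ r * A ^ r := by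
            refine mul_le_mul_of_nonneg_left (hRW k₁ k₂ h2a h2b h1c h1d h2d') (by positivity)
        _ = (S.CW * Gb / M * A) ^ r := (mul_pow _ _ _).symm
    have hc1 := hS.cA1 r
    have key := bud_bm_win I.P hP hr (by linarith : (0:ℝ) ≤ S.K.cA1 r) (hI.pin r hr) (Finset.Ico k₁ k₂)
      (fun j hj => by have := (hzj j hj).2.2.2; have := hI.nbn; omega) (fun j => I.P.dv j / M)
      (fun j _ => div_nonneg (skp_ref_dv_nonneg _ hP j) hM0.le) hM0 (fun j _ => by rw [mul_div_cancel₀ _ hM0.ne']) hW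
    refine key.trans ?_
    rw [← div_pow]
    refine mul_le_mul_of_nonneg_left (pow_le_pow_left₀ (by positivity) ?_ r) (by linarith)
    -- arithmetic
    have hlw : w ≤ S.CW * l := by
      have := hwin.len_lo
      rwa [div_le_iff₀ hCW0, mul_comm] at this
    have hU6 : I.d.U ^ 6 ≤ S.CW * R ^ 3 * (Gb * w ^ 3) := by
      rwa [div_le_iff₀ (by positivity), mul_comm] at hbig
    rw [div_le_div_iff₀ hM0 (by positivity)]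
    have hM2 : (Gb * l / 2) ^ 2 ≤ M ^ 2 := pow_le_pow_left₀ (by positivity) hMlo 2
    have hw2 : w ^ 2 ≤ (S.CW * l) ^ 2 := pow_le_pow_left₀ hw0.le hlw 2
    -- `CW Gb A U⁶ ≤ 4 CW⁴ R³ w A M²`
    have e1 : Gb * I.d.U ^ 6 ≤ 4 * S.CW ^ 3 * R ^ 3 * w * M ^ 2 := by
      calc Gb * I.d.U ^ 6 ≤ Gb * (S.CW * R ^ 3 * (Gb * w ^ 3)) := by gcongr
        _ = S.CW * R ^ 3 * w * Gb ^ 2 * w ^ 2 := by ring
        _ ≤ S.CW * R ^ 3 * w * Gb ^ 2 * (S.CW * l) ^ 2 := by gcongr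
        _ = 4 * S.CW ^ 3 * R ^ 3 * w * (Gb * l / 2) ^ 2 := by ring
        _ ≤ 4 * S.CW ^ 3 * R ^ 3 * w * M ^ 2 := by gcongr
    calc S.CW * Gb / M * A * I.d.U ^ 6 = S.CW * A * (Gb * I.d.U ^ 6) / M := by ring
      _ ≤ S.CW * A * (4 * S.CW ^ 3 * R ^ 3 * w * M ^ 2) / M := by gcongr
      _ = 4 * S.CW ^ 4 * R ^ 3 * w * A * M := by field_simp

/-! ## 4. `|X_k|² - q` at a nontrivial cut -/

/-- the envelope near a cut -/
theorem skp_ref_E_le {S : SkpS} (hS : S.Ok) {I : SkpI Ω m} (hI : I.Ok S) {z₀ z κ : ℝ} (hz₀ : z₀ ∈ Icc (I.d.zlo / 2) I.zbuf)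
    (hz : z ∈ Icc (I.d.zlo / 2) I.zbuf) (hκ : |z₀ - z| ≤ κ * I.hh z₀) :
    skwE I.d I.hh z ≤ S.CW * (1 + κ) * (I.d.Z ^ 2 * I.hh z₀) := by
  have hCW := hS.CW
  have hZ2 : 0 ≤ I.d.Z ^ 2 := by positivity
  have h1 := hI.wc.qlip z₀ hz₀ z hz
  calc skwE I.d I.hh z ≤ I.d.Z ^ 2 * I.hh z := min_le_right _ _
    _ ≤ I.d.Z ^ 2 * (S.CW * (I.hh z₀ + κ * I.hh z₀)) := by
        refine mul_le_mul_of_nonneg_left (h1.trans ?_) hZ2
        exact mul_le_mul_of_nonneg_left (by linarith) (by linarith)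
    _ = S.CW * (1 + κ) * (I.d.Z ^ 2 * I.hh z₀) := by ring

/-- the deterministic mean near a cut -/
theorem skp_ref_mean {S : SkpS} (hS : S.Ok) {I : SkpI Ω m} (hI : I.Ok S) {z₀ z κ : ℝ} (hz₀ : z₀ ∈ Icc (I.d.zlo / 2) I.zbuf)
    (hz : z ∈ Icc (I.d.zlo / 2) I.zbuf) (hw0 : 0 ≤ I.hh z₀) (hκ0 : 0 ≤ κ) (hκ : |z₀ - z| ≤ κ * I.hh z₀) :
    |I.d.S z - I.d.q z₀| ≤ (S.CW ^ 2 * (1 + κ) + S.c.Lq * κ) * (I.d.Z ^ 2 * I.hh z₀) / I.d.b := by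
  have hCW := hS.CW
  have hLq := hS.c.Lq
  have hb0 := hI.wh.b0
  have hb1 : I.d.b ≤ 1 := hI.wh.b1.trans (by norm_num)
  have hZ2 : 1 ≤ I.d.Z ^ 2 := one_le_pow₀ hI.wh.Z1
  have hzlo0 := hI.wh.zlo0
  have hzm := hI.zbuf
  have h1 := hI.wc.dev z hz
  have h2 := hI.wh.qlip z ⟨by linarith [hz.1], by linarith [hz.2]⟩ z₀ ⟨by linarith [hz₀.1], by linarith [hz₀.2]⟩
  have h3 := skp_ref_E_le hS hI hz₀ hz hκ
  have h4 : I.d.S z - I.d.q z₀ = skwF I.d z + (I.d.q z - I.d.q z₀) := by unfold skwF; ring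
  have hE0 : 0 ≤ I.d.Z ^ 2 * I.hh z₀ := by positivity
  rw [h4, le_div_iff₀ hb0]
  have h5 : |skwF I.d z| * I.d.b ≤ S.CW * (S.CW * (1 + κ) * (I.d.Z ^ 2 * I.hh z₀)) := by
    have : |skwF I.d z| * I.d.b ≤ S.CW * skwE I.d I.hh z := by
      rw [le_div_iff₀ hb0] at h1; exact h1
    exact this.trans (mul_le_mul_of_nonneg_left h3 (by linarith))
  have h6 : |I.d.q z - I.d.q z₀| * I.d.b ≤ S.c.Lq * κ * (I.d.Z ^ 2 * I.hh z₀) := by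
    have e1 : |I.d.q z - I.d.q z₀| ≤ S.c.Lq * (κ * I.hh z₀) := by
      refine h2.trans (mul_le_mul_of_nonneg_left ?_ (by linarith))
      rw [abs_sub_comm]; exact hκ
    have e2 : κ * I.hh z₀ ≤ κ * (I.d.Z ^ 2 * I.hh z₀) := by
      refine mul_le_mul_of_nonneg_left ?_ hκ0
      nlinarith
    calc |I.d.q z - I.d.q z₀| * I.d.b ≤ |I.d.q z - I.d.q z₀| * 1 := by gcongr
      _ ≤ S.c.Lq * (κ * (I.d.Z ^ 2 * I.hh z₀)) := by
          rw [mul_one]; exact e1.trans (mul_le_mul_of_nonneg_left e2 (by linarith))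
      _ = S.c.Lq * κ * (I.d.Z ^ 2 * I.hh z₀) := by ring
  calc |skwF I.d z + (I.d.q z - I.d.q z₀)| * I.d.b ≤ (|skwF I.d z| + |I.d.q z - I.d.q z₀|) * I.d.b := by
        gcongr; exact abs_add_le _ _
    _ = |skwF I.d z| * I.d.b + |I.d.q z - I.d.q z₀| * I.d.b := by ring
    _ ≤ (S.CW ^ 2 * (1 + κ) + S.c.Lq * κ) * (I.d.Z ^ 2 * I.hh z₀) := by nlinarith

/-- **two-sided brackets at one nontrivial cut**: `A` = bound of RW on the windows of the cut, `ep` = the resulting centred norm -/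
theorem skp_ref_nX_nt {S : SkpS} (hS : S.Ok) {I : SkpI Ω m} (hI : I.Ok S) {r : ℕ} (hr : 1 ≤ r) (hb : 64 * S.Cz ^ 2 * I.d.b ≤ 1)
    (hδ : 4 * S.CW ^ 3 * I.δ ≤ I.d.x ^ 2) {k : ℕ} (hk : k ≤ I.nb) (hzk : I.d.zlo ≤ I.zc k)
    (hnt : I.d.Z ^ 2 * I.hh (I.zc k) < I.d.b * skwR (I.zc k) / S.CW) {A ep : ℝ} (hA : 0 ≤ A) (hep : 0 ≤ ep)
    (hRW : ∀ k₁ k₂, k₁ ≤ k₂ → I.d.zlo ≤ I.zc k₁ → |I.zc k₁ - I.zc k| ≤ 2 * S.CW * I.hh (I.zc k) → I.zc k₂ - I.zc k₁ ≤ I.hh (I.zc k) →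
        ∫ ω, (∑ j ∈ Finset.Ico k₁ k₂, I.dz j * I.P.W j ω) ^ r ∂I.P.μ ≤ A ^ r)
    (hAe : S.K.cA1 r * (4 * S.CW ^ 4 * skwR (I.zc k) ^ 3 * I.hh (I.zc k) * A / I.d.U ^ 6) ^ r ≤ ep ^ (2 * r)) :
    ∫ ω, (I.P.nX k ω - I.d.q (I.zc k)) ^ (2 * r) ∂I.P.μ ≤
      (16 * ((S.CW ^ 2 * (1 + (S.CW + 1)) + S.c.Lq * (S.CW + 1)) * (I.d.Z ^ 2 * I.hh (I.zc k)) / I.d.b + ep)) ^ (2 * r) := by
  have hP := hI.sp
  have hCW := hS.CW
  have hCW0 : 0 < S.CW := by linarith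
  have hLq := hS.c.Lq
  have hb0 := hI.wh.b0
  have hb1 := hI.wh.b1
  have hzlo0 := hI.wh.zlo0
  have hδ0 := hI.δ0
  have hzkb : I.zc k ≤ I.zbuf := skp_ref_z_le hI hk
  obtain ⟨hw0, hU2, hCWw, hzloR, hx2⟩ := skp_ref_nt hS hI hb ⟨hzk, hzkb⟩ hnt
  obtain ⟨⟨a₁, l₁, ha₁, hal₁, hw₁⟩, ⟨a₂, l₂, ha₂, hal₂, hw₂⟩, hfw⟩ := hI.wc.win (I.zc k) ⟨hzk, hzkb⟩ hnt
  set z₀ := I.zc k with hz₀
  set w := I.hh z₀ with hw
  set R := skwR z₀ with hR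
  have hR0 : 0 < R := skp_ref_R_pos (lt_of_lt_of_le hzlo0 hzk)
  have hRz : R ≤ z₀ := skp_ref_R_le z₀
  have hCW3 : S.CW ≤ S.CW ^ 3 := by
    calc S.CW = S.CW ^ 1 := (pow_one _).symm
      _ ≤ S.CW ^ 3 := pow_le_pow_right₀ hCW (by norm_num)
  have hCW2 : 1 ≤ S.CW ^ 2 := one_le_pow₀ hCW
  -- mesh
  have hδw : 4 * S.CW ^ 2 * I.δ ≤ w := by
    have h1 : S.CW * (4 * S.CW ^ 2 * I.δ) ≤ S.CW * w := by
      calc S.CW * (4 * S.CW ^ 2 * I.δ) = 4 * S.CW ^ 3 * I.δ := by ring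
        _ ≤ S.CW * w := hδ.trans hx2
    exact le_of_mul_le_mul_left h1 hCW0
  have hδw' : I.δ ≤ S.CW * w := by nlinarith
  have hwR : S.CW * w ≤ R / 8 := by nlinarith
  -- hypotheses of the window lemma, for both windows
  have hwinl : ∀ a l, SkwWin S.CW I.d z₀ w a l → 4 * S.CW * I.δ ≤ l := by
    intro a l hh
    have h1 := hh.len_lo
    rw [div_le_iff₀ hCW0] at h1
    have h2 : S.CW * (4 * S.CW * I.δ) ≤ S.CW * l := by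
      calc S.CW * (4 * S.CW * I.δ) = 4 * S.CW ^ 2 * I.δ := by ring
        _ ≤ w := hδw
        _ ≤ S.CW * l := by linarith
    exact le_of_mul_le_mul_left h2 hCW0
  have hwinRW : ∀ a l, SkwWin S.CW I.d z₀ w a l → ∀ k₁ k₂, k₁ ≤ k₂ → k₂ ≤ I.nb → a ≤ I.zc k₁ → I.zc k₁ < a + I.δ → I.zc k₂ < a + l →
      ∫ ω, (∑ j ∈ Finset.Ico k₁ k₂, I.dz j * I.P.W j ω) ^ r ∂I.P.μ ≤ A ^ r := by
    intro a l hh k₁ k₂ h12 _ h3 h4 h5
    have hn := abs_le.mp hh.near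
    refine hRW k₁ k₂ h12 ?_ ?_ ?_
    · linarith [hn.1]
    · rw [abs_le]; constructor <;> linarith [hn.1, hn.2]
    · linarith [hh.len_hi]
  have hmean : ∀ a l, SkwWin S.CW I.d z₀ w a l → I.d.zlo / 2 ≤ a → a + l ≤ I.zbuf → ∀ j, j ≤ I.nb → a ≤ I.zc j → I.zc j ≤ a + l →
      I.zc j < I.zc (j + 1) →
      |I.P.S j - I.d.q z₀| ≤ (S.CW ^ 2 * (1 + (S.CW + 1)) + S.c.Lq * (S.CW + 1)) * (I.d.Z ^ 2 * w) / I.d.b := by
    intro a l hh h1 h2 j hj h3 h4 h5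
    have hn := abs_le.mp hh.near
    have hl0 : 0 ≤ l := by have := hwinl a l hh; nlinarith
    rw [← hI.Slink j hj (I.zc j) ⟨by linarith, by linarith⟩ le_rfl h5]
    refine skp_ref_mean hS hI ⟨by linarith, hzkb⟩ ⟨by linarith, by linarith⟩ hw0.le (by linarith) ?_
    rw [abs_le]
    constructor <;> linarith [hn.1, hn.2, hh.len_hi]
  obtain ⟨k₁, k₂, ρ, -, h12, h2b, h1c, h2d, hρ0, hρ1, hρz, hρA⟩ :=
    skp_ref_win hS hI hr hR0 hw0 (hwinl a₁ l₁ hw₁) (by linarith) (by linarith) hw₁ hA (hwinRW a₁ l₁ hw₁) (Nat.zero_le _)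
      (by rw [hI.z0]; linarith)
  obtain ⟨k₁', k₂', ρ', h0', h12', h2b', h1c', h2d', hρ0', hρ1', hρz', hρA'⟩ :=
    skp_ref_win hS hI hr hR0 hw0 (hwinl a₂ l₂ hw₂) (by linarith) hal₂ hw₂ hA (hwinRW a₂ l₂ hw₂) hk ha₂
  refine (I.P.l8s_buffer hP r hr k (Finset.Ico k₁ k₂) (Finset.Ico k₁' k₂') ρ ρ' (I.d.q z₀) _ ep ?_ ?_ hρ0 hρ0' hρ1 hρ1' ?_ hep ?_ ?_
    (hρA.trans hAe) (hρA'.trans hAe)).1
  · intro j hj
    rw [Finset.mem_Ico] at hj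
    refine (skp_ref_lt_of_z hI (?_ : I.zc j < I.zc k)).le
    have := hI.zmono hj.2.le
    linarith
  · intro j hj
    rw [Finset.mem_Ico] at hj
    omega
  · have : 0 ≤ I.d.Z ^ 2 * w := by positivity
    positivity
  · intro j hj hne
    have hj' := Finset.mem_Ico.mp hj
    exact hmean a₁ l₁ hw₁ ha₁ (by linarith) j (by omega) (h1c.trans (hI.zmono hj'.1)) ((hI.zmono hj'.2.le).trans h2d.le) (hρz j hj hne)
  · intro j hj hne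
    have hj' := Finset.mem_Ico.mp hj
    exact hmean a₂ l₂ hw₂ (by linarith) hal₂ j (by omega) (h1c'.trans (hI.zmono hj'.1)) ((hI.zmono hj'.2.le).trans h2d'.le) (hρz' j hj hne)

/-! ## 5. First claim -/

theorem skp_ref_absorb {c X Y : ℝ} {r : ℕ} (hr : 1 ≤ r) (hc : 1 ≤ c) (hX : 0 ≤ X) (h : c * X ≤ Y ^ 2) : c * X ^ r ≤ Y ^ (2 * r) := by
  calc c * X ^ r ≤ c ^ r * X ^ r := by
        refine mul_le_mul_of_nonneg_right ?_ (by positivity)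
        calc c = c ^ 1 := (pow_one c).symm
          _ ≤ c ^ r := pow_le_pow_right₀ hc hr
    _ = (c * X) ^ r := (mul_pow _ _ _).symm
    _ ≤ (Y ^ 2) ^ r := pow_le_pow_left₀ (by positivity) h r
    _ = Y ^ (2 * r) := (pow_mul _ _ _).symm

theorem skp_ref_T {x b ε : ℝ} (hx0 : 0 < x) (hx1 : x ≤ 1) (hε : 0 < ε) (hb0 : 0 < b) (hb1 : b ≤ 1) :
    1 ≤ x ^ (-ε) ∧ 1 / b ≤ x ^ (-ε) / b ^ 2 := by
  have h1 : 1 ≤ x ^ (-ε) := Real.one_le_rpow_of_pos_of_le_one_of_nonpos hx0 hx1 (by linarith)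
  refine ⟨h1, ?_⟩
  rw [div_le_div_iff₀ hb0 (by positivity)]
  nlinarith

/-- `x⁶ ≤ g₀² U⁶ λ₁` -/
theorem skp_ref_x6 {S : SkpS} {I : SkpI Ω m} (hI : I.Ok S) : 0 < I.lam1 ∧ I.d.x ^ 6 ≤ I.g0 ^ 2 * I.d.U ^ 6 * I.lam1 := by
  have hx0 := hI.wh.x0
  have hl0 : 0 < I.lam1 := lt_of_lt_of_le (by positivity) hI.lam1a
  refine ⟨hl0, ?_⟩
  have hs0 : 0 < Real.sqrt I.lam1 := Real.sqrt_pos.mpr hl0
  have h1 := hI.g0a
  rw [div_le_iff₀ hs0] at h1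
  calc I.d.x ^ 6 = (I.d.x ^ 3) ^ 2 := by ring
    _ ≤ (I.g0 * I.d.U ^ 3 * Real.sqrt I.lam1) ^ 2 := pow_le_pow_left₀ (by positivity) h1 2
    _ = I.g0 ^ 2 * I.d.U ^ 6 * (Real.sqrt I.lam1) ^ 2 := by ring
    _ = I.g0 ^ 2 * I.d.U ^ 6 * I.lam1 := by rw [Real.sq_sqrt hl0.le]

theorem skp_ref_g0_le_one {S : SkpS} (hS : S.Ok) {I : SkpI Ω m} (hI : I.Ok S) (hx1 : I.d.x ≤ 1) : I.g0 ≤ 1 :=
  hI.g0b.trans (Real.rpow_le_one hI.wh.x0.le hx1 hS.cg.le)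

/-- trivial cuts: the raw bound suffices -/
theorem skp_ref_triv {S : SkpS} (hS : S.Ok) {I : SkpI Ω m} (hI : I.Ok S) {α : Type} [MeasurableSpace α] (ν : Measure α)
    [IsProbabilityMeasure ν] {f : α → ℝ} (hf : L8Bd f) {r : ℕ} (hr : 1 ≤ r) {ε : ℝ} (hε : 0 < ε) (hx1 : I.d.x ≤ 1) {z₀ : ℝ}
    (hz : z₀ ∈ Icc I.d.zlo I.zbuf) (hnt : ¬ I.d.Z ^ 2 * I.hh z₀ < I.d.b * skwR z₀ / S.CW) {C1 C : ℝ} (hC1 : 1 ≤ C1)
    (hC : S.CW * (2 * C1 + S.Cq) ≤ C) (h : ∫ x, f x ^ (2 * r) ∂ν ≤ (C1 * (skwR z₀ + I.d.zlo)) ^ (2 * r)) :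
    ∫ x, (f x - I.d.q z₀) ^ (2 * r) ∂ν ≤ (C * I.d.x ^ (-ε) / I.d.b ^ 2 * skwE I.d I.hh z₀) ^ (2 * r) := by
  have hCW := hS.CW
  have hCW0 : 0 < S.CW := by linarith
  have hCq := hS.Cq
  have hx0 := hI.wh.x0
  have hb0 := hI.wh.b0
  have hb1 : I.d.b ≤ 1 := hI.wh.b1.trans (by norm_num)
  have hzlo0 := hI.wh.zlo0
  obtain ⟨ht1, hTb⟩ := skp_ref_T hx0 hx1 hε hb0 hb1
  set t : ℝ := I.d.x ^ (-ε) with ht
  set R := skwR z₀ with hR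
  have hR0 : 0 < R := skp_ref_R_pos (lt_of_lt_of_le hzlo0 hz.1)
  have hzlo1 : I.d.zlo ≤ 1 := by have := hI.zloreg; have := hS.zreg1; linarith
  have hzloR : I.d.zlo ≤ R := le_min hz.1 hzlo1
  have hC0 : 0 ≤ C := le_trans (by positivity) hC
  have hnt' := not_lt.mp hnt
  have hE : I.d.b * R / S.CW ≤ skwE I.d I.hh z₀ := by
    unfold skwE
    refine le_min ?_ hnt'
    rw [div_le_iff₀ hCW0, ← hR]; nlinarith
  have hq0 := hI.wh.q0 z₀ ⟨by linarith [hz.1], hz.2.trans hI.zbuf⟩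
  have hqr := hI.qr z₀ ⟨by linarith [hz.1], hz.2⟩
  have h1 : ∫ x, (f x + (- I.d.q z₀)) ^ (2 * r) ∂ν ≤ (C1 * (R + I.d.zlo) + S.Cq * R) ^ (2 * r) :=
    skp_ref_mkc ν hf hr (by positivity) (by rw [abs_neg, abs_of_nonneg hq0]; exact hqr) h
  simp only [← sub_eq_add_neg] at h1
  refine h1.trans (pow_le_pow_left₀ (by positivity) ?_ _)
  have f1 : (2 * C1 + S.Cq) * R ≤ C * t / I.d.b ^ 2 * (I.d.b * R / S.CW) := by
    have g1 : C * t / I.d.b ^ 2 * (I.d.b * R / S.CW) = (C / S.CW) * (t / I.d.b ^ 2 * I.d.b) * R := by field_simp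
    have g2 : 1 ≤ t / I.d.b ^ 2 * I.d.b := by
      have := mul_le_mul_of_nonneg_right hTb hb0.le
      rwa [one_div, inv_mul_cancel₀ hb0.ne'] at this
    have g3 : 2 * C1 + S.Cq ≤ C / S.CW := by
      rw [le_div_iff₀ hCW0]; linarith
    rw [g1]
    calc (2 * C1 + S.Cq) * R = (2 * C1 + S.Cq) * 1 * R := by ring
      _ ≤ (C / S.CW) * (t / I.d.b ^ 2 * I.d.b) * R := by gcongr
  have f2 : C1 * I.d.zlo ≤ C1 * R := mul_le_mul_of_nonneg_left hzloR (by linarith)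
  calc C1 * (R + I.d.zlo) + S.Cq * R ≤ (2 * C1 + S.Cq) * R := by linarith
    _ ≤ C * t / I.d.b ^ 2 * (I.d.b * R / S.CW) := f1
    _ ≤ C * t / I.d.b ^ 2 * skwE I.d I.hh z₀ := by gcongr

/-- the envelope at a nontrivial cut -/
theorem skp_ref_E_nt {S : SkpS} (hS : S.Ok) {I : SkpI Ω m} (hI : I.Ok S) {z₀ : ℝ} (hz : 0 < z₀)
    (hnt : I.d.Z ^ 2 * I.hh z₀ < I.d.b * skwR z₀ / S.CW) : skwE I.d I.hh z₀ = I.d.Z ^ 2 * I.hh z₀ := by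
  have hCW := hS.CW
  have hb0 := hI.wh.b0
  have hb1 := hI.wh.b1
  have hR0 : 0 < skwR z₀ := skp_ref_R_pos hz
  unfold skwE
  refine min_eq_right ?_
  have : I.d.b * skwR z₀ / S.CW ≤ skwR z₀ := by
    rw [div_le_iff₀ (by linarith)]; nlinarith
  linarith

theorem skp_ref_arith1 {c CW C2 C3 t w Z b x6 lam U R : ℝ} (hc : 1 ≤ c) (hCW : 1 ≤ CW) (hC2 : 1 ≤ C2) (hC3 : 1 ≤ C3) (ht : 0 < t)
    (hw : 0 < w) (hZ : 0 < Z) (hb : 0 < b) (hx6 : 0 ≤ x6) (hlam : 0 < lam) (hU : 0 < U) (hR : 0 < R) (h : x6 ≤ lam * U ^ 6) :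
    c * (4 * CW ^ 4 * R ^ 3 * w * (C3 * t * (x6 / (lam * R ^ 3)) * w * (C2 * t / b ^ 2) * Z ^ 2) / U ^ 6)
      ≤ (c * (2 * CW ^ 2 * C3 * C2) * t * Z * w / b) ^ 2 := by
  have hX1 : x6 / (lam * U ^ 6) ≤ 1 := by
    rw [div_le_one (by positivity)]; exact h
  have e1 : 4 * CW ^ 4 * R ^ 3 * w * (C3 * t * (x6 / (lam * R ^ 3)) * w * (C2 * t / b ^ 2) * Z ^ 2) / U ^ 6
      = (4 * CW ^ 4 * C3 * C2 * t ^ 2 * w ^ 2 * Z ^ 2 / b ^ 2) * (x6 / (lam * U ^ 6)) := by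
    field_simp
  have e2 : (c * (2 * CW ^ 2 * C3 * C2) * t * Z * w / b) ^ 2 = (c * (C3 * C2)) * (c * (4 * CW ^ 4 * C3 * C2 * t ^ 2 * w ^ 2 * Z ^ 2 / b ^ 2)) := by
    field_simp; ring
  rw [e1, e2]
  have e3 : 1 ≤ c * (C3 * C2) := by
    have : 1 ≤ C3 * C2 := by nlinarith
    nlinarith
  have e4 : 0 ≤ 4 * CW ^ 4 * C3 * C2 * t ^ 2 * w ^ 2 * Z ^ 2 / b ^ 2 := by positivity
  calc c * ((4 * CW ^ 4 * C3 * C2 * t ^ 2 * w ^ 2 * Z ^ 2 / b ^ 2) * (x6 / (lam * U ^ 6)))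
      ≤ c * ((4 * CW ^ 4 * C3 * C2 * t ^ 2 * w ^ 2 * Z ^ 2 / b ^ 2) * 1) := by gcongr
    _ = 1 * (c * (4 * CW ^ 4 * C3 * C2 * t ^ 2 * w ^ 2 * Z ^ 2 / b ^ 2)) := by ring
    _ ≤ _ := by gcongr

theorem skp_ref_arith2 {Kη Kε t b Z w : ℝ} (hKη : 0 ≤ Kη) (hKε : 0 ≤ Kε) (ht : 1 ≤ t) (hb0 : 0 < b) (hb1 : b ≤ 1) (hZ : 1 ≤ Z) (hw : 0 ≤ w) :
    16 * (Kη * (Z ^ 2 * w) / b + Kε * t * Z * w / b) ≤ 16 * (Kη + Kε) * (t / b ^ 2 * (Z ^ 2 * w)) := by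
  have hZZ : Z ≤ Z ^ 2 := le_self_pow₀ hZ two_ne_zero
  have hbb : b ^ 2 ≤ b := pow_le_of_le_one hb0.le hb1 two_ne_zero
  have g1 : t / b ≤ t / b ^ 2 := div_le_div_of_nonneg_left (by linarith) (by positivity) hbb
  have g0 : 1 / b ≤ t / b ^ 2 := (div_le_div_of_nonneg_right ht hb0.le).trans g1
  have f1 : Kη * (Z ^ 2 * w) / b ≤ Kη * (t / b ^ 2 * (Z ^ 2 * w)) := by
    calc Kη * (Z ^ 2 * w) / b = Kη * (1 / b * (Z ^ 2 * w)) := by ring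
      _ ≤ Kη * (t / b ^ 2 * (Z ^ 2 * w)) := by gcongr
  have f2 : Kε * t * Z * w / b ≤ Kε * (t / b ^ 2 * (Z ^ 2 * w)) := by
    calc Kε * t * Z * w / b = Kε * (t / b * (Z * w)) := by ring
      _ ≤ Kε * (t / b ^ 2 * (Z ^ 2 * w)) := by gcongr
  linarith

/-- first claim at a nontrivial cut, with the constants of INC (`C2`) and RW (`C3`) -/
theorem skp_ref_one_nt {S : SkpS} (hS : S.Ok) {I : SkpI Ω m} (hI : I.Ok S) {r : ℕ} (hr : 1 ≤ r) {ε : ℝ} (hε : 0 < ε) (hx1 : I.d.x ≤ 1)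
    (hb : 64 * S.Cz ^ 2 * I.d.b ≤ 1) (hδ : 4 * S.CW ^ 3 * I.δ ≤ I.d.x ^ 2) {k : ℕ} (hk : k ≤ I.nb) (hzk : I.d.zlo ≤ I.zc k)
    (hnt : I.d.Z ^ 2 * I.hh (I.zc k) < I.d.b * skwR (I.zc k) / S.CW) {C2 C3 : ℝ} (hC2 : 1 ≤ C2) (hC3 : 1 ≤ C3)
    (hRW : ∀ k₁ k₂, k₁ ≤ k₂ → I.d.zlo ≤ I.zc k₁ → |I.zc k₁ - I.zc k| ≤ 2 * S.CW * I.hh (I.zc k) → I.zc k₂ - I.zc k₁ ≤ I.hh (I.zc k) →
        ∫ ω, (∑ j ∈ Finset.Ico k₁ k₂, I.dz j * I.P.W j ω) ^ r ∂I.P.μ ≤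
          (C3 * I.d.x ^ (-ε) * (I.d.x ^ 6 / (I.lam1 * skwR (I.zc k) ^ 3)) * I.hh (I.zc k) * (C2 * I.d.x ^ (-ε) / I.d.b ^ 2) * I.d.Z ^ 2) ^ r) :
    ∫ ω, (I.P.nX k ω - I.d.q (I.zc k)) ^ (2 * r) ∂I.P.μ ≤
      (16 * ((S.CW ^ 2 * (1 + (S.CW + 1)) + S.c.Lq * (S.CW + 1)) + S.K.cA1 r * (2 * S.CW ^ 2 * C3 * C2)) *
        (I.d.x ^ (-ε) / I.d.b ^ 2 * (I.d.Z ^ 2 * I.hh (I.zc k)))) ^ (2 * r) := by
  have hCW := hS.CW
  have hCW0 : 0 < S.CW := by linarith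
  have hLq := hS.c.Lq
  have hcA := hS.cA1 r
  set Kη : ℝ := S.CW ^ 2 * (1 + (S.CW + 1)) + S.c.Lq * (S.CW + 1) with hKη
  set Kε : ℝ := S.K.cA1 r * (2 * S.CW ^ 2 * C3 * C2) with hKε
  have hKη0 : 0 ≤ Kη := by positivity
  have hKε0 : 0 ≤ Kε := by positivity
  have hx0 := hI.wh.x0
  have hb0 := hI.wh.b0
  have hb1 : I.d.b ≤ 1 := hI.wh.b1.trans (by norm_num)
  have hZ1 := hI.wh.Z1
  have hzlo0 := hI.wh.zlo0
  have hU0 : 0 < I.d.U := lt_of_lt_of_le hx0 hI.wh.xU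
  obtain ⟨ht1, hTb⟩ := skp_ref_T hx0 hx1 hε hb0 hb1
  have hzkb : I.zc k ≤ I.zbuf := skp_ref_z_le hI hk
  obtain ⟨hw0, hU2, hCWw, hzloR8, hx2⟩ := skp_ref_nt hS hI hb ⟨hzk, hzkb⟩ hnt
  have hR0 : 0 < skwR (I.zc k) := skp_ref_R_pos (lt_of_lt_of_le hzlo0 hzk)
  set t : ℝ := I.d.x ^ (-ε) with ht
  set z₀ := I.zc k with hz₀
  set w := I.hh z₀ with hw
  set R := skwR z₀ with hR
  obtain ⟨hl0, hx6⟩ := skp_ref_x6 hI
  have hg1 := skp_ref_g0_le_one hS hI hx1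
  have hg0 := hI.g0c
  set A : ℝ := C3 * t * (I.d.x ^ 6 / (I.lam1 * R ^ 3)) * w * (C2 * t / I.d.b ^ 2) * I.d.Z ^ 2 with hA
  have hA0 : 0 ≤ A := by positivity
  set ep : ℝ := Kε * t * I.d.Z * w / I.d.b with hep
  have hep0 : 0 ≤ ep := by positivity
  have hX1 : I.d.x ^ 6 ≤ I.lam1 * I.d.U ^ 6 := by
    calc I.d.x ^ 6 ≤ I.g0 ^ 2 * I.d.U ^ 6 * I.lam1 := hx6
      _ ≤ 1 ^ 2 * I.d.U ^ 6 * I.lam1 := by gcongr
      _ = I.lam1 * I.d.U ^ 6 := by ring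
  have hAe : S.K.cA1 r * (4 * S.CW ^ 4 * R ^ 3 * w * A / I.d.U ^ 6) ^ r ≤ ep ^ (2 * r) :=
    skp_ref_absorb hr hcA (by positivity)
      (skp_ref_arith1 hcA hCW hC2 hC3 (by linarith) hw0 (by linarith) hb0 (by positivity) hl0 hU0 hR0 hX1)
  have key := skp_ref_nX_nt hS hI hr hb hδ hk hzk hnt hA0 hep0 hRW hAe
  refine key.trans (pow_le_pow_left₀ (by positivity) ?_ _)
  exact skp_ref_arith2 hKη0 hKε0 ht1 hb0 hb1 hZ1 hw0.le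

/-- smallness consequences -/
theorem skp_ref_sm {C : ℝ} {d : SkwD} (hC0 : 0 < C) (hs : SkwSmall C d) (hx0 : 0 ≤ d.x) (hb0 : 0 ≤ d.b) {K : ℝ} (hK : K ≤ C) :
    K * d.x ≤ 1 ∧ K * d.b ≤ 1 := by
  have h1 := hs.x
  have h2 := hs.b
  rw [le_div_iff₀ hC0] at h1 h2
  constructor <;> nlinarith

theorem skp_ref_mesh {S : SkpS} (hS : S.Ok) {I : SkpI Ω m} (hI : I.Ok S) (hx1 : I.d.x ≤ 1) (h1 : 4 * S.CW ^ 3 * I.d.x ≤ 1) :
    4 * S.CW ^ 3 * I.δ ≤ I.d.x ^ 2 := by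
  have hx0 := hI.wh.x0
  have hCW := hS.CW
  have h2 : I.d.x ^ 40 ≤ I.d.x ^ 3 := pow_le_pow_of_le_one hx0.le hx1 (by norm_num)
  calc 4 * S.CW ^ 3 * I.δ ≤ 4 * S.CW ^ 3 * I.d.x ^ 3 := by
        refine mul_le_mul_of_nonneg_left (hI.mesh.trans h2) (by positivity)
    _ = (4 * S.CW ^ 3 * I.d.x) * I.d.x ^ 2 := by ring
    _ ≤ 1 * I.d.x ^ 2 := by gcongr
    _ = I.d.x ^ 2 := one_mul _

/-- **first claim of REF** -/
theorem skp_ref_one (hraw : SkpRaw) (hinc : SkpInc) (hrw : SkpLeafRW) (S : SkpS) (hS : S.Ok) (r : ℕ) (ε : ℝ) (hr : 1 ≤ r) (hε : 0 < ε) :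
    ∃ C : ℝ, 1 ≤ C ∧ ∀ (Ω : Type) [mΩ : MeasurableSpace Ω] (m : ℕ) (I : SkpI Ω m), I.Ok S → SkwSmall C I.d →
      ∀ k ≤ I.nb, I.d.zlo ≤ I.zc k →
        ∫ ω, (I.P.nX k ω - I.d.q (I.zc k)) ^ (2 * r) ∂I.P.μ ≤ (C * I.d.x ^ (-ε) / I.d.b ^ 2 * skwE I.d I.hh (I.zc k)) ^ (2 * r) := by
  obtain ⟨C1, hC1, hR1⟩ := hraw S hS (2 * r) (by omega)
  obtain ⟨C2, hC2, hI2⟩ := hinc S hS r ε hr hε
  obtain ⟨C3, hC3, hW3⟩ := hrw S hS r ε hr hε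
  have hCW := hS.CW
  have hLq := hS.c.Lq
  have hCq := hS.Cq
  have hCz := hS.Cz
  have hcA := hS.cA1 r
  set K0 : ℝ := 16 * ((S.CW ^ 2 * (1 + (S.CW + 1)) + S.c.Lq * (S.CW + 1)) + S.K.cA1 r * (2 * S.CW ^ 2 * C3 * C2)) with hK0
  have hp1 : 0 ≤ 64 * S.Cz ^ 2 := by positivity
  have hp2 : 0 ≤ 4 * S.CW ^ 3 := by positivity
  have hp3 : 0 ≤ S.CW * (2 * C1 + S.Cq) := by positivity
  have hp4 : 0 ≤ K0 := by positivity
  refine ⟨C1 + C2 + C3 + 64 * S.Cz ^ 2 + 4 * S.CW ^ 3 + S.CW * (2 * C1 + S.Cq) + K0, by linarith, ?_⟩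
  intro Ω _ m I hI hs k hk hzk
  set C : ℝ := C1 + C2 + C3 + 64 * S.Cz ^ 2 + 4 * S.CW ^ 3 + S.CW * (2 * C1 + S.Cq) + K0 with hC
  have hC0 : 0 < C := by linarith
  have hP := hI.sp
  have := hP.prob
  have hx0 := hI.wh.x0
  have hb0 := hI.wh.b0
  have hzlo0 := hI.wh.zlo0
  have hx1 : I.d.x ≤ 1 := by have := (skp_ref_sm hC0 hs hx0.le hb0.le (by linarith : (1:ℝ) ≤ C)).1; linarith
  have hzkb : I.zc k ≤ I.zbuf := skp_ref_z_le hI hk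
  by_cases hnt : I.d.Z ^ 2 * I.hh (I.zc k) < I.d.b * skwR (I.zc k) / S.CW
  · have hbsm : 64 * S.Cz ^ 2 * I.d.b ≤ 1 := (skp_ref_sm hC0 hs hx0.le hb0.le (by linarith)).2
    have hδ := skp_ref_mesh hS hI hx1 (skp_ref_sm hC0 hs hx0.le hb0.le (by linarith)).1
    have hB1 : 1 ≤ C2 * I.d.x ^ (-ε) / I.d.b ^ 2 := by
      have hb1 : I.d.b ≤ 1 := hI.wh.b1.trans (by norm_num)
      have ht1 := (skp_ref_T hx0 hx1 hε hb0 hb1).1
      rw [le_div_iff₀ (by positivity)]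
      have : I.d.b ^ 2 ≤ 1 := pow_le_one₀ hb0.le hb1
      nlinarith
    have hRW := hW3 Ω m I hI (skp_ref_small_mono (by linarith) (by linarith) hs) _ hB1
      (hI2 Ω m I hI (skp_ref_small_mono (by linarith) (by linarith) hs)) (I.zc k) ⟨hzk, hzkb⟩ hnt
    have key := skp_ref_one_nt hS hI hr hε hx1 hbsm hδ hk hzk hnt hC2 hC3 hRW
    rw [← hK0] at key
    obtain ⟨hw0, -⟩ := skp_ref_nt hS hI hbsm ⟨hzk, hzkb⟩ hnt
    refine key.trans (pow_le_pow_left₀ (by positivity) ?_ _)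
    rw [skp_ref_E_nt hS hI (lt_of_lt_of_le hzlo0 hzk) hnt]
    have f3 : 0 ≤ I.d.x ^ (-ε) / I.d.b ^ 2 * (I.d.Z ^ 2 * I.hh (I.zc k)) := by positivity
    calc K0 * (I.d.x ^ (-ε) / I.d.b ^ 2 * (I.d.Z ^ 2 * I.hh (I.zc k)))
        ≤ C * (I.d.x ^ (-ε) / I.d.b ^ 2 * (I.d.Z ^ 2 * I.hh (I.zc k))) := mul_le_mul_of_nonneg_right (by linarith) f3
      _ = C * I.d.x ^ (-ε) / I.d.b ^ 2 * (I.d.Z ^ 2 * I.hh (I.zc k)) := by ring
  · have hraw1 := (hR1 Ω m I hI (hs.x.trans (one_div_le_one_div_of_le (by linarith) (by linarith))) k hk).1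
    exact skp_ref_triv hS hI I.P.μ (I.P.l8s_W_bd_nX hP k) hr hε hx1 ⟨hzk, hzkb⟩ hnt hC1 (by linarith) hraw1

/-! ## 6. The doubling chain after a nontrivial cut -/

theorem skp_ref_log {x cg : ℝ} (hx0 : 0 < x) (hx1 : x ≤ 1) (hcg : 0 < cg) :
    0 ≤ Real.log (1 / x) ∧ (1 + 3 * Real.log (1 / x)) * Real.log (1 / x) ^ 2 * x ^ cg ≤ 9 / cg ^ 2 + 81 / cg ^ 3 := by
  have h1x : 1 ≤ 1 / x := by rw [le_div_iff₀ hx0]; linarith
  have hL0 : 0 ≤ Real.log (1 / x) := Real.log_nonneg h1x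
  refine ⟨hL0, ?_⟩
  set Λ := Real.log (1 / x) with hΛ
  set p : ℝ := x ^ (cg / 3) with hp
  have hp0 : 0 < p := Real.rpow_pos_of_pos hx0 _
  have hp1 : p ≤ 1 := Real.rpow_le_one hx0.le hx1 (by positivity)
  have hxp : x ^ cg = p ^ 3 := by
    rw [hp, ← Real.rpow_natCast, ← Real.rpow_mul hx0.le]
    congr 1; push_cast; ring
  have h2 : Λ ≤ (1 / x) ^ (cg / 3) / (cg / 3) := Real.log_le_rpow_div (by positivity) (by positivity)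
  have h3 : (1 / x) ^ (cg / 3) = 1 / p := by
    rw [hp, one_div, Real.inv_rpow hx0.le, one_div]
  have h4 : Λ * p ≤ 3 / cg := by
    rw [h3] at h2
    calc Λ * p ≤ (1 / p / (cg / 3)) * p := by gcongr
      _ = 3 / cg := by field_simp
  set y := Λ * p with hy
  have hy0 : 0 ≤ y := by positivity
  have e1 : (1 + 3 * Λ) * Λ ^ 2 * x ^ cg = y ^ 2 * p + 3 * y ^ 3 := by rw [hxp, hy]; ring
  rw [e1]
  have e2 : y ^ 2 ≤ (3 / cg) ^ 2 := pow_le_pow_left₀ hy0 h4 2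
  have e3 : y ^ 3 ≤ (3 / cg) ^ 3 := pow_le_pow_left₀ hy0 h4 3
  have e4 : y ^ 2 * p ≤ y ^ 2 * 1 := by gcongr
  have e5 : (3 / cg) ^ 2 = 9 / cg ^ 2 := by rw [div_pow]; norm_num
  have e6 : (3 / cg) ^ 3 = 27 / cg ^ 3 := by rw [div_pow]; norm_num
  have e7 : 3 * (27 / cg ^ 3) = 81 / cg ^ 3 := by ring
  linarith

theorem skp_ref_count {x : ℝ} (hx0 : 0 < x) {K : ℕ} (hK : 1 ≤ K) (h : (2:ℝ) ^ (K - 1) * x ^ 2 ≤ 1) :
    (K : ℝ) ≤ 1 + 3 * Real.log (1 / x) := by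
  have h1 : Real.log ((2:ℝ) ^ (K - 1) * x ^ 2) ≤ 0 := Real.log_nonpos (by positivity) h
  rw [Real.log_mul (by positivity) (by positivity), Real.log_pow, Real.log_pow] at h1
  have h2 : Real.log (1 / x) = - Real.log x := by rw [one_div, Real.log_inv]
  have h3 := Real.log_two_gt_d9
  have h4 : ((K - 1 : ℕ) : ℝ) = (K : ℝ) - 1 := by push_cast [Nat.cast_sub hK]; ring
  rw [h4] at h1
  rw [h2]
  have h5 : 0 ≤ (K : ℝ) - 1 := by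
    have : (1 : ℝ) ≤ K := by exact_mod_cast hK
    linarith
  push_cast at h1
  nlinarith

theorem skp_ref_arith3 {a Cr Cv Cm CW cD3 g0 w R mm lam P Rw Den x6 U : ℝ} (hCr : 1 ≤ Cr) (hCv : 1 ≤ Cv) (hCm : 1 ≤ Cm)
    (hCW : 1 ≤ CW) (hcD3 : 0 < cD3) (hg0 : 0 < g0) (hw : 0 < w) (hR : 0 < R) (hmm : 0 < mm) (hlam : 0 < lam) (hP : 0 < P) (hU0 : 0 < U)
    (hRw : Rw ≤ 2 * Cr * P * R) (hDen : R ^ 4 * mm * cD3 * lam * P * w / (4 * Cv ^ 2) ≤ Den) (hm : 1 ≤ mm * Cm * x6)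
    (hx6 : x6 ≤ g0 ^ 2 * U ^ 6 * lam) (hU : U ^ 2 ≤ CW * R * w) :
    a ^ 2 * Rw ≤ ((8 * Cr * Cv ^ 2 * Cm * CW ^ 3 / cD3 + 1) * a * g0 * w) ^ 2 * Den := by
  set K2 : ℝ := 8 * Cr * Cv ^ 2 * Cm * CW ^ 3 / cD3 with hK2
  have hK20 : 0 ≤ K2 := by positivity
  have hU6 : U ^ 6 ≤ CW ^ 3 * R ^ 3 * w ^ 3 := by
    calc U ^ 6 = (U ^ 2) ^ 3 := by ring
      _ ≤ (CW * R * w) ^ 3 := pow_le_pow_left₀ (by positivity) hU 3
      _ = CW ^ 3 * R ^ 3 * w ^ 3 := by ring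
  have h1 : 1 ≤ mm * Cm * (g0 ^ 2 * (CW ^ 3 * R ^ 3 * w ^ 3) * lam) := by
    calc 1 ≤ mm * Cm * x6 := hm
      _ ≤ mm * Cm * (g0 ^ 2 * U ^ 6 * lam) := by gcongr
      _ ≤ mm * Cm * (g0 ^ 2 * (CW ^ 3 * R ^ 3 * w ^ 3) * lam) := by gcongr
  have h2 : K2 ≤ (K2 + 1) ^ 2 := by nlinarith
  calc a ^ 2 * Rw ≤ a ^ 2 * (2 * Cr * P * R) := by gcongr
    _ = K2 * (a ^ 2 * P * R * cD3 / (4 * Cv ^ 2 * Cm * CW ^ 3)) * 1 := by rw [hK2]; field_simp; ring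
    _ ≤ (K2 + 1) ^ 2 * (a ^ 2 * P * R * cD3 / (4 * Cv ^ 2 * Cm * CW ^ 3)) * (mm * Cm * (g0 ^ 2 * (CW ^ 3 * R ^ 3 * w ^ 3) * lam)) := by
        gcongr
    _ = ((K2 + 1) * a * g0 * w) ^ 2 * (R ^ 4 * mm * cD3 * lam * P * w / (4 * Cv ^ 2)) := by field_simp
    _ ≤ ((K2 + 1) * a * g0 * w) ^ 2 * Den := by gcongr

/-- one projection interval `[p, tt)` after the cut `z₀`, of length `≥ P 𝔥 / 4` -/
theorem skp_ref_layer {S : SkpS} (hS : S.Ok) {I : SkpI Ω m} (hI : I.Ok S) (hx1 : I.d.x ≤ 1) (hxv : S.Cv * I.d.x ≤ 1)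
    (hxh : 4 * S.CW * I.d.x ≤ S.cD3) {z₀ w Pw : ℝ} (hzR : 8 * I.d.zlo ≤ skwR z₀) (hx2 : I.d.x ^ 2 ≤ S.CW * w) (hw0 : 0 < w) (hPw : 1 ≤ Pw)
    {p tt : ℕ} (htt : tt ≤ I.nb) (hzp : z₀ ≤ I.zc p) (hgap : Pw * w / 4 ≤ I.zc tt - I.zc p) :
    p < tt ∧ I.lowb ≤ I.P.v p ∧ I.lowb ≤ I.P.hlen p tt ∧
      skwR z₀ ^ 4 * (m : ℝ) * S.cD3 * I.lam1 * Pw * w / (4 * S.Cv ^ 2) ≤ mbxDen I.P p tt ∧ 0 < mbxDen I.P p tt := by
  have hCW := hS.CW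
  have hCW0 : 0 < S.CW := by linarith
  have hCv := hS.Cv
  have hcD3 := hS.cD3
  have hx0 := hI.wh.x0
  have hzlo0 := hI.wh.zlo0
  have hm0 : (0 : ℝ) < m := by exact_mod_cast hI.m0
  have hl0 : 0 < I.lam1 := (skp_ref_x6 hI).1
  set R := skwR z₀ with hR
  have hR0 : 0 < R := by linarith
  have hRz : R ≤ z₀ := skp_ref_R_le z₀
  have hxR : I.d.x ≤ R := by linarith [hI.zlox]
  have hlt : p < tt := by
    refine skp_ref_lt_of_z hI ?_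
    have : 0 < Pw * w / 4 := by positivity
    linarith
  have hpnb : p ≤ I.nb := by omega
  have hzp4 : I.d.zlo / 4 ≤ I.zc p := by linarith
  have hρ : R ≤ skwR (I.zc p) := skp_ref_R_mono hzp
  have hv : R / S.Cv ≤ I.P.v p := by
    refine le_trans ?_ (hI.vlo p hpnb hzp4)
    exact div_le_div_of_nonneg_right hρ (by linarith)
  have hh : S.cD3 * I.lam1 * R ^ 2 * (Pw * w / 4) ≤ I.P.hlen p tt := by
    refine le_trans ?_ (hI.D3 p tt hlt htt hzp4)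
    have : R ^ 2 ≤ skwR (I.zc p) ^ 2 := pow_le_pow_left₀ hR0.le hρ 2
    show S.cD3 * I.lam1 * R ^ 2 * (Pw * w / 4) ≤ S.cD3 * I.lam1 * skwR (I.zc p) ^ 2 * (I.zc tt - I.zc p)
    gcongr
  have hlow2 : I.lowb ≤ I.d.x ^ 2 := hI.lowb.trans (pow_le_pow_of_le_one hx0.le hx1 (by norm_num))
  have hlow19 : I.lowb ≤ I.d.x ^ 19 := hI.lowb.trans (pow_le_pow_of_le_one hx0.le hx1 (by norm_num))
  have hv2 : I.d.x ^ 2 ≤ R / S.Cv := by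
    rw [le_div_iff₀ (by linarith)]
    calc I.d.x ^ 2 * S.Cv = (S.Cv * I.d.x) * I.d.x := by ring
      _ ≤ 1 * R := by gcongr
      _ = R := one_mul _
  have hh2 : I.d.x ^ 19 ≤ S.cD3 * I.lam1 * R ^ 2 * (Pw * w / 4) := by
    have e1 : I.d.x ^ 2 ≤ R ^ 2 := pow_le_pow_left₀ hx0.le hxR 2
    have e2 : I.d.x ^ 2 / S.CW ≤ w := by rw [div_le_iff₀ hCW0]; linarith
    have e3 : I.d.x ≤ S.cD3 / (4 * S.CW) := by rw [le_div_iff₀ (by positivity)]; linarith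
    calc I.d.x ^ 19 = I.d.x * I.d.x ^ 14 * I.d.x ^ 2 * I.d.x ^ 2 := by ring
      _ ≤ (S.cD3 / (4 * S.CW)) * I.lam1 * R ^ 2 * I.d.x ^ 2 := by
          have := hI.lam1a
          gcongr
      _ = S.cD3 * I.lam1 * R ^ 2 * (1 * (I.d.x ^ 2 / S.CW) / 4) := by field_simp
      _ ≤ S.cD3 * I.lam1 * R ^ 2 * (Pw * w / 4) := by gcongr
  have hDen : R ^ 4 * (m : ℝ) * S.cD3 * I.lam1 * Pw * w / (4 * S.Cv ^ 2) ≤ mbxDen I.P p tt := by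
    unfold mbxDen
    have e1 : (R / S.Cv) ^ 2 ≤ I.P.v p ^ 2 := pow_le_pow_left₀ (by positivity) hv 2
    calc R ^ 4 * (m : ℝ) * S.cD3 * I.lam1 * Pw * w / (4 * S.Cv ^ 2)
        = (R / S.Cv) ^ 2 * m * (S.cD3 * I.lam1 * R ^ 2 * (Pw * w / 4)) := by field_simp
      _ ≤ I.P.v p ^ 2 * m * I.P.hlen p tt := by gcongr
  exact ⟨hlt, hlow2.trans (hv2.trans hv), hlow19.trans (hh2.trans hh), hDen, lt_of_lt_of_le (by positivity) hDen⟩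

theorem skp_ref_arith4 {R w δ zlo P Cr ρ : ℝ} (hP : 1 ≤ P) (hw : w ≤ R / 8) (hw0 : 0 < w) (hδ : 4 * δ ≤ w) (hz : 8 * zlo ≤ R)
    (hCr : 1 ≤ Cr) (hρ : ρ ≤ R + 2 * P * w + δ) : Cr * (ρ + zlo) ≤ 2 * Cr * P * R := by
  have h1 : P * w ≤ P * (R / 8) := mul_le_mul_of_nonneg_left hw (by linarith)
  have h2 : 1 * R ≤ P * R := mul_le_mul_of_nonneg_right hP (by linarith)
  have h3 : ρ + zlo ≤ 2 * (P * R) := by linarith
  calc Cr * (ρ + zlo) ≤ Cr * (2 * (P * R)) := mul_le_mul_of_nonneg_left h3 (by linarith)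
    _ = 2 * Cr * P * R := by ring

/-- **synchronised layers on the doubling chain** `z_k + 2^i 𝔥` after a nontrivial cut -/
theorem skp_ref_sync {S : SkpS} (hS : S.Ok) {I : SkpI Ω m} (hI : I.Ok S) {r : ℕ} (hr : 1 ≤ r) (hx1 : I.d.x ≤ 1)
    (hb : 64 * S.Cz ^ 2 * I.d.b ≤ 1) (hδ : 4 * S.CW ^ 3 * I.δ ≤ I.d.x ^ 2) (hxv : S.Cv * I.d.x ≤ 1) (hxh : 4 * S.CW * I.d.x ≤ S.cD3)
    {k : ℕ} (hk : k ≤ I.nb) (hzk : I.d.zlo ≤ I.zc k) (hnt : I.d.Z ^ 2 * I.hh (I.zc k) < I.d.b * skwR (I.zc k) / S.CW)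
    {Cr : ℝ} (hCr : 1 ≤ Cr) (hraw : ∀ j ≤ I.nb, ∫ ω, I.P.nX j ω ^ r ∂I.P.μ ≤ (Cr * (skwR (I.zc j) + I.d.zlo)) ^ r) :
    ∫ z, (I.P.Q z - I.P.QX (skpIdx I k (I.zc k + I.hh (I.zc k))) (skpIdx I k (I.zc k + I.hh (I.zc k))) z) ^ (2 * r) ∂(I.P.fork k) ≤
      (2 * ((1 + 3 * Real.log (1 / I.d.x)) *
        ((8 * Cr * S.Cv ^ 2 * S.Cm * S.CW ^ 3 / S.cD3 + 1) * (S.K.cA3 r * I.Lg ^ 2) * I.g0 * I.hh (I.zc k)))) ^ (2 * r) := by
  have hP := hI.sp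
  have := hP.prob
  have hCW := hS.CW
  have hCW0 : 0 < S.CW := by linarith
  have hx0 := hI.wh.x0
  have hb0 := hI.wh.b0
  have hb1 := hI.wh.b1
  have hzlo0 := hI.wh.zlo0
  have hδ0 := hI.δ0
  have hU0 : 0 < I.d.U := lt_of_lt_of_le hx0 hI.wh.xU
  have hm0 : (0 : ℝ) < m := by exact_mod_cast hI.m0
  have hzkb : I.zc k ≤ I.zbuf := skp_ref_z_le hI hk
  obtain ⟨hw0, hU2, hCWw, hzloR8, hx2⟩ := skp_ref_nt hS hI hb ⟨hzk, hzkb⟩ hnt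
  have hfw := (hI.wc.win (I.zc k) ⟨hzk, hzkb⟩ hnt).2.2
  obtain ⟨hl0, hx6⟩ := skp_ref_x6 hI
  have hR1 : skwR (I.zc k) ≤ 1 := skp_ref_R_le_one _
  have hR0 : 0 < skwR (I.zc k) := skp_ref_R_pos (lt_of_lt_of_le hzlo0 hzk)
  set z₀ := I.zc k with hz₀
  set w := I.hh z₀ with hw
  set R := skwR z₀ with hR
  have hbR : I.d.b * R ≤ R / 8 := by
    have := mul_le_mul_of_nonneg_right hb1 hR0.le
    linarith
  have hwR : w ≤ R / 8 := by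
    have : 1 * w ≤ S.CW * w := mul_le_mul_of_nonneg_right hCW hw0.le
    linarith
  have hδw : 4 * I.δ ≤ w := by
    have h1 : S.CW * (4 * I.δ) ≤ S.CW * w := by
      have h2 : S.CW * (4 * I.δ) ≤ 4 * S.CW ^ 3 * I.δ := by
        have h3 : S.CW ≤ S.CW ^ 3 := le_self_pow₀ hCW (by norm_num)
        have := mul_le_mul_of_nonneg_right h3 (by positivity : 0 ≤ 4 * I.δ)
        linarith
      linarith
    exact le_of_mul_le_mul_left h1 hCW0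
  -- number of layers
  have hex : ∃ K : ℕ, 1 / S.CW < 2 ^ K * w := by
    obtain ⟨n, hn⟩ := pow_unbounded_of_one_lt (1 / (S.CW * w)) (one_lt_two : (1:ℝ) < 2)
    refine ⟨n, ?_⟩
    rw [div_lt_iff₀ (by positivity)] at hn
    rw [div_lt_iff₀ hCW0]
    linarith
  classical
  obtain ⟨K, hK, hKmin⟩ : ∃ K : ℕ, 1 / S.CW < 2 ^ K * w ∧ ∀ i < K, 2 ^ i * w ≤ 1 / S.CW :=
    ⟨Nat.find hex, Nat.find_spec hex, fun i hi => not_lt.mp (Nat.find_min hex hi)⟩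
  have hK' : 1 < 2 ^ K * (S.CW * w) := by
    rw [div_lt_iff₀ hCW0] at hK; linarith
  have hK1 : 1 ≤ K := by
    by_contra hcon
    have h0 : K = 0 := by omega
    rw [h0, pow_zero, one_mul] at hK'
    linarith
  have hidx : ∀ i < K, k ≤ skpIdx I k (z₀ + 2 ^ i * w) ∧ skpIdx I k (z₀ + 2 ^ i * w) ≤ I.nb ∧
      z₀ + 2 ^ i * w ≤ I.zc (skpIdx I k (z₀ + 2 ^ i * w)) ∧ I.zc (skpIdx I k (z₀ + 2 ^ i * w)) < z₀ + 2 ^ i * w + I.δ := by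
    intro i hi
    have h1 : 0 ≤ (2:ℝ) ^ i * w := by positivity
    exact skp_ref_idx hI hk (by linarith) (by linarith [hKmin i hi])
  set t : ℕ → ℕ := fun i => if i < K then skpIdx I k (z₀ + 2 ^ i * w) else I.P.n + 1 with ht
  set p : ℕ → ℕ := fun i => if i = 0 then k else skpIdx I k (z₀ + 2 ^ (i - 1) * w) with hp
  have htlt : ∀ i < K, t i = skpIdx I k (z₀ + 2 ^ i * w) := fun i hi => by simp only [ht, if_pos hi]
  have htK : t K = I.P.n + 1 := by simp only [ht, lt_irrefl, if_false]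
  have htm : Monotone t := by
    refine monotone_nat_of_le_succ fun i => ?_
    by_cases h1 : i + 1 < K
    · rw [htlt i (by omega), htlt (i + 1) h1]
      refine skp_ref_idx_mono hI hk ?_ (by linarith [hKmin (i + 1) h1])
      have : (2:ℝ) ^ i ≤ 2 ^ (i + 1) := pow_le_pow_right₀ (by norm_num) (Nat.le_succ i)
      have := mul_le_mul_of_nonneg_right this hw0.le
      linarith
    · by_cases h2 : i < K
      · rw [htlt i h2]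
        simp only [ht, if_neg h1]
        have := (hidx i h2).2.1
        have := hI.nbn
        omega
      · simp only [ht, if_neg h1, if_neg h2, le_refl]
  -- the projection intervals
  have hlay : ∀ i < K, k ≤ p i ∧ p i < t i ∧ I.lowb ≤ I.P.v (p i) ∧ I.lowb ≤ I.P.hlen (p i) (t i) ∧
      R ^ 4 * (m : ℝ) * S.cD3 * I.lam1 * 2 ^ i * w / (4 * S.Cv ^ 2) ≤ mbxDen I.P (p i) (t i) ∧ 0 < mbxDen I.P (p i) (t i) := by
    intro i hi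
    rw [htlt i hi]
    have hPw : (1:ℝ) ≤ 2 ^ i := one_le_pow₀ (by norm_num)
    obtain ⟨i1, i2, i3, i4⟩ := hidx i hi
    rcases Nat.eq_zero_or_pos i with h0 | h0
    · have hp0 : p i = k := by simp only [hp, if_pos h0]
      rw [hp0]
      refine ⟨le_rfl, skp_ref_layer hS hI hx1 hxv hxh hzloR8 hx2 hw0 hPw i2 le_rfl ?_⟩
      rw [← hz₀]
      have : 0 ≤ (2:ℝ) ^ i * w := by positivity
      linarith
    · have hpi : p i = skpIdx I k (z₀ + 2 ^ (i - 1) * w) := by simp only [hp, if_neg (by omega : ¬ i = 0)]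
      rw [hpi]
      obtain ⟨j1, j2, j3, j4⟩ := hidx (i - 1) (by omega)
      have h2i : (2:ℝ) ^ i = 2 * 2 ^ (i - 1) := by
        conv_lhs => rw [show i = (i - 1) + 1 by omega]
        rw [pow_succ]; ring
      have hP1 : (1:ℝ) ≤ 2 ^ (i - 1) := one_le_pow₀ (by norm_num)
      have hP1w : 1 * w ≤ 2 ^ (i - 1) * w := mul_le_mul_of_nonneg_right hP1 hw0.le
      refine ⟨j1, skp_ref_layer hS hI hx1 hxv hxh hzloR8 hx2 hw0 hPw i2 ?_ ?_⟩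
      · have : 0 ≤ (2:ℝ) ^ (i - 1) * w := by positivity
        linarith
      · rw [h2i] at i3 ⊢
        linarith
  have hcA3 := hS.cA3 r
  have hCv := hS.Cv
  have hCm := hS.Cm
  have hcD3 := hS.cD3
  have hg0 := hI.g0c
  set a : ℝ := S.K.cA3 r * I.Lg ^ 2 with ha
  have ha0 : 0 ≤ a := by positivity
  set e : ℝ := (8 * Cr * S.Cv ^ 2 * S.Cm * S.CW ^ 3 / S.cD3 + 1) * a * I.g0 * w with he
  have he0 : 0 ≤ e := by positivity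
  set Rw : ℕ → ℝ := fun i => if i < K then Cr * (skwR (I.zc (skpIdx I k (z₀ + 2 ^ i * w))) + I.d.zlo) else 1 with hRwd
  have hRw0 : ∀ i, 0 ≤ Rw i := by
    intro i
    by_cases h1 : i < K
    · simp only [hRwd, if_pos h1]
      have : 0 < skwR (I.zc (skpIdx I k (z₀ + 2 ^ i * w))) := by
        refine skp_ref_R_pos ?_
        have := (hidx i h1).2.2.1
        have : 0 ≤ (2:ℝ) ^ i * w := by positivity
        linarith
      positivity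
    · simp only [hRwd, if_neg h1]; exact zero_le_one
  have hRwI : ∀ i ≤ K, ∫ ω, I.P.nX (t i) ω ^ r ∂I.P.μ ≤ Rw i ^ r := by
    intro i hi
    by_cases h1 : i < K
    · rw [htlt i h1]; simp only [hRwd, if_pos h1]; exact hraw _ (hidx i h1).2.1
    · simp only [hRwd, if_neg h1, one_pow]
      calc ∫ ω, I.P.nX (t i) ω ^ r ∂I.P.μ ≤ ∫ ω, (1:ℝ) ∂I.P.μ := by
            refine integral_mono (((I.P.l8s_W_bd_nX hP (t i)).pow r).integrable _) (integrable_const _) fun ω => ?_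
            exact pow_le_one₀ (Finset.sum_nonneg fun _ _ => sq_nonneg _) (I.P.l8s_nX_le_one hP (t i) ω)
        _ = 1 := by simp
  have hRwB : ∀ i < K, Rw (i + 1) ≤ 2 * Cr * 2 ^ i * R := by
    intro i hi
    have hPw : (1:ℝ) ≤ 2 ^ i := one_le_pow₀ (by norm_num)
    by_cases h1 : i + 1 < K
    · simp only [hRwd, if_pos h1]
      obtain ⟨j1, j2, j3, j4⟩ := hidx (i + 1) h1
      refine skp_ref_arith4 hPw hwR hw0 hδw hzloR8 hCr ?_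
      calc skwR (I.zc (skpIdx I k (z₀ + 2 ^ (i + 1) * w))) ≤ skwR (z₀ + (2 ^ (i + 1) * w + I.δ)) := skp_ref_R_mono (by linarith)
        _ ≤ R + (2 ^ (i + 1) * w + I.δ) := skp_ref_R_add (by positivity)
        _ = R + 2 * 2 ^ i * w + I.δ := by rw [pow_succ]; ring
    · simp only [hRwd, if_neg h1]
      have hKi : K = i + 1 := by omega
      rw [hKi, pow_succ] at hK'
      have h2 : (2:ℝ) ^ i * 2 * (S.CW * w) ≤ 2 ^ i * 2 * (R / 8) := mul_le_mul_of_nonneg_left (by linarith) (by positivity)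
      have h3 : 1 ≤ (2:ℝ) ^ i * R := by linarith
      calc (1:ℝ) ≤ 1 * (2 ^ i * R) := by linarith
        _ ≤ (2 * Cr) * (2 ^ i * R) := mul_le_mul_of_nonneg_right (by linarith) (by positivity)
        _ = 2 * Cr * 2 ^ i * R := by ring
  have hmsz : 1 ≤ (m : ℝ) * S.Cm * I.d.x ^ 6 := by
    have := hI.msz
    rw [div_le_iff₀ hm0] at this; linarith
  have hee : ∀ i < K, a ^ (2 * r) * Rw (i + 1) ^ r ≤ e ^ (2 * r) * mbxDen I.P (p i) (t i) ^ r := by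
    intro i hi
    have h1 := skp_ref_arith3 (a := a) hCr hCv hCm hCW hcD3 hg0 hw0 hR0 hm0 hl0 (by positivity : (0:ℝ) < 2 ^ i) hU0 (hRwB i hi)
      (hlay i hi).2.2.2.2.1 hmsz hx6 hU2
    have h2 := hRw0 (i + 1)
    calc a ^ (2 * r) * Rw (i + 1) ^ r = (a ^ 2 * Rw (i + 1)) ^ r := by rw [pow_mul a 2 r, ← mul_pow]
      _ ≤ (e ^ 2 * mbxDen I.P (p i) (t i)) ^ r := pow_le_pow_left₀ (by positivity) h1 r
      _ = e ^ (2 * r) * mbxDen I.P (p i) (t i) ^ r := by rw [pow_mul e 2 r, ← mul_pow]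
  have key := bud_bm_sync I.P hP hr (by positivity) (hI.proj r hr) k K t p htm htK
    (fun i hi => ⟨(hlay i hi).1, (hlay i hi).2.1, (hlay i hi).2.2.1, (hlay i hi).2.2.2.1, (hlay i hi).2.2.2.2.2⟩)
    Rw (fun _ => e) (fun _ => he0) hRwI hee
  have ht0 : t 0 = skpIdx I k (z₀ + w) := by rw [htlt 0 (by omega), pow_zero, one_mul]
  rw [ht0] at key
  refine key.trans (pow_le_pow_left₀ (by positivity) ?_ _)
  rw [Finset.sum_const, Finset.card_range, nsmul_eq_mul]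
  have hcount : (K : ℝ) ≤ 1 + 3 * Real.log (1 / I.d.x) := by
    refine skp_ref_count hx0 hK1 ?_
    have h1 := hKmin (K - 1) (by omega)
    rw [le_div_iff₀ hCW0] at h1
    calc (2:ℝ) ^ (K - 1) * I.d.x ^ 2 ≤ 2 ^ (K - 1) * (S.CW * w) := mul_le_mul_of_nonneg_left hx2 (by positivity)
      _ = 2 ^ (K - 1) * w * S.CW := by ring
      _ ≤ 1 := h1
  exact mul_le_mul_of_nonneg_left (mul_le_mul_of_nonneg_right hcount he0) (by norm_num)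

/-! ## 7. Third claim -/

theorem skp_ref_QX_bd (P : L8P Ω m) (h : P.Ok) (k₁ k₂ : ℕ) : L8Bd (P.QX k₁ k₂) := by
  unfold L8P.QX
  exact l8k_bd_sum _ fun i _ => l8k_bd_mul (l8k_bd_comp measurable_fst (P.l8s_X_bd h k₁ i)) (l8k_bd_comp measurable_snd (P.l8s_X_bd h k₂ i))

theorem skp_ref_Q_bd (P : L8P Ω m) (h : P.Ok) : L8Bd P.Q := ⟨(P.l8s_fork_Q_bd_aux h).1, 1, (P.l8s_fork_Q_bd_aux h).2⟩

/-- the logarithms are absorbed by the power saving of `g₀` -/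
theorem skp_ref_arith5 {Λ Lg g0 xc c K a w : ℝ} (hΛ : 0 ≤ Λ) (hLg0 : 0 ≤ Lg) (hLg : Lg ≤ 7 * Λ) (hg0 : 0 ≤ g0) (hg : g0 ≤ xc)
    (hc : (1 + 3 * Λ) * Λ ^ 2 * xc ≤ c) (hK : 0 ≤ K) (ha : 0 ≤ a) (hw : 0 ≤ w) :
    2 * ((1 + 3 * Λ) * (K * (a * Lg ^ 2) * g0 * w)) ≤ 2 * (K * a * (49 * c)) * w := by
  have h1 : Lg ^ 2 ≤ 49 * Λ ^ 2 := by
    calc Lg ^ 2 ≤ (7 * Λ) ^ 2 := pow_le_pow_left₀ hLg0 hLg 2
      _ = 49 * Λ ^ 2 := by ring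
  have h2 : (1 + 3 * Λ) * (Lg ^ 2 * g0) ≤ 49 * c := by
    calc (1 + 3 * Λ) * (Lg ^ 2 * g0) ≤ (1 + 3 * Λ) * ((49 * Λ ^ 2) * xc) := by gcongr
      _ = 49 * ((1 + 3 * Λ) * Λ ^ 2 * xc) := by ring
      _ ≤ 49 * c := by gcongr
  calc 2 * ((1 + 3 * Λ) * (K * (a * Lg ^ 2) * g0 * w)) = 2 * (K * a * ((1 + 3 * Λ) * (Lg ^ 2 * g0))) * w := by ring
    _ ≤ 2 * (K * a * (49 * c)) * w := by gcongr

theorem skp_ref_arith6 {Ks C0 C2 CW Lq T E w eu s : ℝ} (hKs : 0 ≤ Ks) (hC0 : 0 ≤ C0) (hC2 : 0 ≤ C2) (hCW : 0 ≤ CW) (hLq : 0 ≤ Lq)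
    (hT : 1 ≤ T) (hw : 0 ≤ w) (hwE : w ≤ E) (heu : eu ≤ CW * (1 + 2) * E) (hs : s ≤ Ks * w) :
    s + ((C0 * T * eu + Lq * (2 * w)) + 2 * (C2 * T * (3 * E))) ≤ (Ks + 3 * CW * C0 + 2 * Lq + 6 * C2) * (T * E) := by
  have hE : 0 ≤ E := hw.trans hwE
  have hTE : E ≤ T * E := by nlinarith
  have h1 : Ks * w ≤ Ks * (T * E) := mul_le_mul_of_nonneg_left (hwE.trans hTE) hKs
  have h2 : C0 * T * eu ≤ C0 * T * (CW * (1 + 2) * E) := mul_le_mul_of_nonneg_left heu (by positivity)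
  have h3 : Lq * (2 * w) ≤ Lq * (2 * (T * E)) := mul_le_mul_of_nonneg_left (by linarith) hLq
  nlinarith

/-- third claim at a nontrivial cut -/
theorem skp_ref_three_nt {S : SkpS} (hS : S.Ok) {I : SkpI Ω m} (hI : I.Ok S) {r : ℕ} (hr : 1 ≤ r) {ε : ℝ} (hε : 0 < ε) (hx1 : I.d.x ≤ 1)
    (hb : 64 * S.Cz ^ 2 * I.d.b ≤ 1) (hδ : 4 * S.CW ^ 3 * I.δ ≤ I.d.x ^ 2) (hxv : S.Cv * I.d.x ≤ 1) (hxh : 4 * S.CW * I.d.x ≤ S.cD3)
    {k : ℕ} (hk : k ≤ I.nb) (hzk : I.d.zlo ≤ I.zc k) (hnt : I.d.Z ^ 2 * I.hh (I.zc k) < I.d.b * skwR (I.zc k) / S.CW)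
    {C0 C1 C2 : ℝ} (hC0 : 1 ≤ C0) (hC1 : 1 ≤ C1) (hC2 : 1 ≤ C2)
    (h0 : ∀ j ≤ I.nb, I.d.zlo ≤ I.zc j →
      ∫ ω, (I.P.nX j ω - I.d.q (I.zc j)) ^ (2 * r) ∂I.P.μ ≤ (C0 * I.d.x ^ (-ε) / I.d.b ^ 2 * skwE I.d I.hh (I.zc j)) ^ (2 * r))
    (hraw : ∀ j ≤ I.nb, ∫ ω, I.P.nX j ω ^ r ∂I.P.μ ≤ (C1 * (skwR (I.zc j) + I.d.zlo)) ^ r)
    (hinc : I.IncB (2 * r) (C2 * I.d.x ^ (-ε) / I.d.b ^ 2)) :
    ∫ η, (I.P.Q η - I.d.q (I.zc k)) ^ (2 * r) ∂(I.P.fork k) ≤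
      ((2 * ((8 * C1 * S.Cv ^ 2 * S.Cm * S.CW ^ 3 / S.cD3 + 1) * S.K.cA3 r * (49 * (9 / S.cg ^ 2 + 81 / S.cg ^ 3))) + 3 * S.CW * C0 + 2 * S.c.Lq + 6 * C2) *
        (I.d.x ^ (-ε) / I.d.b ^ 2 * (I.d.Z ^ 2 * I.hh (I.zc k)))) ^ (2 * r) := by
  have hP := hI.sp
  have := hP.prob
  have := I.P.l8s_fork_prob hP k
  have hCW := hS.CW
  have hCW0 : 0 < S.CW := by linarith
  have hLq := hS.c.Lq
  have hx0 := hI.wh.x0
  have hb0 := hI.wh.b0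
  have hb18 := hI.wh.b1
  have hb1 : I.d.b ≤ 1 := hI.wh.b1.trans (by norm_num)
  have hZ1 := hI.wh.Z1
  have hzlo0 := hI.wh.zlo0
  have hδ0 := hI.δ0
  have hzkb : I.zc k ≤ I.zbuf := skp_ref_z_le hI hk
  obtain ⟨ht1, hTb⟩ := skp_ref_T hx0 hx1 hε hb0 hb1
  obtain ⟨hw0, hU2, hCWw, hzloR8, hx2⟩ := skp_ref_nt hS hI hb ⟨hzk, hzkb⟩ hnt
  have hfw := (hI.wc.win (I.zc k) ⟨hzk, hzkb⟩ hnt).2.2
  have hsync := skp_ref_sync hS hI hr hx1 hb hδ hxv hxh hk hzk hnt hC1 hraw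
  have hR1 : skwR (I.zc k) ≤ 1 := skp_ref_R_le_one _
  have hR0 : 0 < skwR (I.zc k) := skp_ref_R_pos (lt_of_lt_of_le hzlo0 hzk)
  set t : ℝ := I.d.x ^ (-ε) with ht
  set z₀ := I.zc k with hz₀
  set w := I.hh z₀ with hw
  set R := skwR z₀ with hR
  have hT1 : 1 ≤ t / I.d.b ^ 2 := by
    have : 1 ≤ 1 / I.d.b := by rw [le_div_iff₀ hb0]; linarith
    linarith
  have hCWw1 : S.CW * w ≤ 1 / 8 := by
    have := mul_le_mul hb18 hR1 hR0.le (by norm_num : (0:ℝ) ≤ 1 / 8)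
    linarith
  have hw1 : w ≤ 1 / S.CW := by rw [le_div_iff₀ hCW0]; linarith
  have hδw : 4 * I.δ ≤ w := by
    have h1 : S.CW * (4 * I.δ) ≤ S.CW * w := by
      have h2 : S.CW * (4 * I.δ) ≤ 4 * S.CW ^ 3 * I.δ := by
        have h3 : S.CW ≤ S.CW ^ 3 := le_self_pow₀ hCW (by norm_num)
        have := mul_le_mul_of_nonneg_right h3 (by positivity : 0 ≤ 4 * I.δ)
        linarith
      linarith
    exact le_of_mul_le_mul_left h1 hCW0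
  obtain ⟨u1, u2, u3, u4⟩ := skp_ref_idx hI hk (by linarith : I.zc k ≤ z₀ + w) (by linarith : z₀ + w ≤ I.zbuf)
  set u := skpIdx I k (z₀ + w) with hu
  have hzu : |z₀ - I.zc u| ≤ 2 * w := by
    rw [abs_le]; constructor <;> linarith
  have hzub : I.zc u ≤ I.zbuf := skp_ref_z_le hI u2
  set E : ℝ := I.d.Z ^ 2 * w with hE
  have hwE : w ≤ E := by
    have : 1 ≤ I.d.Z ^ 2 := one_le_pow₀ hZ1
    have := mul_le_mul_of_nonneg_right this hw0.le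
    linarith
  -- the squared norm at the cut `u`
  have heu : skwE I.d I.hh (I.zc u) ≤ S.CW * (1 + 2) * E :=
    skp_ref_E_le hS hI ⟨by linarith, hzkb⟩ ⟨by linarith, hzub⟩ hzu
  have heu0 : 0 ≤ skwE I.d I.hh (I.zc u) := by
    unfold skwE
    refine le_min (skp_ref_R_pos (by linarith)).le ?_
    have h1 := hI.wc.lower (I.zc u) ⟨by linarith, hzub⟩
    have h2 : 0 < skwR (I.zc u) := skp_ref_R_pos (by linarith)
    have hU0 : 0 < I.d.U := lt_of_lt_of_le hx0 hI.wh.xU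
    have h3 : 0 ≤ min (I.d.b * skwR (I.zc u)) (I.d.U ^ 2 / skwR (I.zc u)) / S.CW := by
      have : 0 ≤ min (I.d.b * skwR (I.zc u)) (I.d.U ^ 2 / skwR (I.zc u)) := le_min (by positivity) (by positivity)
      positivity
    have : 0 ≤ I.hh (I.zc u) := h3.trans h1
    positivity
  have hq : |I.d.q (I.zc u) - I.d.q z₀| ≤ S.c.Lq * (2 * w) := by
    have h1 := hI.wh.qlip (I.zc u) ⟨by linarith, hzub.trans hI.zbuf⟩ z₀ ⟨by linarith, hzkb.trans hI.zbuf⟩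
    refine h1.trans (mul_le_mul_of_nonneg_left ?_ (by linarith))
    rw [abs_sub_comm]; exact hzu
  have hbdX : L8Bd (fun ω => I.P.nX u ω - I.d.q (I.zc u)) := (I.P.l8s_W_bd_nX hP u).sub (l8Bd_const _)
  have ha := skp_ref_mkc I.P.μ hbdX hr (by positivity) hq (h0 u u2 (by linarith))
  have he2 : Even (2 * r) := even_two_mul r
  have ha' : ∫ ω, |I.P.nX u ω - I.d.q z₀| ^ (2 * r) ∂I.P.μ ≤ (C0 * t / I.d.b ^ 2 * skwE I.d I.hh (I.zc u) + S.c.Lq * (2 * w)) ^ (2 * r) := by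
    refine le_trans (le_of_eq ?_) ha
    refine integral_congr_ae (ae_of_all _ fun ω => ?_)
    show |I.P.nX u ω - I.d.q z₀| ^ (2 * r) = (I.P.nX u ω - I.d.q (I.zc u) + (I.d.q (I.zc u) - I.d.q z₀)) ^ (2 * r)
    rw [he2.pow_abs]; congr 1; ring
  have hb' : ∫ ω, I.P.nXX k u ω ^ (2 * r) ∂I.P.μ ≤ (C2 * t / I.d.b ^ 2 * (3 * E)) ^ (2 * r) := by
    refine (hinc k u u1 u2 hzk).trans (pow_le_pow_left₀ ?_ ?_ _)
    · have : 0 ≤ I.z u - I.z k + I.hh (I.z k) := by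
        show 0 ≤ I.zc u - z₀ + w
        linarith
      positivity
    · show C2 * t / I.d.b ^ 2 * I.d.Z ^ 2 * (I.zc u - z₀ + w) ≤ C2 * t / I.d.b ^ 2 * (3 * E)
      have h1 : I.zc u - z₀ + w ≤ 3 * w := by linarith
      calc C2 * t / I.d.b ^ 2 * I.d.Z ^ 2 * (I.zc u - z₀ + w) ≤ C2 * t / I.d.b ^ 2 * I.d.Z ^ 2 * (3 * w) := by gcongr
        _ = C2 * t / I.d.b ^ 2 * (3 * E) := by rw [hE]; ring
  have hpol := bud_bm_polar I.P hP (by omega : 1 ≤ 2 * r) u1 (by positivity) (by positivity) ha' hb'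
  simp only [he2.pow_abs] at hpol
  have hbd1 : L8Bd (fun η => I.P.Q η - I.P.QX u u η) := l8k_bd_sub (skp_ref_Q_bd I.P hP) (skp_ref_QX_bd I.P hP u u)
  have hbd2 : L8Bd (fun η => I.P.QX u u η - I.d.q z₀) := l8k_bd_sub (skp_ref_QX_bd I.P hP u u) (l8k_bd_const _)
  obtain ⟨hΛ0, hΛc⟩ := skp_ref_log hx0 hx1 hS.cg
  have hcA3 := hS.cA3 r
  have hCv := hS.Cv
  have hCm := hS.Cm
  have hcD3 := hS.cD3
  have hcg := hS.cg
  have hg0 := hI.g0c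
  have hLg0 := hI.Lg0
  have htot := skp_ref_mk (I.P.fork k) hbd1 hbd2 hr (by positivity) (by positivity) hsync hpol
  refine le_trans (le_of_eq ?_) (htot.trans (pow_le_pow_left₀ (by positivity) ?_ _))
  · refine integral_congr_ae (ae_of_all _ fun η => ?_)
    show (I.P.Q η - I.d.q z₀) ^ (2 * r) = (I.P.Q η - I.P.QX u u η + (I.P.QX u u η - I.d.q z₀)) ^ (2 * r)
    congr 1; ring
  · have hs := skp_ref_arith5 (K := 8 * C1 * S.Cv ^ 2 * S.Cm * S.CW ^ 3 / S.cD3 + 1) (a := S.K.cA3 r) (w := w) hΛ0 hLg0 hI.Lg hg0.le hI.g0b hΛc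
      (by positivity) (by linarith) hw0.le
    have hfin := skp_ref_arith6 (Ks := 2 * ((8 * C1 * S.Cv ^ 2 * S.Cm * S.CW ^ 3 / S.cD3 + 1) * S.K.cA3 r * (49 * (9 / S.cg ^ 2 + 81 / S.cg ^ 3))))
      (C0 := C0) (C2 := C2) (Lq := S.c.Lq) (T := t / I.d.b ^ 2) (by positivity) (by linarith) (by linarith) hCW0.le (by linarith) hT1 hw0.le hwE heu hs
    refine le_trans (le_of_eq ?_) hfin
    ring

/-! ## 8. Second claim: conditional Jensen on the fork kernel -/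

/-- `y·X_k - c = E'[Q - c]`, hence its even moments are dominated by those of `Q - c` on the fork -/
theorem skp_ref_yX (P : L8P Ω m) (h : P.Ok) (k : ℕ) (c : ℝ) (r : ℕ) :
    ∫ ω, ((∑ i, P.y i ω * P.X k i ω) - c) ^ (2 * r) ∂P.μ ≤ ∫ η, (P.Q η - c) ^ (2 * r) ∂(P.fork k) := by
  have := h.prob
  have he2 : Even (2 * r) := even_two_mul r
  have hF : L8Bd (fun η : Ω × Ω => (P.Q η - c) ^ (2 * r)) := l8k_bd_pow (l8k_bd_sub (skp_ref_Q_bd P h) (l8k_bd_const c)) _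
  obtain ⟨hFm, cF, hFc⟩ := hF
  rw [P.l8s_fork_integral h k hFm hFc]
  have hyX : L8Bd (fun ω => ((∑ i, P.y i ω * P.X k i ω) - c) ^ (2 * r)) :=
    ((L8Bd.sum _ fun i _ => (P.l8s_y_bd h i).mul (P.l8s_X_bd h k i)).sub (l8Bd_const c)).pow _
  refine integral_mono (hyX.integrable _) ((P.l8s_fork_inner_bd_aux h k hFm hFc).integrable _) fun ω => ?_
  have hf : L8Bd (fun ω' => (∑ i, P.y i ω * P.y i ω') - c) :=
    (L8Bd.sum _ fun i _ => (P.l8s_y_bd h i).const_mul _).sub (l8Bd_const c)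
  have h1 := P.l8s_E_pow_le h k hf (2 * r) ω
  have h2 : P.E k (fun ω' => (∑ i, P.y i ω * P.y i ω') - c) ω = (∑ i, P.y i ω * P.X k i ω) - c := by
    rw [P.l8s_E_sub h k (L8Bd.sum _ fun i _ => (P.l8s_y_bd h i).const_mul _) (l8Bd_const c), P.l8s_E_const h,
      P.l8s_E_sum h k _ fun i _ => (P.l8s_y_bd h i).const_mul _]
    congr 1
    refine Finset.sum_congr rfl fun i _ => ?_
    rw [P.l8s_E_const_mul]; rfl
  rw [h2, he2.pow_abs] at h1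
  refine h1.trans (le_of_eq ?_)
  unfold L8P.E
  refine integral_congr_ae (ae_of_all _ fun ω' => ?_)
  show |(∑ i, P.y i ω * P.y i ω') - c| ^ (2 * r) = (P.Q (ω, ω') - c) ^ (2 * r)
  rw [he2.pow_abs]; rfl

/-- `2 L - c` from `|X|² - c` and `Q - c` -/
theorem skp_ref_L (P : L8P Ω m) (h : P.Ok) (k : ℕ) (c : ℝ) {r : ℕ} (hr : 1 ≤ r) {A1 A3 : ℝ} (hA1 : 0 ≤ A1) (hA3 : 0 ≤ A3)
    (h1 : ∫ ω, (P.nX k ω - c) ^ (2 * r) ∂P.μ ≤ A1 ^ (2 * r)) (h3 : ∫ η, (P.Q η - c) ^ (2 * r) ∂(P.fork k) ≤ A3 ^ (2 * r)) :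
    ∫ ω, (2 * P.L k ω - c) ^ (2 * r) ∂P.μ ≤ (2 * A3 + A1) ^ (2 * r) := by
  have := h.prob
  have he2 : Even (2 * r) := even_two_mul r
  have hb1 : L8Bd (fun ω => 2 * ((∑ i, P.y i ω * P.X k i ω) - c)) :=
    ((L8Bd.sum _ fun i _ => (P.l8s_y_bd h i).mul (P.l8s_X_bd h k i)).sub (l8Bd_const c)).const_mul 2
  have hb2 : L8Bd (fun ω => - (P.nX k ω - c)) := ((P.l8s_W_bd_nX h k).sub (l8Bd_const c)).neg
  have e1 : ∫ ω, (2 * ((∑ i, P.y i ω * P.X k i ω) - c)) ^ (2 * r) ∂P.μ ≤ (2 * A3) ^ (2 * r) := by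
    simp only [mul_pow]
    rw [integral_const_mul]
    exact mul_le_mul_of_nonneg_left ((skp_ref_yX P h k c r).trans h3) (by positivity)
  have e2 : ∫ ω, (- (P.nX k ω - c)) ^ (2 * r) ∂P.μ ≤ A1 ^ (2 * r) := by
    simp only [he2.neg_pow]; exact h1
  have key := skp_ref_mk P.μ hb1 hb2 hr (by positivity) hA1 e1 e2
  refine le_trans (le_of_eq ?_) key
  refine integral_congr_ae (ae_of_all _ fun ω => ?_)
  show (2 * P.L k ω - c) ^ (2 * r) = (2 * ((∑ i, P.y i ω * P.X k i ω) - c) + - (P.nX k ω - c)) ^ (2 * r)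
  congr 1
  unfold L8P.L; ring

/-! ## 9. The exit -/

/-- **third claim of REF** -/
theorem skp_ref_three (hraw : SkpRaw) (hinc : SkpInc) (hrw : SkpLeafRW) (S : SkpS) (hS : S.Ok) (r : ℕ) (ε : ℝ) (hr : 1 ≤ r) (hε : 0 < ε) :
    ∃ C : ℝ, 1 ≤ C ∧ ∀ (Ω : Type) [mΩ : MeasurableSpace Ω] (m : ℕ) (I : SkpI Ω m), I.Ok S → SkwSmall C I.d →
      ∀ k ≤ I.nb, I.d.zlo ≤ I.zc k →
        ∫ ω, (I.P.nX k ω - I.d.q (I.zc k)) ^ (2 * r) ∂I.P.μ ≤ (C * I.d.x ^ (-ε) / I.d.b ^ 2 * skwE I.d I.hh (I.zc k)) ^ (2 * r) ∧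
        ∫ η, (I.P.Q η - I.d.q (I.zc k)) ^ (2 * r) ∂(I.P.fork k) ≤ (C * I.d.x ^ (-ε) / I.d.b ^ 2 * skwE I.d I.hh (I.zc k)) ^ (2 * r) := by
  obtain ⟨C0, hC0, h0⟩ := skp_ref_one hraw hinc hrw S hS r ε hr hε
  obtain ⟨C1, hC1, hR1⟩ := hraw S hS r hr
  obtain ⟨C2, hC2, hI2⟩ := hinc S hS (2 * r) ε (by omega) hε
  have hCW := hS.CW
  have hLq := hS.c.Lq
  have hCq := hS.Cq
  have hCz := hS.Cz
  have hCv := hS.Cv
  have hCm := hS.Cm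
  have hcD3 := hS.cD3
  have hcg := hS.cg
  have hcA3 := hS.cA3 r
  set K0 : ℝ := 2 * ((8 * C1 * S.Cv ^ 2 * S.Cm * S.CW ^ 3 / S.cD3 + 1) * S.K.cA3 r * (49 * (9 / S.cg ^ 2 + 81 / S.cg ^ 3))) + 3 * S.CW * C0 +
    2 * S.c.Lq + 6 * C2 with hK0
  have hp1 : 0 ≤ 64 * S.Cz ^ 2 := by positivity
  have hp2 : 0 ≤ 4 * S.CW ^ 3 := by positivity
  have hp3 : 0 ≤ S.CW * (2 * C1 + S.Cq) := by positivity
  have hp4 : 0 ≤ K0 := by positivity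
  have hp5 : 0 ≤ 4 * S.CW / S.cD3 := by positivity
  refine ⟨C0 + C1 + C2 + 64 * S.Cz ^ 2 + 4 * S.CW ^ 3 + S.CW * (2 * C1 + S.Cq) + K0 + S.Cv + 4 * S.CW / S.cD3, by linarith, ?_⟩
  intro Ω _ m I hI hs k hk hzk
  set C : ℝ := C0 + C1 + C2 + 64 * S.Cz ^ 2 + 4 * S.CW ^ 3 + S.CW * (2 * C1 + S.Cq) + K0 + S.Cv + 4 * S.CW / S.cD3 with hC
  have hCpos : 0 < C := by linarith
  have hP := hI.sp
  have := hP.prob
  have := I.P.l8s_fork_prob hP k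
  have hx0 := hI.wh.x0
  have hb0 := hI.wh.b0
  have hzlo0 := hI.wh.zlo0
  have hx1 : I.d.x ≤ 1 := by have := (skp_ref_sm hCpos hs hx0.le hb0.le (by linarith : (1:ℝ) ≤ C)).1; linarith
  have hzkb : I.zc k ≤ I.zbuf := skp_ref_z_le hI hk
  have h0I := h0 Ω m I hI (skp_ref_small_mono (by linarith) (by linarith) hs)
  have hE0 : 0 ≤ skwE I.d I.hh (I.zc k) := by
    unfold skwE
    refine le_min (skp_ref_R_pos (by linarith)).le ?_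
    have h1 := hI.wc.lower (I.zc k) ⟨by linarith, hzkb⟩
    have h2 : 0 < skwR (I.zc k) := skp_ref_R_pos (by linarith)
    have hU0 : 0 < I.d.U := lt_of_lt_of_le hx0 hI.wh.xU
    have h3 : 0 ≤ min (I.d.b * skwR (I.zc k)) (I.d.U ^ 2 / skwR (I.zc k)) / S.CW := by
      have : 0 ≤ min (I.d.b * skwR (I.zc k)) (I.d.U ^ 2 / skwR (I.zc k)) := le_min (by positivity) (by positivity)
      positivity
    have : 0 ≤ I.hh (I.zc k) := h3.trans h1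
    positivity
  constructor
  · refine (h0I k hk hzk).trans (pow_le_pow_left₀ (by positivity) ?_ _)
    have : C0 * I.d.x ^ (-ε) / I.d.b ^ 2 ≤ C * I.d.x ^ (-ε) / I.d.b ^ 2 := by
      have : C0 ≤ C := by linarith
      gcongr
    exact mul_le_mul_of_nonneg_right this hE0
  have hxraw : I.d.x ≤ 1 / C1 := hs.x.trans (one_div_le_one_div_of_le (by linarith) (by linarith))
  by_cases hnt : I.d.Z ^ 2 * I.hh (I.zc k) < I.d.b * skwR (I.zc k) / S.CW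
  · have hbsm : 64 * S.Cz ^ 2 * I.d.b ≤ 1 := (skp_ref_sm hCpos hs hx0.le hb0.le (by linarith)).2
    have hδ := skp_ref_mesh hS hI hx1 (skp_ref_sm hCpos hs hx0.le hb0.le (by linarith)).1
    have hxv : S.Cv * I.d.x ≤ 1 := (skp_ref_sm hCpos hs hx0.le hb0.le (by linarith)).1
    have hxh : 4 * S.CW * I.d.x ≤ S.cD3 := by
      have h1 : 4 * S.CW / S.cD3 * I.d.x ≤ 1 := (skp_ref_sm hCpos hs hx0.le hb0.le (by linarith)).1
      have h2 : 4 * S.CW / S.cD3 * I.d.x = 4 * S.CW * I.d.x / S.cD3 := by ring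
      rw [h2, div_le_one hcD3] at h1
      exact h1
    have key := skp_ref_three_nt hS hI hr hε hx1 hbsm hδ hxv hxh hk hzk hnt hC0 hC1 hC2 h0I
      (fun j hj => (hR1 Ω m I hI hxraw j hj).1) (hI2 Ω m I hI (skp_ref_small_mono (by linarith) (by linarith) hs))
    rw [← hK0] at key
    obtain ⟨hw0, -⟩ := skp_ref_nt hS hI hbsm ⟨hzk, hzkb⟩ hnt
    refine key.trans (pow_le_pow_left₀ (by positivity) ?_ _)
    rw [skp_ref_E_nt hS hI (lt_of_lt_of_le hzlo0 hzk) hnt]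
    have f3 : 0 ≤ I.d.x ^ (-ε) / I.d.b ^ 2 * (I.d.Z ^ 2 * I.hh (I.zc k)) := by positivity
    calc K0 * (I.d.x ^ (-ε) / I.d.b ^ 2 * (I.d.Z ^ 2 * I.hh (I.zc k)))
        ≤ C * (I.d.x ^ (-ε) / I.d.b ^ 2 * (I.d.Z ^ 2 * I.hh (I.zc k))) := mul_le_mul_of_nonneg_right (by linarith) f3
      _ = C * I.d.x ^ (-ε) / I.d.b ^ 2 * (I.d.Z ^ 2 * I.hh (I.zc k)) := by ring
  · exact skp_ref_triv hS hI (I.P.fork k) (skp_ref_Q_bd I.P hP) hr hε hx1 ⟨hzk, hzkb⟩ hnt hC1 (by linarith) (hR1 Ω m I hI hxraw k hk).2.2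

/-- **EXIT REF** from RAW, INC, RW -/
theorem skp_ref_of (hraw : SkpRaw) (hinc : SkpInc) (hrw : SkpLeafRW) : SkpRef := by
  intro S hS r ε hr hε
  obtain ⟨C, hC, h⟩ := skp_ref_three hraw hinc hrw S hS r ε hr hε
  refine ⟨3 * C, by linarith, ?_⟩
  intro Ω _ m I hI hs k hk hzk
  obtain ⟨h1, h3⟩ := h Ω m I hI (skp_ref_small_mono (by linarith) (by linarith) hs) k hk hzk
  have hx0 := hI.wh.x0
  have hb0 := hI.wh.b0
  have hzlo0 := hI.wh.zlo0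
  have hzkb : I.zc k ≤ I.zbuf := skp_ref_z_le hI hk
  have hE0 : 0 ≤ skwE I.d I.hh (I.zc k) := by
    unfold skwE
    refine le_min (skp_ref_R_pos (lt_of_lt_of_le hzlo0 hzk)).le ?_
    have h1 := hI.wc.lower (I.zc k) ⟨by have : I.d.zlo ≤ I.zc k := hzk; linarith, hzkb⟩
    have h2 : 0 < skwR (I.zc k) := skp_ref_R_pos (lt_of_lt_of_le hzlo0 hzk)
    have hU0 : 0 < I.d.U := lt_of_lt_of_le hx0 hI.wh.xU
    have hCW := hS.CW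
    have h3 : 0 ≤ min (I.d.b * skwR (I.zc k)) (I.d.U ^ 2 / skwR (I.zc k)) / S.CW := by
      have : 0 ≤ min (I.d.b * skwR (I.zc k)) (I.d.U ^ 2 / skwR (I.zc k)) := le_min (by positivity) (by positivity)
      positivity
    have : 0 ≤ I.hh (I.zc k) := h3.trans h1
    positivity
  set A : ℝ := C * I.d.x ^ (-ε) / I.d.b ^ 2 * skwE I.d I.hh (I.zc k) with hA
  have hA0 : 0 ≤ A := by positivity
  have hA3 : 3 * C * I.d.x ^ (-ε) / I.d.b ^ 2 * skwE I.d I.hh (I.zc k) = 3 * A := by rw [hA]; ring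
  have h2 := skp_ref_L I.P hI.sp k (I.d.q (I.zc k)) hr hA0 hA0 h1 h3
  show _ ≤ (3 * C * I.d.x ^ (-ε) / I.d.b ^ 2 * skwE I.d I.hh (I.zc k)) ^ (2 * r) ∧
    _ ≤ (3 * C * I.d.x ^ (-ε) / I.d.b ^ 2 * skwE I.d I.hh (I.zc k)) ^ (2 * r) ∧
    _ ≤ (3 * C * I.d.x ^ (-ε) / I.d.b ^ 2 * skwE I.d I.hh (I.zc k)) ^ (2 * r)
  rw [hA3]
  have hmono : A ^ (2 * r) ≤ (3 * A) ^ (2 * r) := pow_le_pow_left₀ hA0 (by linarith) _
  refine ⟨h1.trans hmono, ?_, h3.trans hmono⟩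
  refine h2.trans (le_of_eq ?_)
  congr 1; ring

end Claimed.Agent.R286
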