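import Claimed.Agent.R286.PM.Leaves
import Claimed.Agent.R286.PM.Raw
import Claimed.Agent.R286.PM.RW
import Claimed.Agent.R286.PM.Inc
import Claimed.Agent.R286.PM.Ref

/-!
# Row 286 (S0533), unit L10 = W + PM (LL 08-statistics.tex l.1-630) : CONTRACT      (head helper37; ADV helper145; deputy W helper237)

## EXITS
* W  (LL Lemma 8.2, deterministic widths; pure real analysis):  `skw_direct : SkwDirect` (W/GlueD.lean, 237), `skw_low : SkwLow` (W/GlueL.lean, 112).
     What users may use = the structure `SkwConcl` (W/Defs.lean); corollaries for users: W/Cor.lean (246).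
* PM (LL Prop 8.1, pointwise moments, over the abstract single path `L8P` of 75):  `skp_raw : SkpRaw` ((D2) line 1), `skp_ref : SkpRef` ((D2) line 2),
     `skp_inc : SkpInc` (increments of the posterior mean; implicit in LL l.518-612), leaf `SkpLeafD6` = (D6).      Statements: PM/Leaves.lean.
  All are NON-asymptotic: constants of `SkpS` in, one constant `C` out; smallness only through `SkwSmall C d` (`b, U, x ≤ 1/C`).

## IMPORTS (from whom)
* `L8P`, `L8P.Ok`, API `l8s_*` (SPA-SPD, all proved) : 75 / 22.     PART A of the proof = `LL06/Pw.lean` (200) + `Bud/MomBoxA.lean` (176): `bud_bm_wl`, `bud_bm_overlap`, `bud_bm_win`, `bud_bm_two`, `bud_bm_sync`, `bud_bm_polar`.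
* the fields of `SkpI.Ok` (PM/Defs.lean), to be provided for the sampled hierarchy by the INSTANCE units:
    `sp`, `pin` (LL (A1) l.3), `proj` (LL (A3) = PE (13))                          : SPI (257; L02 = 93, 239)
    `wh : SkwHyp` ((D1) in `z` from (C1): 162 + bridge 42/75; `fr`, `qlip`, `adj`) : W/Inst (246), LL/PathsDefs (272/253)
    `wc : SkwConcl`                                                               : `skw_direct` / `skw_low` + `SkwPlat` (W/PF.lean + W/Inst)
    grid: GENERAL, `zc k` = coordinate `z` of the cut `k`, monotone, mesh `≤ δ ≤ x^40`, `Slink`, `gaplink` (`P.v k` = mass function at `zc (k+1)`: right-endpoint rule), `vlo`, `vhi` : PM/Inst (37) from `skSP` + `SkwInVConcl`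
    `D3` (LL (D3): field length of a gap)                                          : W/Inst (246) from (P2),(P4) of LL 03
    `msz`, `g0a`, `g0b`, `lam1a`, `Lg`, `lowb`, `Yz`, `zloY`, `zlox`, `qr`, `Greg`  : parameter order (242 LLPar) + base profile (LL 03)
-/

set_option autoImplicit false

namespace Claimed.Agent.R286

/-- TEX[LL:prop:pointwise-moments] (D2), first line -/
theorem skp_raw : SkpRaw := skp_raw_all

/-- TEX[LL:prop:pointwise-moments] increments (proof of the second line) -/
theorem skp_inc : SkpInc := skp_inc_of_rw skp_raw skp_leaf_rw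

/-- TEX[LL:prop:pointwise-moments] (D2), second line -/
theorem skp_ref : SkpRef := skp_ref_of skp_raw skp_inc skp_leaf_rw

end Claimed.Agent.R286
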