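import Claimed.Agent.R286.PM.Leaves
import Claimed.Agent.R286.PM.Kit

/-!
# Row 286 (S0533), folder PM, file D6 : LL (D6), the raw integral of `W` over a fork window      (OWNER helper188; prefix `skp_d6_`, `skp_ix_`)

Contract v3 of helper37 (over `L8P`, natural exponents, GENERAL grid `zc`).   `skp_leaf_d6 : SkpLeafD6`, from `bud_bm_wl` (Bud/MomBoxA) and `l6p_overlap_fam` (LL06/Pw).
Blocks by `z`-distance: `t j s` = first cut with `zc ≥ zc s + d_j`, `d_j = 2^(j-1) d₁`, `d₁ = x^20`, doubling until `d_(n+1) ∈ (zreg/4, zreg/2]`, then the terminal block;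
gap of the block `j ≥ 1`: from the first cut with `zc ≥ zc s + d_j/2`;   loss `θ = x^(-ε/2)`, moment `R ≥ 12 r / ε`.
* Part 1: arithmetic (reusable for RW): `skp_d6_B`, `skp_d6_count`, `skp_d6_log`, distances `skpDd`.
* Part 2: conversions `∫ f^q ↔ skpN`; first cut after a coordinate `skpIx` (`skp_ix_*`); cells (`skp_d6_cells`).
* Part 3: blocks `skpT`, masses, gaps, anchors.      * Part 4: the theorem.
-/

set_option autoImplicit false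

namespace Claimed.Agent.R286

open Set MeasureTheory
open scoped ENNReal

/-! ## Part 1 : elementary choices -/
section choice

/-- choice of the number of doublings -/
theorem skp_d6_B {D1 zr : ℝ} (hD : 0 < D1) (hz : D1 ≤ zr / 2) :
    ∃ n : ℕ, 2 ^ n * D1 ≤ zr / 2 ∧ zr / 4 < 2 ^ n * D1 := by
  have h1 : 1 ≤ zr / (2 * D1) := by rw [le_div_iff₀ (by positivity)]; linarith
  obtain ⟨n, hn1, hn2⟩ := exists_nat_pow_near h1 one_lt_two
  refine ⟨n, ?_, ?_⟩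
  · rw [le_div_iff₀ (by positivity)] at hn1; linarith
  · rw [div_lt_iff₀ (by positivity), pow_succ] at hn2; linarith

/-- the doubling distances `0, d₁, 2 d₁, 4 d₁, ..` -/
noncomputable def skpDd (d1 : ℝ) : ℕ → ℝ
  | 0 => 0
  | j + 1 => 2 ^ j * d1

theorem skp_d6_dd_zero (d1 : ℝ) : skpDd d1 0 = 0 := rfl

theorem skp_d6_dd_succ (d1 : ℝ) (j : ℕ) : skpDd d1 (j + 1) = 2 ^ j * d1 := rfl

theorem skp_d6_dd_one (d1 : ℝ) : skpDd d1 1 = d1 := by rw [skp_d6_dd_succ]; ring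

theorem skp_d6_dd_two (d1 : ℝ) {j : ℕ} (hj : 1 ≤ j) : skpDd d1 (j + 1) = 2 * skpDd d1 j := by
  obtain ⟨i, rfl⟩ : ∃ i, j = i + 1 := ⟨j - 1, by omega⟩
  rw [skp_d6_dd_succ, skp_d6_dd_succ, pow_succ]; ring

theorem skp_d6_dd_nonneg {d1 : ℝ} (h : 0 ≤ d1) (j : ℕ) : 0 ≤ skpDd d1 j := by
  rcases j with _ | j
  · exact le_rfl
  · rw [skp_d6_dd_succ]; positivity

theorem skp_d6_dd_mono {d1 : ℝ} (h : 0 ≤ d1) : Monotone (skpDd d1) := by
  refine monotone_nat_of_le_succ fun j => ?_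
  rcases Nat.eq_zero_or_pos j with rfl | hj
  · exact skp_d6_dd_nonneg h 1
  · rw [skp_d6_dd_two d1 hj]
    have := skp_d6_dd_nonneg h j
    linarith

theorem skp_d6_dd_ge {d1 : ℝ} (h : 0 ≤ d1) {j : ℕ} (hj : 1 ≤ j) : d1 ≤ skpDd d1 j := by
  have := skp_d6_dd_mono h hj
  rwa [skp_d6_dd_one] at this

/-- the number of doublings is logarithmic -/
theorem skp_d6_count {x D1 zr : ℝ} {n : ℕ} (hx : 0 < x) (hD : x ^ 20 ≤ D1) (hz : zr ≤ 1) (hn : 2 ^ n * D1 ≤ zr / 2) :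
    (n : ℝ) ≤ 40 * Real.log (1 / x) := by
  have hx20 : 0 < x ^ 20 := by positivity
  have h1 : (2 : ℝ) ^ n * x ^ 20 ≤ 1 := by
    have : (2 : ℝ) ^ n * x ^ 20 ≤ 2 ^ n * D1 := mul_le_mul_of_nonneg_left hD (by positivity)
    linarith
  have h2 : (2 : ℝ) ^ n ≤ (1 / x) ^ 20 := by
    rw [one_div, inv_pow, ← one_div, le_div_iff₀ hx20]; exact h1
  have h3 := Real.log_le_log (by positivity) h2
  rw [Real.log_pow, Real.log_pow] at h3
  have h4 := Real.log_two_gt_d9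
  have h5 : (0 : ℝ) ≤ n := Nat.cast_nonneg n
  push_cast at h3
  nlinarith

/-- polylogarithms are subpowers -/
theorem skp_d6_log {x ε : ℝ} (hx : 0 < x) (hx1 : x ≤ 1) (hε : 0 < ε) :
    Real.log (1 / x) ^ 7 ≤ (14 / ε) ^ 7 * x ^ (-(ε / 2)) := by
  have hu : 0 ≤ 1 / x := by positivity
  have h0 : 0 ≤ Real.log (1 / x) := Real.log_nonneg (by rw [le_div_iff₀ hx]; linarith)
  have h1 := Real.log_le_rpow_div hu (show 0 < ε / 14 by positivity)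
  have h2 : (1 / x) ^ (ε / 14) / (ε / 14) = (14 / ε) * (1 / x) ^ (ε / 14) := by
    field_simp
  rw [h2] at h1
  have h3 := pow_le_pow_left₀ h0 h1 7
  rw [mul_pow, ← Real.rpow_natCast ((1 / x) ^ (ε / 14)) 7, ← Real.rpow_mul hu] at h3
  have h4 : (1 / x) ^ (ε / 14 * ((7 : ℕ) : ℝ)) = x ^ (-(ε / 2)) := by
    rw [one_div, Real.inv_rpow hx.le, ← Real.rpow_neg hx.le]
    congr 1
    push_cast
    ring
  rw [h4] at h3
  exact h3

end choice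

/-! ## Part 2 : conversions, first cut after a coordinate, cells -/
section conv

variable {α : Type} [MeasurableSpace α] {μ : Measure α}

theorem skp_d6_int_eq {q : ℕ} (hq : 1 ≤ q) {f : α → ℝ} (hf : ∀ ω, 0 ≤ f ω) : ∫ ω, f ω ^ q ∂μ = skpN μ q f ^ q := by
  have hq0 : (0 : ℝ) < q := by exact_mod_cast hq
  have h := skpn_rpow (μ := μ) hq0 f
  rw [Real.rpow_natCast] at h
  rw [h]
  refine integral_congr_ae (ae_of_all _ fun ω => ?_)
  simp only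
  rw [Real.rpow_natCast, abs_of_nonneg (hf ω)]

theorem skp_d6_le_of_int {q : ℕ} (hq : 1 ≤ q) {f : α → ℝ} (hf : ∀ ω, 0 ≤ f ω) {c : ℝ} (hc : 0 ≤ c)
    (h : ∫ ω, f ω ^ q ∂μ ≤ c ^ q) : skpN μ q f ≤ c := by
  rw [skp_d6_int_eq hq hf] at h
  exact le_of_pow_le_pow_left₀ (by omega) hc h

theorem skp_d6_int_le {q : ℕ} (hq : 1 ≤ q) {f : α → ℝ} (hf : ∀ ω, 0 ≤ f ω) {c : ℝ} (h : skpN μ q f ≤ c) :
    ∫ ω, f ω ^ q ∂μ ≤ c ^ q := by
  rw [skp_d6_int_eq hq hf]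
  exact pow_le_pow_left₀ (skpn_nonneg _ _) h q

end conv

section grid

variable {Ω : Type} [mΩ : MeasurableSpace Ω] {m : ℕ}

theorem skp_d6_nX_nonneg (P : L8P Ω m) (a : ℕ) (ω : Ω) : 0 ≤ P.nX a ω :=
  Finset.sum_nonneg fun _ _ => sq_nonneg _

/-- `‖ |X_b - X_a|² ‖_q ≤ 2 ‖ |X_a|² ‖_q + 2 ‖ |X_b|² ‖_q` -/
theorem skp_d6_diff {P : L8P Ω m} (h : P.Ok) {q : ℕ} (hq : 1 ≤ q) (a b : ℕ) :
    skpN P.μ q (P.nXX a b) ≤ 2 * skpN P.μ q (P.nX a) + 2 * skpN P.μ q (P.nX b) := by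
  have := h.prob
  have hq1 : (1 : ℝ) ≤ q := by exact_mod_cast hq
  have hq0 : (0 : ℝ) < q := by linarith
  have ha : MemLp (fun ω => 2 * P.nX a ω) ⊤ P.μ := ((P.l8s_W_bd_nX h a).const_mul 2).memLp_aux _ _
  have hb : MemLp (fun ω => 2 * P.nX b ω) ⊤ P.μ := ((P.l8s_W_bd_nX h b).const_mul 2).memLp_aux _ _
  have h1 : skpN P.μ q (P.nXX a b) ≤ skpN P.μ q (fun ω => 2 * P.nX a ω) + skpN P.μ q (fun ω => 2 * P.nX b ω) := by
    refine skpn_le_add hq1 ha hb (ae_of_all _ fun ω => ?_)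
    rw [abs_of_nonneg (bud_bm_sq_nonneg P a b ω), abs_of_nonneg (mul_nonneg zero_le_two (skp_d6_nX_nonneg P a ω)),
      abs_of_nonneg (mul_nonneg zero_le_two (skp_d6_nX_nonneg P b ω))]
    exact bud_bm_sq_le_nX P a b ω
  rw [skpn_const_mul hq0, skpn_const_mul hq0, abs_of_pos (by norm_num : (0 : ℝ) < 2)] at h1
  exact h1

theorem skp_d6_z_nonneg {S : SkpS} {I : SkpI Ω m} (hI : I.Ok S) (k : ℕ) : 0 ≤ I.z k := by
  have := hI.zmono (Nat.zero_le k)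
  rw [hI.z0] at this
  exact this

theorem skp_d6_dz_nonneg {S : SkpS} {I : SkpI Ω m} (hI : I.Ok S) (k : ℕ) : 0 ≤ I.dz k :=
  sub_nonneg.2 (hI.zmono (Nat.le_succ k))

/-- cuts strictly before the buffer end -/
theorem skp_d6_lt_nb {S : SkpS} {I : SkpI Ω m} (hI : I.Ok S) {j : ℕ} (hj : I.z j < I.zbuf) : j < I.nb := by
  by_contra hcon
  have h1 := hI.zmono (not_lt.1 hcon)
  rw [hI.nb] at h1
  exact absurd hj (not_lt.2 h1)

/-- the raw hypothesis in norm form -/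
theorem skp_d6_raw {S : SkpS} {I : SkpI Ω m} (hI : I.Ok S) {r : ℕ} (hr : 1 ≤ r) {B : ℝ} (hB : 0 ≤ B) (hraw : I.RawB r B)
    {k : ℕ} (hk : k ≤ I.nb) : skpN I.P.μ r (I.P.nX k) ≤ B * (skwR (I.z k) + I.d.zlo) := by
  have hR : 0 ≤ skwR (I.z k) := le_min (skp_d6_z_nonneg hI k) zero_le_one
  exact skp_d6_le_of_int hr (skp_d6_nX_nonneg I.P k) (mul_nonneg hB (add_nonneg hR hI.wh.zlo0.le)) (hraw k hk)

/-- first cut with coordinate `≥ a` -/
noncomputable def skpIx (I : SkpI Ω m) (a : ℝ) : ℕ := sInf {i : ℕ | a ≤ I.zc i}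

theorem skp_ix_ge {S : SkpS} {I : SkpI Ω m} (hI : I.Ok S) {a : ℝ} (ha : a ≤ I.zbuf) : a ≤ I.zc (skpIx I a) := by
  have h1 : skpIx I a ∈ {i : ℕ | a ≤ I.zc i} := Nat.sInf_mem ⟨I.nb, by
    show a ≤ I.zc I.nb
    rw [hI.nb]; exact ha⟩
  exact h1

theorem skp_ix_le {I : SkpI Ω m} {a : ℝ} {i : ℕ} (h : a ≤ I.zc i) : skpIx I a ≤ i := Nat.sInf_le h

theorem skp_ix_lt {I : SkpI Ω m} {a : ℝ} {i : ℕ} (h : i < skpIx I a) : I.zc i < a := by
  have h1 := Nat.notMem_of_lt_sInf h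
  exact not_le.1 h1

theorem skp_ix_le_nb {S : SkpS} {I : SkpI Ω m} (hI : I.Ok S) {a : ℝ} (ha : a ≤ I.zbuf) : skpIx I a ≤ I.nb :=
  skp_ix_le (by rw [hI.nb]; exact ha)

theorem skp_ix_up {S : SkpS} {I : SkpI Ω m} (hI : I.Ok S) {a : ℝ} (h0 : 0 < a) (ha : a ≤ I.zbuf) :
    I.zc (skpIx I a) < a + I.δ := by
  have hpos : 0 < skpIx I a := by
    rcases Nat.eq_zero_or_pos (skpIx I a) with h | h
    · have h1 := skp_ix_ge hI ha
      rw [h, hI.z0] at h1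
      linarith
    · exact h
  obtain ⟨i, hi⟩ : ∃ i, skpIx I a = i + 1 := ⟨skpIx I a - 1, by omega⟩
  have h1 : I.zc i < a := skp_ix_lt (by omega)
  have h2 := hI.zmesh i (by have := skp_ix_le_nb hI ha; omega)
  rw [hi]; linarith

theorem skp_ix_mono {S : SkpS} {I : SkpI Ω m} (hI : I.Ok S) {a b : ℝ} (hab : a ≤ b) (hb : b ≤ I.zbuf) :
    skpIx I a ≤ skpIx I b := skp_ix_le (hab.trans (skp_ix_ge hI hb))

theorem skp_ix_gt {S : SkpS} {I : SkpI Ω m} (hI : I.Ok S) {a : ℝ} (ha : a ≤ I.zbuf) {s : ℕ} (h : I.zc s < a) :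
    s < skpIx I a := by
  by_contra hcon
  have h1 := hI.zmono (not_lt.1 hcon)
  have h2 := skp_ix_ge hI ha
  linarith

/-- the cells whose left end lies in `(a, b]` have total length `≤ b - a + δ` -/
theorem skp_d6_cells {S : SkpS} {I : SkpI Ω m} (hI : I.Ok S) (F : Finset ℕ) {a b : ℝ} (hab : a ≤ b)
    (hF : ∀ s ∈ F, s < I.nb ∧ a < I.zc s ∧ I.zc s ≤ b) : ∑ s ∈ F, I.dz s ≤ b - a + I.δ := by
  have hδ := hI.δ0
  rcases F.eq_empty_or_nonempty with rfl | hne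
  · simp; linarith
  · have h0 := hF _ (F.min'_mem hne)
    have h1 := hF _ (F.max'_mem hne)
    have hsub : F ⊆ Finset.Ico (F.min' hne) (F.max' hne + 1) := by
      intro s hs
      rw [Finset.mem_Ico]
      exact ⟨F.min'_le s hs, Nat.lt_succ_of_le (F.le_max' s hs)⟩
    have h2 : ∑ s ∈ F, I.dz s ≤ ∑ s ∈ Finset.Ico (F.min' hne) (F.max' hne + 1), I.dz s :=
      Finset.sum_le_sum_of_subset_of_nonneg hsub fun s _ _ => skp_d6_dz_nonneg hI s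
    have h3 : ∑ s ∈ Finset.Ico (F.min' hne) (F.max' hne + 1), I.dz s = I.zc (F.max' hne + 1) - I.zc (F.min' hne) :=
      Finset.sum_Ico_sub I.zc (le_trans (F.min'_le _ (F.max'_mem hne)) (Nat.le_succ _))
    have h4 := hI.zmesh _ h1.1
    rw [h3] at h2
    linarith [h0.2.1, h1.2.2]

theorem skp_d6_sum_dz (I : SkpI Ω m) {k₁ k₂ : ℕ} (hk : k₁ ≤ k₂) : ∑ s ∈ Finset.Ico k₁ k₂, I.dz s = I.z k₂ - I.z k₁ :=
  Finset.sum_Ico_sub I.zc hk

end grid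

/-! ## Part 3 : blocks by `z`-distance -/
section blocks

variable {Ω : Type} [mΩ : MeasurableSpace Ω] {m : ℕ}

/-- the cuts of the doubling partition by `z`-distance at the fork `s`: `s`, then the first cuts at the distances `d_1, .., d_(n+1)`, then the end -/
noncomputable def skpT (I : SkpI Ω m) (d1 : ℝ) (n j s : ℕ) : ℕ :=
  if j = 0 then s else if j ≤ n + 1 then skpIx I (I.zc s + skpDd d1 j) else I.P.n + 1

/-- the standing geometry of the proof of (D6) -/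
structure SkpD6Geo (S : SkpS) (I : SkpI Ω m) (d1 : ℝ) (n k₁ k₂ : ℕ) : Prop where
  hk : k₁ ≤ k₂
  hz1 : I.d.zlo ≤ I.z k₁
  hz2 : I.z k₂ ≤ 2 * I.z k₁
  hz3 : 4 * I.z k₁ ≤ S.zreg
  d1lo : I.d.x ^ 20 ≤ d1
  δd : 4 * I.δ ≤ d1
  hDB : skpDd d1 (n + 1) ≤ S.zreg / 2
  hDB' : S.zreg / 4 < skpDd d1 (n + 1)
  hx1 : I.d.x ≤ 1
  hxv : I.d.x ≤ 1 / S.Cv
  hxc : I.d.x ≤ S.cD3 / 4

namespace SkpD6Geo

variable {S : SkpS} {I : SkpI Ω m} {d1 : ℝ} {n k₁ k₂ : ℕ}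

theorem d1pos (g : SkpD6Geo S I d1 n k₁ k₂) (hI : I.Ok S) : 0 < d1 :=
  lt_of_lt_of_le (pow_pos hI.wh.x0 20) g.d1lo

theorem zs (g : SkpD6Geo S I d1 n k₁ k₂) (hI : I.Ok S) {s : ℕ} (hs : s ∈ Finset.Ico k₁ k₂) :
    I.z k₁ ≤ I.zc s ∧ I.zc s ≤ 2 * I.z k₁ :=
  ⟨hI.zmono (Finset.mem_Ico.1 hs).1, (hI.zmono (Finset.mem_Ico.1 hs).2.le).trans g.hz2⟩

theorem dle (g : SkpD6Geo S I d1 n k₁ k₂) (hI : I.Ok S) {j : ℕ} (hj : j ≤ n + 1) : skpDd d1 j ≤ S.zreg / 2 :=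
  (skp_d6_dd_mono (g.d1pos hI).le hj).trans g.hDB

/-- the cut at the distance `c ≤ zreg/2` from a cut `s` of the window -/
theorem ix (g : SkpD6Geo S I d1 n k₁ k₂) (hI : I.Ok S) {zs c : ℝ} (h1 : I.z k₁ ≤ zs) (h2 : zs ≤ 2 * I.z k₁) (hc0 : 0 < c)
    (hc : c ≤ S.zreg / 2) :
    zs + c ≤ I.zc (skpIx I (zs + c)) ∧ I.zc (skpIx I (zs + c)) < zs + c + I.δ ∧ skpIx I (zs + c) ≤ I.nb := by
  have hz10 : 0 < I.z k₁ := lt_of_lt_of_le hI.wh.zlo0 g.hz1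
  have ha : zs + c ≤ I.zbuf := by have := hI.zreg; have := g.hz3; linarith
  exact ⟨skp_ix_ge hI ha, skp_ix_up hI (by linarith) ha, skp_ix_le_nb hI ha⟩

end SkpD6Geo

variable {S : SkpS} {I : SkpI Ω m} {d1 : ℝ} {n k₁ k₂ : ℕ}

theorem skp_d6_T_zero (I : SkpI Ω m) (d1 : ℝ) (n s : ℕ) : skpT I d1 n 0 s = s := by simp [skpT]

theorem skp_d6_T_mid (I : SkpI Ω m) (d1 : ℝ) {n j : ℕ} (s : ℕ) (h1 : 1 ≤ j) (h2 : j ≤ n + 1) :
    skpT I d1 n j s = skpIx I (I.zc s + skpDd d1 j) := by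
  unfold skpT; rw [if_neg (by omega), if_pos h2]

theorem skp_d6_T_end (I : SkpI Ω m) (d1 : ℝ) {n j : ℕ} (s : ℕ) (h2 : n + 1 < j) : skpT I d1 n j s = I.P.n + 1 := by
  unfold skpT; rw [if_neg (by omega), if_neg (by omega)]

theorem skp_d6_T_mono (g : SkpD6Geo S I d1 n k₁ k₂) (hI : I.Ok S) {s : ℕ} (hs : s ∈ Finset.Ico k₁ k₂) :
    Monotone fun j => skpT I d1 n j s := by
  have hd := g.d1pos hI
  obtain ⟨hs1, hs2⟩ := g.zs hI hs
  have hbuf : ∀ j, j ≤ n + 1 → I.zc s + skpDd d1 j ≤ I.zbuf := fun j hj => by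
    have := g.dle hI hj; have := hI.zreg; have := g.hz3; linarith
  refine monotone_nat_of_le_succ fun j => ?_
  show skpT I d1 n j s ≤ skpT I d1 n (j + 1) s
  rcases Nat.eq_zero_or_pos j with rfl | hj
  · rw [skp_d6_T_zero, skp_d6_T_mid I d1 s le_rfl (by omega)]
    refine (skp_ix_gt hI (hbuf _ (by omega)) ?_).le
    have := skp_d6_dd_ge hd.le (le_refl 1)
    linarith
  · rcases Nat.lt_or_ge j (n + 1) with h1 | h1
    · rw [skp_d6_T_mid I d1 s hj h1.le, skp_d6_T_mid I d1 s (by omega) h1]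
      refine skp_ix_mono hI ?_ (hbuf _ h1)
      have := skp_d6_dd_mono hd.le (Nat.le_succ j)
      linarith
    · rw [skp_d6_T_end I d1 s (by omega : n + 1 < j + 1)]
      rcases Nat.eq_or_lt_of_le h1 with h2 | h2
      · rw [skp_d6_T_mid I d1 s hj (by omega)]
        have := skp_ix_le_nb hI (hbuf j (by omega))
        have := hI.nbn
        omega
      · rw [skp_d6_T_end I d1 s h2]

/-- the mass weights -/
noncomputable def skpMu (S : SkpS) (I : SkpI Ω m) (d1 : ℝ) (n k₁ j : ℕ) : ℝ :=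
  if j ≤ n then S.Cv * (2 * I.z k₁ + skpDd d1 (j + 1) + I.δ) else 4

theorem skp_d6_mu (g : SkpD6Geo S I d1 n k₁ k₂) (hS : S.Ok) (hI : I.Ok S) {s : ℕ} (hs : s ∈ Finset.Ico k₁ k₂) {j : ℕ}
    (hj : j < n + 2) : I.P.v (skpT I d1 n (j + 1) s - 1) ≤ skpMu S I d1 n k₁ j := by
  have hd := g.d1pos hI
  have hCv0 : 0 < S.Cv := by linarith [hS.Cv]
  obtain ⟨hs1, hs2⟩ := g.zs hI hs
  unfold skpMu
  rcases Nat.lt_or_ge n j with h1 | h1
  · rw [if_neg (by omega), skp_d6_T_end I d1 s (by omega)]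
    have e : I.P.n + 1 - 1 = I.P.n := by omega
    rw [e, hI.sp.v_term _ le_rfl]
    exact hI.a4
  · rw [if_pos h1, skp_d6_T_mid I d1 s (by omega) (by omega)]
    have hdj : 0 < skpDd d1 (j + 1) := lt_of_lt_of_le hd (skp_d6_dd_ge hd.le (by omega))
    obtain ⟨h2, h3, h4⟩ := g.ix hI hs1 hs2 hdj (g.dle hI (by omega : j + 1 ≤ n + 1))
    obtain ⟨T, hT⟩ : ∃ T, T = skpIx I (I.zc s + skpDd d1 (j + 1)) := ⟨_, rfl⟩
    rw [← hT] at h2 h3 h4 ⊢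
    have hTpos : 0 < T := by
      rcases Nat.eq_zero_or_pos T with h | h
      · rw [h, hI.z0] at h2
        have := skp_d6_z_nonneg hI s
        have e : I.z s = I.zc s := rfl
        linarith
      · exact h
    have h5 := hI.vhi (T - 1) (by omega)
    have e : T - 1 + 1 = T := by omega
    rw [e] at h5
    have h6 : skwR (I.z T) ≤ I.zc T := min_le_left _ _
    refine h5.trans (mul_le_mul_of_nonneg_left ?_ hCv0.le)
    linarith

/-- the lower bound of the denominator of (A3) for the gap of the block `j` -/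
noncomputable def skpDen (S : SkpS) (I : SkpI Ω m) (d1 : ℝ) (k₁ j : ℕ) : ℝ :=
  ((I.z k₁ + skpDd d1 j / 2) / S.Cv) ^ 2 * (1 / (S.Cm * I.d.x ^ 6)) *
    (S.cD3 * I.lam1 * (I.z k₁ + skpDd d1 j / 2) ^ 2 * (skpDd d1 j / 4))

theorem skp_d6_gap (g : SkpD6Geo S I d1 n k₁ k₂) (hS : S.Ok) (hI : I.Ok S) {s : ℕ} (hs : s ∈ Finset.Ico k₁ k₂) {j : ℕ}
    (hj1 : 1 ≤ j) (hj : j < n + 2) :
    ∃ p, s ≤ p ∧ p < skpT I d1 n j s ∧ I.lowb ≤ I.P.v p ∧ I.lowb ≤ I.P.hlen p (skpT I d1 n j s) ∧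
      1 ≤ 1 / skpDen S I d1 k₁ j * mbxDen I.P p (skpT I d1 n j s) := by
  have hd := g.d1pos hI
  have hδ := hI.δ0
  have hx0 := hI.wh.x0
  have hx1 := g.hx1
  have hCv0 : 0 < S.Cv := by linarith [hS.Cv]
  have hCm0 : 0 < S.Cm := by linarith [hS.Cm]
  have hc := hS.cD3
  have hzr1 := hS.zreg1
  have hzlo0 := hI.wh.zlo0
  have hz10 : 0 < I.z k₁ := lt_of_lt_of_le hzlo0 g.hz1
  have hlam0 : 0 < I.lam1 := lt_of_lt_of_le (by positivity) hI.lam1a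
  obtain ⟨hs1, hs2⟩ := g.zs hI hs
  obtain ⟨D, hD⟩ : ∃ D : ℝ, D = skpDd d1 j := ⟨_, rfl⟩
  have hD1 : d1 ≤ D := by rw [hD]; exact skp_d6_dd_ge hd.le hj1
  have hD0 : 0 < D := lt_of_lt_of_le hd hD1
  have hDz : D ≤ S.zreg / 2 := by rw [hD]; exact g.dle hI (by omega)
  have hδD : 4 * I.δ ≤ D := g.δd.trans hD1
  rw [skp_d6_T_mid I d1 s hj1 (by omega)]
  unfold skpDen
  rw [← hD]
  obtain ⟨hT1, hT2, hT3⟩ := g.ix hI hs1 hs2 hD0 hDz
  obtain ⟨hp1, hp2, hp3⟩ := g.ix hI hs1 hs2 (by linarith : 0 < D / 2) (by linarith : D / 2 ≤ S.zreg / 2)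
  obtain ⟨T, hT⟩ : ∃ T, T = skpIx I (I.zc s + D) := ⟨_, rfl⟩
  obtain ⟨p, hp⟩ : ∃ p, p = skpIx I (I.zc s + D / 2) := ⟨_, rfl⟩
  rw [← hT] at hT1 hT2 hT3 ⊢
  rw [← hp] at hp1 hp2 hp3
  obtain ⟨ζ, hζ⟩ : ∃ ζ : ℝ, ζ = I.z k₁ + D / 2 := ⟨_, rfl⟩
  rw [← hζ]
  have hζ0 : 0 < ζ := by rw [hζ]; linarith
  have hsp : s ≤ p := by
    by_contra hcon
    have := hI.zmono (not_le.1 hcon).le
    linarith
  have hpT : p < T := by
    by_contra hcon
    have := hI.zmono (not_lt.1 hcon)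
    linarith
  obtain ⟨zp, hzp⟩ : ∃ zp : ℝ, zp = I.z p := ⟨_, rfl⟩
  have ezp : I.zc p = zp := hzp.symm
  rw [ezp] at hp1 hp2
  have hζp : ζ ≤ zp := by rw [hζ]; linarith
  have hzp1 : zp ≤ 1 := by have := g.hz3; linarith
  have hRp : skwR (I.z p) = zp := by rw [← hzp]; exact min_eq_left hzp1
  have hlo4 : I.d.zlo / 4 ≤ I.z p := by rw [← hzp]; have := g.hz1; linarith
  have hvlo := hI.vlo p hp3 hlo4
  rw [hRp] at hvlo
  have hD3 := hI.D3 p T hpT hT3 hlo4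
  rw [hRp] at hD3
  have hdz : D / 4 ≤ I.z T - I.z p := by
    have e : I.z T = I.zc T := rfl
    rw [e, ← hzp]; linarith
  have hxzp : I.d.x ≤ zp := by
    have := hI.zlox; have := g.hz1; linarith
  have hzp0 : 0 < zp := lt_of_lt_of_le hx0 hxzp
  have hlowb := hI.lowb
  have hD20 : I.d.x ^ 20 ≤ D := g.d1lo.trans hD1
  have hΔ' : S.cD3 * I.lam1 * zp ^ 2 * (D / 4) ≤ I.P.hlen p T :=
    le_trans (mul_le_mul_of_nonneg_left hdz (by positivity)) hD3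
  have hΔ : S.cD3 * I.lam1 * ζ ^ 2 * (D / 4) ≤ I.P.hlen p T := by
    refine le_trans ?_ hΔ'
    exact mul_le_mul_of_nonneg_right (mul_le_mul_of_nonneg_left (pow_le_pow_left₀ hζ0.le hζp 2) (by positivity))
      (by positivity)
  refine ⟨p, hsp, hpT, ?_, ?_, ?_⟩
  · have h1 : I.d.x ^ 80 ≤ I.d.x ^ 2 := pow_le_pow_of_le_one hx0.le hx1 (by norm_num)
    have h2 : I.d.x ^ 2 ≤ zp / S.Cv := by
      rw [sq, div_eq_mul_one_div]
      exact mul_le_mul hxzp g.hxv hx0.le hzp0.le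
    linarith
  · have h1 : I.d.x ^ 80 ≤ I.d.x ^ 37 := pow_le_pow_of_le_one hx0.le hx1 (by norm_num)
    have h2 : I.d.x ^ 37 ≤ S.cD3 / 4 * I.d.x ^ 36 := by
      rw [pow_succ, mul_comm]
      exact mul_le_mul_of_nonneg_right g.hxc (by positivity)
    have h3 : S.cD3 / 4 * I.d.x ^ 36 = S.cD3 * I.d.x ^ 14 * I.d.x ^ 2 * (I.d.x ^ 20 / 4) := by ring
    have h4 : S.cD3 * I.d.x ^ 14 * I.d.x ^ 2 * (I.d.x ^ 20 / 4) ≤ S.cD3 * I.lam1 * zp ^ 2 * (D / 4) := by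
      refine mul_le_mul (mul_le_mul (mul_le_mul_of_nonneg_left hI.lam1a hc.le) (pow_le_pow_left₀ hx0.le hxzp 2)
        (by positivity) (by positivity)) (by linarith) (by positivity) (by positivity)
    linarith
  · have hm0 : (0 : ℝ) < m := by exact_mod_cast hI.m0
    have h1 : 0 < ζ / S.Cv := by positivity
    have h3 : 1 / (S.Cm * I.d.x ^ 6) ≤ m := by
      rw [one_div_le (by positivity) hm0]; exact hI.msz
    have hvm : ζ / S.Cv ≤ I.P.v p := (div_le_div_of_nonneg_right hζp hCv0.le).trans hvlo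
    have h2 : 0 < S.cD3 * I.lam1 * ζ ^ 2 * (D / 4) := by positivity
    have h4 : (ζ / S.Cv) ^ 2 * (1 / (S.Cm * I.d.x ^ 6)) * (S.cD3 * I.lam1 * ζ ^ 2 * (D / 4)) ≤ mbxDen I.P p T := by
      unfold mbxDen
      exact mul_le_mul (mul_le_mul (pow_le_pow_left₀ h1.le hvm 2) h3 (by positivity) (by positivity)) hΔ h2.le
        (by positivity)
    have h5 : 0 < (ζ / S.Cv) ^ 2 * (1 / (S.Cm * I.d.x ^ 6)) * (S.cD3 * I.lam1 * ζ ^ 2 * (D / 4)) := by positivity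
    rw [one_div, inv_mul_eq_div, one_le_div h5]
    exact h4

/-- the integrated anchors -/
noncomputable def skpG (I : SkpI Ω m) (d1 : ℝ) (n k₁ r : ℕ) (B : ℝ) (i : ℕ) : ℝ :=
  if i ≤ n then 32 * r * (skpDd d1 (i + 1) - skpDd d1 i + I.δ) * (B * (10 * I.z k₁ + 2 * skpDd d1 (i + 1) + 2 * I.δ))
  else 4 * I.z k₁

theorem skp_d6_G (g : SkpD6Geo S I d1 n k₁ k₂) (hI : I.Ok S) {r : ℕ} (hr : 1 ≤ r) {B : ℝ} (hB : 0 ≤ B) (hraw : I.RawB r B)
    {i : ℕ} (hi : i < n + 2) :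
    ∫ ω, (∑ s ∈ Finset.Ico k₁ k₂, I.dz s * I.P.nXX (skpT I d1 n i s) (skpT I d1 n (i + 1) s) ω) ^ r ∂I.P.μ ≤
      skpG I d1 n k₁ r B i ^ r := by
  have := hI.sp.prob
  have hd := g.d1pos hI
  have hδ := hI.δ0
  have hr0 : (0 : ℝ) < r := by exact_mod_cast hr
  have hzlo0 := hI.wh.zlo0
  have hz10 : 0 < I.z k₁ := lt_of_lt_of_le hzlo0 g.hz1
  have hz3 := g.hz3
  have hzreg := hI.zreg
  have hzr0 : 0 < S.zreg := by linarith
  unfold skpG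
  rcases Nat.lt_or_ge n i with h1 | h1
  · -- the terminal residual
    rw [if_neg (by omega)]
    refine skp_d6_int_le hr (fun ω => Finset.sum_nonneg fun s _ =>
      mul_nonneg (skp_d6_dz_nonneg hI s) (bud_bm_sq_nonneg _ _ _ ω)) ?_
    refine skpn_le_of_bound hr0 (ae_of_all _ fun ω => ?_)
    rw [abs_of_nonneg (Finset.sum_nonneg fun s _ => mul_nonneg (skp_d6_dz_nonneg hI s) (bud_bm_sq_nonneg _ _ _ ω))]
    have h2 : ∑ s ∈ Finset.Ico k₁ k₂, I.dz s * I.P.nXX (skpT I d1 n i s) (skpT I d1 n (i + 1) s) ω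
        ≤ ∑ s ∈ Finset.Ico k₁ k₂, I.dz s * 4 :=
      Finset.sum_le_sum fun s _ => mul_le_mul_of_nonneg_left (bud_bm_sq_le_four _ hI.sp _ _ ω) (skp_d6_dz_nonneg hI s)
    rw [← Finset.sum_mul, skp_d6_sum_dz I g.hk] at h2
    have := g.hz2
    linarith
  · rw [if_pos h1]
    obtain ⟨D, hD⟩ : ∃ D : ℝ, D = skpDd d1 (i + 1) := ⟨_, rfl⟩
    obtain ⟨D', hD'⟩ : ∃ D' : ℝ, D' = skpDd d1 i := ⟨_, rfl⟩
    rw [← hD, ← hD']
    have hD0 : 0 < D := by rw [hD]; exact lt_of_lt_of_le hd (skp_d6_dd_ge hd.le (by omega))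
    have hDz : D ≤ S.zreg / 2 := by rw [hD]; exact g.dle hI (by omega)
    have hDD : D' ≤ D := by rw [hD, hD']; exact skp_d6_dd_mono hd.le (Nat.le_succ i)
    have hk12 : I.z k₁ ≤ I.zc k₂ := hI.zmono g.hk
    obtain ⟨hn1, hn2, hn3⟩ := g.ix hI hk12 g.hz2 hD0 hDz
    obtain ⟨n1, hn1def⟩ : ∃ n1, n1 = skpIx I (I.zc k₂ + D) := ⟨_, rfl⟩
    rw [← hn1def] at hn1 hn2 hn3
    have hbuf2 : I.zc k₂ + D ≤ I.zbuf := by have := g.hz2; have e : I.z k₂ = I.zc k₂ := rfl; linarith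
    have hk2n1 : k₂ < n1 := by rw [hn1def]; exact skp_ix_gt hI hbuf2 (by linarith)
    have hov := I.P.l6p_overlap_fam hI.sp r hr (n0 := k₁) (n1 := n1) (by have := g.hk; omega) (Finset.Ico k₁ k₂) I.dz
      (fun s _ => skp_d6_dz_nonneg hI s) (fun s => skpT I d1 n i s) (fun s => skpT I d1 n (i + 1) s)
      (fun s hs => by
        have h2 := skp_d6_T_mono g hI hs (Nat.zero_le i)
        simp only [skp_d6_T_zero] at h2
        exact (Finset.mem_Ico.1 hs).1.trans h2)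
      (fun s hs => skp_d6_T_mono g hI hs (Nat.le_succ i))
      (fun s hs => by
        rw [skp_d6_T_mid I d1 s (by omega) (by omega), ← hD, hn1def]
        refine skp_ix_mono hI ?_ hbuf2
        have := hI.zmono (Finset.mem_Ico.1 hs).2.le
        linarith)
      (M := D - D' + I.δ)
      (fun j _ _ => by
        have h3 := skp_d6_cells hI ((Finset.Ico k₁ k₂).filter fun s => skpT I d1 n i s ≤ j ∧ j < skpT I d1 n (i + 1) s)
          (a := I.zc j - D) (b := I.zc j - D') (by linarith) (fun s hs => by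
            rw [Finset.mem_filter] at hs
            obtain ⟨hs0, hs3, hs4⟩ := hs
            obtain ⟨hs1, hs2⟩ := g.zs hI hs0
            refine ⟨skp_d6_lt_nb hI (by have e : I.z s = I.zc s := rfl; linarith), ?_, ?_⟩
            · rw [skp_d6_T_mid I d1 s (by omega) (by omega), ← hD] at hs4
              have := skp_ix_lt hs4
              linarith
            · have h5 := hI.zmono hs3
              rcases Nat.eq_zero_or_pos i with rfl | hipos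
              · rw [skp_d6_T_zero] at h5
                rw [hD', skp_d6_dd_zero]; linarith
              · rw [skp_d6_T_mid I d1 s hipos (by omega), ← hD'] at h5
                have h6 : I.zc s + D' ≤ I.zbuf := by linarith
                have := skp_ix_ge hI h6
                linarith)
        refine h3.trans (le_of_eq ?_)
        ring)
    refine hov.trans ?_
    have hk1nb : k₁ ≤ I.nb := by have := g.hk; omega
    have h7 := skp_d6_raw hI hr hB hraw hk1nb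
    have h8 := skp_d6_raw hI hr hB hraw hn3
    have h9 : skwR (I.z k₁) ≤ I.z k₁ := min_le_left _ _
    have h10 : skwR (I.z n1) ≤ I.zc n1 := min_le_left _ _
    have h11 := skp_d6_diff hI.sp hr k₁ n1
    have h12 : B * (skwR (I.z k₁) + I.d.zlo) ≤ B * (2 * I.z k₁) :=
      mul_le_mul_of_nonneg_left (by have := g.hz1; linarith) hB
    have h13 : B * (skwR (I.z n1) + I.d.zlo) ≤ B * (3 * I.z k₁ + D + I.δ) :=
      mul_le_mul_of_nonneg_left (by have := g.hz1; have := g.hz2; have e : I.z k₂ = I.zc k₂ := rfl; linarith) hB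
    have h14 : skpN I.P.μ r (I.P.nXX k₁ n1) ≤ B * (10 * I.z k₁ + 2 * D + 2 * I.δ) := by
      have e : B * (10 * I.z k₁ + 2 * D + 2 * I.δ) = 2 * (B * (2 * I.z k₁)) + 2 * (B * (3 * I.z k₁ + D + I.δ)) := by ring
      rw [e]; linarith
    have h15 := skp_d6_int_le (μ := I.P.μ) hr (bud_bm_sq_nonneg I.P k₁ n1) h14
    calc (32 * (r : ℝ) * (D - D' + I.δ)) ^ r * ∫ ω, I.P.nXX k₁ n1 ω ^ r ∂I.P.μ
        ≤ (32 * (r : ℝ) * (D - D' + I.δ)) ^ r * (B * (10 * I.z k₁ + 2 * D + 2 * I.δ)) ^ r :=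
          mul_le_mul_of_nonneg_left h15 (pow_nonneg (mul_nonneg (by positivity) (by linarith)) r)
      _ = _ := (mul_pow _ _ _).symm

theorem skp_d6_prod3 {Cw CA B x Cv Cm cD3 lam1 ζ D z₁ : ℝ} (hCw : 0 ≤ Cw) (hCA : 0 ≤ CA) (hB : 0 ≤ B) (hx : 0 < x) (hCv : 0 < Cv)
    (hCm : 0 < Cm) (hc : 0 < cD3) (hl : 0 < lam1) (hz : 0 < z₁) (hζ : z₁ ≤ ζ) (hD : 0 < D) :
    Cw * ζ * (1 / ((ζ / Cv) ^ 2 * (1 / (Cm * x ^ 6)) * (cD3 * lam1 * ζ ^ 2 * (D / 4)))) * (CA * B * ζ * D) ≤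
      4 * Cw * Cv ^ 2 * Cm * CA / cD3 * B * (x ^ 6 / (lam1 * z₁ ^ 2)) := by
  have hζ0 : 0 < ζ := lt_of_lt_of_le hz hζ
  have e : Cw * ζ * (1 / ((ζ / Cv) ^ 2 * (1 / (Cm * x ^ 6)) * (cD3 * lam1 * ζ ^ 2 * (D / 4)))) * (CA * B * ζ * D)
      = 4 * Cw * Cv ^ 2 * Cm * CA / cD3 * B * (x ^ 6 / (lam1 * ζ ^ 2)) := by
    field_simp
  rw [e]
  refine mul_le_mul_of_nonneg_left ?_ (by positivity)
  exact div_le_div_of_nonneg_left (by positivity) (by positivity)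
    (mul_le_mul_of_nonneg_left (pow_le_pow_left₀ hz.le hζ 2) hl.le)

/-- mass weight × projection scale × anchor, for blocks `j, b ≤ a`, `1 ≤ a ≤ n + 1` -/
theorem skp_d6_term (g : SkpD6Geo S I d1 n k₁ k₂) (hS : S.Ok) (hI : I.Ok S) {r : ℕ} (hr : 1 ≤ r) {B : ℝ} (hB : 1 ≤ B)
    {a j b : ℕ} (ha1 : 1 ≤ a) (ha : a ≤ n + 1) (hj : j ≤ a) (hb : b ≤ a) :
    skpMu S I d1 n k₁ j * (1 / skpDen S I d1 k₁ a) * skpG I d1 n k₁ r B b ≤
      4 * (6 * S.Cv + 32 / S.zreg) * S.Cv ^ 2 * S.Cm * (1152 * r + 16 / S.zreg) / S.cD3 * B *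
        (I.d.x ^ 6 / (I.lam1 * I.z k₁ ^ 2)) := by
  have hd := g.d1pos hI
  have hδ := hI.δ0
  have hx0 := hI.wh.x0
  have hCv0 : 0 < S.Cv := by linarith [hS.Cv]
  have hCm0 : 0 < S.Cm := by linarith [hS.Cm]
  have hc := hS.cD3
  have hzr0 := hS.zreg
  have hr0 : (0 : ℝ) < r := by exact_mod_cast hr
  have hz10 : 0 < I.z k₁ := lt_of_lt_of_le hI.wh.zlo0 g.hz1
  have hlam0 : 0 < I.lam1 := lt_of_lt_of_le (by positivity) hI.lam1a
  obtain ⟨D, hD⟩ : ∃ D : ℝ, D = skpDd d1 a := ⟨_, rfl⟩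
  have hD1 : d1 ≤ D := by rw [hD]; exact skp_d6_dd_ge hd.le ha1
  have hD0 : 0 < D := lt_of_lt_of_le hd hD1
  have hδD : 4 * I.δ ≤ D := g.δd.trans hD1
  have hnext : ∀ c, c ≤ a → skpDd d1 (c + 1) ≤ 2 * D := fun c hc => by
    rw [hD, ← skp_d6_dd_two d1 ha1]; exact skp_d6_dd_mono hd.le (by omega)
  obtain ⟨ζ, hζ⟩ : ∃ ζ : ℝ, ζ = I.z k₁ + D / 2 := ⟨_, rfl⟩
  have hζ0 : 0 < ζ := by rw [hζ]; linarith
  have hM1 : skpMu S I d1 n k₁ j ≤ (6 * S.Cv + 32 / S.zreg) * ζ := by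
    have e : (6 * S.Cv + 32 / S.zreg) * ζ = S.Cv * (6 * ζ) + 32 / S.zreg * ζ := by ring
    have h32 : 0 ≤ 32 / S.zreg * ζ := by positivity
    have h6 : 0 ≤ S.Cv * (6 * ζ) := by positivity
    unfold skpMu
    split_ifs with h1
    · have h2 := hnext j hj
      have h3 : S.Cv * (2 * I.z k₁ + skpDd d1 (j + 1) + I.δ) ≤ S.Cv * (6 * ζ) :=
        mul_le_mul_of_nonneg_left (by rw [hζ]; linarith) hCv0.le
      rw [e]; linarith
    · have hja : a = n + 1 := by omega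
      have h8 : S.zreg / 4 < D := by rw [hD, hja]; exact g.hDB'
      have h9 : S.zreg / 8 ≤ ζ := by rw [hζ]; linarith
      have h10 : 4 ≤ 32 / S.zreg * ζ := by
        calc (4 : ℝ) = 32 / S.zreg * (S.zreg / 8) := by field_simp; norm_num
          _ ≤ 32 / S.zreg * ζ := mul_le_mul_of_nonneg_left h9 (by positivity)
      rw [e]; linarith
  have hM2 : skpG I d1 n k₁ r B b ≤ (1152 * r + 16 / S.zreg) * B * ζ * D := by
    have e : (1152 * r + 16 / S.zreg) * B * ζ * D = 32 * r * (3 * D) * (B * (12 * ζ)) + 16 / S.zreg * B * ζ * D := by ring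
    have h16 : 0 ≤ 16 / S.zreg * B * ζ * D := by positivity
    have h32 : 0 ≤ 32 * (r : ℝ) * (3 * D) * (B * (12 * ζ)) := by positivity
    unfold skpG
    split_ifs with h1
    · have h2 := hnext b hb
      have h3 := skp_d6_dd_nonneg hd.le b
      have h3' := skp_d6_dd_mono hd.le (Nat.le_succ b)
      have h4 : 32 * (r : ℝ) * (skpDd d1 (b + 1) - skpDd d1 b + I.δ) * (B * (10 * I.z k₁ + 2 * skpDd d1 (b + 1) + 2 * I.δ))
          ≤ 32 * r * (3 * D) * (B * (12 * ζ)) := by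
        refine mul_le_mul (mul_le_mul_of_nonneg_left (by linarith) (by positivity))
          (mul_le_mul_of_nonneg_left (by rw [hζ]; linarith) (by linarith)) ?_ (by positivity)
        have := skp_d6_dd_nonneg hd.le (b + 1)
        exact mul_nonneg (by linarith) (by linarith)
      rw [e]; linarith
    · have hba : a = n + 1 := by omega
      have h8 : S.zreg / 4 < D := by rw [hD, hba]; exact g.hDB'
      have h4 : 4 * I.z k₁ = 16 / S.zreg * 1 * I.z k₁ * (S.zreg / 4) := by field_simp; norm_num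
      have h5 : 16 / S.zreg * 1 * I.z k₁ * (S.zreg / 4) ≤ 16 / S.zreg * B * ζ * D :=
        mul_le_mul (mul_le_mul (mul_le_mul_of_nonneg_left hB (by positivity)) (by rw [hζ]; linarith) hz10.le
          (by positivity)) h8.le (by positivity) (by positivity)
      rw [e]; linarith
  have hden0 : 0 ≤ 1 / skpDen S I d1 k₁ a := by
    unfold skpDen; rw [← hD]; positivity
  have hG0 : 0 ≤ (1152 * (r : ℝ) + 16 / S.zreg) * B * ζ * D := by positivity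
  have hp := skp_d6_prod3 (Cw := 6 * S.Cv + 32 / S.zreg) (CA := 1152 * r + 16 / S.zreg) (B := B) (by positivity) (by positivity)
    (by linarith) hx0 hCv0 hCm0 hc hlam0 hz10 (by rw [hζ]; linarith : I.z k₁ ≤ ζ) hD0
  have hmu0 : 0 ≤ skpMu S I d1 n k₁ j := by
    unfold skpMu
    split_ifs
    · have := skp_d6_dd_nonneg hd.le (j + 1)
      exact mul_nonneg hCv0.le (by linarith)
    · norm_num
  have hGb0 : 0 ≤ skpG I d1 n k₁ r B b := by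
    unfold skpG
    split_ifs
    · have h3' := skp_d6_dd_mono hd.le (Nat.le_succ b)
      have := skp_d6_dd_nonneg hd.le (b + 1)
      exact mul_nonneg (mul_nonneg (by positivity) (by linarith)) (mul_nonneg (by linarith) (by linarith))
    · linarith
  refine le_trans ?_ hp
  have e2 : skpDen S I d1 k₁ a = (ζ / S.Cv) ^ 2 * (1 / (S.Cm * I.d.x ^ 6)) * (S.cD3 * I.lam1 * ζ ^ 2 * (D / 4)) := by
    unfold skpDen; rw [← hD, ← hζ]
  rw [← e2]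
  exact mul_le_mul (mul_le_mul_of_nonneg_right hM1 hden0) hM2 hGb0 (mul_nonneg (by positivity) hden0)

end blocks

/-! ## Part 4 : (D6) -/

/-- the final bookkeeping -/
theorem skp_d6_fin3 {N Λ θ rr cth K1 muM B R cAA : ℝ} (hΛ : 1 ≤ Λ) (hN0 : 0 ≤ N) (hN : N ≤ 42 * Λ) (hθ : 1 ≤ θ) (hr : 1 ≤ rr)
    (hcth : cth ≤ 7 ^ 4 * Λ ^ 4 * θ * rr * cAA) (hK1 : 0 ≤ K1) (hmu : 0 ≤ muM) (hB : 0 ≤ B) (hR : 0 ≤ R) (hcAA : 0 ≤ cAA) :
    N * (N * (N * ((cth * K1 + 16 * muM + 3584 * muM * rr) * B * R))) ≤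
      42 ^ 3 * (7 ^ 4 * rr * cAA * K1 + 3600 * muM * rr) * (Λ ^ 7 * θ) * R * B := by
  have hΛ0 : 0 ≤ Λ := by linarith
  have hθ0 : 0 ≤ θ := by linarith
  have hr0 : 0 ≤ rr := by linarith
  have hΛ4 : 1 ≤ Λ ^ 4 := one_le_pow₀ hΛ
  have hΛθ : 1 ≤ Λ ^ 4 * θ := by
    calc (1 : ℝ) = 1 * 1 := by ring
      _ ≤ Λ ^ 4 * θ := mul_le_mul hΛ4 hθ zero_le_one (by positivity)
  have h1 : cth * K1 + 16 * muM + 3584 * muM * rr ≤ (7 ^ 4 * rr * cAA * K1 + 3600 * muM * rr) * (Λ ^ 4 * θ) := by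
    have h2 : cth * K1 ≤ 7 ^ 4 * Λ ^ 4 * θ * rr * cAA * K1 := mul_le_mul_of_nonneg_right hcth hK1
    have h3 : 16 * muM ≤ 16 * muM * rr := by
      calc 16 * muM = 16 * muM * 1 := by ring
        _ ≤ 16 * muM * rr := mul_le_mul_of_nonneg_left hr (by positivity)
    have h4 : 3600 * muM * rr ≤ 3600 * muM * rr * (Λ ^ 4 * θ) := by
      calc 3600 * muM * rr = 3600 * muM * rr * 1 := by ring
        _ ≤ 3600 * muM * rr * (Λ ^ 4 * θ) := mul_le_mul_of_nonneg_left hΛθ (by positivity)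
    have e : (7 ^ 4 * rr * cAA * K1 + 3600 * muM * rr) * (Λ ^ 4 * θ)
        = 7 ^ 4 * Λ ^ 4 * θ * rr * cAA * K1 + 3600 * muM * rr * (Λ ^ 4 * θ) := by ring
    rw [e]; linarith
  have h5 : 0 ≤ (7 ^ 4 * rr * cAA * K1 + 3600 * muM * rr) * (Λ ^ 4 * θ) := by positivity
  have h6 : (cth * K1 + 16 * muM + 3584 * muM * rr) * B * R
      ≤ (7 ^ 4 * rr * cAA * K1 + 3600 * muM * rr) * (Λ ^ 4 * θ) * B * R := by gcongr
  have h7 : 0 ≤ (7 ^ 4 * rr * cAA * K1 + 3600 * muM * rr) * (Λ ^ 4 * θ) * B * R := by positivity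
  calc N * (N * (N * ((cth * K1 + 16 * muM + 3584 * muM * rr) * B * R)))
      ≤ N * (N * (N * ((7 ^ 4 * rr * cAA * K1 + 3600 * muM * rr) * (Λ ^ 4 * θ) * B * R))) := by gcongr
    _ ≤ (42 * Λ) * ((42 * Λ) * ((42 * Λ) * ((7 ^ 4 * rr * cAA * K1 + 3600 * muM * rr) * (Λ ^ 4 * θ) * B * R))) := by gcongr
    _ = 42 ^ 3 * (7 ^ 4 * rr * cAA * K1 + 3600 * muM * rr) * (Λ ^ 7 * θ) * R * B := by ring

set_option maxHeartbeats 3200000 in
/-- **(D6)**.   TEX[LL:eq:D6] -/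
theorem skp_leaf_d6 : SkpLeafD6 := by
  intro S hS r ε hr hε
  have hr1 : (1 : ℝ) ≤ r := by exact_mod_cast hr
  have hr0 : (0 : ℝ) < r := by linarith
  obtain ⟨Rm, hRm⟩ : ∃ Rm : ℕ, Rm = ⌈12 * (r : ℝ) / ε⌉₊ + 1 := ⟨_, rfl⟩
  have hRm1 : 1 ≤ Rm := by omega
  have hRmε : 12 * (r : ℝ) / ε ≤ Rm := by
    rw [hRm]; push_cast
    exact (Nat.le_ceil _).trans (by linarith)
  have hCv1 := hS.Cv
  have hCv0 : 0 < S.Cv := by linarith
  have hzr0 := hS.zreg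
  have hzr1 := hS.zreg1
  have hcD3 := hS.cD3
  have hCm0 : 0 < S.Cm := by linarith [hS.Cm]
  have hcA1 : 0 ≤ S.K.cA3 1 := by linarith [hS.cA3 1]
  have hcAR : 0 ≤ S.K.cA3 Rm := by linarith [hS.cA3 Rm]
  obtain ⟨K1, hK1⟩ : ∃ K1 : ℝ, K1 = 4 * (6 * S.Cv + 32 / S.zreg) * S.Cv ^ 2 * S.Cm * (1152 * r + 16 / S.zreg) / S.cD3 := ⟨_, rfl⟩
  obtain ⟨muM, hmuM⟩ : ∃ muM : ℝ, muM = 2 * S.Cv + 4 := ⟨_, rfl⟩
  obtain ⟨cAA, hcAA⟩ : ∃ cAA : ℝ, cAA = S.K.cA3 1 ^ 2 + S.K.cA3 Rm ^ 2 + 1 := ⟨_, rfl⟩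
  have hK10 : 0 ≤ K1 := by rw [hK1]; positivity
  have hmuM0 : 0 ≤ muM := by rw [hmuM]; positivity
  have hcAA0 : 0 ≤ cAA := by rw [hcAA]; positivity
  obtain ⟨K2, hK2⟩ : ∃ K2 : ℝ, K2 = 42 ^ 3 * (7 ^ 4 * (r : ℝ) * cAA * K1 + 3600 * muM * r) := ⟨_, rfl⟩
  have hK20 : 0 ≤ K2 := by rw [hK2]; positivity
  have hE0 : 0 ≤ K2 * (14 / ε) ^ 7 := by positivity
  have h4c : 0 < 4 / S.cD3 := by positivity
  have h12z : 0 < 12 / S.zreg := by positivity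
  refine ⟨K2 * (14 / ε) ^ 7 + 3 + S.Cv + 4 / S.cD3 + 12 / S.zreg, by linarith, ?_⟩
  intro Ω _ m I hI hxC B hB1 hraw k₁ k₂ hk hz1 hz2 hz3
  have hx0 := hI.wh.x0
  have hδ := hI.δ0
  have hzlo0 := hI.wh.zlo0
  have hz10 : 0 < I.z k₁ := lt_of_lt_of_le hzlo0 hz1
  have hlam0 : 0 < I.lam1 := lt_of_lt_of_le (by positivity) hI.lam1a
  have hB0 : 0 ≤ B := by linarith
  -- smallness of `x`
  have hsm : ∀ c : ℝ, 0 < c → c ≤ K2 * (14 / ε) ^ 7 + 3 + S.Cv + 4 / S.cD3 + 12 / S.zreg → I.d.x ≤ 1 / c :=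
    fun c hc hle => hxC.trans (one_div_le_one_div_of_le hc hle)
  have hx3 : I.d.x ≤ 1 / 3 := hsm 3 (by norm_num) (by linarith)
  have hx1 : I.d.x ≤ 1 := by linarith
  have hxv : I.d.x ≤ 1 / S.Cv := hsm _ hCv0 (by linarith)
  have hxc : I.d.x ≤ S.cD3 / 4 := by
    have := hsm _ h4c (by linarith)
    rwa [one_div_div] at this
  have hxz : I.d.x ≤ S.zreg / 12 := by
    have := hsm _ h12z (by linarith)
    rwa [one_div_div] at this
  -- the logarithm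
  obtain ⟨Λ, hΛdef⟩ : ∃ Λ : ℝ, Λ = Real.log (1 / I.d.x) := ⟨_, rfl⟩
  have hΛ1 : 1 ≤ Λ := by
    rw [hΛdef, Real.le_log_iff_exp_le (by positivity)]
    have h1 : Real.exp 1 ≤ 3 := by linarith [Real.exp_one_lt_d9]
    have h2 : (3 : ℝ) ≤ 1 / I.d.x := by
      rw [le_div_iff₀ hx0]; linarith
    linarith
  -- the initial distance
  obtain ⟨d1, hd1⟩ : ∃ d1 : ℝ, d1 = I.d.x ^ 20 := ⟨_, rfl⟩
  have hd10 : 0 < d1 := by rw [hd1]; positivity
  have hd1x : d1 ≤ I.d.x := by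
    rw [hd1]
    calc I.d.x ^ 20 ≤ I.d.x ^ 1 := pow_le_pow_of_le_one hx0.le hx1 (by norm_num)
      _ = I.d.x := pow_one _
  have hδd : 4 * I.δ ≤ d1 := by
    have h1 : I.d.x ^ 40 = I.d.x ^ 20 * I.d.x ^ 20 := by ring
    have h2 : I.d.x ^ 20 ≤ 1 / 4 := by
      calc I.d.x ^ 20 ≤ I.d.x ^ 2 := pow_le_pow_of_le_one hx0.le hx1 (by norm_num)
        _ ≤ (1 / 3) ^ 2 := pow_le_pow_left₀ hx0.le hx3 2
        _ ≤ 1 / 4 := by norm_num
    have h3 : I.d.x ^ 20 * I.d.x ^ 20 ≤ I.d.x ^ 20 * (1 / 4) := mul_le_mul_of_nonneg_left h2 (by positivity)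
    have := hI.mesh
    rw [hd1]; linarith
  obtain ⟨n, hn1, hn2⟩ := skp_d6_B hd10 (by linarith : d1 ≤ S.zreg / 2)
  have hcount : (n : ℝ) ≤ 40 * Λ := by rw [hΛdef]; exact skp_d6_count hx0 hd1.ge hzr1 hn1
  have g : SkpD6Geo S I d1 n k₁ k₂ :=
    ⟨hk, hz1, hz2, hz3, hd1.ge, hδd, by rw [skp_d6_dd_succ]; exact hn1, by rw [skp_d6_dd_succ]; exact hn2, hx1, hxv, hxc⟩
  -- the loss
  obtain ⟨θ, hθdef⟩ : ∃ θ : ℝ, θ = I.d.x ^ (-(ε / 2)) := ⟨_, rfl⟩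
  have hθ1 : 1 ≤ θ := by
    rw [hθdef]; exact Real.one_le_rpow_of_pos_of_le_one_of_nonpos hx0 hx1 (by linarith)
  have hθ0 : 0 < θ := by linarith
  obtain ⟨κR, hκR⟩ : ∃ κR : ℝ, κR = S.K.cA3 Rm * I.Lg ^ 2 := ⟨_, rfl⟩
  obtain ⟨κ1, hκ1⟩ : ∃ κ1 : ℝ, κ1 = S.K.cA3 1 * I.Lg ^ 2 := ⟨_, rfl⟩
  have hκR0 : 0 ≤ κR := by rw [hκR]; exact mul_nonneg hcAR (by positivity)
  have hκ10 : 0 ≤ κ1 := by rw [hκ1]; exact mul_nonneg hcA1 (by positivity)
  obtain ⟨th, hth⟩ : ∃ th : ℝ, th = (1 + κR ^ 2) * θ := ⟨_, rfl⟩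
  have hth1 : 1 ≤ th := by
    rw [hth]
    calc (1 : ℝ) = 1 * 1 := by ring
      _ ≤ (1 + κR ^ 2) * θ := mul_le_mul (by nlinarith [sq_nonneg κR]) hθ1 zero_le_one (by positivity)
  have heps : κR ^ (2 * Rm) ≤ (I.d.x ^ 6) ^ r * th ^ Rm := by
    have h1 : 1 ≤ (I.d.x ^ 6) ^ r * θ ^ Rm := by
      have e1 : (I.d.x ^ 6) ^ r = I.d.x ^ ((6 * r : ℕ) : ℝ) := by rw [Real.rpow_natCast, pow_mul]
      have e2 : θ ^ Rm = I.d.x ^ (-(ε / 2) * (Rm : ℝ)) := by rw [hθdef, Real.rpow_mul hx0.le, Real.rpow_natCast]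
      rw [e1, e2, ← Real.rpow_add hx0]
      refine Real.one_le_rpow_of_pos_of_le_one_of_nonpos hx0 hx1 ?_
      rw [div_le_iff₀ hε] at hRmε
      push_cast
      linarith
    have h2 : κR ^ (2 * Rm) ≤ (1 + κR ^ 2) ^ Rm := by
      rw [pow_mul]; exact pow_le_pow_left₀ (by positivity) (by linarith) Rm
    rw [hth, mul_pow]
    calc κR ^ (2 * Rm) ≤ (1 + κR ^ 2) ^ Rm := h2
      _ = (1 + κR ^ 2) ^ Rm * 1 := by ring
      _ ≤ (1 + κR ^ 2) ^ Rm * ((I.d.x ^ 6) ^ r * θ ^ Rm) := mul_le_mul_of_nonneg_left h1 (by positivity)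
      _ = (I.d.x ^ 6) ^ r * ((1 + κR ^ 2) ^ Rm * θ ^ Rm) := by ring
  -- nonnegativity of the data
  have hmu0 : ∀ j, 0 ≤ skpMu S I d1 n k₁ j := fun j => by
    unfold skpMu
    split_ifs
    · have := skp_d6_dd_nonneg hd10.le (j + 1)
      exact mul_nonneg hCv0.le (by linarith)
    · norm_num
  have hsg0 : ∀ j, 0 ≤ 1 / skpDen S I d1 k₁ j := fun j => by
    have := skp_d6_dd_nonneg hd10.le j
    unfold skpDen; positivity
  have hG0 : ∀ i, 0 ≤ skpG I d1 n k₁ r B i := fun i => by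
    unfold skpG
    split_ifs
    · have h3' := skp_d6_dd_mono hd10.le (Nat.le_succ i)
      have := skp_d6_dd_nonneg hd10.le (i + 1)
      exact mul_nonneg (mul_nonneg (by positivity) (by linarith)) (mul_nonneg hB0 (by linarith))
    · linarith
  have hp1 := hI.proj 1 le_rfl
  have hpR := hI.proj Rm hRm1
  rw [← hκ1] at hp1
  rw [← hκR] at hpR
  have hwl := bud_bm_wl I.P hI.sp hr (pow_nonneg hκ10 _) (pow_nonneg hκR0 _) hp1 hpR (Finset.Ico k₁ k₂) I.dz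
    (fun s _ => skp_d6_dz_nonneg hI s) (n + 2) (skpT I d1 n) (fun s hs => skp_d6_T_mono g hI hs)
    (fun s _ => skp_d6_T_zero I d1 n s) (fun s _ => skp_d6_T_end I d1 s (by omega))
    (skpMu S I d1 n k₁) (fun j => 1 / skpDen S I d1 k₁ j) (skpG I d1 n k₁ r B) hmu0 hsg0 hG0 hth1 (by positivity : 0 ≤ I.d.x ^ 6)
    (fun s hs j hj _ => skp_d6_mu g hS hI hs hj) (fun s hs j hj1 hj _ => skp_d6_gap g hS hI hs hj1 hj)
    (fun i hi => skp_d6_G g hI hr hB0 hraw hi) heps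
  refine hwl.trans (pow_le_pow_left₀ ?_ ?_ r)
  · refine mul_nonneg (Nat.cast_nonneg _) (Finset.sum_nonneg fun i _ => Finset.sum_nonneg fun j _ => mul_nonneg (hmu0 j) ?_)
    split_ifs
    · exact mul_nonneg (by norm_num) (hG0 0)
    · refine add_nonneg (mul_nonneg (mul_nonneg (add_nonneg (pow_nonneg hκ10 _) (by positivity)) (hsg0 _)) (hG0 _)) ?_
      exact mul_nonneg (mul_nonneg (by norm_num) (Finset.sum_nonneg fun s _ => skp_d6_dz_nonneg hI s)) (by positivity)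
  -- the right side of (D6)
  obtain ⟨R, hR⟩ : ∃ R : ℝ, R = I.d.x ^ 6 / (I.lam1 * I.z k₁ ^ 2) := ⟨_, rfl⟩
  rw [← hR]
  have hz11 : I.z k₁ ≤ 1 := by linarith
  have hx6R : I.d.x ^ 6 ≤ R := by
    rw [hR, le_div_iff₀ (by positivity)]
    have h1 : I.lam1 * I.z k₁ ^ 2 ≤ 1 * 1 :=
      mul_le_mul hI.lam1b (pow_le_one₀ hz10.le hz11) (by positivity) zero_le_one
    calc I.d.x ^ 6 * (I.lam1 * I.z k₁ ^ 2) ≤ I.d.x ^ 6 * (1 * 1) := mul_le_mul_of_nonneg_left h1 (by positivity)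
      _ = I.d.x ^ 6 := by ring
  have hR0 : 0 ≤ R := le_trans (by positivity) hx6R
  have hd1R : d1 ≤ R := by
    refine le_trans ?_ hx6R
    rw [hd1]; exact pow_le_pow_of_le_one hx0.le hx1 (by norm_num)
  obtain ⟨cth, hcth⟩ : ∃ cth : ℝ, cth = κ1 ^ (2 * 1) + th * r := ⟨_, rfl⟩
  rw [← hcth]
  have hcth0 : 0 ≤ cth := by rw [hcth]; positivity
  have hW : ∑ s ∈ Finset.Ico k₁ k₂, I.dz s ≤ 1 := by rw [skp_d6_sum_dz I hk]; linarith
  have hW0 : 0 ≤ ∑ s ∈ Finset.Ico k₁ k₂, I.dz s := Finset.sum_nonneg fun s _ => skp_d6_dz_nonneg hI s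
  have hmuM' : ∀ j, skpMu S I d1 n k₁ j ≤ muM := fun j => by
    unfold skpMu
    split_ifs with h1
    · have h2 := g.dle hI (by omega : j + 1 ≤ n + 1)
      have h3 : S.Cv * (2 * I.z k₁ + skpDd d1 (j + 1) + I.δ) ≤ S.Cv * 2 :=
        mul_le_mul_of_nonneg_left (by linarith) hCv0.le
      rw [hmuM]; linarith
    · rw [hmuM]; linarith
  -- every term
  have hterm : ∀ i ∈ Finset.range (n + 2), ∀ j ∈ Finset.range (n + 2),
      skpMu S I d1 n k₁ j * (if i = 0 ∧ j = 0 then 4 * skpG I d1 n k₁ r B 0 else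
        cth * (1 / skpDen S I d1 k₁ (max i j)) * skpG I d1 n k₁ r B (min i j) + 16 * (∑ s ∈ Finset.Ico k₁ k₂, I.dz s) * I.d.x ^ 6)
      ≤ (cth * K1 + 16 * muM + 3584 * muM * r) * B * R := by
    intro i hi j hj
    have hi' := Finset.mem_range.1 hi
    have hj' := Finset.mem_range.1 hj
    have hBR : 0 ≤ B * R := mul_nonneg hB0 hR0
    have hRBR : R ≤ B * R := by
      calc R = 1 * R := (one_mul R).symm
        _ ≤ B * R := mul_le_mul_of_nonneg_right hB1 hR0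
    have e : (cth * K1 + 16 * muM + 3584 * muM * r) * B * R = cth * (K1 * B * R) + 16 * muM * (B * R) + 3584 * muM * r * (B * R) := by
      ring
    have t1 : 0 ≤ cth * (K1 * B * R) := by positivity
    have t2 : 0 ≤ 16 * muM * (B * R) := by positivity
    have t3 : 0 ≤ 3584 * muM * r * (B * R) := by positivity
    split_ifs with h00
    · have hG00 : skpG I d1 n k₁ r B 0 ≤ 896 * r * (B * R) := by
        unfold skpG
        rw [if_pos (Nat.zero_le n), skp_d6_dd_zero, skp_d6_dd_one]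
        calc 32 * (r : ℝ) * (d1 - 0 + I.δ) * (B * (10 * I.z k₁ + 2 * d1 + 2 * I.δ))
            ≤ 32 * r * (2 * R) * (B * 14) := by
              refine mul_le_mul (mul_le_mul_of_nonneg_left (by linarith) (by positivity))
                (mul_le_mul_of_nonneg_left (by linarith) hB0) (mul_nonneg hB0 (by linarith)) (by positivity)
          _ = 896 * r * (B * R) := by ring
      calc skpMu S I d1 n k₁ j * (4 * skpG I d1 n k₁ r B 0) ≤ muM * (4 * (896 * r * (B * R))) :=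
            mul_le_mul (hmuM' j) (by linarith) (mul_nonneg (by norm_num) (hG0 0)) hmuM0
        _ = 3584 * muM * r * (B * R) := by ring
        _ ≤ _ := by rw [e]; linarith
    · have ha1 : 1 ≤ max i j := by
        rcases Nat.eq_zero_or_pos i with h | h
        · rcases Nat.eq_zero_or_pos j with h' | h'
          · exact absurd ⟨h, h'⟩ h00
          · exact le_trans h' (le_max_right _ _)
        · exact le_trans h (le_max_left _ _)
      have ha : max i j ≤ n + 1 := max_le (by omega) (by omega)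
      have h1 := skp_d6_term g hS hI hr hB1 ha1 ha (le_max_right i j) (min_le_left i j |>.trans (le_max_left i j))
      rw [← hK1, ← hR] at h1
      have h2 : skpMu S I d1 n k₁ j * (16 * (∑ s ∈ Finset.Ico k₁ k₂, I.dz s) * I.d.x ^ 6) ≤ muM * (16 * 1 * (B * R)) :=
        mul_le_mul (hmuM' j) (mul_le_mul (mul_le_mul_of_nonneg_left hW (by norm_num)) (hx6R.trans hRBR) (by positivity)
          (by norm_num)) (by positivity) hmuM0
      have e2 : skpMu S I d1 n k₁ j * (cth * (1 / skpDen S I d1 k₁ (max i j)) * skpG I d1 n k₁ r B (min i j)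
          + 16 * (∑ s ∈ Finset.Ico k₁ k₂, I.dz s) * I.d.x ^ 6)
          = cth * (skpMu S I d1 n k₁ j * (1 / skpDen S I d1 k₁ (max i j)) * skpG I d1 n k₁ r B (min i j))
            + skpMu S I d1 n k₁ j * (16 * (∑ s ∈ Finset.Ico k₁ k₂, I.dz s) * I.d.x ^ 6) := by ring
      have h3 := mul_le_mul_of_nonneg_left h1 hcth0
      rw [e2, e]
      linarith
  have hsum : ((n + 2 : ℕ) : ℝ) * ∑ i ∈ Finset.range (n + 2), ∑ j ∈ Finset.range (n + 2),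
      skpMu S I d1 n k₁ j * (if i = 0 ∧ j = 0 then 4 * skpG I d1 n k₁ r B 0 else
        cth * (1 / skpDen S I d1 k₁ (max i j)) * skpG I d1 n k₁ r B (min i j) + 16 * (∑ s ∈ Finset.Ico k₁ k₂, I.dz s) * I.d.x ^ 6)
      ≤ ((n + 2 : ℕ) : ℝ) * (((n + 2 : ℕ) : ℝ) * (((n + 2 : ℕ) : ℝ) * ((cth * K1 + 16 * muM + 3584 * muM * r) * B * R))) := by
    refine mul_le_mul_of_nonneg_left ?_ (Nat.cast_nonneg _)
    calc _ ≤ ∑ _i ∈ Finset.range (n + 2), ∑ _j ∈ Finset.range (n + 2), (cth * K1 + 16 * muM + 3584 * muM * r) * B * R :=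
          Finset.sum_le_sum fun i hi => Finset.sum_le_sum fun j hj => hterm i hi j hj
      _ = _ := by simp only [Finset.sum_const, Finset.card_range, nsmul_eq_mul]
  refine hsum.trans ?_
  have hN : ((n + 2 : ℕ) : ℝ) ≤ 42 * Λ := by push_cast; linarith
  have hLg : I.Lg ≤ 7 * Λ := by rw [hΛdef]; exact hI.Lg
  have hΛ0 : 0 ≤ Λ := by linarith
  have hLg4 : (I.Lg ^ 2) ^ 2 ≤ 7 ^ 4 * Λ ^ 4 := by
    calc (I.Lg ^ 2) ^ 2 = I.Lg ^ 4 := by ring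
      _ ≤ (7 * Λ) ^ 4 := pow_le_pow_left₀ hI.Lg0 hLg 4
      _ = 7 ^ 4 * Λ ^ 4 := by ring
  have hcthle : cth ≤ 7 ^ 4 * Λ ^ 4 * θ * r * cAA := by
    have hL1 : 1 ≤ 7 ^ 4 * Λ ^ 4 := by
      have : 1 ≤ Λ ^ 4 := one_le_pow₀ hΛ1
      linarith
    have h1 : κ1 ^ (2 * 1) ≤ S.K.cA3 1 ^ 2 * (7 ^ 4 * Λ ^ 4) := by
      rw [hκ1, mul_one, mul_pow]; exact mul_le_mul_of_nonneg_left hLg4 (by positivity)
    have h2 : κR ^ 2 ≤ S.K.cA3 Rm ^ 2 * (7 ^ 4 * Λ ^ 4) := by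
      rw [hκR, mul_pow]; exact mul_le_mul_of_nonneg_left hLg4 (by positivity)
    have hθr : 1 ≤ θ * r := by
      calc (1 : ℝ) = 1 * 1 := by ring
        _ ≤ θ * r := mul_le_mul hθ1 hr1 zero_le_one hθ0.le
    have h3 : S.K.cA3 1 ^ 2 * (7 ^ 4 * Λ ^ 4) ≤ S.K.cA3 1 ^ 2 * (7 ^ 4 * Λ ^ 4) * (θ * r) := by
      calc S.K.cA3 1 ^ 2 * (7 ^ 4 * Λ ^ 4) = S.K.cA3 1 ^ 2 * (7 ^ 4 * Λ ^ 4) * 1 := by ring
        _ ≤ _ := mul_le_mul_of_nonneg_left hθr (by positivity)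
    have h4 : th * r ≤ (7 ^ 4 * Λ ^ 4 + S.K.cA3 Rm ^ 2 * (7 ^ 4 * Λ ^ 4)) * (θ * r) := by
      rw [hth]
      calc (1 + κR ^ 2) * θ * r = (1 + κR ^ 2) * (θ * r) := by ring
        _ ≤ _ := mul_le_mul_of_nonneg_right (by linarith) (by positivity)
    rw [hcth, hcAA]
    have e : 7 ^ 4 * Λ ^ 4 * θ * r * (S.K.cA3 1 ^ 2 + S.K.cA3 Rm ^ 2 + 1)
        = S.K.cA3 1 ^ 2 * (7 ^ 4 * Λ ^ 4) * (θ * r) + (7 ^ 4 * Λ ^ 4 + S.K.cA3 Rm ^ 2 * (7 ^ 4 * Λ ^ 4)) * (θ * r) := by ring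
    rw [e]; linarith
  have hfin := skp_d6_fin3 (N := ((n + 2 : ℕ) : ℝ)) hΛ1 (Nat.cast_nonneg _) hN hθ1 hr1 hcthle hK10 hmuM0 hB0 hR0 hcAA0
  rw [← hK2] at hfin
  refine hfin.trans ?_
  have hlog := skp_d6_log hx0 hx1 hε
  rw [← hΛdef] at hlog
  have hΛθ : Λ ^ 7 * θ ≤ (14 / ε) ^ 7 * I.d.x ^ (-ε) := by
    have e : I.d.x ^ (-ε) = I.d.x ^ (-(ε / 2)) * I.d.x ^ (-(ε / 2)) := by
      rw [← Real.rpow_add hx0]; congr 1; ring
    rw [e, ← mul_assoc, hθdef]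
    exact mul_le_mul_of_nonneg_right hlog (Real.rpow_nonneg hx0.le _)
  have hxe : 0 ≤ I.d.x ^ (-ε) := Real.rpow_nonneg hx0.le _
  calc K2 * (Λ ^ 7 * θ) * R * B ≤ K2 * ((14 / ε) ^ 7 * I.d.x ^ (-ε)) * R * B := by gcongr
    _ = K2 * (14 / ε) ^ 7 * I.d.x ^ (-ε) * R * B := by ring
    _ ≤ (K2 * (14 / ε) ^ 7 + 3 + S.Cv + 4 / S.cD3 + 12 / S.zreg) * I.d.x ^ (-ε) * R * B := by
        gcongr
        linarith

theorem skp_d6_eqns_cite : True := by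
  have := @skpDd.eq_1; have := @skpIx.eq_1; have := @skpT.eq_1; have := @skpMu.eq_1; have := @skpDen.eq_1; have := @skpG.eq_1
  trivial

end Claimed.Agent.R286
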