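import Claimed.Agent.R286.PM.Contract
import Claimed.Agent.R286.W.InstL03
import Claimed.Agent.R286.L08.Glue
import Claimed.Agent.R286.L08.IvD7I

/-!
# Row 286 (S0533), folder PM, file Inst : THE SK INSTANCE of unit L10 (W + PM) ON `L8In`, DIRECT SWEEP; CUT OF `L8gCoreDir`      (head helper37; prefix `l8p` / `L8p`)

    l8p_core_dir : L8gCoreDir llBase T   <=   l8g_fine (75)  +  INST  +  ENV  +  DEF  +  D2  +  IV            (compiled glue `l8p_core_dir_of`; the theorem and the open leaves: PM/InstZ.lean; cut of INST: PM/InstA.lean)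

EVERYTHING IS PER INSTANCE: one `I : L8In` with `L8pAt 𝔹 F N0 Kf κ I` (`N ≥ N0`, `I.Ok`, direct sweep, `I.Fine (x^Kf)`, `Y ≤ x^κ`).   No nets, no measurability in `γ`.
* `L8pPar`          parameters of the width construction fixed BEFORE `N`: representative `At`, `cA`; slack `b = x^eps`, `tiny = x^K`; slope `A`; `zlo = c1 Y`; structural constants `c`.
* `l8pSv I`         the fine-level mean `S` as a step function of the MASS (cut `k` ↔ cell `[v_(k-1), v_k)`);   `l8pD I π : SkwD` = the record of W/InstLl for it, with `Z = I.Z`.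
* `l8pZc I π k`     coordinate `z` of the cut `k` = `z(v_(k-1))` (inverse of the mass coordinate `skwInV`), `l8pZc 0 = 0`, `l8pZc k = zmax` for `k > n`.
* `l8pI I π : SkpI` **the instance of PM**: path `I.sp false`, width `skwH`, `zhi = zbuf = z(v_(n-1))` (the LAST CUT; `SkwConcl` is cut down from `zmax`: `skw_concl_cut`, PM/InstA), `nb = n`, `δ = x^40`, `Lg = 1` (`l8i_proj` is log-free), `lowb = x^80`.
* `l8pE I π k`      **THE ENVELOPE of `exit_ddir`**: `Y` for `z_k < zlo`, `min(r, Z² 𝔥)(z_k)` above.      228 / 298 / 189 / 187: THIS is `e`; your hypotheses at the instance are `L8pOk I π S cv`.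
* `L8pOk I π S cv`  everything a user of the instance may use.      PRODUCER: `l8p_inst_dir` (INST; leaves in PM/InstA.lean ff.).
* `L8pCons`         SHAPE of the four consumer contracts: a threshold `eps0` on the slack (chosen by the PROVER after `ε`, `pm`, `jm`); then any parameters `π, S, cv`; then `C0, N0, Kf`; then every instance and EVERY `C ≥ C0`
                    (so that the glue needs no monotonicity lemma: your last step is `… ≤ C0 x^(-ε) X ≤ C x^(-ε) X`).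
ORDER: `F0, pB, pS`  |  `C_0, δ_0` of (D8)  |  `κ, pm, jm, ε, δ'`  |  `eps0`  |  `π, S, cv` (INST at `eps = min eps0 1`, `K = 100`)  |  `C, N0, Kf`.
-/

set_option autoImplicit false

namespace Claimed.Agent.R286

open MeasureTheory Set Filter

noncomputable section

/-! ## 1. Objects -/

/-- parameters of the width construction, fixed before `N` -/
structure L8pPar where
  At : ℝ → ℝ
  cA : ℝ
  eps : ℝ
  K : ℕ
  A : ℝ
  c1 : ℝ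
  c : SkwC

/-- number of revelations of mass `≤ v` = index of the cut whose mass cell `[v_(k-1), v_k)` contains `v` -/
def l8pIdx (I : L8In) (v : ℝ) : ℕ := (I.P0.filter fun e => decide (e.m ≤ v)).length

/-- the fine-level mean as a step function of the mass -/
def l8pSv (I : L8In) (v : ℝ) : ℝ := I.S (l8pIdx I v)

/-- left end of the mass cell of the cut `k` -/
def l8pVl (I : L8In) (k : ℕ) : ℝ := if k = 0 then 0 else I.v (k - 1)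

def l8pProf (I : L8In) (π : L8pPar) : SkwProf := skwLlProf I.𝔹 I.F π.At π.cA

def l8pIn (I : L8In) (π : L8pPar) : SkwIn := skwLlIn I.𝔹 I.F I.p (l8pSv I) I.Z π.eps π.K π.A (π.c1 * I.Y)

/-- the width data of the instance -/
def l8pD (I : L8In) (π : L8pPar) : SkwD := skwInD (l8pProf I π) (l8pIn I π)

/-- the width `𝔥` -/
def l8pH (I : L8In) (π : L8pPar) : ℝ → ℝ := skwH π.c (l8pD I π)

/-- the mass coordinate `v(z)` -/
def l8pV (I : L8In) (π : L8pPar) : ℝ → ℝ := skwInV (l8pProf I π) (l8pIn I π)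

/-- coordinate `z` of the cut `k` -/
def l8pZc (I : L8In) (π : L8pPar) (k : ℕ) : ℝ := sInf {z : ℝ | 0 ≤ z ∧ l8pVl I k ≤ l8pV I π z}

/-- **the instance of PM** -/
def l8pI (I : L8In) (π : L8pPar) : SkpI (SkOm I.m) I.m where
  P := I.sp false
  d := l8pD I π
  hh := l8pH I π
  zhi := l8pZc I π I.n
  zbuf := l8pZc I π I.n
  zj := π.c.zs
  zc := l8pZc I π
  δ := I.x ^ 40
  nb := I.n
  lam1 := I.lam1
  g0 := I.g0
  Lg := 1
  lowb := I.x ^ 80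

/-- **the envelope** -/
def l8pE (I : L8In) (π : L8pPar) (k : ℕ) : ℝ :=
  if l8pZc I π k < π.c1 * I.Y then I.Y else skwE (l8pD I π) (l8pH I π) (l8pZc I π k)

theorem l8p_eqns_cite : True := by
  have := @l8pIdx.eq_1; have := @l8pSv.eq_1; have := @l8pVl.eq_1; have := @l8pProf.eq_1; have := @l8pIn.eq_1; have := @l8pD.eq_1
  have := @l8pH.eq_1; have := @l8pV.eq_1; have := @l8pZc.eq_1; have := @l8pI.eq_1; have := @l8pE.eq_1
  trivial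

/-- sanity of the parameters -/
structure L8pPar.Ok (π : L8pPar) (S : SkpS) (cv : ℝ) : Prop where
  eps0 : 0 < π.eps
  eps1 : π.eps ≤ 1
  K : 100 ≤ π.K
  A1 : 1 ≤ π.A
  cv0 : 0 < cv
  cv1 : cv ≤ 1
  /-- `zlo = c1 Y` with `v(zlo/4) ≥ cv zlo / 4 ≥ 2 Y` -/
  c1 : 8 ≤ cv * π.c1
  Sok : S.Ok
  Sc : S.c = π.c
  Cv : 1 / cv ≤ S.Cv
  Cz : S.Cz = π.c1

/-- the standing hypotheses on ONE instance of the direct sweep -/
structure L8pAt (𝔹 : LlBase) (F : LlFix) (N0 : ℕ) (Kf κ : ℝ) (I : L8In) : Prop where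
  hF : I.F = F
  hB : I.𝔹 = 𝔹
  hN : N0 ≤ I.p.N
  ok : I.Ok
  dir : l8Dir I.p
  fine : I.Fine (I.x ^ Kf)
  hY : I.Y ≤ I.x ^ κ

/-- everything the users of the instance may use, for ONE instance -/
structure L8pOk (I : L8In) (π : L8pPar) (S : SkpS) (cv : ℝ) : Prop where
  /-- the abstract hypotheses of PM (`wh : SkwHyp`, `wc : SkwConcl` up to the last cut, grid, (D3), numerics) -/
  pm : (l8pI I π).Ok S
  plat : SkwPlat π.c (l8pD I π)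
  /-- Lemma 8.2 up to `zmax` (before shrinking) -/
  wfull : SkwConcl S.CW (l8pD I π) (l8pD I π).zmax (l8pD I π).zmax π.c.zs (l8pH I π)
  vc : SkwInVConcl cv (l8pProf I π) (l8pIn I π)
  /-- the mass coordinate at the cuts -/
  vz : ∀ k, l8pZc I π k ∈ Icc 0 (l8pD I π).zmax ∧ l8pV I π (l8pZc I π k) = l8pVl I k
  /-- the last cell is small too -/
  top : (l8pD I π).zmax - l8pZc I π I.n ≤ I.x ^ 40
  /-- the reference overlap ON THE CHAIN (`llQs`, pair sharing `k` stages) against the path-level `q = Γ̂(min(z, ξ_*))` at the cut -/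
  qlink : ∀ k ≤ I.n, |I.q k - (l8pD I π).q (l8pZc I π k)| ≤ I.x ^ 40
  Slink : ∀ k ≤ I.n, I.S k = (I.sp false).S k
  fine : I.Fine (I.x ^ 40)
  Z1 : 1 ≤ I.Z
  xU : I.x ≤ I.U
  /-- the join is `ξ_*`; LL-XI: the scalar clock in the coordinate `z` (locates the ramp of `H_e`)      [247, for DEF; both are fields of `L8pGeo`] -/
  zs : π.c.zs = I.𝔹.xiS I.F.T
  Kz : ∀ z ∈ Icc 0 (l8pD I π).zmax, I.p.K I.F I.𝔹 (l8pV I π z) = (I.p.ell ^ 2)⁻¹ * min z π.c.zs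
  /-- (D3) between ANY two cuts above the jump of `h` at the mass `x` (also below `zlo / 4`) -/
  D3x : ∀ k₁ k₂, k₁ < k₂ → k₂ ≤ I.n → I.x < l8pVl I k₁ →
    S.cD3 * I.lam1 * skwR (l8pZc I π k₁) ^ 2 * (l8pZc I π k₂ - l8pZc I π k₁) ≤ (I.sp false).hlen k₁ k₂
  /-- the extra facts of unit IV (298, L08/IvD7I.lean): `l8d7i_ok` applies to `l8pI I π` -/
  ivx : L8D7X S (l8pI I π) (1 / 4) π.c.Cp

/-- `B` bounds the value at `p` and the LOCAL Lipschitz constant in `L = log λ` (both sides, admissible neighbours only) of a function of the point      [247] -/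
def L8pdLip (F : LlFix) (p : LlPt) (f : LlPt → ℝ) (B : ℝ) : Prop :=
  |f p| ≤ B ∧ ∃ h : ℝ, 0 < h ∧ ∀ L' : ℝ, |L' - Real.log p.lam| ≤ h → (p.wLam L').Ok F → |f (p.wLam L') - f p| ≤ B * |L' - Real.log p.lam|

/-- **LINK chain / path for the defect and the dotted defect** (hypothesis of DEF; 247).   The cut `k` reads the clocks at the LEFT end `v' = l8pVl I k` of its cell (167):
`d_k(L) = Dp_k(L) + b (q_chain - q_path)`, `Dp_k = p_L.d v'`, resp. `θ h(x) - h_*(x)`, `θ ∈ [0,1]`, at a position INSIDE the jump of `h` at the mass `x` (hence the clause on `h_*(x)`).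
NOT a per-instance consequence of `I.Fine` (the dotted part needs the chain at the neighbouring strengths): PRODUCER at the `L8Ev` level = `L8pLkDir` (`d`: Fine v2 of 118; `dd`: DD-LINK, L08/DdLink.lean, 226). -/
def L8pDefLk (I : L8In) (η : ℝ) : Prop :=
  ∀ k ≤ I.n, ∀ B : ℝ, L8pdLip I.F I.p (fun q => q.d I.F I.𝔹 (l8pVl I k)) B →
    (l8pVl I k = I.x → L8pdLip I.F I.p (fun q => q.hS I.F I.𝔹 (l8pVl I k)) B) → |I.d k| ≤ B + η ∧ |I.dd k| ≤ B + η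

theorem l8p_lk_eqns_cite : True := by
  have := @L8pdLip.eq_1; have := @L8pDefLk.eq_1
  trivial

/-! ## 2. Records of conclusions -/

/-- the fields of `L8In.Env` except the defect, and the two elementary fields of `L8In.Num` -/
structure L8pEnv (I : L8In) (e : ℕ → ℝ) (A Y vt cE : ℝ) : Prop where
  lo : ∀ k ≤ I.n, I.x ^ cE ≤ e k
  low : ∀ k ≤ I.n, I.v k ≤ Y → e k = Y
  hi : ∀ k ≤ I.n, Y ≤ I.v k → e k ≤ A * I.v k
  bud : ∀ r, Y ≤ r → r ≤ vt → I.band r (fun k => e k ^ 2) ≤ A * r * (Y ^ 2 / r) ^ 2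
  f_le : ∀ k ≤ I.n, I.v k ≤ vt → |I.f k| ≤ A * e k
  d1 : ∀ r, I.U ≤ r → r ≤ I.a → I.band r (fun k => I.f k ^ 2) ≤ A * r * (Y ^ 4 / r ^ 2)
  s_le : ∀ k ≤ I.n, I.S k ≤ A * (I.v k + Y)

/-- the six (D2) fields of `L8In.RndC` -/
structure L8pD2 (I : L8In) (tl : Bool) (e : ℕ → ℝ) (A Y vt : ℝ) (pm : ℕ) : Prop where
  raw_X : ∀ r, 1 ≤ r → r ≤ pm → ∀ k, I.act tl k → I.mo tl r ((I.sp tl).nX k) ≤ (A * (I.v k + Y)) ^ (2 * r)
  raw_L : ∀ r, 1 ≤ r → r ≤ pm → ∀ k, I.act tl k → I.mo tl r ((I.sp tl).L k) ≤ (A * (I.v k + Y)) ^ (2 * r)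
  raw_Q : ∀ r, 1 ≤ r → r ≤ pm → ∀ k, I.act tl k → ∀ k₁ k₂, k ≤ k₁ → k ≤ k₂ → I.moF tl k r ((I.sp tl).QX k₁ k₂) ≤ (A * (I.v k + Y)) ^ (2 * r)
  ref_X : ∀ r, 1 ≤ r → r ≤ pm → ∀ k, I.act tl k → I.v k ≤ vt → I.mo tl r (fun ω => (I.sp tl).nX k ω - I.q k) ≤ (A * e k) ^ (2 * r)
  ref_L : ∀ r, 1 ≤ r → r ≤ pm → ∀ k, I.act tl k → I.v k ≤ vt → I.mo tl r (fun ω => 2 * (I.sp tl).L k ω - I.q k) ≤ (A * e k) ^ (2 * r)
  ref_Q : ∀ r, 1 ≤ r → r ≤ pm → ∀ k, I.act tl k → I.v k ≤ vt → ∀ k₁ k₂, k ≤ k₁ → k ≤ k₂ →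
    I.moF tl k r (fun ω => (I.sp tl).QX k₁ k₂ ω - I.q k) ≤ (A * e k) ^ (2 * r)

/-- the integrated fields: (D7), (D9) of `L8In.RndC` and of `L8In.Num` -/
structure L8pIv (I : L8In) (tl : Bool) (e : ℕ → ℝ) (A Y Zh vt : ℝ) (jm : ℕ) : Prop where
  n7 : ∀ r, Y ≤ r → r ≤ vt → I.band r I.D2 ≤ A * r * (I.z0 r * Zh * r ^ 2)
  n9 : ∀ w, 0 < w → w ≤ 2 * Y → I.int (max w I.x) (2 * w) I.D2 ≤ A * Y * I.epsw Y w
  d7_W : ∀ r, Y ≤ r → r ≤ vt → ∀ j ≤ jm, I.band r (fun k => I.ex tl ((I.sp tl).W k) * e k ^ (2 * j)) ≤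
    A * r * (I.z0 r ^ 2 * Zh ^ 2 * r ^ 3 * (if j = 0 then 1 else (Y ^ 2 / r) ^ 2 * r ^ (2 * j - 2)))
  d7_C : ∀ r, Y ≤ r → r ≤ vt → I.band r (fun k => I.ex tl fun ω => (I.sp tl).xCx k ω + (I.sp tl).trC2 k ω) ≤ A * r * (I.z0 r ^ 2 * Zh ^ 2 * r ^ 2)
  d7_Q : ∀ r, Y ≤ r → r ≤ vt → I.band r (fun k => I.moF tl k 1 fun ω => (I.sp tl).Q ω - I.S k) ≤ A * r * (I.z0 r * Zh * r ^ 2)
  d9_W : ∀ w, 0 < w → w ≤ 2 * Y → I.int (max w I.x) (2 * w) (fun k => I.ex tl ((I.sp tl).W k)) ≤ A * I.epsw Y w ^ 2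
  d9_Q : ∀ w, 0 < w → w ≤ 2 * Y → I.int (max w I.x) (2 * w) (fun k => I.moF tl k 1 fun ω => (I.sp tl).Q ω - I.S k) ≤ A * Y * I.epsw Y w

/-- assembly of `I.Core` -/
theorem L8In.Core.of_l8p {I : L8In} {e : ℕ → ℝ} {A Y Zh vt cE : ℝ} {pm jm : ℕ} (h1 : L8pEnv I e A Y vt cE)
    (h2 : ∀ k ≤ I.n, I.v k ≤ vt → |I.d k| + |I.dd k| ≤ A * I.lam * max (I.v k) Y ^ 2 * e k)
    (h3 : L8pD2 I false e A Y vt pm) (h4 : L8pIv I false e A Y Zh vt jm) : I.Core e A Y Zh vt cE pm jm :=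
  ⟨⟨h1.lo, h1.low, h1.hi, h1.bud, h1.f_le, h2⟩, ⟨h1.d1, h1.s_le, h4.n7, h4.n9⟩,
    ⟨h3.raw_X, h3.raw_L, h3.raw_Q, h3.ref_X, h3.ref_L, h3.ref_Q, h4.d7_W, h4.d7_C, h4.d7_Q, h4.d9_W, h4.d9_Q⟩⟩

/-! ## 3. Contracts -/

/-- **INST: PRODUCER of `SkpI.Ok`, `SkwHyp`, `SkwPlat`, `SkwConcl` on the direct strength sweep.**      TEX[LL:lem:statistics-widths] TEX[LL:prop:statistics-pointwise] (hypotheses) -/
def L8pInstDir (𝔹 : LlBase) (T : ℝ) : Prop :=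
  ∀ F0, L8Fix 𝔹 T F0 → ∀ (pB : LLParB) (pS : ℝ), 0 < pS → pS ≤ 1 → ∀ (eps : ℝ) (K : ℕ), 0 < eps → eps ≤ 1 → 100 ≤ K →
    ∃ (π : L8pPar) (S : SkpS) (cv : ℝ), π.Ok S cv ∧ π.eps = eps ∧ π.K = K ∧
      ∀ κ : ℝ, 0 < κ → ∃ (N0 : ℕ) (Kf : ℝ), ∀ I : L8In, L8pAt 𝔹 (F0.wExp pB.sStar pB.eta pS) N0 Kf κ I → L8pOk I π S cv

/-- **SHAPE of the consumer contracts** -/
def L8pCons (𝔹 : LlBase) (F : LlFix) (κ : ℝ) (Φ : L8In → L8pPar → ℝ → Prop) : Prop :=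
  ∃ eps0 : ℝ, 0 < eps0 ∧ ∀ (π : L8pPar) (S : SkpS) (cv : ℝ), π.Ok S cv → π.eps ≤ eps0 →
    ∃ (C0 : ℝ) (N0 : ℕ) (Kf : ℝ), ∀ I : L8In, L8pAt 𝔹 F N0 Kf κ I → L8pOk I π S cv → ∀ C : ℝ, C0 ≤ C → Φ I π C

/-- **ENV: the deterministic envelope** (bookkeeping from `SkwConcl`, Riemann sums on the grid; (D1) on the chain holds by the definition of `I.Z`).
TEX[LL:prop:statistics-pointwise] (last display) TEX[LL:lem:statistics-widths] (i) TEX[LL:eq:D1] -/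
def L8pEnvDir (𝔹 : LlBase) (T : ℝ) : Prop :=
  ∀ F0, L8Fix 𝔹 T F0 → ∀ (pB : LLParB) (pS : ℝ), 0 < pS → pS ≤ 1 → ∀ κ ε : ℝ, 0 < κ → 0 < ε →
    L8pCons 𝔹 (F0.wExp pB.sStar pB.eta pS) κ fun I π C => L8pEnv I (l8pE I π) (C * I.x ^ (-ε)) I.Y I.a 4

/-- **DEF: the defect bound** `|d| + |ḋ| ≲_⋄ λ r² e` (LL Prop. 8.1, last sentence; LL 03 (P6), (P7)).   `d`, `ḋ` are ON THE CHAIN (`d = h - K + b q`, `q = llQs`):
`d_k = d_path(v) + b (q_chain - q_path)`, `d_path = H_lo + H_e` for `v ≥ x`, `= - h_*` below; `Fine.d_link` gives `d`; `ḋ` needs the SAME link for the derivative in `log λ` (C¹ Q-LINK). -/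
def L8pDefDir (𝔹 : LlBase) (T : ℝ) : Prop :=
  ∀ F0, L8Fix 𝔹 T F0 → ∀ (pB : LLParB) (pS : ℝ), 0 < pS → pS ≤ 1 → ∀ κ ε : ℝ, 0 < κ → 0 < ε →
    L8pCons 𝔹 (F0.wExp pB.sStar pB.eta pS) κ fun I π C =>
      L8pDefLk I (I.x ^ 40) → ∀ k ≤ I.n, I.v k ≤ I.a → |I.d k| + |I.dd k| ≤ C * I.x ^ (-ε) * I.lam * max (I.v k) I.Y ^ 2 * l8pE I π k

/-- **LK: PRODUCER of the link of DEF**, at the `L8Ev` level (all points of the same `N`, `Fs` are available after `filter_upwards`).      OWNERS: 226 (DD-LINK), 118 (Fine v2) -/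
def L8pLkDir (𝔹 : LlBase) (T : ℝ) : Prop :=
  ∀ F0, L8Fix 𝔹 T F0 → ∀ (pB : LLParB) (pS : ℝ), 0 < pS → pS ≤ 1 → ∃ N0 : ℕ,
    L8Ev (F0.wExp pB.sStar pB.eta pS) 𝔹 N0 l8Dir fun I => L8pDefLk I (I.x ^ 40)

/-- **D2: (D2), untilted**, from `skp_raw`, `skp_ref`, `skp_tail_qx` at `l8pI I π`.      TEX[LL:prop:statistics-pointwise] -/
def L8pD2Dir (𝔹 : LlBase) (T : ℝ) : Prop :=
  ∀ F0, L8Fix 𝔹 T F0 → ∀ (pB : LLParB) (pS : ℝ), 0 < pS → pS ≤ 1 → ∀ (κ ε : ℝ) (pm : ℕ), 0 < κ → 0 < ε →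
    L8pCons 𝔹 (F0.wExp pB.sStar pB.eta pS) κ fun I π C => L8pD2 I false (l8pE I π) (C * I.x ^ (-ε)) I.Y I.a pm

/-- **IV: (D7), (D8), (D9), untilted, on the SAME W instance and envelope** (unit IV: 228 / 298 / 189 / 114 / 214; `l8p_iv_dir` takes ENV and D2 as hypotheses).
TEX[LL:lem:statistics-integrated] TEX[LL:lem:statistics-localized] TEX[LL:lem:statistics-lower-band] -/
def L8pIvDir (𝔹 : LlBase) (T : ℝ) : Prop :=
  ∀ F0, L8Fix 𝔹 T F0 → ∀ (pB : LLParB) (pS : ℝ), 0 < pS → pS ≤ 1 → ∃ C0 δ0 : ℝ, 1 ≤ C0 ∧ 0 < δ0 ∧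
    ∀ (κ ε δ' : ℝ) (jm : ℕ), 0 < κ → 0 < ε → 0 < δ' → δ' ≤ δ0 →
      L8pCons 𝔹 (F0.wExp pB.sStar pB.eta pS) κ fun I π C =>
        L8pIv I false (l8pE I π) (C * I.x ^ (-ε)) I.Y I.Z I.a jm ∧ I.D8 (l8pE I π) (C * I.x ^ (-ε)) C0 δ'

end

/-! ## 4. Glue (proved) -/

theorem L8In.x_le_one (I : L8In) (h : I.Ok) : I.x ≤ 1 := by
  have hN : (1 : ℝ) ≤ I.p.N := by
    have := h.pt.N2
    exact_mod_cast (by omega : 1 ≤ I.p.N)
  exact Real.rpow_le_one_of_one_le_of_nonpos hN (by norm_num)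

theorem L8In.x_pos (I : L8In) (h : I.Ok) : 0 < I.x := by
  have hN : (0 : ℝ) < I.p.N := by
    have := h.pt.N2
    exact_mod_cast (by omega : 0 < I.p.N)
  exact Real.rpow_pos_of_pos hN _

-- `L8In.Fine.mono` : `L08/Fine.lean`

theorem L8pAt.mono {𝔹 : LlBase} {F : LlFix} {N0 N1 : ℕ} {Kf Kf' κ : ℝ} {I : L8In} (h : L8pAt 𝔹 F N1 Kf' κ I) (hN : N0 ≤ N1) (hK : Kf ≤ Kf') :
    L8pAt 𝔹 F N0 Kf κ I :=
  { hF := h.hF
    hB := h.hB
    hN := hN.trans h.hN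
    ok := h.ok
    dir := h.dir
    fine := h.fine.mono (Real.rpow_le_rpow_of_exponent_ge (I.x_pos h.ok) (I.x_le_one h.ok) hK)
    hY := h.hY }

theorem L8pCons.and {𝔹 : LlBase} {F : LlFix} {κ : ℝ} {Φ Ψ : L8In → L8pPar → ℝ → Prop} (h : L8pCons 𝔹 F κ Φ) (h' : L8pCons 𝔹 F κ Ψ) :
    L8pCons 𝔹 F κ fun I π C => Φ I π C ∧ Ψ I π C := by
  obtain ⟨e1, he1, H1⟩ := h
  obtain ⟨e2, he2, H2⟩ := h'
  refine ⟨min e1 e2, lt_min he1 he2, fun π S cv hπ he => ?_⟩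
  obtain ⟨C1, N1, K1, H1⟩ := H1 π S cv hπ (he.trans (min_le_left _ _))
  obtain ⟨C2, N2, K2, H2⟩ := H2 π S cv hπ (he.trans (min_le_right _ _))
  refine ⟨max C1 C2, max N1 N2, max K1 K2, fun I hI hok C hC => ⟨?_, ?_⟩⟩
  · exact H1 I (hI.mono (le_max_left _ _) (le_max_left _ _)) hok C ((le_max_left _ _).trans hC)
  · exact H2 I (hI.mono (le_max_right _ _) (le_max_right _ _)) hok C ((le_max_right _ _).trans hC)

/-- **GLUE of the core, direct sweep** -/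
theorem l8p_core_dir_of {𝔹 : LlBase} {T : ℝ} (hf : L8gFine 𝔹 T) (hi : L8pInstDir 𝔹 T) (he : L8pEnvDir 𝔹 T) (hl : L8pLkDir 𝔹 T) (hd : L8pDefDir 𝔹 T)
    (h2 : L8pD2Dir 𝔹 T) (hv : L8pIvDir 𝔹 T) : L8gCoreDir 𝔹 T := by
  intro F0 hF pB pS h0 h1
  obtain ⟨C0, δ0, hC0, hδ0, hiv⟩ := hv F0 hF pB pS h0 h1
  refine ⟨C0, δ0, 4, hC0, hδ0, by norm_num, ?_⟩
  intro κ hκ pm jm ε δ' hε hδ' hδ''
  obtain ⟨eps0, he0, H⟩ := ((he F0 hF pB pS h0 h1 κ ε hκ hε).and (hd F0 hF pB pS h0 h1 κ ε hκ hε)).and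
    ((h2 F0 hF pB pS h0 h1 κ ε pm hκ hε).and (hiv κ ε δ' jm hκ hε hδ' hδ''))
  obtain ⟨π, S, cv, hπ, hπe, -, hinst⟩ := hi F0 hF pB pS h0 h1 (min eps0 1) 100 (lt_min he0 one_pos) (min_le_right _ _) le_rfl
  obtain ⟨Cc, N1, K1, H⟩ := H π S cv hπ (hπe.le.trans (min_le_left _ _))
  obtain ⟨N2, K2, hinst⟩ := hinst κ hκ
  obtain ⟨N0, hev⟩ := L8Ev.of_fine hf hF pB h0 h1 (max K1 K2) (max N1 N2) (R := l8Dir)
    (Φ := fun I => L8pDefLk I (I.x ^ 40) → I.Y ≤ I.x ^ κ → ∃ e : ℕ → ℝ, I.Core e (Cc * I.x ^ (-ε)) I.Y I.Z I.a 4 pm jm ∧ I.D8 e (Cc * I.x ^ (-ε)) C0 δ') (by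
      intro I hIF hIB hN hR hOk hfine hlk hY
      have hat : L8pAt 𝔹 (F0.wExp pB.sStar pB.eta pS) (max N1 N2) (max K1 K2) κ I := ⟨hIF, hIB, hN, hOk, hR, hfine, hY⟩
      have hok := hinst I (hat.mono (le_max_right _ _) (le_max_right _ _))
      obtain ⟨⟨a1, a2⟩, a3, a4, a5⟩ := H I (hat.mono (le_max_left _ _) (le_max_left _ _)) hok Cc le_rfl
      exact ⟨l8pE I π, L8In.Core.of_l8p a1 (a2 hlk) a3 a4, a5⟩)
  obtain ⟨N3, hlk⟩ := hl F0 hF pB pS h0 h1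
  exact ⟨Cc, max N0 N3, (hev.and hlk).mono le_rfl fun I _ h => h.1 h.2⟩

end Claimed.Agent.R286
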