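import Claimed.Agent.R286.PM.Inst
import Claimed.Agent.R286.W.InstLlC
import Claimed.Agent.R286.LL04.ClkHe

/-!
# Row 286 (S0533), folder PM, file InstDef : LEAF DEF OF `l8p_core_dir`: THE DEFECT BOUND `|d| + |ḋ| ≲_⋄ λ r² e`      (owner helper247; prefix `l8pd_`, `L8pd`)

LL Prop. 8.1, last sentence ("by the corresponding path estimates"); LL 03 (P4), (P6), (P7), l.437-441 and the paragraph "Strength derivatives" (l.469-479).      TEX[LL:prop:statistics-pointwise]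
-/

set_option autoImplicit false

namespace Claimed.Agent.R286

open MeasureTheory Set Filter

noncomputable section

/-! ## 0. Value and local Lipschitz constant in `log λ` -/

/-! `L8pdLip F p f B` (PM/Inst.lean): `B` bounds the value at `p` and the LOCAL Lipschitz constant in `L = log λ` (both sides, admissible neighbours only) of a function of the point -/

theorem L8pdLip.mono {F : LlFix} {p : LlPt} {f : LlPt → ℝ} {B B' : ℝ} (h : L8pdLip F p f B) (hB : B ≤ B') : L8pdLip F p f B' := by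
  obtain ⟨h0, r, hr, H⟩ := h
  exact ⟨h0.trans hB, r, hr, fun L' hL hOk => (H L' hL hOk).trans (mul_le_mul_of_nonneg_right hB (abs_nonneg _))⟩

theorem L8pdLip.add {F : LlFix} {p : LlPt} {f g : LlPt → ℝ} {B B' : ℝ} (h : L8pdLip F p f B) (h' : L8pdLip F p g B') :
    L8pdLip F p (fun q => f q + g q) (B + B') := by
  obtain ⟨h0, r, hr, H⟩ := h
  obtain ⟨h0', r', hr', H'⟩ := h'
  refine ⟨(abs_add_le _ _).trans (add_le_add h0 h0'), min r r', lt_min hr hr', fun L' hL hOk => ?_⟩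
  have h1 := H L' (hL.trans (min_le_left _ _)) hOk
  have h2 := H' L' (hL.trans (min_le_right _ _)) hOk
  have e : f (p.wLam L') + g (p.wLam L') - (f p + g p) = (f (p.wLam L') - f p) + (g (p.wLam L') - g p) := by ring
  rw [e, add_mul]
  exact (abs_add_le _ _).trans (add_le_add h1 h2)

theorem L8pdLip.neg {F : LlFix} {p : LlPt} {f : LlPt → ℝ} {B : ℝ} (h : L8pdLip F p f B) : L8pdLip F p (fun q => -f q) B := by
  obtain ⟨h0, r, hr, H⟩ := h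
  refine ⟨by rwa [abs_neg], r, hr, fun L' hL hOk => ?_⟩
  have e : -f (p.wLam L') - -f p = -(f (p.wLam L') - f p) := by ring
  rw [e, abs_neg]
  exact H L' hL hOk

theorem L8pdLip.congr {F : LlFix} {p : LlPt} {f g : LlPt → ℝ} {B : ℝ} (h : L8pdLip F p f B) (h0 : g p = f p)
    (h1 : ∀ L' : ℝ, (p.wLam L').Ok F → g (p.wLam L') = f (p.wLam L')) : L8pdLip F p g B := by
  obtain ⟨a, r, hr, H⟩ := h
  refine ⟨by rwa [h0], r, hr, fun L' hL hOk => ?_⟩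
  rw [h0, h1 L' hOk]
  exact H L' hL hOk

/-- from PAIR bounds (smaller strength, larger strength) to the two-sided local bound -/
theorem l8pd_lip_of_pair {F : LlFix} {p : LlPt} (hp : 0 < p.lam) {f : LlPt → ℝ} {B h : ℝ} (hh : 0 < h) (h0 : |f p| ≤ B)
    (hr : ∀ l2, p.lam ≤ l2 → Real.log (l2 / p.lam) ≤ h → (p.wLm l2).Ok F → |f (p.wLm l2) - f p| ≤ B * Real.log (l2 / p.lam))
    (hl : ∀ l1, 0 < l1 → l1 ≤ p.lam → Real.log (p.lam / l1) ≤ h → (p.wLm l1).Ok F → |f p - f (p.wLm l1)| ≤ B * Real.log (p.lam / l1)) :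
    L8pdLip F p f B := by
  refine ⟨h0, h, hh, fun L' hL hOk => ?_⟩
  have hw : p.wLam L' = p.wLm (Real.exp L') := rfl
  have he : 0 < Real.exp L' := Real.exp_pos _
  rcases le_total (Real.log p.lam) L' with hc | hc
  · have h1 : p.lam ≤ Real.exp L' := by
      rw [← Real.exp_log hp]; exact Real.exp_le_exp.2 hc
    have h2 : Real.log (Real.exp L' / p.lam) = L' - Real.log p.lam := by rw [Real.log_div he.ne' hp.ne', Real.log_exp]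
    have h3 : |L' - Real.log p.lam| = L' - Real.log p.lam := abs_of_nonneg (by linarith)
    have := hr (Real.exp L') h1 (by rw [h2, ← h3]; exact hL) (hw ▸ hOk)
    rw [hw, h3, ← h2]
    exact this
  · have h1 : Real.exp L' ≤ p.lam := by
      rw [← Real.exp_log hp]; exact Real.exp_le_exp.2 hc
    have h2 : Real.log (p.lam / Real.exp L') = Real.log p.lam - L' := by rw [Real.log_div hp.ne' he.ne', Real.log_exp]
    have h3 : |L' - Real.log p.lam| = Real.log p.lam - L' := by rw [abs_sub_comm]; exact abs_of_nonneg (by linarith)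
    have := hl (Real.exp L') he h1 (by rw [h2, ← h3]; exact hL) (hw ▸ hOk)
    rw [hw, h3, ← h2, abs_sub_comm]
    exact this

/-! ## 1. The explicit majorant of the path defect on a direct strength sweep -/

/-- the plateau width as a function of `w = v/ℓ` (`= SkwPF.hw`, in the notation `ll04hR` of 245): `max(U²/√(1-w+d₊), U²/√(w-p_top+d₋))` -/
def l8pdHw (𝔹 : LlBase) (F : LlFix) (p : LlPt) (w : ℝ) : ℝ :=
  max (ll04hR (p.Ut F) 1 (1 - w)) (ll04hR (p.Ut F) (p.Eb F 𝔹) (w - 𝔹.pTop F.T))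

/-- mask part -/
def l8pdM1 (F : LlFix) (p : LlPt) (v : ℝ) : ℝ := if v ≤ p.x then p.lam * (v ^ 3 + v * p.U F ^ 2) else 0
/-- `H_lo` -/
def l8pdM2 (F : LlFix) (p : LlPt) (v : ℝ) : ℝ := if p.x ≤ v then p.lam1 F * p.U F ^ 3 * (1 + Real.log (2 / p.x)) else 0
/-- `H_e`: plateau, ramp -/
def l8pdM3 (𝔹 : LlBase) (F : LlFix) (p : LlPt) (v : ℝ) : ℝ :=
  if 𝔹.pTop F.T ≤ v / p.ell then p.lam1 F * l8pdHw 𝔹 F p (v / p.ell)
  else if 𝔹.xiS F.T - p.Eb F 𝔹 ≤ p.xi F 𝔹 v then p.lam1 F * p.Eb F 𝔹 else 0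

/-- **the majorant** of `|d(v)|` and of `|∂_{log λ} d(v)|` -/
def l8pdM (𝔹 : LlBase) (F : LlFix) (p : LlPt) (v : ℝ) : ℝ := l8pdM1 F p v + l8pdM2 F p v + l8pdM3 𝔹 F p v

theorem l8pd_eqns_cite : True := by
  have := @l8pdHw.eq_1; have := @l8pdM1.eq_1; have := @l8pdM2.eq_1; have := @l8pdM3.eq_1; have := @l8pdM.eq_1
  trivial

/-- **PATH**: the contract of the path part.   `U ≤ U1`: `Ũ = U`, `Υ = 1`, `E_b ≤ ξ_*/4`. -/
def L8pDefPath (𝔹 : LlBase) (F : LlFix) : Prop :=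
  ∃ (C U1 : ℝ) (N0 : ℕ), 0 ≤ C ∧ 0 < U1 ∧ ∀ p : LlPt, p.Ok F → N0 ≤ p.N → l8Dir p → p.U F ≤ U1 → ∀ v ∈ Icc 0 p.ell,
    L8pdLip F p (fun q => q.d F 𝔹 v) (C * l8pdM 𝔹 F p v) ∧ (v = p.x → L8pdLip F p (fun q => q.hS F 𝔹 v) (C * l8pdM 𝔹 F p v))

/-! ### leaves of PATH -/

/-! **P1 (mask)**: `l8pd_mask` is proved at the end of the leaves (it uses the tools of P2-P4) -/

/-- `l2^e ≤ exp 2 · λ^e` if `log(l2/λ) ≤ 1`, `0 ≤ e ≤ 2` -/
theorem l8pd_rpow_e {lam l2 e : ℝ} (h0 : 0 < lam) (h2 : 0 < l2) (hd : Real.log (l2 / lam) ≤ 1) (he0 : 0 ≤ e) (he : e ≤ 2) :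
    l2 ^ e ≤ Real.exp 2 * lam ^ e := by
  have hq : 0 < l2 / lam := div_pos h2 h0
  have e1 : l2 ^ e = (l2 / lam) ^ e * lam ^ e := by
    rw [← Real.mul_rpow hq.le h0.le, div_mul_cancel₀ _ h0.ne']
  rw [e1]
  refine mul_le_mul_of_nonneg_right ?_ (Real.rpow_nonneg h0.le _)
  rw [Real.rpow_def_of_pos hq]
  refine Real.exp_le_exp.2 ?_
  nlinarith

theorem l8pd_exp2 : Real.exp 2 ≤ 8 := by
  have h := Real.exp_one_lt_d9
  have e : Real.exp 2 = Real.exp 1 * Real.exp 1 := by rw [← Real.exp_add]; norm_num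
  rw [e]
  nlinarith [Real.exp_pos 1]

/-- **P2 (`H_lo`)**   VALUE: `0 ≤ log(min(v,ℓ)/x) ≤ log(2/x)`.   PAIR: `lcf_str_Hlo` (`sLam = wLm` by `rfl`).   Two sides with `h = 1`: `λ_1(l2) ≤ e² λ_1(λ)`, `U(q)³ ≤ e U(q2)³`. -/
theorem l8pd_hlo (F : LlFix) (hE : LlExpOk F.sS F.eta F.pS) (p : LlPt) (hp : p.Ok F) (v : ℝ) (hv : p.x ≤ v) :
    L8pdLip F p (fun q => q.Hlo F v) (40 * (p.lam1 F * p.U F ^ 3 * (1 + Real.log (2 / p.x)))) := by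
  have hx := skw_llc_x_pos hp
  have hlam := skw_llc_lam_pos hp
  have hU := skw_llc_U_pos hp
  have hl1 : 0 < p.lam1 F := Real.rpow_pos_of_pos hlam _
  have hx1 : p.x ≤ 1 := by
    have hN : (1 : ℝ) ≤ p.N := by
      have := hp.N2
      exact_mod_cast (by omega : 1 ≤ p.N)
    exact Real.rpow_le_one_of_one_le_of_nonpos hN (by norm_num)
  have hxl : p.x ≤ p.ell := hx1.trans hp.ell1
  have hs0 : 0 ≤ F.sS := by linarith [hE.s_lo]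
  have hs1 := hE.s_hi
  have he0 := hE.e_lo
  have he1 := hE.e_hi
  have hm0 : 0 < min v p.ell := lt_min (hx.trans_le hv) (hx.trans_le hxl)
  have hlg0 : 0 ≤ Real.log (min v p.ell / p.x) := Real.log_nonneg ((one_le_div hx).2 (le_min hv hxl))
  have hlg1 : Real.log (min v p.ell / p.x) ≤ Real.log (2 / p.x) :=
    Real.log_le_log (div_pos hm0 hx) (div_le_div_of_nonneg_right ((min_le_right _ _).trans (skw_llc_ell2 hp)) hx.le)
  obtain ⟨Lg, hLg⟩ : ∃ Lg, Lg = Real.log (min v p.ell / p.x) := ⟨_, rfl⟩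
  obtain ⟨L2, hL2⟩ : ∃ L2, L2 = Real.log (2 / p.x) := ⟨_, rfl⟩
  rw [← hLg] at hlg0 hlg1
  rw [← hL2] at hlg1 ⊢
  have hA : 0 < p.lam1 F * p.U F ^ 3 := by positivity
  have hk : 1 + F.eta + 3 * F.sS / 2 ≤ 2 := by linarith
  have hk0 : 0 ≤ 1 + F.eta + 3 * F.sS / 2 := by linarith
  refine l8pd_lip_of_pair hlam one_pos ?_ ?_ ?_
  · show |p.lam1 F * p.U F ^ 3 * Real.log (min v p.ell / p.x)| ≤ _
    rw [← hLg, abs_of_nonneg (mul_nonneg hA.le hlg0)]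
    nlinarith
  · intro l2 hl hd _
    have hl2 : 0 < l2 := hlam.trans_le hl
    have hd0 : 0 ≤ Real.log (l2 / p.lam) := Real.log_nonneg ((one_le_div hlam).2 hl)
    have h1 := lcf_str_Hlo (F := F) (p := p) (lam' := l2) hx hs0 he0.le hlam hl hxl v hv
    rw [← hLg] at h1
    have h2 : l2 ^ (1 + F.eta) ≤ 8 * p.lam1 F :=
      (l8pd_rpow_e hlam hl2 hd (by linarith) (by linarith)).trans (mul_le_mul_of_nonneg_right l8pd_exp2 hl1.le)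
    refine h1.trans ?_
    refine mul_le_mul_of_nonneg_right ?_ hd0
    have h3 : l2 ^ (1 + F.eta) * p.U F ^ 3 ≤ 8 * (p.lam1 F * p.U F ^ 3) := by
      have := mul_le_mul_of_nonneg_right h2 (pow_pos hU 3).le
      linarith
    have h30 : 0 ≤ l2 ^ (1 + F.eta) * p.U F ^ 3 := by positivity
    calc (1 + F.eta + 3 * F.sS / 2) * (l2 ^ (1 + F.eta) * p.U F ^ 3) * Lg
        ≤ 2 * (8 * (p.lam1 F * p.U F ^ 3)) * (1 + L2) :=
          mul_le_mul (mul_le_mul hk h3 h30 (by norm_num)) (by linarith) hlg0 (by positivity)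
      _ ≤ _ := by nlinarith [mul_pos hA (by linarith : 0 < 1 + L2)]
  · intro l1 hl10 hl hd _
    have hd0 : 0 ≤ Real.log (p.lam / l1) := Real.log_nonneg ((one_le_div hl10).2 hl)
    have h1 := lcf_str_Hlo (F := F) (p := p.wLm l1) (lam' := p.lam) hx hs0 he0.le hl10 hl hxl v hv
    have e1 : ((p.wLm l1).sLam p.lam) = p := rfl
    have e2 : (p.wLm l1).lam = l1 := rfl
    have e3 : (p.wLm l1).ell = p.ell := rfl
    have e4 : (p.wLm l1).x = p.x := rfl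
    rw [e1, e2, e3, e4, ← hLg] at h1
    -- `U(q)³ ≤ 8 U(p)³`
    have hUq : (p.wLm l1).U F ≤ 2 * p.U F := by
      have h5 := (lcf_U_le p.x F.sS l1 p.lam hx hs0 hl10 hl).2
      have h6 : (1 / 2 : ℝ) ≤ (p.lam / l1) ^ (-(F.sS / 2)) := by
        rw [Real.rpow_def_of_pos (div_pos hlam hl10)]
        have := Real.add_one_le_exp (Real.log (p.lam / l1) * -(F.sS / 2))
        nlinarith
      have h7 : 0 < lcfU p.x F.sS l1 := lt_min one_pos (mul_pos hx (Real.rpow_pos_of_pos hl10 _))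
      show lcfU p.x F.sS l1 ≤ 2 * lcfU p.x F.sS p.lam
      nlinarith
    have hUq0 : 0 < (p.wLm l1).U F := lt_min one_pos (mul_pos hx (Real.rpow_pos_of_pos hl10 _))
    have hUq3 : (p.wLm l1).U F ^ 3 ≤ 8 * p.U F ^ 3 := by
      calc (p.wLm l1).U F ^ 3 ≤ (2 * p.U F) ^ 3 := pow_le_pow_left₀ hUq0.le hUq 3
        _ = _ := by ring
    refine h1.trans ?_
    refine mul_le_mul_of_nonneg_right ?_ hd0
    have h3 : p.lam ^ (1 + F.eta) * (p.wLm l1).U F ^ 3 ≤ 8 * (p.lam1 F * p.U F ^ 3) := by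
      have := mul_le_mul_of_nonneg_left hUq3 hl1.le
      show p.lam1 F * (p.wLm l1).U F ^ 3 ≤ _
      linarith
    have h30 : 0 ≤ p.lam ^ (1 + F.eta) * (p.wLm l1).U F ^ 3 := by positivity
    calc (1 + F.eta + 3 * F.sS / 2) * (p.lam ^ (1 + F.eta) * (p.wLm l1).U F ^ 3) * Lg
        ≤ 2 * (8 * (p.lam1 F * p.U F ^ 3)) * (1 + L2) :=
          mul_le_mul (mul_le_mul hk h3 h30 (by norm_num)) (by linarith) hlg0 (by positivity)
      _ ≤ _ := by nlinarith [mul_pos hA (by linarith : 0 < 1 + L2)]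

/-- the plateau profile along a pair `(q, q.wLm l2)`, `λ ≤ l2`, `Υ = 1` at both points -/
theorem l8pd_plat_pair {𝔹 : LlBase} {F : LlFix} (hF : F.Ok) (hB : LlBaseProfile 𝔹 F.T) {q : LlPt} (hN : 2 ≤ q.N) (hlam : 0 < q.lam) {l2 : ℝ}
    (hl : q.lam ≤ l2) (hU : q.U F ≤ F.U0 / 2) {w : ℝ} (hw : w ∈ Icc (𝔹.pTop F.T) 1) :
    ∃ ρ : ℝ, 0 < ρ ∧ 1 - ρ ≤ F.sS * Real.log (l2 / q.lam) ∧ ρ * l8pdHw 𝔹 F q w ≤ l8pdHw 𝔹 F (q.wLm l2) w ∧
      |q.HePl F 𝔹 w| ≤ q.lam1 F * l8pdHw 𝔹 F q w ∧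
      |(q.wLm l2).HePl F 𝔹 w - q.HePl F 𝔹 w|
        ≤ ((1 + F.eta) * (q.wLm l2).lam1 F + 2 * F.sS * q.lam1 F) * l8pdHw 𝔹 F q w * Real.log (l2 / q.lam) := by
  obtain ⟨ρ, hρ0, hρ1, hρs, hUU, hUρ, -⟩ := ll04h_pair (F := F) (p := q) hF hN hlam hl
  have hl2 : 0 < l2 := hlam.trans_le hl
  obtain ⟨hU0, hU1, hUm⟩ := ll04h_Ut (p := q) hF hN hlam
  obtain ⟨hV0, hV1, hVm⟩ := ll04h_Ut (p := q.wLm l2) hF hN hl2
  obtain ⟨hEE, hEρ⟩ := ll04h_Eb_pair (p := q) (p2 := q.wLm l2) hB hV0 hUU hU1 hUρ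
  have hE := ll04h_Eb_pos (p := q) hB hU0 hU1
  have hE2 := ll04h_Eb_pos (p := q.wLm l2) hB hV0 hV1
  have hy1 : 0 ≤ 1 - w := sub_nonneg.2 hw.2
  have hy2 : 0 ≤ w - 𝔹.pTop F.T := sub_nonneg.2 hw.1
  have hd0 : 0 ≤ Real.log (l2 / q.lam) := Real.log_nonneg ((one_le_div hlam).2 hl)
  obtain ⟨δ, hδ⟩ : ∃ δ, δ = Real.log (l2 / q.lam) := ⟨_, rfl⟩
  rw [← hδ] at hd0 hρs ⊢
  -- the four numbers
  obtain ⟨P, hP⟩ : ∃ P, P = ll04hR (q.Ut F) 1 (1 - w) := ⟨_, rfl⟩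
  obtain ⟨M, hM⟩ : ∃ M, M = ll04hR (q.Ut F) (q.Eb F 𝔹) (w - 𝔹.pTop F.T) := ⟨_, rfl⟩
  obtain ⟨P2, hP2⟩ : ∃ P2, P2 = ll04hR ((q.wLm l2).Ut F) 1 (1 - w) := ⟨_, rfl⟩
  obtain ⟨M2, hM2⟩ : ∃ M2, M2 = ll04hR ((q.wLm l2).Ut F) ((q.wLm l2).Eb F 𝔹) (w - 𝔹.pTop F.T) := ⟨_, rfl⟩
  have p0 : 0 < P := by rw [hP]; exact ll04h_R_pos hU0 one_pos hy1
  have m0 : 0 < M := by rw [hM]; exact ll04h_R_pos hU0 hE hy2
  have p20 : 0 < P2 := by rw [hP2]; exact ll04h_R_pos hV0 one_pos hy1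
  have m20 : 0 < M2 := by rw [hM2]; exact ll04h_R_pos hV0 hE2 hy2
  have pa : ρ * P ≤ P2 := by rw [hP, hP2]; exact ll04h_R_scale hρ0 hU0 hV0 hUρ one_pos one_pos (by linarith) hy1
  have pb : P2 ≤ P := by rw [hP, hP2]; exact ll04h_R_mono hV0 hUU one_pos le_rfl hy1
  have ma : ρ * M ≤ M2 := by rw [hM, hM2]; exact ll04h_R_scale hρ0 hU0 hV0 hUρ hE hE2 hEρ hy2
  have mb : M2 ≤ M := by rw [hM, hM2]; exact ll04h_R_mono hV0 hUU hE2 hEE hy2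
  have eH : l8pdHw 𝔹 F q w = max P M := by rw [hP, hM]; rfl
  have eH2 : l8pdHw 𝔹 F (q.wLm l2) w = max P2 M2 := by rw [hP2, hM2]; rfl
  have hY : F.Ups (q.U F) = 1 := hF.Ups_one _ ⟨hUm.1, hU⟩
  have hUle : (q.wLm l2).U F ≤ q.U F := (lcf_U_le q.x F.sS q.lam l2 (lcc_x_pos hN) hF.sS0.le hlam hl).1
  have hY2 : F.Ups ((q.wLm l2).U F) = 1 := hF.Ups_one _ ⟨hVm.1, hUle.trans hU⟩
  have eA : q.HePl F 𝔹 w = q.lam1 F * (P - M) := by rw [ll04h_HePl_eq, hY, mul_one, hP, hM]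
  have eB : (q.wLm l2).HePl F 𝔹 w = (q.wLm l2).lam1 F * (P2 - M2) := by rw [ll04h_HePl_eq, hY2, mul_one, hP2, hM2]
  obtain ⟨H, hH⟩ : ∃ H, H = max P M := ⟨_, rfl⟩
  have hPH : P ≤ H := by rw [hH]; exact le_max_left _ _
  have hMH : M ≤ H := by rw [hH]; exact le_max_right _ _
  have hH0 : 0 < H := p0.trans_le hPH
  have hL0 : 0 < q.lam1 F := Real.rpow_pos_of_pos hlam _
  have hL20 : 0 < (q.wLm l2).lam1 F := Real.rpow_pos_of_pos hl2 _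
  obtain ⟨la, lb⟩ := lcf_rpow_diff q.lam l2 (1 + F.eta) hlam hl (by linarith [hF.eta0])
  have la' : 0 ≤ (q.wLm l2).lam1 F - q.lam1 F := la
  have lb' : (q.wLm l2).lam1 F - q.lam1 F ≤ (1 + F.eta) * (q.wLm l2).lam1 F * δ := by rw [hδ]; exact lb
  obtain ⟨Λ, hΛ⟩ : ∃ Λ, Λ = q.lam1 F := ⟨_, rfl⟩
  obtain ⟨Λ2, hΛ2⟩ : ∃ Λ2, Λ2 = (q.wLm l2).lam1 F := ⟨_, rfl⟩
  rw [← hΛ, ← hΛ2] at la' lb'
  rw [← hΛ] at hL0
  rw [← hΛ2] at hL20
  rw [eH, eH2, eA, eB, ← hH, ← hΛ, ← hΛ2]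
  refine ⟨ρ, hρ0, hρs, ?_, ?_, ?_⟩
  · rw [hH]
    rcases le_total P M with h | h
    · rw [max_eq_right h]; exact ma.trans (le_max_right _ _)
    · rw [max_eq_left h]; exact pa.trans (le_max_left _ _)
  · rw [abs_mul, abs_of_pos hL0]
    refine mul_le_mul_of_nonneg_left ?_ hL0.le
    rw [abs_le]; constructor <;> linarith
  · have e : Λ2 * (P2 - M2) - Λ * (P - M) = (Λ2 - Λ) * (P2 - M2) + Λ * ((P2 - P) - (M2 - M)) := by ring
    have t1 : |P2 - M2| ≤ H := by rw [abs_le]; constructor <;> linarith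
    have hs0 := hF.sS0
    have hsd : 0 ≤ F.sS * δ := mul_nonneg hs0.le hd0
    have t2 : |(P2 - P) - (M2 - M)| ≤ 2 * (F.sS * δ) * H := by
      have a1 : (1 - ρ) * P ≤ F.sS * δ * H := mul_le_mul hρs hPH p0.le hsd
      have a2 : (1 - ρ) * M ≤ F.sS * δ * H := mul_le_mul hρs hMH m0.le hsd
      have a3 : 0 ≤ F.sS * δ * H := mul_nonneg hsd hH0.le
      rw [abs_le]; constructor <;> linarith
    have t3 : |(Λ2 - Λ) * (P2 - M2)| ≤ (1 + F.eta) * Λ2 * δ * H := by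
      rw [abs_mul, abs_of_nonneg la']
      exact mul_le_mul lb' t1 (abs_nonneg _) (la'.trans lb')
    have t4 : |Λ * ((P2 - P) - (M2 - M))| ≤ Λ * (2 * (F.sS * δ) * H) := by
      rw [abs_mul, abs_of_pos hL0]
      exact mul_le_mul_of_nonneg_left t2 hL0.le
    rw [e]
    calc _ ≤ |(Λ2 - Λ) * (P2 - M2)| + |Λ * ((P2 - P) - (M2 - M))| := abs_add_le _ _
      _ ≤ (1 + F.eta) * Λ2 * δ * H + Λ * (2 * (F.sS * δ) * H) := add_le_add t3 t4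
      _ = _ := by ring

/-- `U` at a smaller strength, `log(λ/l1) ≤ 1` -/
theorem l8pd_U_left {F : LlFix} {p : LlPt} (hx : 0 < p.x) (hs0 : 0 ≤ F.sS) (hs1 : F.sS ≤ 1 / 2) (hlam : 0 < p.lam) {l1 : ℝ} (hl10 : 0 < l1)
    (hl : l1 ≤ p.lam) (hd : Real.log (p.lam / l1) ≤ 1) : (p.wLm l1).U F ≤ 2 * p.U F := by
  have hd0 : 0 ≤ Real.log (p.lam / l1) := Real.log_nonneg ((one_le_div hl10).2 hl)
  have h5 := (lcf_U_le p.x F.sS l1 p.lam hx hs0 hl10 hl).2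
  have h6 : (1 / 2 : ℝ) ≤ (p.lam / l1) ^ (-(F.sS / 2)) := by
    rw [Real.rpow_def_of_pos (div_pos hlam hl10)]
    have := Real.add_one_le_exp (Real.log (p.lam / l1) * -(F.sS / 2))
    nlinarith
  have h7 : 0 < lcfU p.x F.sS l1 := lt_min one_pos (mul_pos hx (Real.rpow_pos_of_pos hl10 _))
  show lcfU p.x F.sS l1 ≤ 2 * lcfU p.x F.sS p.lam
  nlinarith

/-- **P3 (plateau)**   `H_e(ℓ w) = λ_1 (P - M)`, `P = R(U,1,1-w)`, `M = R(U,E_b,w-p_top)` (`ll04h_HePl_eq`, `Υ = 1`), `P, M > 0`: VALUE `≤ λ_1 max(P,M)`.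
PAIR `(q, q2 = q.wLm l2)`: `ρ` of `ll04h_pair`, `ρ E ≤ E2 ≤ E` (`ll04h_Eb_pair`), `ρ R ≤ R2 ≤ R` (`ll04h_R_scale`, `ll04h_R_mono`), so `|R2 - R| ≤ (1-ρ) R ≤ s_* δ R` (`ll04h_sand`);  `λ_1(l2) - λ_1(λ) ≤ (1+η) λ_1(l2) δ`:
`|ΔH_e| ≤ ((1+η) λ_1(l2) + 2 s_* λ_1(λ)) max(P,M)(q) δ`.   Left side: `max(P,M)(q) ≤ ρ⁻¹ max(P,M)(q2)`, `ρ ≥ 1/2` for `h ≤ 1`. -/
theorem l8pd_he_plat (𝔹 : LlBase) (F : LlFix) (hE : LlExpOk F.sS F.eta F.pS) (hF : F.Ok) (hB : LlBaseProfile 𝔹 F.T) (p : LlPt) (hp : p.Ok F)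
    (hU : 2 * p.U F ≤ F.U0 / 2) (v : ℝ) (h1 : 𝔹.pTop F.T ≤ v / p.ell) (h2 : v / p.ell ≤ 1) :
    L8pdLip F p (fun q => q.He F 𝔹 v) (40 * (p.lam1 F * l8pdHw 𝔹 F p (v / p.ell))) := by
  have hx := skw_llc_x_pos hp
  have hlam := skw_llc_lam_pos hp
  have hU0 := skw_llc_U_pos hp
  have hl1 : 0 < p.lam1 F := Real.rpow_pos_of_pos hlam _
  have hs0 : 0 ≤ F.sS := by linarith [hE.s_lo]
  have hs1 := hE.s_hi
  have he0 := hE.e_lo
  have he1 := hE.e_hi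
  have hw : v / p.ell ∈ Icc (𝔹.pTop F.T) 1 := ⟨h1, h2⟩
  have hH0 : 0 ≤ l8pdHw 𝔹 F p (v / p.ell) := by
    refine le_max_of_le_left ?_
    exact (ll04h_R_pos (lt_min hF.U00 hU0) one_pos (by linarith)).le
  have hA : 0 ≤ p.lam1 F * l8pdHw 𝔹 F p (v / p.ell) := mul_nonneg hl1.le hH0
  refine l8pd_lip_of_pair hlam one_pos ?_ ?_ ?_
  · obtain ⟨_, _, _, _, hv, _⟩ := l8pd_plat_pair hF hB hp.N2 hlam le_rfl (by linarith) hw
    show |p.He F 𝔹 v| ≤ _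
    rw [lcc_He_pl v h1]
    linarith
  · intro l2 hl hd _
    have hl2 : 0 < l2 := hlam.trans_le hl
    have hd0 : 0 ≤ Real.log (l2 / p.lam) := Real.log_nonneg ((one_le_div hlam).2 hl)
    obtain ⟨_, _, _, _, _, hk⟩ := l8pd_plat_pair hF hB hp.N2 hlam hl (by linarith) hw
    show |(p.wLm l2).He F 𝔹 v - p.He F 𝔹 v| ≤ _
    rw [lcc_He_pl v h1, lcc_He_pl (p := p.wLm l2) v h1]
    refine hk.trans (mul_le_mul_of_nonneg_right ?_ hd0)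
    have h3 : (p.wLm l2).lam1 F ≤ 8 * p.lam1 F :=
      (l8pd_rpow_e hlam hl2 hd (by linarith) (by linarith)).trans (mul_le_mul_of_nonneg_right l8pd_exp2 hl1.le)
    have h4 : (1 + F.eta) * (p.wLm l2).lam1 F + 2 * F.sS * p.lam1 F ≤ 40 * p.lam1 F := by nlinarith
    calc _ ≤ 40 * p.lam1 F * l8pdHw 𝔹 F p (v / p.ell) := mul_le_mul_of_nonneg_right h4 hH0
      _ = _ := by ring
  · intro l1 hl10 hl hd _
    have hd0 : 0 ≤ Real.log (p.lam / l1) := Real.log_nonneg ((one_le_div hl10).2 hl)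
    have hUq := l8pd_U_left (F := F) hx hs0 hs1.le hlam hl10 hl hd
    obtain ⟨ρ, hρ0, hρs, hρH, _, hk⟩ := l8pd_plat_pair (q := p.wLm l1) (l2 := p.lam) hF hB hp.N2 hl10 hl (by linarith) hw
    have e1 : ((p.wLm l1).wLm p.lam) = p := rfl
    have e2 : (p.wLm l1).lam = l1 := rfl
    rw [e1, e2] at hk
    rw [e1] at hρH
    rw [e2] at hρs
    show |p.He F 𝔹 v - (p.wLm l1).He F 𝔹 v| ≤ _
    rw [lcc_He_pl v h1, lcc_He_pl (p := p.wLm l1) v h1]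
    refine hk.trans (mul_le_mul_of_nonneg_right ?_ hd0)
    have hρ2 : 1 / 2 ≤ ρ := by nlinarith
    have hHq0 : 0 ≤ l8pdHw 𝔹 F (p.wLm l1) (v / p.ell) := by
      refine le_max_of_le_left ?_
      exact (ll04h_R_pos (lt_min hF.U00 (lt_min one_pos (mul_pos hx (Real.rpow_pos_of_pos hl10 _)))) one_pos (by linarith)).le
    have hHq : l8pdHw 𝔹 F (p.wLm l1) (v / p.ell) ≤ 2 * l8pdHw 𝔹 F p (v / p.ell) := by nlinarith
    have h3 : (p.wLm l1).lam1 F ≤ p.lam1 F := Real.rpow_le_rpow hl10.le hl (by linarith)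
    have h30 : 0 < (p.wLm l1).lam1 F := Real.rpow_pos_of_pos hl10 _
    have h4 : (1 + F.eta) * p.lam1 F + 2 * F.sS * (p.wLm l1).lam1 F ≤ 20 * p.lam1 F := by nlinarith
    calc _ ≤ 20 * p.lam1 F * (2 * l8pdHw 𝔹 F p (v / p.ell)) := mul_le_mul h4 hHq hHq0 (by positivity)
      _ = _ := by ring

/-- `E_b` is small when `U` is small: `E1 ∈ {E : Ũ⁴/E² ≤ p_top - A_0(ξ_* - E)}` as soon as `U⁴ ≤ E1² (p_top - A_0(ξ_* - E1))` (`LlBaseProfile.lt_top`; `csInf_le`) -/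
theorem l8pd_Eb_small (𝔹 : LlBase) (F : LlFix) (hF : F.Ok) (hB : LlBaseProfile 𝔹 F.T) (E1 : ℝ) (hE1 : 0 < E1) :
    ∃ U1 : ℝ, 0 < U1 ∧ ∀ p : LlPt, 0 < p.U F → p.U F ≤ U1 → p.Eb F 𝔹 ≤ E1 := by
  have hg : 0 < 𝔹.pTop F.T - 𝔹.A0 F.T (𝔹.xiS F.T - E1) := sub_pos.2 (hB.lt_top _ (by linarith))
  have hc : 0 < E1 ^ 2 * (𝔹.pTop F.T - 𝔹.A0 F.T (𝔹.xiS F.T - E1)) := by positivity
  refine ⟨min 1 (E1 ^ 2 * (𝔹.pTop F.T - 𝔹.A0 F.T (𝔹.xiS F.T - E1))), lt_min one_pos hc, fun p hU0 hU => ?_⟩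
  have hUt0 : 0 < p.Ut F := lt_min hF.U00 hU0
  have hUt : p.Ut F ≤ min 1 (E1 ^ 2 * (𝔹.pTop F.T - 𝔹.A0 F.T (𝔹.xiS F.T - E1))) := (min_le_right _ _).trans hU
  have hUt1 : p.Ut F ≤ 1 := hUt.trans (min_le_left _ _)
  have h4 : p.Ut F ^ 4 ≤ p.Ut F := by
    calc p.Ut F ^ 4 = p.Ut F ^ 3 * p.Ut F := by ring
      _ ≤ 1 * p.Ut F := mul_le_mul_of_nonneg_right (pow_le_one₀ hUt0.le hUt1) hUt0.le
      _ = p.Ut F := one_mul _
  refine csInf_le ⟨0, fun _ hE => hE.1.le⟩ ⟨hE1, ?_⟩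
  rw [div_le_iff₀ (pow_pos hE1 2)]
  calc p.Ut F ^ 4 ≤ E1 ^ 2 * (𝔹.pTop F.T - 𝔹.A0 F.T (𝔹.xiS F.T - E1)) := h4.trans (hUt.trans (min_le_right _ _))
    _ = _ := by ring

/-- the plateau width at the junction is `O(E_b)` -/
theorem l8pd_Hw_top {𝔹 : LlBase} {F : LlFix} (hB : LlBaseProfile 𝔹 F.T) {q : LlPt} (hU0 : 0 < q.Ut F) (hU1 : q.Ut F ≤ 1) :
    l8pdHw 𝔹 F q (𝔹.pTop F.T) ≤ (1 + (1 - 𝔹.pTop F.T) ^ (-(1 / 2) : ℝ)) * q.Eb F 𝔹 := by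
  have hE := ll04h_Eb_pos (p := q) hB hU0 hU1
  have hy0 : 0 < 1 - 𝔹.pTop F.T := by linarith [hB.pTop_mem.2]
  have hg := lcc_rs_pos hy0
  have a2 : ll04hR (q.Ut F) 1 (1 - 𝔹.pTop F.T) ≤ q.Eb F 𝔹 * (1 - 𝔹.pTop F.T) ^ (-(1 / 2) : ℝ) :=
    (ll04h_R_le' one_pos hy0).trans (mul_le_mul_of_nonneg_right (ll04h_Eb hB hU0 hU1).1 hg.le)
  unfold l8pdHw
  rw [sub_self, ll04h_R_zero hU0 hE]
  refine max_le ?_ ?_ <;> nlinarith

/-- the active side along a pair `(q, q.wLm l2)`, `λ ≤ l2`, `Υ = 1`, SAME normalised time `ξ ≤ ξ_*` -/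
theorem l8pd_act_pair {𝔹 : LlBase} {F : LlFix} (hF : F.Ok) (hB : LlBaseProfile 𝔹 F.T) {q : LlPt} (hN : 2 ≤ q.N) (hlam : 0 < q.lam) {l2 : ℝ}
    (hl : q.lam ≤ l2) (hU : q.U F ≤ F.U0 / 2) {ξ : ℝ} (hξ : ξ ≤ 𝔹.xiS F.T) :
    ∃ ρ : ℝ, 0 < ρ ∧ 1 - ρ ≤ F.sS * Real.log (l2 / q.lam) ∧ (q.wLm l2).Eb F 𝔹 ≤ q.Eb F 𝔹 ∧ ρ * q.Eb F 𝔹 ≤ (q.wLm l2).Eb F 𝔹 ∧
      |max 0 ((ξ - (𝔹.xiS F.T - (q.wLm l2).Eb F 𝔹)) / (q.wLm l2).Eb F 𝔹) * (q.wLm l2).HePl F 𝔹 (𝔹.pTop F.T)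
          - max 0 ((ξ - (𝔹.xiS F.T - q.Eb F 𝔹)) / q.Eb F 𝔹) * q.HePl F 𝔹 (𝔹.pTop F.T)|
        ≤ ((1 + F.eta + 2 * F.sS) * (q.wLm l2).lam1 F + 2 * F.sS * q.lam1 F) * ((1 + (1 - 𝔹.pTop F.T) ^ (-(1 / 2) : ℝ)) * q.Eb F 𝔹)
            * Real.log (l2 / q.lam) := by
  obtain ⟨ρ, hρ0, hρ1, hρs, hUU, hUρ, -⟩ := ll04h_pair (F := F) (p := q) hF hN hlam hl
  have hl2 : 0 < l2 := hlam.trans_le hl
  obtain ⟨hU0, hU1, hUm⟩ := ll04h_Ut (p := q) hF hN hlam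
  obtain ⟨hV0, hV1, hVm⟩ := ll04h_Ut (p := q.wLm l2) hF hN hl2
  obtain ⟨hEE, hEρ⟩ := ll04h_Eb_pair (p := q) (p2 := q.wLm l2) hB hV0 hUU hU1 hUρ
  have hE := ll04h_Eb_pos (p := q) hB hU0 hU1
  have hE2 := ll04h_Eb_pos (p := q.wLm l2) hB hV0 hV1
  have hd0 : 0 ≤ Real.log (l2 / q.lam) := Real.log_nonneg ((one_le_div hlam).2 hl)
  have hy0 : 0 < 1 - 𝔹.pTop F.T := by linarith [hB.pTop_mem.2]
  have hg := lcc_rs_pos hy0
  obtain ⟨_, _, _, _, _, hk⟩ := l8pd_plat_pair hF hB hN hlam hl hU (w := 𝔹.pTop F.T) ⟨le_rfl, hB.pTop_mem.2.le⟩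
  have hHw := l8pd_Hw_top (F := F) hB hU0 hU1
  have hL0 : 0 < q.lam1 F := Real.rpow_pos_of_pos hlam _
  have hL20 : 0 < (q.wLm l2).lam1 F := Real.rpow_pos_of_pos hl2 _
  have hT2 := ll04h_HePl_top (p := q.wLm l2) hF hB hL20.le hV0 hV1
  have hr := ll04h_ramp hE hξ
  have hrd := ll04h_ramp_diff (ξ2 := ξ) hE hE2 hξ
  rw [sub_self, abs_zero, add_zero] at hrd
  have hEd := ll04h_sand hEρ hEE
  refine ⟨ρ, hρ0, hρs, hEE, hEρ, ?_⟩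
  obtain ⟨δ, hδ⟩ : ∃ δ, δ = Real.log (l2 / q.lam) := ⟨_, rfl⟩
  obtain ⟨G, hG⟩ : ∃ G, G = 1 + (1 - 𝔹.pTop F.T) ^ (-(1 / 2) : ℝ) := ⟨_, rfl⟩
  obtain ⟨r, hrr⟩ : ∃ r, r = max 0 ((ξ - (𝔹.xiS F.T - q.Eb F 𝔹)) / q.Eb F 𝔹) := ⟨_, rfl⟩
  obtain ⟨r2, hr2⟩ : ∃ r2, r2 = max 0 ((ξ - (𝔹.xiS F.T - (q.wLm l2).Eb F 𝔹)) / (q.wLm l2).Eb F 𝔹) := ⟨_, rfl⟩
  obtain ⟨T, hT⟩ : ∃ T, T = q.HePl F 𝔹 (𝔹.pTop F.T) := ⟨_, rfl⟩
  obtain ⟨T2, hTT⟩ : ∃ T2, T2 = (q.wLm l2).HePl F 𝔹 (𝔹.pTop F.T) := ⟨_, rfl⟩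
  obtain ⟨E, hEe⟩ : ∃ E, E = q.Eb F 𝔹 := ⟨_, rfl⟩
  obtain ⟨E2, hEe2⟩ : ∃ E2, E2 = (q.wLm l2).Eb F 𝔹 := ⟨_, rfl⟩
  obtain ⟨Λ, hΛ⟩ : ∃ Λ, Λ = q.lam1 F := ⟨_, rfl⟩
  obtain ⟨Λ2, hΛ2⟩ : ∃ Λ2, Λ2 = (q.wLm l2).lam1 F := ⟨_, rfl⟩
  obtain ⟨Hw, hHH⟩ : ∃ Hw, Hw = l8pdHw 𝔹 F q (𝔹.pTop F.T) := ⟨_, rfl⟩
  rw [← hδ, ← hT, ← hTT, ← hΛ, ← hΛ2, ← hHH] at hk
  rw [← hG, ← hEe, ← hHH] at hHw
  rw [← hG, ← hTT, ← hΛ2, ← hEe2] at hT2
  rw [← hrr] at hr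
  rw [← hrr, ← hr2, ← hEe, ← hEe2] at hrd
  rw [← hEe, ← hEe2] at hEd
  rw [← hδ] at hd0 hρs
  rw [← hEe] at hE
  rw [← hEe2] at hE2
  rw [← hΛ] at hL0
  rw [← hΛ2] at hL20
  rw [← hδ, ← hG, ← hrr, ← hr2, ← hT, ← hTT, ← hEe, ← hΛ, ← hΛ2]
  have hG0 : 0 < G := by rw [hG]; positivity
  have hs0 := hF.sS0
  have he0 := hF.eta0
  have e : r2 * T2 - r * T = (r2 - r) * T2 + r * (T2 - T) := by ring
  have t1 : |(r2 - r) * T2| ≤ Λ2 * G * (2 * (F.sS * δ * E)) := by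
    rw [abs_mul]
    calc |r2 - r| * |T2| ≤ |r2 - r| * (Λ2 * (G * E2)) := mul_le_mul_of_nonneg_left hT2 (abs_nonneg _)
      _ = Λ2 * G * (|r2 - r| * E2) := by ring
      _ ≤ Λ2 * G * (2 * (F.sS * δ * E)) := by
          refine mul_le_mul_of_nonneg_left ?_ (by positivity)
          have : (1 - ρ) * E ≤ F.sS * δ * E := mul_le_mul_of_nonneg_right hρs hE.le
          linarith
  have t2 : |r * (T2 - T)| ≤ ((1 + F.eta) * Λ2 + 2 * F.sS * Λ) * (G * E) * δ := by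
    rw [abs_mul, abs_of_nonneg hr.1]
    refine (mul_le_of_le_one_left (abs_nonneg _) hr.2).trans (hk.trans ?_)
    exact mul_le_mul_of_nonneg_right (mul_le_mul_of_nonneg_left hHw (by positivity)) hd0
  rw [e]
  calc _ ≤ |(r2 - r) * T2| + |r * (T2 - T)| := abs_add_le _ _
    _ ≤ Λ2 * G * (2 * (F.sS * δ * E)) + ((1 + F.eta) * Λ2 + 2 * F.sS * Λ) * (G * E) * δ := add_le_add t1 t2
    _ = _ := by ring

/-- the normalised time at mass `0` -/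
theorem l8pd_xi_zero {𝔹 : LlBase} {F : LlFix} (hF : F.Ok) (hB : LlBaseProfile 𝔹 F.T) {q : LlPt} (hsm : q.sm = false) : q.xi F 𝔹 0 = 0 := by
  rw [lcx_xi_direct hsm, zero_div]
  have hA : (0 : ℝ) ≤ q.Adir F 𝔹 0 := by
    unfold LlPt.Adir
    have h1 := hF.P_nn 0 le_rfl
    have h2 : F.P 0 = 0 := le_antisymm h1.2 h1.1
    rw [hB.zero 0 le_rfl, h2]; simp
  exact le_antisymm (csInf_le ⟨0, fun _ h => h.1⟩ ⟨le_rfl, hA⟩) (le_csInf ⟨0, le_rfl, hA⟩ fun _ h => h.1)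

/-- the ramp vanishes below its foot -/
theorem l8pd_ramp_zero {E ξ xS : ℝ} (hE : 0 < E) (h : ξ ≤ xS - E) : max 0 ((ξ - (xS - E)) / E) = 0 :=
  max_eq_left (div_nonpos_of_nonpos_of_nonneg (by linarith) hE.le)

/-- a function which vanishes at the point and at its admissible neighbours -/
theorem l8pd_lip_zero {F : LlFix} {p : LlPt} (hp : 0 < p.lam) {f : LlPt → ℝ} {B h : ℝ} (hB : 0 ≤ B) (hh : 0 < h) (h0 : f p = 0)
    (hr : ∀ l2, p.lam ≤ l2 → Real.log (l2 / p.lam) ≤ h → (p.wLm l2).Ok F → f (p.wLm l2) = 0)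
    (hl : ∀ l1, 0 < l1 → l1 ≤ p.lam → Real.log (p.lam / l1) ≤ h → (p.wLm l1).Ok F → f (p.wLm l1) = 0) : L8pdLip F p f B := by
  refine l8pd_lip_of_pair hp hh (by rw [h0, abs_zero]; exact hB) ?_ ?_
  · intro l2 a b c
    rw [h0, hr l2 a b c, sub_zero, abs_zero]
    exact mul_nonneg hB (Real.log_nonneg ((one_le_div hp).2 a))
  · intro l1 a0 a b c
    rw [h0, hl l1 a0 a b c, sub_zero, abs_zero]
    exact mul_nonneg hB (Real.log_nonneg ((one_le_div a0).2 a))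

/-- the ramp is active at the base point, the time does not move -/
theorem l8pd_act_on {𝔹 : LlBase} {F : LlFix} (hE : LlExpOk F.sS F.eta F.pS) (hF : F.Ok) (hB : LlBaseProfile 𝔹 F.T) {p : LlPt} (hp : p.Ok F)
    (hUb : 2 * p.U F ≤ F.U0 / 2) {v : ℝ} (hvp : v / p.ell < 𝔹.pTop F.T) (hξS : p.xi F 𝔹 v ≤ 𝔹.xiS F.T)
    (hfar : ∀ l, (p.wLm l).Ok F → (p.wLm l).xi F 𝔹 v = p.xi F 𝔹 v) :
    L8pdLip F p (fun q => q.He F 𝔹 v) (40 * (1 + (1 - 𝔹.pTop F.T) ^ (-(1 / 2) : ℝ)) * (p.lam1 F * p.Eb F 𝔹)) := by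
  have hy0 : 0 < 1 - 𝔹.pTop F.T := by linarith [hB.pTop_mem.2]
  have hg := lcc_rs_pos hy0
  obtain ⟨G, hG⟩ : ∃ G, G = 1 + (1 - 𝔹.pTop F.T) ^ (-(1 / 2) : ℝ) := ⟨_, rfl⟩
  have hG0 : 0 < G := by rw [hG]; positivity
  rw [← hG]
  have hs0 : 0 < F.sS := hF.sS0
  have hs1 := hE.s_hi
  have he0 := hE.e_lo
  have he1 := hE.e_hi
  have hx := skw_llc_x_pos hp
  have hlam := skw_llc_lam_pos hp
  have hUp := skw_llc_U_pos hp
  have hl1 : 0 < p.lam1 F := Real.rpow_pos_of_pos hlam _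
  obtain ⟨hUt0, hUt1, -⟩ := ll04h_Ut (p := p) hF hp.N2 hlam
  have hEp := ll04h_Eb_pos (p := p) hB hUt0 hUt1
  have hact : ∀ l, (p.wLm l).He F 𝔹 v
      = max 0 (((p.wLm l).xi F 𝔹 v - (𝔹.xiS F.T - (p.wLm l).Eb F 𝔹)) / (p.wLm l).Eb F 𝔹) * (p.wLm l).HePl F 𝔹 (𝔹.pTop F.T) :=
    fun l => lcc_He_act (p := p.wLm l) v hvp
  have hact0 := lcc_He_act (F := F) (𝔹 := 𝔹) (p := p) v hvp
  have hA : 0 < p.lam1 F * p.Eb F 𝔹 := mul_pos hl1 hEp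
  have hGA : 0 < G * (p.lam1 F * p.Eb F 𝔹) := mul_pos hG0 hA
  refine l8pd_lip_of_pair hlam one_pos ?_ ?_ ?_
  · show |p.He F 𝔹 v| ≤ _
    have h1 := ll04h_HePl_top (p := p) hF hB hl1.le hUt0 hUt1
    have h2 := ll04h_ramp hEp hξS
    rw [← hG] at h1
    rw [hact0, abs_mul, abs_of_nonneg h2.1]
    refine (mul_le_of_le_one_left (abs_nonneg _) h2.2).trans (h1.trans ?_)
    have e : p.lam1 F * (G * p.Eb F 𝔹) = G * (p.lam1 F * p.Eb F 𝔹) := by ring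
    have e' : 40 * G * (p.lam1 F * p.Eb F 𝔹) = 40 * (G * (p.lam1 F * p.Eb F 𝔹)) := by ring
    rw [e, e']; linarith
  · intro l2 hl hd hq
    have hl2 : 0 < l2 := hlam.trans_le hl
    have hd0 : 0 ≤ Real.log (l2 / p.lam) := Real.log_nonneg ((one_le_div hlam).2 hl)
    obtain ⟨_, _, _, _, _, hk⟩ := l8pd_act_pair hF hB hp.N2 hlam hl (by linarith) hξS
    show |(p.wLm l2).He F 𝔹 v - p.He F 𝔹 v| ≤ _
    rw [hact l2, hact0, hfar l2 hq]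
    rw [← hG] at hk
    refine hk.trans (mul_le_mul_of_nonneg_right ?_ hd0)
    have h3 : (p.wLm l2).lam1 F ≤ 8 * p.lam1 F :=
      (l8pd_rpow_e hlam hl2 hd (by linarith) (by linarith)).trans (mul_le_mul_of_nonneg_right l8pd_exp2 hl1.le)
    have h30 : 0 < (p.wLm l2).lam1 F := Real.rpow_pos_of_pos hl2 _
    have h4 : (1 + F.eta + 2 * F.sS) * (p.wLm l2).lam1 F + 2 * F.sS * p.lam1 F ≤ 40 * p.lam1 F := by
      have a1 : (1 + F.eta + 2 * F.sS) * (p.wLm l2).lam1 F ≤ 3 * (8 * p.lam1 F) :=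
        mul_le_mul (by linarith) h3 h30.le (by norm_num)
      have a2 : 2 * F.sS * p.lam1 F ≤ 1 * p.lam1 F := mul_le_mul_of_nonneg_right (by linarith) hl1.le
      linarith
    calc _ ≤ 40 * p.lam1 F * (G * p.Eb F 𝔹) := mul_le_mul_of_nonneg_right h4 (by positivity)
      _ = _ := by ring
  · intro l1 hl10 hl hd hq
    have hd0 : 0 ≤ Real.log (p.lam / l1) := Real.log_nonneg ((one_le_div hl10).2 hl)
    have hUq := l8pd_U_left (F := F) hx hs0.le hs1.le hlam hl10 hl hd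
    obtain ⟨ρ, hρ0, hρs, _, hρE, hk⟩ := l8pd_act_pair (q := p.wLm l1) (l2 := p.lam) hF hB hp.N2 hl10 hl (by linarith) hξS
    have e1 : ((p.wLm l1).wLm p.lam) = p := rfl
    have e2 : (p.wLm l1).lam = l1 := rfl
    rw [e1, e2] at hk
    rw [e1] at hρE
    rw [e2] at hρs
    show |p.He F 𝔹 v - (p.wLm l1).He F 𝔹 v| ≤ _
    rw [hact l1, hact0, hfar l1 hq]
    rw [← hG] at hk
    refine hk.trans (mul_le_mul_of_nonneg_right ?_ hd0)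
    have hρ2 : 1 / 2 ≤ ρ := by
      have : F.sS * Real.log (p.lam / l1) ≤ 1 / 2 * 1 := mul_le_mul hs1.le hd hd0 (by norm_num)
      linarith
    obtain ⟨a1, a2, -⟩ := ll04h_Ut (p := p.wLm l1) hF hp.N2 hl10
    have hEq0 := ll04h_Eb_pos (p := p.wLm l1) hB a1 a2
    have hE2 : (p.wLm l1).Eb F 𝔹 ≤ 2 * p.Eb F 𝔹 := by
      have := mul_le_mul_of_nonneg_right hρ2 hEq0.le
      linarith
    have h3 : (p.wLm l1).lam1 F ≤ p.lam1 F := Real.rpow_le_rpow hl10.le hl (by linarith)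
    have h30 : 0 < (p.wLm l1).lam1 F := Real.rpow_pos_of_pos hl10 _
    have h4 : (1 + F.eta + 2 * F.sS) * p.lam1 F + 2 * F.sS * (p.wLm l1).lam1 F ≤ 20 * p.lam1 F := by
      have b1 : (1 + F.eta + 2 * F.sS) * p.lam1 F ≤ 3 * p.lam1 F := mul_le_mul_of_nonneg_right (by linarith) hl1.le
      have b2 : 2 * F.sS * (p.wLm l1).lam1 F ≤ 1 * p.lam1 F := mul_le_mul (by linarith) h3 h30.le (by norm_num)
      linarith
    calc _ ≤ 20 * p.lam1 F * (G * (2 * p.Eb F 𝔹)) :=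
          mul_le_mul h4 (mul_le_mul_of_nonneg_left hE2 hG0.le) (by positivity) (by positivity)
      _ = _ := by ring

/-- strictly below the foot of the ramp, the time does not move: zero in a neighbourhood -/
theorem l8pd_act_off {𝔹 : LlBase} {F : LlFix} (hE : LlExpOk F.sS F.eta F.pS) (hF : F.Ok) (hB : LlBaseProfile 𝔹 F.T) {p : LlPt} (hp : p.Ok F)
    (hUb : 2 * p.U F ≤ F.U0 / 2) {v : ℝ} (hvp : v / p.ell < 𝔹.pTop F.T) (hξS : p.xi F 𝔹 v ≤ 𝔹.xiS F.T)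
    (hfar : ∀ l, (p.wLm l).Ok F → (p.wLm l).xi F 𝔹 v = p.xi F 𝔹 v) (hr : p.xi F 𝔹 v < 𝔹.xiS F.T - p.Eb F 𝔹) :
    L8pdLip F p (fun q => q.He F 𝔹 v) 0 := by
  have hs0 : 0 < F.sS := hF.sS0
  have hs1 := hE.s_hi
  have hx := skw_llc_x_pos hp
  have hlam := skw_llc_lam_pos hp
  have hUp := skw_llc_U_pos hp
  obtain ⟨hUt0, hUt1, -⟩ := ll04h_Ut (p := p) hF hp.N2 hlam
  have hEp := ll04h_Eb_pos (p := p) hB hUt0 hUt1
  have hact : ∀ l, (p.wLm l).He F 𝔹 v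
      = max 0 (((p.wLm l).xi F 𝔹 v - (𝔹.xiS F.T - (p.wLm l).Eb F 𝔹)) / (p.wLm l).Eb F 𝔹) * (p.wLm l).HePl F 𝔹 (𝔹.pTop F.T) :=
    fun l => lcc_He_act (p := p.wLm l) v hvp
  have hact0 := lcc_He_act (F := F) (𝔹 := 𝔹) (p := p) v hvp
  obtain ⟨D, hD⟩ : ∃ D, D = 𝔹.xiS F.T - p.xi F 𝔹 v := ⟨_, rfl⟩
  have hDE : p.Eb F 𝔹 < D := by rw [hD]; linarith
  have hD0 : 0 < D := hEp.trans hDE
  obtain ⟨h, hh⟩ : ∃ h, h = min 1 ((1 - p.Eb F 𝔹 / D) / F.sS) := ⟨_, rfl⟩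
  have hκ : 0 < 1 - p.Eb F 𝔹 / D := by
    rw [sub_pos, div_lt_one hD0]; exact hDE
  have hh0 : 0 < h := by rw [hh]; exact lt_min one_pos (div_pos hκ hs0)
  refine l8pd_lip_zero hlam le_rfl hh0 ?_ ?_ ?_
  · show p.He F 𝔹 v = 0
    rw [hact0, l8pd_ramp_zero hEp hr.le, zero_mul]
  · intro l2 hl hd hq
    have hl2 : 0 < l2 := hlam.trans_le hl
    obtain ⟨_, _, _, hEE, _, _⟩ := l8pd_act_pair hF hB hp.N2 hlam hl (by linarith) hξS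
    obtain ⟨a1, a2, -⟩ := ll04h_Ut (p := p.wLm l2) hF hp.N2 hl2
    have hEq0 := ll04h_Eb_pos (p := p.wLm l2) hB a1 a2
    show (p.wLm l2).He F 𝔹 v = 0
    rw [hact l2, hfar l2 hq, l8pd_ramp_zero hEq0 (by linarith), zero_mul]
  · intro l1 hl10 hl hd hq
    have hd1 : Real.log (p.lam / l1) ≤ 1 := hd.trans (by rw [hh]; exact min_le_left _ _)
    have hd2 : Real.log (p.lam / l1) ≤ (1 - p.Eb F 𝔹 / D) / F.sS := hd.trans (by rw [hh]; exact min_le_right _ _)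
    have hUq := l8pd_U_left (F := F) hx hs0.le hs1.le hlam hl10 hl hd1
    obtain ⟨ρ, hρ0, hρs, _, hρE, _⟩ := l8pd_act_pair (q := p.wLm l1) (l2 := p.lam) hF hB hp.N2 hl10 hl (by linarith) hξS
    have e1 : ((p.wLm l1).wLm p.lam) = p := rfl
    have e2 : (p.wLm l1).lam = l1 := rfl
    rw [e1] at hρE
    rw [e2] at hρs
    obtain ⟨a1, a2, -⟩ := ll04h_Ut (p := p.wLm l1) hF hp.N2 hl10
    have hEq0 := ll04h_Eb_pos (p := p.wLm l1) hB a1 a2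
    have h5 : F.sS * Real.log (p.lam / l1) ≤ 1 - p.Eb F 𝔹 / D := by
      rw [le_div_iff₀ hs0] at hd2; linarith
    have h6 : p.Eb F 𝔹 / D ≤ ρ := by linarith
    have h7 : (p.wLm l1).Eb F 𝔹 ≤ D := by
      rw [div_le_iff₀ hD0] at h6
      have h8 : ρ * (p.wLm l1).Eb F 𝔹 ≤ ρ * D := hρE.trans h6
      exact le_of_mul_le_mul_left h8 hρ0
    show (p.wLm l1).He F 𝔹 v = 0
    rw [hact l1, hfar l1 hq, l8pd_ramp_zero hEq0 (by rw [hD] at h7; linarith), zero_mul]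

/-- below `z_0` at the point and at its neighbours, `E_b ≤ ξ_*/4`: everything vanishes -/
theorem l8pd_act_low {𝔹 : LlBase} {F : LlFix} (hE : LlExpOk F.sS F.eta F.pS) (hF : F.Ok) (hB : LlBaseProfile 𝔹 F.T) {p : LlPt} (hp : p.Ok F)
    (hz : 2 * F.z0 ≤ 𝔹.xiS F.T) {v : ℝ} (hvp : v / p.ell < 𝔹.pTop F.T) {B : ℝ} (hB0 : 0 ≤ B)
    (hEq : ∀ l, 0 < l → (p.wLm l).U F ≤ 2 * p.U F → (p.wLm l).Eb F 𝔹 ≤ 𝔹.xiS F.T / 4)
    (hnear : ∀ l, (p.wLm l).Ok F → (p.wLm l).xi F 𝔹 v < F.z0) :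
    L8pdLip F p (fun q => q.He F 𝔹 v) B := by
  have hs0 : 0 < F.sS := hF.sS0
  have hs1 := hE.s_hi
  have hx := skw_llc_x_pos hp
  have hlam := skw_llc_lam_pos hp
  have hUp := skw_llc_U_pos hp
  have hxS := hB.xi_pos
  have hzq : ∀ l, 0 < l → (p.wLm l).Ok F → (p.wLm l).U F ≤ 2 * p.U F → (p.wLm l).He F 𝔹 v = 0 := fun l hl hq hUq => by
    obtain ⟨a1, a2, -⟩ := ll04h_Ut (p := p.wLm l) hF hp.N2 hl
    have hEq0 := ll04h_Eb_pos (p := p.wLm l) hB a1 a2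
    have h4 := hEq l hl hUq
    rw [lcc_He_act (p := p.wLm l) v hvp, l8pd_ramp_zero hEq0 (by linarith [hnear l hq]), zero_mul]
  refine l8pd_lip_zero hlam hB0 one_pos ?_ ?_ ?_
  · exact hzq p.lam hlam hp (by show p.U F ≤ _; linarith)
  · intro l2 hl hd hq
    refine hzq l2 (hlam.trans_le hl) hq ?_
    have := (lcf_U_le p.x F.sS p.lam l2 hx hs0.le hlam hl).1
    have e1 : (p.wLm l2).U F = lcfU p.x F.sS l2 := rfl
    have e2 : p.U F = lcfU p.x F.sS p.lam := rfl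
    rw [e1]; rw [e2] at hUp ⊢; linarith
  · intro l1 hl10 hl hd hq
    exact hzq l1 hl10 hq (l8pd_U_left (F := F) hx hs0.le hs1.le hlam hl10 hl hd)

/-- **P4 (active side)**   `H_e(v) = ramp(ξ(v), E_b) · HePl(p_top)`, `ramp = max 0 ((ξ - (ξ_* - E))/E) ∈ [0,1]`, `|HePl(p_top)| ≤ C λ_1 E_b` (`ll04h_HePl_top`).
The normalised time does not move near the ramp: `ξ(v) ≥ z_0 ⟹ ξ'(v) = ξ(v)` (`RegL.K_far`, `K = ℓ⁻² ξ`), hence also `ξ(v) < z_0 ⟹ ξ'(v) < z_0`;   `z_0 ≤ ξ_*/2 ≤ ξ_* - E_b`.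
PAIR `(q, q2)`, `E2 ≤ E`: both vanish if `ξ ≤ ξ_* - E`; otherwise `|Δramp| E2 ≤ 2 |E2 - E| ≤ 2 (1-ρ) E` (`ll04h_ramp_diff`) and P3 at `w = p_top`.
LEFT SIDE at a base point with `ξ(v) < ξ_* - E_b` STRICTLY: choose `h` with `E_b/(1 - s_* h) ≤ ξ_* - ξ(v)` (this is why the Lipschitz constant is LOCAL). -/
theorem l8pd_he_act (𝔹 : LlBase) (F : LlFix) (hE : LlExpOk F.sS F.eta F.pS) (hB : LlBaseProfile 𝔹 F.T) (h3 : LlSec3 𝔹 F)
    (hz : 2 * F.z0 ≤ 𝔹.xiS F.T) :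
    ∃ (C U1 : ℝ) (N0 : ℕ), 0 ≤ C ∧ 0 < U1 ∧ ∀ p : LlPt, p.Ok F → N0 ≤ p.N → p.sm = false → p.U F ≤ U1 → ∀ v, 0 ≤ v → v / p.ell < 𝔹.pTop F.T →
      L8pdLip F p (fun q => q.He F 𝔹 v) (C * (if 𝔹.xiS F.T - p.Eb F 𝔹 ≤ p.xi F 𝔹 v then p.lam1 F * p.Eb F 𝔹 else 0)) := by
  have hF := h3.ok
  obtain ⟨CR, ξ0, _, N0, hReg⟩ := h3.regL
  have hxS := hB.xi_pos
  obtain ⟨U1', hU1', hEbs⟩ := l8pd_Eb_small 𝔹 F hF hB (𝔹.xiS F.T / 4) (by positivity)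
  have hy0 : 0 < 1 - 𝔹.pTop F.T := by linarith [hB.pTop_mem.2]
  have hg := lcc_rs_pos hy0
  refine ⟨40 * (1 + (1 - 𝔹.pTop F.T) ^ (-(1 / 2) : ℝ)), min (U1' / 2) (F.U0 / 4), N0, by positivity,
    lt_min (by positivity) (by have := hF.U00; positivity), ?_⟩
  intro p hp hN hsm hU v hv0 hvp
  have hx := skw_llc_x_pos hp
  have hlam := skw_llc_lam_pos hp
  have hUa : 2 * p.U F ≤ U1' := by have := hU.trans (min_le_left _ _); linarith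
  have hUb : 2 * p.U F ≤ F.U0 / 2 := by have := hU.trans (min_le_right _ _); linarith
  have hell : 0 < p.ell := by linarith [hp.ell1]
  have hl1 : 0 < p.lam1 F := Real.rpow_pos_of_pos hlam _
  obtain ⟨hUt0, hUt1, -⟩ := ll04h_Ut (p := p) hF hp.N2 hlam
  have hEp := ll04h_Eb_pos (p := p) hB hUt0 hUt1
  have hξS := lcx_xi_act (F := F) (𝔹 := 𝔹) (p := p) hsm (fun ξ hξ => (hF.P_nn ξ hξ).1) hlam.le hxS hvp
  have hmem : 0 < v → v ∈ Ioo 0 p.ell := fun h => ⟨h, by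
    have h1 := (div_lt_iff₀ hell).1 hvp
    have h2 : 𝔹.pTop F.T * p.ell ≤ 1 * p.ell := mul_le_mul_of_nonneg_right hB.pTop_mem.2.le hell.le
    linarith⟩
  have hainv : (p.ell ^ 2)⁻¹ ≠ 0 := by positivity
  rcases lt_or_ge (p.xi F 𝔹 v) F.z0 with hc | hc
  · refine l8pd_act_low hE hF hB hp hz hvp (by split_ifs <;> positivity) ?_ ?_
    · intro l hl hUq
      exact hEbs _ (lt_min one_pos (mul_pos hx (Real.rpow_pos_of_pos hl _))) (hUq.trans hUa)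
    · intro l hq
      by_contra hcon
      push Not at hcon
      rcases hv0.eq_or_lt with rfl | hvpos
      · rw [l8pd_xi_zero (q := p.wLm l) hF hB hsm] at hcon
        linarith [hF.z00]
      · have hR := hReg (p.wLm l) hq hN hsm p.lam hp.lam_lo hp.lam_hi
        have ha : (p.wLm l).a = p.ell := by
          unfold LlPt.a
          rw [show (p.wLm l).sm = false from hsm]
          rfl
        have := hR.K_far v (by rw [ha]; exact hmem hvpos) hcon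
        have e : (p.wLm l).xi F 𝔹 v = p.xi F 𝔹 v := (mul_left_cancel₀ hainv this).symm
        linarith
  · have hfar : ∀ l, (p.wLm l).Ok F → (p.wLm l).xi F 𝔹 v = p.xi F 𝔹 v := by
      intro l hq
      rcases hv0.eq_or_lt with rfl | hvpos
      · rw [l8pd_xi_zero hF hB hsm, l8pd_xi_zero (q := p.wLm l) hF hB hsm]
      · have hR := hReg p hp hN hsm l hq.lam_lo hq.lam_hi
        have ha : p.a = p.ell := by
          unfold LlPt.a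
          rw [hsm]
          rfl
        have := hR.K_far v (by rw [ha]; exact hmem hvpos) hc
        exact mul_left_cancel₀ hainv this
    rcases le_or_gt (𝔹.xiS F.T - p.Eb F 𝔹) (p.xi F 𝔹 v) with hr | hr
    · rw [if_pos hr]
      exact l8pd_act_on hE hF hB hp hUb hvp hξS hfar
    · rw [if_neg (not_le.2 hr), mul_zero]
      exact l8pd_act_off hE hF hB hp hUb hvp hξS hfar hr

/-- the matrix clock at the mass `0` -/
theorem l8pd_b_zero {𝔹 : LlBase} {F : LlFix} (hF : F.Ok) (q : LlPt) :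
    q.b F 𝔹 0 = q.b0 F 𝔹 - F.cb * (1 + F.c1 * q.gam0) * (q.lam * q.U F ^ 2) := by
  have hG : q.G F 0 = 0 := by
    unfold LlPt.G
    rw [if_pos hF.vb0.le, zero_div, hF.G0_zero 0 (by norm_num), mul_zero]
  have hphi : F.phi 0 = 0 := hF.phi_supp 0 (fun h => by have := h.1; norm_num at this)
  have hD : q.dySum F 0 = 0 := by
    unfold LlPt.dySum
    apply finsum_eq_zero_of_forall_eq_zero
    intro h
    rw [zero_div, hphi, mul_zero]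
    simp
  unfold LlPt.b
  rw [hG, hD]; ring

/-- the physical gap is the normalised gap -/
theorem l8pd_gap_eq {𝔹 : LlBase} {F : LlFix} (q : LlPt) (hell : 0 < q.ell) (t : ℝ) : q.gap F 𝔹 t = q.gapN F 𝔹 (q.ell ^ 2 * t) := by
  have h2 : q.ell ^ 2 ≠ 0 := by positivity
  unfold LlPt.gap LlPt.gapN LlPt.b0 LlPt.Gam1
  rw [mul_zero, one_div, ← div_eq_inv_mul, mul_div_mul_left _ _ h2]

/-- two primitives -/
theorem l8pd_int_diff {g g2 : ℝ → ℝ} {K K2 R a e : ℝ} (hg : ContinuousOn g (Ici 0)) (hg2 : ContinuousOn g2 (Ici 0)) (hK : 0 ≤ K) (hK2 : 0 ≤ K2)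
    (hKR : K ≤ R) (hK2R : K2 ≤ R) (ha : ∀ t, 0 ≤ t → t ≤ R → |g2 t| ≤ a) (he : ∀ t, 0 ≤ t → t ≤ R → |g2 t - g t| ≤ e) :
    |(∫ t in (0 : ℝ)..K2, g2 t) - ∫ t in (0 : ℝ)..K, g t| ≤ a * |K2 - K| + e * K := by
  have hi : ∀ {f : ℝ → ℝ}, ContinuousOn f (Ici 0) → ∀ {x : ℝ}, 0 ≤ x → IntervalIntegrable f volume 0 x := fun hf x hx =>
    (hf.mono (by rw [uIcc_of_le hx]; exact fun t ht => ht.1)).intervalIntegrable
  have e1 : (∫ t in (0 : ℝ)..K2, g2 t) - ∫ t in (0 : ℝ)..K, g t = (∫ t in K..K2, g2 t) + ∫ t in (0 : ℝ)..K, (g2 t - g t) := by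
    rw [intervalIntegral.integral_sub (hi hg2 hK) (hi hg hK), ← intervalIntegral.integral_interval_sub_left (hi hg2 hK2) (hi hg2 hK)]
    ring
  have b1 : |∫ t in K..K2, g2 t| ≤ a * |K2 - K| := by
    rw [← Real.norm_eq_abs]
    refine intervalIntegral.norm_integral_le_of_norm_le_const fun t ht => ?_
    rw [uIoc, mem_Ioc] at ht
    rw [Real.norm_eq_abs]
    exact ha t ((le_min hK hK2).trans ht.1.le) (ht.2.trans (max_le hKR hK2R))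
  have b2 : |∫ t in (0 : ℝ)..K, (g2 t - g t)| ≤ e * |K - 0| := by
    rw [← Real.norm_eq_abs]
    refine intervalIntegral.norm_integral_le_of_norm_le_const fun t ht => ?_
    rw [uIoc_of_le hK] at ht
    rw [Real.norm_eq_abs]
    exact he t ht.1.le (ht.2.trans hKR)
  rw [sub_zero, abs_of_nonneg hK] at b2
  rw [e1]
  exact (abs_add_le _ _).trans (add_le_add b1 b2)

/-- what is known at a point of the mask -/
structure L8pdMp (𝔹 : LlBase) (F : LlFix) (q : LlPt) (C v : ℝ) : Prop where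
  K0 : 0 ≤ q.K F 𝔹 v
  KC : q.K F 𝔹 v ≤ C * v
  q0 : 0 ≤ q.q F 𝔹 v
  qC : q.q F 𝔹 v ≤ C * v
  hS : q.hS F 𝔹 v = (∫ t in (0 : ℝ)..q.K F 𝔹 v, q.gap F 𝔹 t) + F.cb * (1 + F.c1 * q.gam0) * (q.lam * q.U F ^ 2) * q.q F 𝔹 v
  gc : ContinuousOn (q.gap F 𝔹) (Ici 0)
  g0 : ∀ t, 0 ≤ t → 0 ≤ q.gap F 𝔹 t
  gC : ∀ t, 0 ≤ t → t ≤ C * v → q.gap F 𝔹 t ≤ C * q.lam * t ^ 2

theorem l8pd_mp {𝔹 : LlBase} {F : LlFix} (hF : F.Ok) {q : LlPt} {c C C' v0 v : ℝ} (hc : 0 < c) (hR : q.Ref F 𝔹 c C v0) (hCC : C ≤ C')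
    (hlam : 0 < q.lam) (hsm : q.sm = false) (hell : q.ell ^ 2 ≤ 2) (hb : q.b F 𝔹 v = q.b F 𝔹 0) (hv : 0 < v) (hv0 : v ≤ v0)
    (hv1 : v < q.ell) (hxi : 2 * (C' * v) ≤ 𝔹.xiS F.T) : L8pdMp 𝔹 F q C' v := by
  have ha : q.a = q.ell := by
    unfold LlPt.a
    rw [hsm]
    rfl
  have hva : v ∈ Ioo 0 q.a := by rw [ha]; exact ⟨hv, hv1⟩
  have hK0 : 0 ≤ q.K F 𝔹 v := (mul_nonneg hc.le hv.le).trans (hR.K_lo0 v hv hv0)
  have hgI : IntervalIntegrable (q.Gam1 F 𝔹) volume 0 (q.K F 𝔹 v) :=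
    (hR.g1_cont.mono (by rw [uIcc_of_le hK0]; exact fun t ht => ht.1)).intervalIntegrable
  refine ⟨hK0, (hR.K_hi0 v hv hv0).trans (mul_le_mul_of_nonneg_right hCC hv.le), (mul_nonneg hc.le hv.le).trans (hR.q_lo v hva),
    (hR.q_hi v hva).trans (mul_le_mul_of_nonneg_right hCC hv.le), ?_, continuousOn_const.sub (continuousOn_const.mul hR.g1_cont), ?_, ?_⟩
  · have hq : q.q F 𝔹 v = ∫ s in (0 : ℝ)..q.K F 𝔹 v, q.Gam1 F 𝔹 s := by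
      have := hR.gam_ftc 0 (q.K F 𝔹 v) le_rfl hK0
      rw [hR.gam_zero, sub_zero] at this
      exact this
    have e : (∫ t in (0 : ℝ)..q.K F 𝔹 v, q.gap F 𝔹 t) = q.K F 𝔹 v - q.b0 F 𝔹 * q.q F 𝔹 v := by
      unfold LlPt.gap
      rw [intervalIntegral.integral_sub intervalIntegrable_const (hgI.const_mul _), intervalIntegral.integral_const_mul, ← hq]
      simp
    rw [e]
    unfold LlPt.hS
    rw [hb, l8pd_b_zero hF]
    ring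
  · intro t ht
    refine le_trans ?_ (hR.gap_lo t ht)
    have : 0 ≤ min (t ^ 2) 1 := le_min (sq_nonneg _) zero_le_one
    positivity
  · intro t ht htC
    have h1 : q.ell ^ 2 * t ≤ 𝔹.xiS F.T := by
      calc q.ell ^ 2 * t ≤ 2 * (C' * v) := mul_le_mul hell htC ht (by norm_num)
        _ ≤ _ := hxi
    refine (hR.gap_hi t ht h1).trans ?_
    exact mul_le_mul_of_nonneg_right (mul_le_mul_of_nonneg_right hCC hlam.le) (sq_nonneg _)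

/-- `|l2 U2² - λ U²| ≤ 2 l2 U² δ` -/
theorem l8pd_lamU2 {x s lam l2 : ℝ} (hx : 0 < x) (hs : 0 ≤ s) (hs1 : s ≤ 1) (h0 : 0 < lam) (h1 : lam ≤ l2) :
    |l2 * lcfU x s l2 ^ 2 - lam * lcfU x s lam ^ 2| ≤ 2 * (l2 * lcfU x s lam ^ 2) * Real.log (l2 / lam) := by
  have h2 : 0 < l2 := h0.trans_le h1
  have hd0 : 0 ≤ Real.log (l2 / lam) := Real.log_nonneg ((one_le_div h0).2 h1)
  obtain ⟨u1, u2⟩ := lcf_U_pow_diff x s lam l2 2 hx hs h0 h1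
  have a1 := lcf_lam_diff lam l2 h0 h1
  push_cast at u2
  obtain ⟨A, hA⟩ : ∃ A, A = lcfU x s lam ^ 2 := ⟨_, rfl⟩
  obtain ⟨A2, hA2⟩ : ∃ A2, A2 = lcfU x s l2 ^ 2 := ⟨_, rfl⟩
  obtain ⟨δ, hδ⟩ : ∃ δ, δ = Real.log (l2 / lam) := ⟨_, rfl⟩
  rw [← hA, ← hA2, ← hδ] at u2
  rw [← hA, ← hA2] at u1
  rw [← hδ] at a1 hd0
  rw [← hA, ← hA2, ← hδ]
  have hA0 : 0 ≤ A := by rw [hA]; positivity
  have hA20 : 0 ≤ A2 := by rw [hA2]; positivity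
  have e : l2 * A2 - lam * A = (l2 - lam) * A2 - lam * (A - A2) := by ring
  have t1 : (l2 - lam) * A2 ≤ l2 * δ * A := mul_le_mul a1 (by linarith) hA20 (by positivity)
  have t2 : lam * (A - A2) ≤ l2 * (A * δ) := by
    refine mul_le_mul h1 (u2.trans ?_) u1 h2.le
    have : 2 * (s / 2) * A * δ = s * (A * δ) := by ring
    rw [this]
    exact mul_le_of_le_one_left (by positivity) hs1
  have t3 : 0 ≤ (l2 - lam) * A2 := mul_nonneg (by linarith) hA20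
  have t4 : 0 ≤ lam * (A - A2) := mul_nonneg h0.le u1
  rw [e, abs_le]
  constructor <;> nlinarith

/-- arithmetic of the pair bound -/
theorem l8pd_mask_arith {C CR B β l2 lam δ Δ v W W2 I1 I2 Q1 Q2 dK K1 : ℝ} (hC : 1 ≤ C) (hCR : 0 ≤ CR) (hlam : 0 < lam) (hl : lam ≤ l2)
    (hl1 : l2 ≤ 1) (hv : 0 < v) (hd0 : 0 ≤ δ) (hΔ : Δ ≤ l2 * δ) (hW0 : 0 ≤ W) (hβa : |β| ≤ B)
    (hI : |I2 - I1| ≤ C * l2 * (C * v) ^ 2 * dK + CR * Δ * (2 * (C * v)) ^ 2 * K1) (hdK0 : 0 ≤ dK) (hK : dK ≤ CR * Δ * v)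
    (hK10 : 0 ≤ K1) (hK1 : K1 ≤ C * v) (hq : |Q2 - Q1| ≤ CR * Δ * v) (hU : |l2 * W2 - lam * W| ≤ 2 * (l2 * W) * δ)
    (hQ20 : 0 ≤ Q2) (hQ2C : Q2 ≤ C * v) :
    |I2 + β * (l2 * W2) * Q2 - (I1 + β * (lam * W) * Q1)| ≤ (5 * CR * C ^ 3 + B * (2 * C + CR)) * (l2 * (v ^ 3 + v * W)) * δ := by
  have hl2 : 0 < l2 := hlam.trans_le hl
  have hB0 : 0 ≤ B := (abs_nonneg _).trans hβa
  have hLd : 0 ≤ l2 * δ := mul_nonneg hl2.le hd0
  have hC0 : 0 < C := by linarith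
  have e : I2 + β * (l2 * W2) * Q2 - (I1 + β * (lam * W) * Q1)
      = (I2 - I1) + β * ((l2 * W2 - lam * W) * Q2) + β * (lam * W * (Q2 - Q1)) := by ring
  have hΔv : CR * Δ * v ≤ CR * (l2 * δ) * v := mul_le_mul_of_nonneg_right (mul_le_mul_of_nonneg_left hΔ hCR) hv.le
  have s1 : C * l2 * (C * v) ^ 2 * dK ≤ CR * C ^ 3 * (l2 * δ) * v ^ 3 := by
    calc C * l2 * (C * v) ^ 2 * dK ≤ C * 1 * (C * v) ^ 2 * (CR * (l2 * δ) * v) := by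
          refine mul_le_mul (mul_le_mul_of_nonneg_right (mul_le_mul_of_nonneg_left hl1 hC0.le) (sq_nonneg _))
            (hK.trans hΔv) hdK0 (by positivity)
      _ = _ := by ring
  have s2 : CR * Δ * (2 * (C * v)) ^ 2 * K1 ≤ 4 * CR * C ^ 3 * (l2 * δ) * v ^ 3 := by
    calc CR * Δ * (2 * (C * v)) ^ 2 * K1 ≤ CR * (l2 * δ) * (2 * (C * v)) ^ 2 * (C * v) := by
          refine mul_le_mul (mul_le_mul_of_nonneg_right (mul_le_mul_of_nonneg_left hΔ hCR) (sq_nonneg _)) hK1 hK10 (by positivity)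
      _ = _ := by ring
  have s3 : |β * ((l2 * W2 - lam * W) * Q2)| ≤ B * (2 * (l2 * W) * δ * (C * v)) := by
    rw [abs_mul, abs_mul, abs_of_nonneg hQ20]
    exact mul_le_mul hβa (mul_le_mul hU hQ2C hQ20 (by positivity)) (by positivity) hB0
  have s4 : |β * (lam * W * (Q2 - Q1))| ≤ B * (1 * W * (CR * (l2 * δ) * v)) := by
    rw [abs_mul, abs_mul, abs_of_nonneg (mul_nonneg hlam.le hW0)]
    refine mul_le_mul hβa (mul_le_mul (mul_le_mul_of_nonneg_right (hl.trans hl1) hW0)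
      (hq.trans hΔv) (abs_nonneg _) (by positivity)) (by positivity) hB0
  rw [e]
  calc _ ≤ |I2 - I1| + |β * ((l2 * W2 - lam * W) * Q2)| + |β * (lam * W * (Q2 - Q1))| := abs_add_three _ _ _
    _ ≤ (CR * C ^ 3 * (l2 * δ) * v ^ 3 + 4 * CR * C ^ 3 * (l2 * δ) * v ^ 3) + B * (2 * (l2 * W) * δ * (C * v))
        + B * (1 * W * (CR * (l2 * δ) * v)) := by
          refine add_le_add (add_le_add (hI.trans (add_le_add s1 s2)) s3) s4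
    _ = (5 * CR * C ^ 3) * (l2 * v ^ 3) * δ + B * (2 * C + CR) * (l2 * (v * W)) * δ := by ring
    _ ≤ (5 * CR * C ^ 3 + B * (2 * C + CR)) * (l2 * (v ^ 3 + v * W)) * δ := by
          have p1 : 0 ≤ (5 * CR * C ^ 3) * (l2 * (v * W)) * δ := by positivity
          have p2 : 0 ≤ B * (2 * C + CR) * (l2 * v ^ 3) * δ := by positivity
          have e2 : (5 * CR * C ^ 3 + B * (2 * C + CR)) * (l2 * (v ^ 3 + v * W)) * δ
              = (5 * CR * C ^ 3) * (l2 * v ^ 3) * δ + B * (2 * C + CR) * (l2 * (v * W)) * δ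
                + ((5 * CR * C ^ 3) * (l2 * (v * W)) * δ + B * (2 * C + CR) * (l2 * v ^ 3) * δ) := by ring
          rw [e2]; linarith

/-- **the pair bound on the mask** -/
theorem l8pd_mask_pair {𝔹 : LlBase} {F : LlFix} (hF : F.Ok) {q : LlPt} {C CR CR' ξ0 v l2 : ℝ} (hC : 1 ≤ C) (hCR : 0 ≤ CR) (hCR' : CR' ≤ CR)
    (hx : 0 < q.x) (hlam : 0 < q.lam) (hl : q.lam ≤ l2) (hl1 : l2 ≤ 1) (hg0 : q.gam0 ∈ Icc (-4 : ℝ) 4) (hell0 : 0 < q.ell) (hell : q.ell ^ 2 ≤ 2)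
    (hva : v ∈ Ioo 0 q.a) (hξ0 : 2 * (C * v) ≤ ξ0) (h1 : L8pdMp 𝔹 F q C v) (h2 : L8pdMp 𝔹 F (q.wLm l2) C v) (hR : q.RegL F 𝔹 CR' ξ0 l2) :
    |(q.wLm l2).hS F 𝔹 v - q.hS F 𝔹 v|
      ≤ (5 * CR * C ^ 3 + F.cb * (1 + 4 * F.c1) * (2 * C + CR)) * (l2 * (v ^ 3 + v * q.U F ^ 2)) * Real.log (l2 / q.lam) := by
  have hv := hva.1
  have hl2 : 0 < l2 := hlam.trans_le hl
  have hd0 : 0 ≤ Real.log (l2 / q.lam) := Real.log_nonneg ((one_le_div hlam).2 hl)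
  have hΔ : |l2 - q.lam| ≤ l2 * Real.log (l2 / q.lam) := by
    rw [abs_of_nonneg (sub_nonneg.2 hl)]; exact lcf_lam_diff _ _ hlam hl
  have hcb := hF.cb0
  have hc1 := hF.c10
  have hC0 : 0 < C := by linarith
  have hΔ0 : 0 ≤ |l2 - q.lam| := abs_nonneg _
  have hI := l8pd_int_diff (R := C * v) (a := C * l2 * (C * v) ^ 2) (e := CR * |l2 - q.lam| * (2 * (C * v)) ^ 2) h1.gc h2.gc h1.K0 h2.K0
    h1.KC h2.KC
    (fun t ht htC => by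
      rw [abs_of_nonneg (h2.g0 t ht)]
      refine (h2.gC t ht htC).trans ?_
      exact mul_le_mul_of_nonneg_left (pow_le_pow_left₀ ht htC 2) (mul_nonneg hC0.le hl2.le))
    (fun t ht htC => by
      rw [l8pd_gap_eq q hell0, l8pd_gap_eq (q.wLm l2) hell0]
      have hξ : q.ell ^ 2 * t ≤ 2 * (C * v) := mul_le_mul hell htC ht (by norm_num)
      have hξn : 0 ≤ q.ell ^ 2 * t := by positivity
      refine (hR.gap0 _ ⟨hξn, hξ.trans hξ0⟩).trans ?_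
      exact mul_le_mul (mul_le_mul_of_nonneg_right hCR' hΔ0) (pow_le_pow_left₀ hξn hξ 2) (sq_nonneg _) (mul_nonneg hCR hΔ0))
  have hK : |(q.wLm l2).K F 𝔹 v - q.K F 𝔹 v| ≤ CR * |l2 - q.lam| * v :=
    (hR.K v hva).trans (mul_le_mul_of_nonneg_right (mul_le_mul_of_nonneg_right hCR' hΔ0) hv.le)
  have hq : |(q.wLm l2).q F 𝔹 v - q.q F 𝔹 v| ≤ CR * |l2 - q.lam| * v :=
    (hR.q v hva).trans (mul_le_mul (mul_le_mul_of_nonneg_right hCR' hΔ0) (min_le_left _ _) (le_min hv.le zero_le_one)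
      (mul_nonneg hCR hΔ0))
  have hU := l8pd_lamU2 (x := q.x) (s := F.sS) hx hF.sS0.le (by linarith [hF.sS1]) hlam hl
  have hβa : |F.cb * (1 + F.c1 * q.gam0)| ≤ F.cb * (1 + 4 * F.c1) := by
    rw [abs_mul, abs_of_pos hcb]
    refine mul_le_mul_of_nonneg_left ?_ hcb.le
    have a1 := mul_le_mul_of_nonneg_left hg0.2 hc1.le
    have a2 := mul_le_mul_of_nonneg_left hg0.1 hc1.le
    rw [abs_le]
    constructor <;> linarith
  rw [h1.hS, h2.hS]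
  exact l8pd_mask_arith hC hCR hlam hl hl1 hv hd0 hΔ (sq_nonneg _) hβa hI (abs_nonneg _) hK h1.K0 h1.KC hq hU h2.q0 h2.qC

/-- the two-sided bound on the mask, `v > 0` -/
theorem l8pd_mask_core {𝔹 : LlBase} {F : LlFix} (hE : LlExpOk F.sS F.eta F.pS) (hF : F.Ok) {p : LlPt} (hp : p.Ok F) {C CR CR' ξ0 C4 v : ℝ}
    (hC : 1 ≤ C) (hCR : 0 ≤ CR) (hCR' : CR' ≤ CR) (hC4 : 0 ≤ C4) (hell : p.ell ^ 2 ≤ 2) (hva : v ∈ Ioo 0 p.a) (hξ0 : 2 * (C * v) ≤ ξ0)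
    (hMp : ∀ l, (p.wLm l).Ok F → L8pdMp 𝔹 F (p.wLm l) C v)
    (hReg : ∀ l l', (p.wLm l).Ok F → (p.wLm l').Ok F → (p.wLm l).RegL F 𝔹 CR' ξ0 l')
    (hval : |p.hS F 𝔹 v| ≤ C4 * (p.lam * (v ^ 3 + v * p.U F ^ 2))) :
    L8pdLip F p (fun q => q.hS F 𝔹 v)
      ((C4 + 8 * (5 * CR * C ^ 3 + F.cb * (1 + 4 * F.c1) * (2 * C + CR))) * (p.lam * (v ^ 3 + v * p.U F ^ 2))) := by
  have hx := skw_llc_x_pos hp
  have hlam := skw_llc_lam_pos hp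
  have hU := skw_llc_U_pos hp
  have hv := hva.1
  have hell0 : 0 < p.ell := by linarith [hp.ell1]
  have hs0 : 0 ≤ F.sS := hF.sS0.le
  have hs1 := hE.s_hi
  have hcb := hF.cb0
  have hc1 := hF.c10
  have hx1 : p.x ≤ 1 := (lcc_x_lt_one hp.N2).le
  have hle1 : ∀ l, (p.wLm l).Ok F → l ≤ 1 := fun l hq => hq.lam_hi.trans (Real.rpow_le_one hx.le hx1 hE.p_lo.le)
  obtain ⟨Cp, hCp⟩ : ∃ Cp, Cp = 5 * CR * C ^ 3 + F.cb * (1 + 4 * F.c1) * (2 * C + CR) := ⟨_, rfl⟩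
  have hCp0 : 0 ≤ Cp := by rw [hCp]; positivity
  rw [← hCp]
  obtain ⟨A, hA⟩ : ∃ A, A = v ^ 3 + v * p.U F ^ 2 := ⟨_, rfl⟩
  have hA0 : 0 < A := by rw [hA]; positivity
  rw [← hA] at hval ⊢
  have hlA : 0 < p.lam * A := mul_pos hlam hA0
  refine l8pd_lip_of_pair hlam one_pos ?_ ?_ ?_
  · refine hval.trans (mul_le_mul_of_nonneg_right ?_ hlA.le)
    linarith
  · intro l2 hl hd hq
    have hl2 : 0 < l2 := hlam.trans_le hl
    have hd0 : 0 ≤ Real.log (l2 / p.lam) := Real.log_nonneg ((one_le_div hlam).2 hl)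
    have hk := l8pd_mask_pair hF hC hCR hCR' hx hlam hl (hle1 l2 hq) hp.g0 hell0 hell hva hξ0 (hMp p.lam hp) (hMp l2 hq) (hReg p.lam l2 hp hq)
    rw [← hCp, ← hA] at hk
    refine hk.trans (mul_le_mul_of_nonneg_right ?_ hd0)
    have h8 : l2 ≤ 8 * p.lam := by
      have := (l8pd_rpow_e hlam hl2 hd zero_le_one (by norm_num)).trans (mul_le_mul_of_nonneg_right l8pd_exp2 (Real.rpow_nonneg hlam.le 1))
      rwa [Real.rpow_one, Real.rpow_one] at this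
    calc Cp * (l2 * A) ≤ Cp * (8 * p.lam * A) := mul_le_mul_of_nonneg_left (mul_le_mul_of_nonneg_right h8 hA0.le) hCp0
      _ = 8 * Cp * (p.lam * A) := by ring
      _ ≤ (C4 + 8 * Cp) * (p.lam * A) := mul_le_mul_of_nonneg_right (by linarith) hlA.le
  · intro l1 hl10 hl hd hq
    have hd0 : 0 ≤ Real.log (p.lam / l1) := Real.log_nonneg ((one_le_div hl10).2 hl)
    have hUq := l8pd_U_left (F := F) hx hs0 hs1.le hlam hl10 hl hd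
    have hUq0 : 0 < (p.wLm l1).U F := lt_min one_pos (mul_pos hx (Real.rpow_pos_of_pos hl10 _))
    have hk := l8pd_mask_pair (q := p.wLm l1) (l2 := p.lam) hF hC hCR hCR' hx hl10 hl (hle1 p.lam hp) hp.g0 hell0 hell hva hξ0 (hMp l1 hq)
      (hMp p.lam hp) (hReg l1 p.lam hq hp)
    have e1 : ((p.wLm l1).wLm p.lam) = p := rfl
    have e2 : (p.wLm l1).lam = l1 := rfl
    rw [e1, e2, ← hCp] at hk
    refine hk.trans (mul_le_mul_of_nonneg_right ?_ hd0)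
    have hU2 : (p.wLm l1).U F ^ 2 ≤ 4 * p.U F ^ 2 := by
      calc (p.wLm l1).U F ^ 2 ≤ (2 * p.U F) ^ 2 := pow_le_pow_left₀ hUq0.le hUq 2
        _ = _ := by ring
    have hA4 : v ^ 3 + v * (p.wLm l1).U F ^ 2 ≤ 4 * A := by
      have a1 := mul_le_mul_of_nonneg_left hU2 hv.le
      have a2 : 0 < v ^ 3 := by positivity
      rw [hA]; linarith
    calc Cp * (p.lam * (v ^ 3 + v * (p.wLm l1).U F ^ 2)) ≤ Cp * (p.lam * (4 * A)) :=
          mul_le_mul_of_nonneg_left (mul_le_mul_of_nonneg_left hA4 hlam.le) hCp0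
      _ = 4 * Cp * (p.lam * A) := by ring
      _ ≤ (C4 + 8 * Cp) * (p.lam * A) := mul_le_mul_of_nonneg_right (by linarith) hlA.le

theorem l8pd_ell_sq {F : LlFix} {p : LlPt} (hp : p.Ok F) : p.ell ^ 2 ≤ 2 := by
  have h6 : p.ell ^ 6 ≤ 2 := by
    calc p.ell ^ 6 ≤ ((2 : ℝ) ^ (1 / 6 : ℝ)) ^ 6 := pow_le_pow_left₀ (by linarith [hp.ell1]) hp.ell2 6
      _ = 2 := by rw [← Real.rpow_natCast, ← Real.rpow_mul (by norm_num)]; norm_num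
  exact (pow_le_pow_right₀ hp.ell1 (by norm_num)).trans h6

/-- **P1 (mask)**   LL 03 l.474-476: "on the mask they are `O(λ(v³ + vU²))`: differentiate the scalar gap only after subtracting its value at zero".
PROOF.   For `v ≤ x` (and `x ≤ v_b`, `16 x`-dyads): `G v = 0`, `dySum v = 0`, so `b(v) = b_∘ - β`, `β = c_b (1 + c_1 γ_0) λ U²`, and by `Ref.gam_ftc`, `gam_zero`:  `h_*(v) = ∫_0^{K(v)} gap(t) dt + β q(v)`, `gap(t) = gapN(ℓ² t)`.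
VALUE: `LlP4` (second part; `0 ≤ h_*` by `LlAdm`).   PAIR `(q, q.wLm l2)`, `δ = log(l2/λ)`, `|l2 - λ| ≤ l2 δ` (`lcf_lam_diff`):  `|∫_K^{K2} gap2| ≤ C l2 (C v)² |K2 - K|` (`Ref.gap_hi`, `gap_lo`, `K_hi0`, `RegL.K`);
`∫_0^K |gap2 - gap| ≤ C |l2 - λ| ℓ⁴ K³` (`RegL.gap0`);  `|β2 - β| q2 ≤ C l2 U² δ · C v` (`lcf_U_sq_diff`/`lcf_lamU_diff`-type, `Ref.q_hi`);  `β |q2 - q| ≤ C λ U² |l2 - λ| v` (`RegL.q`).   `v = 0`: `h_*(0) = 0` at every point.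
Two sides: `l8pd_lip_of_pair` with `h = 1` (`U(q)² ≤ e U(q2)²`, `l2 ≤ e λ`). -/
theorem l8pd_mask (𝔹 : LlBase) (F : LlFix) (hE : LlExpOk F.sS F.eta F.pS) (hB : LlBaseProfile 𝔹 F.T) (h3 : LlSec3 𝔹 F) :
    ∃ (C : ℝ) (N0 : ℕ), 0 ≤ C ∧ ∀ p : LlPt, p.Ok F → N0 ≤ p.N → p.sm = false → ∀ v ∈ Icc 0 p.x,
      L8pdLip F p (fun q => q.hS F 𝔹 v) (C * (p.lam * (v ^ 3 + v * p.U F ^ 2))) := by
  have hF := h3.ok
  obtain ⟨c, C0, v0, hc, hv0, Nr, hRef⟩ := h3.ref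
  obtain ⟨CR0, ξ0, hξ0, Ng, hReg⟩ := h3.regL
  obtain ⟨ca, Ca, hca, Na, hAdm⟩ := h3.adm
  obtain ⟨c4, C4, v4, hc4, hv4, N4, hP4⟩ := h3.p4
  have hxS := hB.xi_pos
  obtain ⟨C, hCe⟩ : ∃ C, C = max C0 1 := ⟨_, rfl⟩
  have hC : 1 ≤ C := by rw [hCe]; exact le_max_right _ _
  have hC0 : C0 ≤ C := by rw [hCe]; exact le_max_left _ _
  have hCp : 0 < C := by linarith
  obtain ⟨Nx, hNx⟩ := lce_unif_x F (min (min v0 v4) (min (𝔹.xiS F.T / (2 * C)) (ξ0 / (2 * C))))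
    (lt_min (lt_min hv0 hv4) (lt_min (by positivity) (by positivity)))
  have hcb := hF.cb0
  have hc1 := hF.c10
  have hCR : 0 ≤ max CR0 0 := le_max_right _ _
  refine ⟨max C4 0 + 8 * (5 * max CR0 0 * C ^ 3 + F.cb * (1 + 4 * F.c1) * (2 * C + max CR0 0)), Nr + Ng + Na + N4 + Nx, ?_, ?_⟩
  · have := le_max_right C4 0
    positivity
  intro p hp hN hsm v hv
  have hlam := skw_llc_lam_pos hp
  have hU := skw_llc_U_pos hp
  have hxp := skw_llc_x_pos hp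
  have hxs := hNx p hp (by omega)
  have hx1 := lcc_x_lt_one hp.N2
  have ha : p.a = p.ell := by
    unfold LlPt.a
    rw [hsm]
    rfl
  rcases hv.1.eq_or_lt with rfl | hvpos
  · -- `h_*(0) = 0` at every point
    have hz : ∀ l, (p.wLm l).Ok F → (p.wLm l).hS F 𝔹 0 = 0 := fun l hq => by
      have hR := hRef (p.wLm l) hq (by show Nr ≤ p.N; omega)
      have hK : (p.wLm l).K F 𝔹 0 = 0 := by
        unfold LlPt.K
        rw [l8pd_xi_zero (q := p.wLm l) hF hB hsm, mul_zero]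
      unfold LlPt.hS LlPt.q
      rw [hK, hR.gam_zero]; ring
    refine l8pd_lip_zero hlam (by have := le_max_right C4 0; positivity) one_pos (hz p.lam hp) (fun l2 _ _ hq => hz l2 hq)
      (fun l1 _ _ _ hq => hz l1 hq)
  · have hvx := hv.2.trans hxs
    have hvv0 : v ≤ v0 := hvx.trans ((min_le_left _ _).trans (min_le_left _ _))
    have hvv4 : v ≤ v4 := hvx.trans ((min_le_left _ _).trans (min_le_right _ _))
    have hvxi : 2 * (C * v) ≤ 𝔹.xiS F.T := by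
      have := hvx.trans ((min_le_right _ _).trans (min_le_left _ _))
      rw [le_div_iff₀ (by positivity)] at this
      linarith
    have hvξ0 : 2 * (C * v) ≤ ξ0 := by
      have := hvx.trans ((min_le_right _ _).trans (min_le_right _ _))
      rw [le_div_iff₀ (by positivity)] at this
      linarith
    have hvl : v < p.ell := by linarith [hv.2, hp.ell1]
    have hva : v ∈ Ioo 0 p.a := by rw [ha]; exact ⟨hvpos, hvl⟩
    refine l8pd_mask_core hE hF hp hC hCR (le_max_left _ _) (le_max_right _ _) (l8pd_ell_sq hp) hva hvξ0 ?_ ?_ ?_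
    · intro l hq
      have hb := (hAdm (p.wLm l) hq (by show Na ≤ p.N; omega)).2.2.2.2.2.2.2 v hv
      exact l8pd_mp hF hc (hRef (p.wLm l) hq (by show Nr ≤ p.N; omega)) hC0 (skw_llc_lam_pos hq) hsm (l8pd_ell_sq hq) hb hvpos hvv0 hvl hvxi
    · intro l l' hq hq'
      exact hReg (p.wLm l) hq (by show Ng ≤ p.N; omega) hsm l' hq'.lam_lo hq'.lam_hi
    · have h0 := ((hAdm p hp (by omega)).2.2.2.2.2.1 v ⟨hvpos.le, hva.2.le⟩).2.2.2.1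
      have h1 := (hP4 p hp (by omega)).2 v ⟨hvpos, hvv4⟩
      rw [abs_of_nonneg h0]
      refine h1.trans ?_
      have hA0 : 0 < p.lam * (v ^ 3 + v * p.U F ^ 2) := by positivity
      calc C4 * p.lam * (v ^ 3 + v * p.U F ^ 2) = C4 * (p.lam * (v ^ 3 + v * p.U F ^ 2)) := by ring
        _ ≤ _ := mul_le_mul_of_nonneg_right (le_max_left _ _) hA0.le

/-! ### glue of PATH -/

theorem l8pd_M1_nonneg {F : LlFix} {p : LlPt} (hp : p.Ok F) {v : ℝ} (hv : 0 ≤ v) : 0 ≤ l8pdM1 F p v := by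
  unfold l8pdM1
  have := (skw_llc_lam_pos hp).le
  split_ifs
  · positivity
  · exact le_rfl

theorem l8pd_lam1_nonneg {F : LlFix} {p : LlPt} (hp : p.Ok F) : 0 ≤ p.lam1 F := Real.rpow_nonneg (skw_llc_lam_pos hp).le _

theorem l8pd_x_le_one {F : LlFix} {p : LlPt} (hp : p.Ok F) : p.x ≤ 1 := by
  have hN : (1 : ℝ) ≤ p.N := by
    have := hp.N2
    exact_mod_cast (by omega : 1 ≤ p.N)
  exact Real.rpow_le_one_of_one_le_of_nonpos hN (by norm_num)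

theorem l8pd_log_nonneg {F : LlFix} {p : LlPt} (hp : p.Ok F) : 0 ≤ Real.log (2 / p.x) := by
  have h0 := skw_llc_x_pos hp
  have h1 := l8pd_x_le_one hp
  exact Real.log_nonneg (by rw [le_div_iff₀ h0]; linarith)

theorem l8pd_M2_nonneg {F : LlFix} {p : LlPt} (hp : p.Ok F) (v : ℝ) : 0 ≤ l8pdM2 F p v := by
  unfold l8pdM2
  have h1 := l8pd_lam1_nonneg hp
  have h2 := (skw_llc_U_pos hp).le
  have h3 := l8pd_log_nonneg hp
  split_ifs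
  · positivity
  · exact le_rfl

/-- `ll04hR ≥ 0` without hypotheses (`rpow` of anything is what it is: use `u² ≥ 0` and `rpow_nonneg` needs the base `≥ 0`) -/
theorem l8pd_Hw_nonneg {𝔹 : LlBase} {F : LlFix} {p : LlPt} (hp : p.Ok F) (hF : F.Ok) {w : ℝ} (hw : w ≤ 1) : 0 ≤ l8pdHw 𝔹 F p w := by
  unfold l8pdHw
  refine le_max_of_le_left ?_
  have hU : 0 < p.Ut F := lt_min hF.U00 (skw_llc_U_pos hp)
  exact (ll04h_R_pos hU one_pos (by linarith)).le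

theorem l8pd_M3_nonneg {𝔹 : LlBase} {F : LlFix} {p : LlPt} (hp : p.Ok F) (hF : F.Ok) (hEb : 0 ≤ p.Eb F 𝔹) {v : ℝ} (hv : v / p.ell ≤ 1) :
    0 ≤ l8pdM3 𝔹 F p v := by
  unfold l8pdM3
  have h1 := l8pd_lam1_nonneg hp
  split_ifs
  · exact mul_nonneg h1 (l8pd_Hw_nonneg hp hF hv)
  · exact mul_nonneg h1 hEb
  · exact le_rfl

/-- **PATH from its leaves** -/
theorem l8pd_path (𝔹 : LlBase) (F : LlFix) (hE : LlExpOk F.sS F.eta F.pS) (hB : LlBaseProfile 𝔹 F.T) (h3 : LlSec3 𝔹 F)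
    (hz : 2 * F.z0 ≤ 𝔹.xiS F.T) : L8pDefPath 𝔹 F := by
  have hF := h3.ok
  obtain ⟨C1, N1, hC1, H1⟩ := l8pd_mask 𝔹 F hE hB h3
  obtain ⟨C4, U4, N4, hC4, hU4, H4⟩ := l8pd_he_act 𝔹 F hE hB h3 hz
  refine ⟨C1 + 40 + C4, min U4 (F.U0 / 4), max N1 N4, by positivity, lt_min hU4 (by have := hF.U00; positivity), ?_⟩
  intro p hp hN hdir hU v hv
  obtain ⟨hsm, hcL, hcE⟩ := hdir
  have hell : 0 < p.ell := by linarith [hp.ell1]
  have hvl : v / p.ell ≤ 1 := (div_le_one hell).2 hv.2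
  have hUt : 0 < p.Ut F := lt_min hF.U00 (skw_llc_U_pos hp)
  have hUt1 : p.Ut F ≤ 1 := (min_le_right _ _).trans (min_le_left _ _)
  have hEb : 0 ≤ p.Eb F 𝔹 := (ll04h_Eb_pos hB hUt hUt1).le
  have m1 := l8pd_M1_nonneg hp hv.1
  have m2 := l8pd_M2_nonneg hp v
  have m3 := l8pd_M3_nonneg (𝔹 := 𝔹) hp hF hEb hvl
  have hC : 0 ≤ C1 + 40 + C4 := by positivity
  -- the mask
  have hmask : v ≤ p.x → L8pdLip F p (fun q => q.hS F 𝔹 v) ((C1 + 40 + C4) * l8pdM 𝔹 F p v) := by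
    intro hvx
    refine (H1 p hp ((le_max_left _ _).trans hN) hsm v ⟨hv.1, hvx⟩).mono ?_
    have e : l8pdM1 F p v = p.lam * (v ^ 3 + v * p.U F ^ 2) := by unfold l8pdM1; rw [if_pos hvx]
    rw [← e]
    unfold l8pdM
    nlinarith
  refine ⟨?_, fun hvx => hmask hvx.le⟩
  rcases lt_or_ge v p.x with hvx | hvx
  · refine ((hmask hvx.le).neg).congr ?_ ?_
    · rw [lcf_d_eq, if_pos hvx]
    · intro L' _
      rw [lcf_d_eq]
      exact if_pos hvx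
  · -- above the mask
    have hlo := l8pd_hlo F hE p hp v hvx
    have hhe : L8pdLip F p (fun q => q.He F 𝔹 v) ((40 + C4) * l8pdM3 𝔹 F p v) := by
      rcases le_or_gt (𝔹.pTop F.T) (v / p.ell) with hw | hw
      · refine (l8pd_he_plat 𝔹 F hE hF hB p hp (by have := hU.trans (min_le_right _ _); linarith) v hw hvl).mono ?_
        have e : l8pdM3 𝔹 F p v = p.lam1 F * l8pdHw 𝔹 F p (v / p.ell) := by unfold l8pdM3; rw [if_pos hw]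
        rw [← e]
        nlinarith
      · refine (H4 p hp ((le_max_right _ _).trans hN) hsm (hU.trans (min_le_left _ _)) v hv.1 hw).mono ?_
        have e : l8pdM3 𝔹 F p v = if 𝔹.xiS F.T - p.Eb F 𝔹 ≤ p.xi F 𝔹 v then p.lam1 F * p.Eb F 𝔹 else 0 := by
          unfold l8pdM3; rw [if_neg (not_le.2 hw)]
        rw [← e]
        nlinarith
    refine ((hlo.add hhe).mono ?_).congr ?_ ?_
    · have e : l8pdM2 F p v = p.lam1 F * p.U F ^ 3 * (1 + Real.log (2 / p.x)) := by unfold l8pdM2; rw [if_pos hvx]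
      rw [← e]
      unfold l8pdM
      nlinarith
    · rw [lcf_d_eq, if_neg (not_lt.2 hvx), hcL, hcE]; ring
    · intro L' _
      rw [lcf_d_eq]
      have e1 : (p.wLam L').x = p.x := rfl
      have e2 : (p.wLam L').chiL = 0 := hcL
      have e3 : (p.wLam L').chiE = 1 := hcE
      rw [e1, if_neg (not_lt.2 hvx), e2, e3]; ring

end

end Claimed.Agent.R286
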