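import Claimed.Agent.R286.PM.InstEnvL
import Claimed.Agent.R286.PM.InstD2L
import Claimed.Agent.R286.PM.InstIv8
import Claimed.Agent.R286.L08.IvD7L
import Claimed.Agent.R286.L08.IvSk

/-!
# Row 286 (S0533), folder PM, file InstIvL9 : IV9-LOW = the three lines of (D9) of `L8pIv` for `l8q_iv` (LOW REGION of the smoothed size paths)      (owner helper200; prefix `l8qw_` / `L8qw`)      0 sorry

TEX[LL:lem:statistics-lower-band] TEX[LL:eq:D9]
    l8qw_iv9      : L8qCons .. fun I _ C => L8qwIv9 I (C * I.x ^ (-ε)) (I.Yc llDStar)          (= fields `n9`, `d9_W`, `d9_Q` of `L8pIv`, verbatim)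
    l8qw_low_cons : ∀ M ≥ 1, L8qCons .. fun I _ C => L8qwLow I C M                             (FREE top `M Y_c`: every window `x ≤ lo ≤ hi ≤ M Y_c`; for the low zone of (D7))
    l8qw_low      : IvsLow (I.sp false) (l8qwB I π S κ M Cr) κ (1 / 4) (I.x ^ 40)              (the grid-level imports of `L08/IvSk.lean`, at one instance)
* A  `L8qwPt`, `l8qw_unif`: from `LlSec3`: `v dh/dv ≥ κ λ₁ max(v,U)³` on `[x, zs]` in integrated form, and the jump `h(x) ≥ (κ/2) λ₁ U² x` at the mask.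
* B  `L8qwClk`, `l8qw_clk`: the cumulative field clock of the chain is `h` at the left ends of the cells above the mask, `0` below.
* C  `L8qwCell`, `l8qw_cell_evt`: field `cell` of `IvsLow` (the cell which contains the mask is paid by the jump).
* D  `l8qw_low`: `S ≤ c (v + Y_c)` (`L8qeCtx.s_le`), raw bounds of order 2 from `skp_raw`, `tr C² ≤ D² ≤ B = E_fork Q²`.
* E  `l8qw_low_inst`: `ivs_d9_W`, `ivs_d9_D` + dictionary `I.int = P.int`, `I.D2 = P.D2`, `ε_w`; the errors `x^40` of the grid are absorbed by `ε_w ≥ x³ / M²`.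
* F  the contracts.   No loss `x^(-ε)`, all constants fixed before `N`.
-/

set_option autoImplicit false

namespace Claimed.Agent.R286

open MeasureTheory Set Filter

/-! ## A. the low slope of the field clock at one smoothed point -/

/-- `v dh/dv ≥ κ λ₁ max(v,U)³` on `[x, zs]`, and the jump at the mask -/
structure L8qwPt (p : LlPt) (F : LlFix) (𝔹 : LlBase) (zs κ : ℝ) : Prop where
  slope : ∀ u v, p.x ≤ u → u ≤ v → v ≤ zs → κ * p.lam1 F * max u (p.U F) ^ 3 * (v - u) ≤ v * (p.h F 𝔹 v - p.h F 𝔹 u)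
  jump : κ / 2 * p.lam1 F * p.U F ^ 2 * p.x ≤ p.h F 𝔹 p.x

theorem l8qw_max3 {u U : ℝ} (hu : 0 ≤ u) (hU : 0 ≤ U) : max u U ^ 3 ≤ u ^ 3 + U ^ 3 := by
  rcases le_total u U with h | h
  · rw [max_eq_right h]
    have : 0 ≤ u ^ 3 := by positivity
    linarith
  · rw [max_eq_left h]
    have : 0 ≤ U ^ 3 := by positivity
    linarith

theorem l8qw_pt {p : LlPt} {F : LlFix} {𝔹 : LlBase} {c C v0 c4 zs : ℝ} (hF : F.Ok) (hp : p.Ok F) (hsm : p.sm = true) (hc : 0 < c) (hc4 : 0 < c4)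
    (hzv : zs ≤ v0) (hz1 : zs ≤ 1) (hxz : p.x ≤ zs) (R : p.Ref F 𝔹 c C v0) (hS0 : 0 ≤ p.hS F 𝔹 (p.x / 2))
    (h4 : ∀ v ∈ Ioo 0 p.a, ∀ v' ∈ Ioo 0 p.a, v ≤ v' → c4 * p.lam * (v ^ 2 + p.U F ^ 2) * (p.K F 𝔹 v' - p.K F 𝔹 v) ≤ p.hS F 𝔹 v' - p.hS F 𝔹 v) :
    L8qwPt p F 𝔹 zs (min 1 (c4 * c)) := by
  have ha : p.a = 4 := by simp [LlPt.a, hsm]
  have hl0 := l8qg_lam_pos hp
  have hx0 := l8qg_x_pos hp
  have hl1 := l8qg_lam1_le hp hF.pS0.le hF.eta0.le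
  have hl10 : 0 ≤ p.lam1 F := Real.rpow_nonneg hl0.le _
  have hU0 : 0 ≤ p.U F := le_min zero_le_one (mul_nonneg hx0.le (Real.rpow_nonneg hl0.le _))
  have hchiE : p.chiE = 0 := (hp.sm_fin hsm).2
  have hell : 1 ≤ p.ell := hp.ell1
  set κ := min 1 (c4 * c) with hκ
  have hκ0 : 0 < κ := lt_min one_pos (by positivity)
  have hκ1 : κ ≤ 1 := min_le_left _ _
  have hκ2 : κ ≤ c4 * c := min_le_right _ _
  have hh : ∀ v, p.x ≤ v → p.h F 𝔹 v = p.hS F 𝔹 v + p.Hlo F v + p.chiL * p.Hlin F v := by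
    intro v hv
    unfold LlPt.h
    rw [if_neg (not_lt.2 hv), hchiE]
    ring
  -- increments of `h_*`
  have hSinc : ∀ u v, 0 < u → u ≤ v → v ≤ zs → c4 * c * p.lam * (u ^ 2 + p.U F ^ 2) * (v - u) ≤ p.hS F 𝔹 v - p.hS F 𝔹 u := by
    intro u v hu huv hv
    have m3 := h4 u ⟨hu, by rw [ha]; linarith⟩ v ⟨hu.trans_le huv, by rw [ha]; linarith⟩ huv
    have hk := R.K_lo u v hu huv (hv.trans hzv)
    have a2 : 0 ≤ c4 * p.lam * (u ^ 2 + p.U F ^ 2) := by positivity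
    calc c4 * c * p.lam * (u ^ 2 + p.U F ^ 2) * (v - u) = c4 * p.lam * (u ^ 2 + p.U F ^ 2) * (c * (v - u)) := by ring
      _ ≤ c4 * p.lam * (u ^ 2 + p.U F ^ 2) * (p.K F 𝔹 v - p.K F 𝔹 u) := mul_le_mul_of_nonneg_left hk a2
      _ ≤ _ := m3
  constructor
  · intro u v hxu huv hv
    have hu0 : 0 < u := hx0.trans_le hxu
    have hv0 : 0 < v := hu0.trans_le huv
    have hd : 0 ≤ v - u := by linarith
    rw [hh u hxu, hh v (hxu.trans huv)]
    have m1 := hSinc u v hu0 huv hv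
    have m2 : p.chiL * p.Hlin F u ≤ p.chiL * p.Hlin F v := mul_le_mul_of_nonneg_left (l8qg_Hlin_mono hp huv) hp.chiL.1
    -- the logarithm
    have m3 : p.lam1 F * p.U F ^ 3 * ((v - u) / v) ≤ p.Hlo F v - p.Hlo F u := by
      unfold LlPt.Hlo
      rw [min_eq_left (by linarith : v ≤ p.ell), min_eq_left (by linarith : u ≤ p.ell), ← mul_sub]
      apply mul_le_mul_of_nonneg_left _ (by positivity)
      rw [← Real.log_div (by positivity) (by positivity)]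
      have e : v / p.x / (u / p.x) = v / u := by field_simp
      rw [e]
      have := Real.one_sub_inv_le_log_of_pos (show 0 < v / u by positivity)
      have e2 : 1 - (v / u)⁻¹ = (v - u) / v := by field_simp
      rwa [e2] at this
    have m4 : v * (p.lam1 F * p.U F ^ 3 * ((v - u) / v)) = p.lam1 F * p.U F ^ 3 * (v - u) := by field_simp
    have m5 : κ * p.lam1 F * u ^ 3 * (v - u) ≤ v * (c4 * c * p.lam * (u ^ 2 + p.U F ^ 2) * (v - u)) := by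
      have b1 : κ * p.lam1 F ≤ c4 * c * p.lam := mul_le_mul hκ2 hl1 hl10 (by positivity)
      have b2 : u ^ 3 ≤ v * (u ^ 2 + p.U F ^ 2) := by nlinarith [sq_nonneg (p.U F), sq_nonneg u, mul_nonneg hv0.le (sq_nonneg (p.U F))]
      have b3 : κ * p.lam1 F * u ^ 3 ≤ c4 * c * p.lam * (v * (u ^ 2 + p.U F ^ 2)) :=
        mul_le_mul b1 b2 (by positivity) (by positivity)
      calc κ * p.lam1 F * u ^ 3 * (v - u) ≤ c4 * c * p.lam * (v * (u ^ 2 + p.U F ^ 2)) * (v - u) := mul_le_mul_of_nonneg_right b3 hd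
        _ = _ := by ring
    have m6 : κ * p.lam1 F * p.U F ^ 3 * (v - u) ≤ p.lam1 F * p.U F ^ 3 * (v - u) := by
      have : κ * (p.lam1 F * p.U F ^ 3 * (v - u)) ≤ 1 * (p.lam1 F * p.U F ^ 3 * (v - u)) :=
        mul_le_mul_of_nonneg_right hκ1 (by positivity)
      linarith
    have m7 : κ * p.lam1 F * max u (p.U F) ^ 3 * (v - u) ≤ κ * p.lam1 F * (u ^ 3 + p.U F ^ 3) * (v - u) :=
      mul_le_mul_of_nonneg_right (mul_le_mul_of_nonneg_left (l8qw_max3 hu0.le hU0) (by positivity)) hd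
    have m8 : v * (c4 * c * p.lam * (u ^ 2 + p.U F ^ 2) * (v - u)) ≤ v * (p.hS F 𝔹 v - p.hS F 𝔹 u) := mul_le_mul_of_nonneg_left m1 hv0.le
    have m9 : v * (p.lam1 F * p.U F ^ 3 * ((v - u) / v)) ≤ v * (p.Hlo F v - p.Hlo F u) := mul_le_mul_of_nonneg_left m3 hv0.le
    have m10 : 0 ≤ v * (p.chiL * p.Hlin F v - p.chiL * p.Hlin F u) := mul_nonneg hv0.le (by linarith)
    nlinarith
  · rw [hh p.x le_rfl]
    have m1 := hSinc (p.x / 2) p.x (by positivity) (by linarith) hxz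
    have m2 : 0 ≤ p.chiL * p.Hlin F p.x := by
      apply mul_nonneg hp.chiL.1
      unfold LlPt.Hlin
      positivity
    have m3 : p.Hlo F p.x = 0 := by
      unfold LlPt.Hlo
      rw [min_eq_left (by linarith [l8qg_x_le_one hp] : p.x ≤ p.ell), div_self hx0.ne', Real.log_one, mul_zero]
    have m4 : κ / 2 * p.lam1 F * p.U F ^ 2 * p.x ≤ c4 * c * p.lam * ((p.x / 2) ^ 2 + p.U F ^ 2) * (p.x - p.x / 2) := by
      have b1 : κ * p.lam1 F ≤ c4 * c * p.lam := mul_le_mul hκ2 hl1 hl10 (by positivity)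
      have b2 : p.U F ^ 2 ≤ (p.x / 2) ^ 2 + p.U F ^ 2 := by nlinarith [sq_nonneg (p.x / 2)]
      have b3 : κ * p.lam1 F * p.U F ^ 2 ≤ c4 * c * p.lam * ((p.x / 2) ^ 2 + p.U F ^ 2) := mul_le_mul b1 b2 (by positivity) (by positivity)
      calc κ / 2 * p.lam1 F * p.U F ^ 2 * p.x = κ * p.lam1 F * p.U F ^ 2 * (p.x - p.x / 2) := by ring
        _ ≤ _ := mul_le_mul_of_nonneg_right b3 (by linarith)
    rw [m3]
    linarith

/-- constants before `N` -/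
theorem l8qw_unif {𝔹 : LlBase} {F : LlFix} (h : LlSec3 𝔹 F) :
    ∃ zs κ : ℝ, 0 < zs ∧ zs ≤ 1 / 2 ∧ 0 < κ ∧ κ ≤ 1 ∧ LlUnif F fun p => p.sm = true → L8qwPt p F 𝔹 zs κ := by
  obtain ⟨c, C, v0, hc, hv0, N1, R⟩ := h.ref
  obtain ⟨ca, Ca, hca, N2, A⟩ := h.adm
  obtain ⟨c4, C4, v4, hc4, hv4, N3, P4⟩ := h.p4
  have hz : 0 < min v0 (1 / 2) := lt_min hv0 (by norm_num)
  obtain ⟨N4, a4⟩ := l8p_hn_small 1 (min v0 (1 / 2)) one_pos hz
  refine ⟨min v0 (1 / 2), min 1 (c4 * c), hz, min_le_right _ _, lt_min one_pos (by positivity), min_le_left _ _,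
    max (max N1 N2) (max N3 N4), fun p hp hN hsm => ?_⟩
  have hN1 : N1 ≤ p.N := ((le_max_left _ _).trans (le_max_left _ _)).trans hN
  have hN2 : N2 ≤ p.N := ((le_max_right _ _).trans (le_max_left _ _)).trans hN
  have hN3 : N3 ≤ p.N := ((le_max_left _ _).trans (le_max_right _ _)).trans hN
  have hN4 : N4 ≤ p.N := ((le_max_right _ _).trans (le_max_right _ _)).trans hN
  obtain ⟨-, -, -, -, -, hb, -, -⟩ := A p hp hN2
  have ha : p.a = 4 := by simp [LlPt.a, hsm]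
  have hx0 := l8qg_x_pos hp
  have hx1 := l8qg_x_le_one hp
  have hxz : p.x ≤ min v0 (1 / 2) := by
    have := a4 p hN4
    rwa [Real.rpow_one] at this
  exact l8qw_pt h.ok hp hsm hc hc4 (min_le_left _ _) (by linarith [min_le_right v0 (1 / 2 : ℝ)]) hxz (R p hp hN1)
    (hb (p.x / 2) ⟨by positivity, by rw [ha]; linarith⟩).2.2.2.1 (P4 p hp hN3).1

/-! ## B. the cumulative field clock of the chain -/

structure L8qwClk (I : L8In) : Prop where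
  eq : ∀ k ≤ I.n, I.x < l8pVl I k → I.hC k = I.p.h I.F I.𝔹 (l8pVl I k)
  le : ∀ k ≤ I.n, I.x ≤ l8pVl I k → I.hC k ≤ I.p.h I.F I.𝔹 (l8pVl I k)
  zero : ∀ k ≤ I.n, l8pVl I k < I.x → I.hC k = 0

/-- below the mask nothing is revealed -/
theorem l8qw_hC_zero {I : L8In} {η : ℝ} (ha : 0 ≤ I.a) (fine : I.Fine η) {k : ℕ} (hk : k ≤ I.n) (h : l8pVl I k < I.x) : I.hC k = 0 := by
  have hP : SkAdm I.a I.P0 := fine.adm.1
  show ((I.P0.take k).map SkInc.dh).sum = 0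
  refine List.sum_eq_zero fun y hy => ?_
  obtain ⟨e, he, rfl⟩ := List.mem_map.1 hy
  obtain ⟨j, hj, rfl⟩ := List.mem_iff_getElem.1 he
  rw [List.length_take] at hj
  have hjk : j < k := lt_of_lt_of_le hj (min_le_left _ _)
  have hjP : j < I.P0.length := lt_of_lt_of_le hj (min_le_right _ _)
  rw [List.getElem_take]
  obtain ⟨k, rfl⟩ : ∃ k', k = k' + 1 := ⟨k - 1, by omega⟩
  rw [l8qv_vl_succ] at h
  have h1 : (I.P0[j]).m ≤ I.v k := by
    rw [← l8pg_ms_lt I.a hjP]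
    exact l8pg_ms_mono ha hP (by omega)
  have hmem : I.P0[j] ∈ I.P0 := List.getElem_mem hjP
  obtain ⟨e', he', hee⟩ := List.mem_map.1 hmem
  rw [← hee] at h1 ⊢
  exact (fine.low e' he' (lt_of_le_of_lt h1 h)).1

theorem l8qw_clk (𝔹 : LlBase) (T : ℝ) : ∀ F0, L8Fix 𝔹 T F0 → ∀ (pB : LLParB) (pS : ℝ), 0 < pS → pS ≤ 1 →
    L8qEvt 𝔹 (F0.wExp pB.sStar pB.eta pS) fun I => L8qwClk I := by
  intro F0 hF pB pS h0 h1
  have h3 : LlSec3 𝔹 (F0.wExp pB.sStar pB.eta pS) := (hF.2.2 _ _ _ (llc_expOk pB h0 h1)).sec3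
  obtain ⟨Ne, hequi⟩ := h3.equi
  obtain ⟨ca, Ca, hca, Na, hadm⟩ := h3.adm
  refine ⟨max Ne Na, 0, fun I hI => ?_⟩
  have hNe : Ne ≤ I.p.N := (le_max_left _ _).trans hI.hN
  have hNa : Na ≤ I.p.N := (le_max_right _ _).trans hI.hN
  have hpt : I.p.Ok (F0.wExp pB.sStar pB.eta pS) := hI.hF ▸ hI.ok.pt
  have hA := hadm I.p hpt hNa
  rw [← hI.hF, ← hI.hB] at hA
  have ha : I.a = 4 := l8qv_a hI.siz.1
  have ha0 : 0 < I.a := by rw [ha]; norm_num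
  have hx0 : 0 < I.x := I.x_pos hI.ok
  obtain ⟨-, hmh, -, -, -, hpos, -, -⟩ := hA
  have hz : (0 : ℝ) ∈ Icc 0 I.p.a := ⟨le_rfl, ha0.le⟩
  have hhc : GhClk1 I.a (I.p.h I.F I.𝔹) := ⟨hmh, (hpos 0 hz).2.2.1⟩
  have heh : ∀ η : ℝ, 0 < η → ∃ δ : ℝ, 0 < δ ∧ ∀ v v' : ℝ, I.x ≤ v → v ≤ v' → v' ≤ I.a → v' - v ≤ δ →
      I.p.h I.F I.𝔹 v' - I.p.h I.F I.𝔹 v ≤ η := by
    intro η hη
    obtain ⟨δ, hδ, H⟩ := hequi I.p.N hNe η hη
    refine ⟨δ, hδ, fun v v' a1 a2 a3 a4 => ?_⟩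
    have := (H I.p hpt rfl v v' (hx0.le.trans a1) a2 a3 a4).2.2.2.2 (Or.inr a1)
    rwa [← hI.hF, ← hI.hB] at this
  refine ⟨?_, ?_, fun k hk h => l8qw_hC_zero ha0.le hI.fine hk h⟩
  · intro k hk hx
    rcases k with _ | j
    · exfalso
      rw [l8qv_vl_zero] at hx
      linarith
    · obtain ⟨q, hq, e1, -, e3⟩ := l8p_clk_dict I (Nat.lt_of_succ_le hk)
      have hok := (gh_os_ps_mem.1 hq).2
      rw [e1] at hx ⊢
      rw [e3]
      exact l8p_clk_at ha0.le hhc hx0.le heh hx hok.2.1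
  · intro k hk hx
    rcases k with _ | j
    · exfalso
      rw [l8qv_vl_zero] at hx
      linarith
    · obtain ⟨q, hq, e1, -, e3⟩ := l8p_clk_dict I (Nat.lt_of_succ_le hk)
      have hok := (gh_os_ps_mem.1 hq).2
      rw [e1] at hx ⊢
      rw [e3]
      unfold ghAt
      have hR := l8p_clk_right ha0.le hhc hx0.le heh hx hok.2.1
      have hL : Function.leftLim (ghClamp I.a (I.p.h I.F I.𝔹)) q.u ≤ Function.rightLim (ghClamp I.a (I.p.h I.F I.𝔹)) q.u :=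
        (gh_os_clamp_mono ha0.le hhc).leftLim_le_rightLim le_rfl
      rw [hR] at hL ⊢
      nlinarith [hok.2.2.1, hok.2.2.2]

/-! ## C. the low slope, cell by cell -/

theorem l8qw_dh (I : L8In) (k : ℕ) : (I.sp false).dh k = I.hC (k + 1) - I.hC k := by
  have := l8p_hd_cum_succ I.P0 k
  show (I.P0.map SkInc.dh).getD k 0 = skCumH I.P0 (k + 1) - skCumH I.P0 k
  linarith

theorem l8qw_cell {I : L8In} {zs κ η : ℝ} (ha : I.a = 4) (hx0 : 0 < I.x) (hκ0 : 0 < κ) (hzs : zs ≤ 1 / 2)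
    (pt : L8qwPt I.p I.F I.𝔹 zs κ) (clk : L8qwClk I) (fine : I.Fine η) (hη : η ≤ I.x ^ 2 / 2) (hη' : η ≤ zs / 2) (hxU : I.x ≤ I.U)
    (hl : 0 ≤ I.lam1) {k : ℕ} (hk : k ≤ I.n) (h1 : I.x < I.v k) (h2 : l8pVl I k < zs / 2) :
    κ * I.lam1 * max (l8pVl I k) I.U ^ 3 * I.dv k ≤ I.v k * (I.sp false).dh k := by
  have hd := fine.dv_le k hk
  have hdv := l8qv_dv I k
  rw [l8qv_vl_succ] at hdv
  have hvz : I.v k ≤ zs := by linarith
  have hkn : k < I.n := by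
    rcases hk.eq_or_lt with rfl | h
    · exfalso
      rw [l8qv_v_top, ha] at hvz
      linarith
    · exact h
  have hv0 : 0 < I.v k := hx0.trans h1
  have e1 : I.hC (k + 1) = I.p.h I.F I.𝔹 (I.v k) := by
    have := clk.eq (k + 1) hkn (by rw [l8qv_vl_succ]; exact h1)
    rwa [l8qv_vl_succ] at this
  rw [l8qw_dh, e1]
  rcases le_or_gt I.x (l8pVl I k) with hx | hx
  · have e2 := clk.le k hk hx
    have e3 := pt.slope (l8pVl I k) (I.v k) hx (by linarith [l8qv_dv_nonneg (by rw [ha]; norm_num) fine.adm.1 k]) hvz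
    rw [hdv]
    refine e3.trans (mul_le_mul_of_nonneg_left (by linarith) hv0.le)
  · rw [clk.zero k hk hx, sub_zero, max_eq_right (hx.le.trans hxU)]
    have hU0 : 0 < I.U := hx0.trans_le hxU
    have hU1 : I.U ≤ 1 := min_le_left _ _
    have e3 := pt.slope I.x (I.v k) le_rfl h1.le hvz
    have e4 : 0 ≤ κ * I.lam1 * max I.x I.U ^ 3 * (I.v k - I.x) := by
      have : 0 ≤ I.v k - I.x := by linarith
      have : 0 ≤ max I.x I.U := hx0.le.trans (le_max_left _ _)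
      positivity
    have e5 : I.p.h I.F I.𝔹 I.x ≤ I.p.h I.F I.𝔹 (I.v k) := by
      have : 0 ≤ I.v k * (I.p.h I.F I.𝔹 (I.v k) - I.p.h I.F I.𝔹 I.x) := e4.trans e3
      have := nonneg_of_mul_nonneg_right this hv0
      linarith
    have e6 : κ / 2 * I.lam1 * I.U ^ 2 * I.x ≤ I.p.h I.F I.𝔹 I.x := pt.jump
    have hdv0 : 0 ≤ I.dv k := l8qv_dv_nonneg (by rw [ha]; norm_num) fine.adm.1 k
    have e7 : κ * I.lam1 * I.U ^ 3 * I.dv k ≤ κ * I.lam1 * I.U ^ 2 * (I.x ^ 2 / 2) := by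
      have b1 : I.U ^ 3 ≤ I.U ^ 2 := pow_le_pow_of_le_one hU0.le hU1 (by norm_num)
      have b2 : κ * I.lam1 * I.U ^ 3 ≤ κ * I.lam1 * I.U ^ 2 := mul_le_mul_of_nonneg_left b1 (by positivity)
      exact mul_le_mul b2 (hd.trans hη) hdv0 (by positivity)
    have e8 : I.x * (κ / 2 * I.lam1 * I.U ^ 2 * I.x) ≤ I.v k * I.p.h I.F I.𝔹 (I.v k) :=
      mul_le_mul h1.le (e6.trans e5) (by positivity) hv0.le
    calc κ * I.lam1 * I.U ^ 3 * I.dv k ≤ κ * I.lam1 * I.U ^ 2 * (I.x ^ 2 / 2) := e7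
      _ = I.x * (κ / 2 * I.lam1 * I.U ^ 2 * I.x) := by ring
      _ ≤ _ := e8

/-- **the low slope on the cells of the chain**, constants before `N` -/
def L8qwCell (I : L8In) (κ vt : ℝ) : Prop :=
  ∀ k ≤ I.n, I.x < I.v k → l8pVl I k < vt → κ * I.lam1 * max (l8pVl I k) I.U ^ 3 * I.dv k ≤ I.v k * (I.sp false).dh k

theorem l8qwCell_eqns_cite : True := by
  have := @L8qwCell.eq_1
  trivial

theorem l8qw_cell_evt (𝔹 : LlBase) (T : ℝ) : ∀ F0, L8Fix 𝔹 T F0 → ∀ (pB : LLParB) (pS : ℝ), 0 < pS → pS ≤ 1 →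
    ∃ κ vt : ℝ, 0 < κ ∧ 0 < vt ∧ L8qEvt 𝔹 (F0.wExp pB.sStar pB.eta pS) fun I => I.x ≤ I.U → L8qwCell I κ vt := by
  intro F0 hF pB pS h0 h1
  have h3 : LlSec3 𝔹 (F0.wExp pB.sStar pB.eta pS) := (hF.2.2 _ _ _ (llc_expOk pB h0 h1)).sec3
  obtain ⟨zs, κ, hzs, hzs2, hκ, -, N1, H⟩ := l8qw_unif h3
  obtain ⟨N2, K2, hclk⟩ := l8qw_clk 𝔹 T F0 hF pB pS h0 h1
  obtain ⟨N3, a3⟩ := l8p_hn_small 1 (min (1 / 2) (zs / 2)) one_pos (lt_min (by norm_num) (by positivity))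
  refine ⟨κ, zs / 2, hκ, by positivity, max (max N1 N2) N3, max K2 3, fun I hat hxU k hk hx hv => ?_⟩
  have hN1 : N1 ≤ I.p.N := ((le_max_left _ _).trans (le_max_left _ _)).trans hat.hN
  have hN3 : N3 ≤ I.p.N := (le_max_right _ _).trans hat.hN
  have hp : I.p.Ok (F0.wExp pB.sStar pB.eta pS) := by
    rw [← hat.hF]
    exact hat.ok.pt
  have P := H I.p hp hN1 hat.siz.1
  rw [← hat.hF, ← hat.hB] at P
  have clk := hclk I (hat.mono ((le_max_right _ _).trans (le_max_left _ _)) (le_max_left _ _))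
  have hx0 : 0 < I.x := I.x_pos hat.ok
  have hx1 : I.x ≤ 1 := I.x_le_one hat.ok
  have fine : I.Fine (I.x ^ 3) := by
    have := (hat.mono le_rfl (le_max_right K2 3)).fine
    rwa [show (3 : ℝ) = ((3 : ℕ) : ℝ) by norm_num, Real.rpow_natCast] at this
  have b3 : I.x ≤ min (1 / 2) (zs / 2) := by
    have := a3 I.p hN3
    rwa [Real.rpow_one] at this
  have b3a : I.x ≤ 1 / 2 := b3.trans (min_le_left _ _)
  have b3b : I.x ≤ zs / 2 := b3.trans (min_le_right _ _)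
  have e1 : I.x ^ 3 ≤ I.x ^ 2 / 2 := by
    have : I.x ^ 3 = I.x ^ 2 * I.x := by ring
    rw [this]
    have : 0 ≤ I.x ^ 2 := by positivity
    nlinarith
  have e2 : I.x ^ 3 ≤ zs / 2 := by
    calc I.x ^ 3 ≤ I.x ^ 1 := pow_le_pow_of_le_one hx0.le hx1 (by norm_num)
      _ = I.x := pow_one _
      _ ≤ _ := b3b
  exact l8qw_cell (l8qv_a hat.siz.1) hx0 hκ hzs2 P clk fine e1 e2 hxU (Real.rpow_nonneg (l8qg_lam_pos hat.ok.pt).le _) hk hx hv


/-! ## D. the grid-level imports of the lower band, FREE top `M Y_c` -/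

/-- the constant of `S ≤ c (v + Y_c)` (`L8qeCtx.s_le`) -/
noncomputable def l8qwC0 (π : L8qPar) (S : SkpS) : ℝ := (π.c.Cf + S.Cq) * π.c1 + 1 / S.zreg

/-- the scales of the lower band of the low-region instance -/
noncomputable def l8qwB (I : L8In) (π : L8qPar) (S : SkpS) (κ M Cr : ℝ) : L8LB where
  x := I.x
  Y := I.Yc llDStar
  U := I.U
  lam1 := I.lam1
  vtop := M * I.Yc llDStar
  cS := l8qwC0 π S * (M + 2)
  ck := κ / 16
  cm := 1 / (4 * S.Cm)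
  R := (Cr * (M + π.c1) + l8qwC0 π S * (M + 2)) * I.Yc llDStar

theorem l8qwB_eqns_cite : True := by
  have := @l8qwC0.eq_1; have := @l8qwB.eq_1
  trivial

theorem l8qw_C0_pos {π : L8qPar} {S : SkpS} (hπ : π.Ok S) : 0 < l8qwC0 π S := by
  have hCq : 1 ≤ S.Cq := hπ.Sok.Cq
  have hCf : 1 ≤ π.c.Cf := by have := hπ.Sok.c.Cf; rwa [hπ.Sc] at this
  have hzr := hπ.Sok.zreg
  have hc1 := hπ.c1
  unfold l8qwC0
  positivity

theorem l8qw_low {I : L8In} {π : L8qPar} {S : SkpS} {Cc κ vt M Cr : ℝ} (X : L8qeCtx I π S Cc) (hκ : 0 < κ) (hM : 1 ≤ M) (hCr : 0 ≤ Cr)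
    (hcell : L8qwCell I κ vt) (hMvt : M * I.Yc llDStar ≤ vt) (hMzs : M * I.Yc llDStar ≤ π.c.zs / 2)
    (hX2 : ∀ k ≤ l8qNb I π, ∫ ω, (I.sp false).nX k ω ^ 2 ∂(I.sp false).μ ≤ (Cr * (skwR (l8pVl I k) + π.c1 * I.Yc llDStar)) ^ 2)
    (hQ2 : ∀ k ≤ l8qNb I π, ∫ η, (I.sp false).Q η ^ 2 ∂((I.sp false).fork k) ≤ (Cr * (skwR (l8pVl I k) + π.c1 * I.Yc llDStar)) ^ 2) :
    IvsLow (I.sp false) (l8qwB I π S κ M Cr) κ (1 / 4) (I.x ^ 40) := by
  have hP := X.spOk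
  have hx := X.x0
  have hY := X.Y0
  have hc0 := l8qw_C0_pos X.par
  have hc1 := X.c18
  have hCm : 1 ≤ S.Cm := X.par.Sok.Cm
  have hvl : ∀ k, (I.sp false).v k - (I.sp false).dv k = l8pVl I k := fun k => by
    have := X.dv_eq k
    show I.v k - I.dv k = _
    linarith
  have hzs1 := X.zs1
  have hzs0 : 0 < π.c.zs := by linarith [X.zw0, X.zws]
  have hx40 := X.x40
  have hx1 := X.x1
  have hxY := X.xY
  have hraw : ∀ k ≤ (I.sp false).n, (I.sp false).v k - (I.sp false).dv k < M * I.Yc llDStar →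
      k ≤ l8qNb I π ∧ (Cr * (skwR (l8pVl I k) + π.c1 * I.Yc llDStar)) ^ 2 ≤ ((Cr * (M + π.c1) + l8qwC0 π S * (M + 2)) * I.Yc llDStar) ^ 2 := by
    intro k hk h
    rw [hvl] at h
    rw [X.spn] at hk
    refine ⟨X.le_nb hk (by linarith), ?_⟩
    have h0 := X.Vl_nonneg k
    have h1 : skwR (l8pVl I k) ≤ M * I.Yc llDStar := (min_le_left _ _).trans h.le
    have h2 : 0 ≤ skwR (l8pVl I k) := le_min h0 zero_le_one
    refine pow_le_pow_left₀ (by positivity) ?_ 2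
    have h3 : Cr * (skwR (l8pVl I k) + π.c1 * I.Yc llDStar) ≤ Cr * (M * I.Yc llDStar + π.c1 * I.Yc llDStar) :=
      mul_le_mul_of_nonneg_left (by linarith) hCr
    have h4 : 0 ≤ l8qwC0 π S * (M + 2) * I.Yc llDStar := by positivity
    nlinarith
  refine
    { x0 := hx
      Y0 := hY
      U0 := X.U0
      lam0 := lt_of_lt_of_le (pow_pos hx 14) X.inst.pm.lam1a
      cS0 := by show 0 < l8qwC0 π S * (M + 2); positivity
      cm0 := by show 0 < 1 / (4 * S.Cm); positivity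
      κ0 := hκ
      ck := rfl
      xtop := ?_
      top := ?_
      mesh := ?_
      μx := ?_
      msz := ?_
      Stop := ?_
      cell := ?_
      raw4 := ?_
      rawT := ?_
      SR := ?_ }
  · show I.x ≤ M * I.Yc llDStar
    nlinarith
  · show M * I.Yc llDStar ≤ I.a
    linarith [X.a1]
  · intro k hk
    rw [X.spn] at hk
    exact X.dv_le hk
  · show I.x ^ 40 ≤ I.x / 2
    linarith
  · show 1 / (4 * S.Cm) ≤ 1 / 4 * I.m * I.x ^ 6
    have h1 : 1 / (I.m : ℝ) ≤ S.Cm * I.x ^ 6 := X.inst.pm.msz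
    have hm : 0 < (I.m : ℝ) := Nat.cast_pos.2 X.inst.pm.m0
    rw [div_le_iff₀ hm] at h1
    rw [div_le_iff₀ (by positivity)]
    nlinarith
  · intro k hk h
    rw [hvl] at h
    rw [X.spn] at hk
    show (I.sp false).S k ≤ l8qwC0 π S * (M + 2) * I.Yc llDStar
    change l8pVl I k < M * I.Yc llDStar + I.x ^ 40 at h
    rcases Nat.lt_or_ge I.n k with hk' | hk'
    · exfalso
      obtain rfl : k = I.n + 1 := by omega
      rw [X.Vl_succ, X.v_top le_rfl] at h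
      linarith [X.a1]
    · rw [← X.S_eq hk']
      refine (X.s_le hk').trans ?_
      have h1 := X.dv_le hk'
      have h2 := X.dv_eq k
      show l8qwC0 π S * _ ≤ _
      rw [mul_assoc]
      refine mul_le_mul_of_nonneg_left ?_ hc0.le
      nlinarith
  · intro k hk h1 h2
    rw [hvl] at h2 ⊢
    rw [X.spn] at hk
    exact hcell k hk h1 (lt_of_lt_of_le h2 hMvt)
  · intro k hk _ h2
    obtain ⟨a1, a2⟩ := hraw k hk h2
    exact (hX2 k a1).trans a2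
  · intro k hk _ h2
    obtain ⟨a1, a2⟩ := hraw k hk h2
    refine le_trans ?_ ((hQ2 k a1).trans a2)
    rw [(I.sp false).l8s_fork_Q_sq hP k]
    have b1 := l8d7l_C_le_D2 hP k
    have b2 : 0 ≤ ∫ ω, (I.sp false).xCx k ω ∂(I.sp false).μ := integral_nonneg (ivk_xCx_nonneg hP k)
    have b3 : (I.sp false).D2 k ≤ (I.sp false).B k := by
      unfold L8P.D2
      nlinarith [sq_nonneg ((I.sp false).S k)]
    linarith
  · show l8qwC0 π S * (M + 2) * I.Yc llDStar ≤ (Cr * (M + π.c1) + l8qwC0 π S * (M + 2)) * I.Yc llDStar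
    refine mul_le_mul_of_nonneg_right ?_ hY.le
    have : 0 ≤ Cr * (M + π.c1) := by positivity
    linarith


/-! ## E. (D9) on every window of the lower band, at one instance -/

theorem l8qw_epsw_nonneg {I : L8In} (hx : 0 ≤ I.x) (hU : 0 ≤ I.U) (Y w : ℝ) : 0 ≤ I.epsw Y w := by
  have hm : 0 ≤ max w I.U := hU.trans (le_max_right _ _)
  have := Real.rpow_nonneg hm (3 / 2 : ℝ)
  unfold L8In.epsw
  positivity

theorem l8qw_epsw_sq {I : L8In} {Y : ℝ} (hY : 0 ≤ Y) (hl : 0 ≤ I.lam1) (hU : 0 ≤ I.U) (w : ℝ) :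
    I.epsw Y w ^ 2 = I.x ^ 6 * Y / (I.lam1 * max w I.U ^ 3) := by
  have hm : 0 ≤ max w I.U := hU.trans (le_max_right _ _)
  have e : (max w I.U ^ (3 / 2 : ℝ)) ^ 2 = max w I.U ^ 3 := by
    rw [← Real.rpow_natCast, ← Real.rpow_mul hm, ← Real.rpow_natCast]
    norm_num
  unfold L8In.epsw
  rw [div_pow, mul_pow, mul_pow, Real.sq_sqrt hY, Real.sq_sqrt hl, e]
  ring

/-- **(D9) on every window `[lo, hi]` of the lower band `[x, M Y_c]`** (the second and third lines on the windows `hi ≤ 2 lo`) -/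
def L8qwLow (I : L8In) (A M : ℝ) : Prop :=
  ∀ lo hi, I.x ≤ lo → lo ≤ hi → hi ≤ M * I.Yc llDStar →
    I.int lo hi (fun k => I.ex false ((I.sp false).W k)) ≤ A * I.epsw (I.Yc llDStar) lo ^ 2 ∧
    (hi ≤ 2 * lo → I.int lo hi I.D2 ≤ A * I.Yc llDStar * I.epsw (I.Yc llDStar) lo ∧
      I.int lo hi (fun k => I.moF false k 1 fun ω => (I.sp false).Q ω - I.S k) ≤ A * I.Yc llDStar * I.epsw (I.Yc llDStar) lo)

/-- the constant `K1` of the lower band -/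
noncomputable def l8qwK1 (π : L8qPar) (S : SkpS) (κ M : ℝ) : ℝ := 4 * (l8qwC0 π S * (M + 2)) / (1 / (4 * S.Cm) * (κ / 16))

theorem l8qwLow_eqns_cite : True := by
  have := @L8qwLow.eq_1; have := @l8qwK1.eq_1
  trivial

theorem l8qw_low_inst {I : L8In} {π : L8qPar} {S : SkpS} {Cc κ vt M Cr A : ℝ} (X : L8qeCtx I π S Cc) (hκ : 0 < κ) (hM : 1 ≤ M) (hCr : 0 ≤ Cr)
    (hcell : L8qwCell I κ vt) (hMvt : M * I.Yc llDStar ≤ vt) (hMzs : M * I.Yc llDStar ≤ π.c.zs / 2)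
    (hX2 : ∀ k ≤ l8qNb I π, ∫ ω, (I.sp false).nX k ω ^ 2 ∂(I.sp false).μ ≤ (Cr * (skwR (l8pVl I k) + π.c1 * I.Yc llDStar)) ^ 2)
    (hQ2 : ∀ k ≤ l8qNb I π, ∫ η, (I.sp false).Q η ^ 2 ∂((I.sp false).fork k) ≤ (Cr * (skwR (l8pVl I k) + π.c1 * I.Yc llDStar)) ^ 2)
    (hA1 : l8qwK1 π S κ M + 16 * M ^ 3 ≤ A)
    (hA2 : (9 + 16 * S.K.cA1 1) * Real.sqrt (l8qwK1 π S κ M) * (Cr * (M + π.c1) + l8qwC0 π S * (M + 2)) + M ^ 2 ≤ A) :
    L8qwLow I A M := by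
  have hP := X.spOk
  have hx := X.x0
  have hx1 := X.x1
  have hY := X.Y0
  have hU := X.U0
  have hl0 : 0 < I.lam1 := lt_of_lt_of_le (pow_pos hx 14) X.inst.pm.lam1a
  have hl1 : I.lam1 ≤ 1 := X.inst.pm.lam1b
  have hzs1 := X.zs1
  have hY1 : I.Yc llDStar ≤ 1 := by nlinarith
  have low := l8qw_low X hκ hM hCr hcell hMvt hMzs hX2 hQ2
  have hcA : 1 ≤ S.K.cA1 1 := X.par.Sok.cA1 1
  have hpin : (I.sp false).Pin 1 (S.K.cA1 1) := X.inst.pm.pin 1 le_rfl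
  have hsus : (I.sp false).Sus (1 / 4) := X.inst.ivx.sus
  have hdhn : (I.sp false).dh (I.sp false).n = 0 := X.inst.ivx.dhn
  have hm : 0 < I.m := X.inst.pm.m0
  have ha4 : (I.sp false).a ≤ 4 := X.inst.pm.a4
  intro lo hi h1 h12 h2
  have he0 := l8qw_epsw_nonneg hx.le hU.le (I.Yc llDStar) lo
  have hesq := l8qw_epsw_sq hY.le hl0.le hU.le lo
  have e2 : (l8qwB I π S κ M Cr).eps2 lo = I.epsw (I.Yc llDStar) lo ^ 2 := hesq.symm
  have e1 : (l8qwB I π S κ M Cr).eps lo = I.epsw (I.Yc llDStar) lo := by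
    unfold L8LB.eps
    rw [e2, Real.sqrt_sq he0]
  -- lower bound of `ε`
  have hmx : max lo I.U ≤ M * I.Yc llDStar := max_le (h12.trans h2) (by nlinarith [X.UY])
  have hmx0 : 0 < max lo I.U := hU.trans_le (le_max_right _ _)
  have hlow2 : I.x ^ 6 ≤ M ^ 3 * I.epsw (I.Yc llDStar) lo ^ 2 := by
    rw [hesq, mul_div_assoc', le_div_iff₀ (by positivity)]
    have b1 : max lo I.U ^ 3 ≤ (M * I.Yc llDStar) ^ 3 := pow_le_pow_left₀ hmx0.le hmx 3
    have b2 : I.lam1 * max lo I.U ^ 3 ≤ 1 * (M * I.Yc llDStar) ^ 3 := mul_le_mul hl1 b1 (by positivity) zero_le_one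
    have b3 : (M * I.Yc llDStar) ^ 3 ≤ M ^ 3 * I.Yc llDStar := by
      have : I.Yc llDStar ^ 3 ≤ I.Yc llDStar ^ 1 := pow_le_pow_of_le_one hY.le hY1 (by norm_num)
      rw [mul_pow]
      rw [pow_one] at this
      exact mul_le_mul_of_nonneg_left this (by positivity)
    calc I.x ^ 6 * (I.lam1 * max lo I.U ^ 3) ≤ I.x ^ 6 * (M ^ 3 * I.Yc llDStar) :=
          mul_le_mul_of_nonneg_left (by linarith) (by positivity)
      _ = M ^ 3 * (I.x ^ 6 * I.Yc llDStar) := by ring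
  have hlow1 : I.x ^ 3 ≤ M ^ 2 * I.epsw (I.Yc llDStar) lo := by
    refine abs_le_of_sq_le_sq' ?_ (by positivity) |>.2
    have : M ^ 3 ≤ M ^ 4 := pow_le_pow_right₀ hM (by norm_num)
    have h5 : 0 ≤ I.epsw (I.Yc llDStar) lo ^ 2 := by positivity
    calc (I.x ^ 3) ^ 2 = I.x ^ 6 := by ring
      _ ≤ M ^ 3 * I.epsw (I.Yc llDStar) lo ^ 2 := hlow2
      _ ≤ M ^ 4 * I.epsw (I.Yc llDStar) lo ^ 2 := mul_le_mul_of_nonneg_right this h5
      _ = (M ^ 2 * I.epsw (I.Yc llDStar) lo) ^ 2 := by ring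
  have hx40a : I.x ^ 40 ≤ I.x ^ 6 := pow_le_pow_of_le_one hx.le hx1 (by norm_num)
  have hx40b : I.x ^ 40 ≤ I.x * I.x ^ 3 := by
    have : I.x ^ 40 ≤ I.x ^ 4 := pow_le_pow_of_le_one hx.le hx1 (by norm_num)
    calc I.x ^ 40 ≤ I.x ^ 4 := this
      _ = I.x * I.x ^ 3 := by ring
  refine ⟨?_, fun h22 => ?_⟩
  · have key := ivs_d9_W hP low hm (by linarith : (0 : ℝ) ≤ S.K.cA1 1) (by norm_num) hsus hpin hdhn (lo := lo) (hi := hi) h1 h12 h2
    rw [e2] at key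
    rw [l8p_iv8_int]
    refine key.trans ?_
    have k1 : (l8qwB I π S κ M Cr).K1 = l8qwK1 π S κ M := rfl
    rw [k1]
    have b1 : I.x ^ 40 * (4 * (I.sp false).a) ≤ 16 * M ^ 3 * I.epsw (I.Yc llDStar) lo ^ 2 := by
      have : I.x ^ 40 * (4 * (I.sp false).a) ≤ I.x ^ 40 * 16 := mul_le_mul_of_nonneg_left (by linarith) (by positivity)
      nlinarith
    have b2 := mul_le_mul_of_nonneg_right hA1 (sq_nonneg (I.epsw (I.Yc llDStar) lo))
    linarith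
  · have key := ivs_d9_D hP low hm (by linarith : (0 : ℝ) ≤ S.K.cA1 1) (by norm_num) hsus hpin hdhn (lo := lo) (hi := hi) h1 h12 h2 h22
    rw [e1] at key
    have k1 : (l8qwB I π S κ M Cr).K1 = l8qwK1 π S κ M := rfl
    have k2 : (l8qwB I π S κ M Cr).R = (Cr * (M + π.c1) + l8qwC0 π S * (M + 2)) * I.Yc llDStar := rfl
    rw [k1, k2] at key
    have main : (I.sp false).int lo hi (I.sp false).D2 ≤ A * I.Yc llDStar * I.epsw (I.Yc llDStar) lo := by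
      refine key.trans ?_
      have b1 : I.x ^ 40 ≤ M ^ 2 * (I.Yc llDStar * I.epsw (I.Yc llDStar) lo) := by
        calc I.x ^ 40 ≤ I.x * I.x ^ 3 := hx40b
          _ ≤ I.Yc llDStar * (M ^ 2 * I.epsw (I.Yc llDStar) lo) := mul_le_mul X.xY hlow1 (by positivity) hY.le
          _ = _ := by ring
      have b2 := mul_le_mul_of_nonneg_right hA2 (mul_nonneg hY.le he0)
      calc (9 + 16 * S.K.cA1 1) * Real.sqrt (l8qwK1 π S κ M) * ((Cr * (M + π.c1) + l8qwC0 π S * (M + 2)) * I.Yc llDStar * I.epsw (I.Yc llDStar) lo)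
            + I.x ^ 40
          ≤ (9 + 16 * S.K.cA1 1) * Real.sqrt (l8qwK1 π S κ M) * ((Cr * (M + π.c1) + l8qwC0 π S * (M + 2)) * I.Yc llDStar * I.epsw (I.Yc llDStar) lo)
            + M ^ 2 * (I.Yc llDStar * I.epsw (I.Yc llDStar) lo) := by linarith
        _ = ((9 + 16 * S.K.cA1 1) * Real.sqrt (l8qwK1 π S κ M) * (Cr * (M + π.c1) + l8qwC0 π S * (M + 2)) + M ^ 2)
            * (I.Yc llDStar * I.epsw (I.Yc llDStar) lo) := by ring
        _ ≤ A * (I.Yc llDStar * I.epsw (I.Yc llDStar) lo) := b2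
        _ = _ := by ring
    constructor
    · rw [l8p_iv8_int_congr I lo hi (g' := (I.sp false).D2) fun k hk => (l8p_iv8_D2 X.ok X.inst.fine.adm hk).symm, l8p_iv8_int]
      exact main
    · rw [l8p_iv8_int_congr I lo hi (g' := (I.sp false).D2) fun k hk => ?_, l8p_iv8_int]
      · exact main
      · rw [X.S_eq hk, ← (I.sp false).l8s_fork_var_Q hP k]
        unfold L8In.moF
        simp only [mul_one]


/-! ## F. the contracts -/

/-- **IV9-low, FREE top `M Y_c`, `M` chosen AFTER `π, S, Cc`** (e.g. `M = 8 Cv c1`): no loss `x^(-ε)`.      TEX[LL:lem:statistics-lower-band] TEX[LL:eq:D9] -/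
theorem l8qw_low_consA (𝔹 : LlBase) (T : ℝ) : ∀ F0, L8Fix 𝔹 T F0 → ∀ (pB : LLParB) (pS : ℝ), 0 < pS → pS ≤ 1 →
    ∀ (π : L8qPar) (S : SkpS) (Cc : ℝ), π.Ok S → 1 ≤ Cc → ∀ M : ℝ, 1 ≤ M → ∃ (C0 : ℝ) (N0 : ℕ) (Kf : ℝ), 0 ≤ C0 ∧
      ∀ I : L8In, L8qAt 𝔹 (F0.wExp pB.sStar pB.eta pS) N0 Kf I → L8qOk I π S Cc → ∀ C : ℝ, C0 ≤ C → L8qwLow I C M := by
  intro F0 hF pB pS h0 h1 π S Cc hπ _ M hM
  obtain ⟨κ, vt, hκ, hvt, Nc, Kc, Hc⟩ := l8qw_cell_evt 𝔹 T F0 hF pB pS h0 h1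
  have hS := hπ.Sok
  obtain ⟨C1, hC1, H1⟩ := skp_raw S hS 2 (by norm_num)
  obtain ⟨C2, hC2, H2⟩ := skp_raw S hS 1 le_rfl
  obtain ⟨Cr, hCrd⟩ : ∃ Cr : ℝ, Cr = C1 + C2 := ⟨_, rfl⟩
  have hCr1 : C1 ≤ Cr := by linarith
  have hCr2 : C2 ≤ Cr := by linarith
  have hCr0 : 0 < Cr := by linarith
  have hCW : 1 ≤ S.CW := hS.CW
  have hLq : 1 ≤ S.c.Lq := hS.c.Lq
  have hQ : 0 < S.CW + S.c.Lq + 2 := by linarith
  have hzs : 0 < π.c.zs := by linarith [hπ.zw0, hπ.zws]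
  obtain ⟨Na, hNa⟩ := skw_llb_small 1 (1 / Cr) one_pos (by positivity)
  obtain ⟨Nb, hNb⟩ := skw_llb_small 1 (1 / (S.CW + S.c.Lq + 2)) one_pos (by positivity)
  obtain ⟨Nd, hNd⟩ := skw_llb_small (llDStar / 3) (min vt (π.c.zs / 2) / M) (by unfold llDStar; norm_num)
    (div_pos (lt_min hvt (by positivity)) (by linarith))
  have p1 : 0 ≤ l8qwK1 π S κ M + 16 * M ^ 3 := by
    have := l8qw_C0_pos hπ
    have := hS.Cm
    unfold l8qwK1
    positivity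
  have p2 : 0 ≤ (9 + 16 * S.K.cA1 1) * Real.sqrt (l8qwK1 π S κ M) * (Cr * (M + π.c1) + l8qwC0 π S * (M + 2)) + M ^ 2 := by
    have := l8qw_C0_pos hπ
    have := hS.cA1 1
    have := hπ.c1
    positivity
  refine ⟨(l8qwK1 π S κ M + 16 * M ^ 3)
      + ((9 + 16 * S.K.cA1 1) * Real.sqrt (l8qwK1 π S κ M) * (Cr * (M + π.c1) + l8qwC0 π S * (M + 2)) + M ^ 2),
    max (max Na Nb) (max Nc Nd), max Kc 0, by linarith, fun I hI hok C hC => ?_⟩
  have hJ := hok.pm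
  have hx0 : 0 < I.x := I.x_pos hI.ok
  have sx : I.x ≤ 1 / Cr := by
    have := hNa I.p (((le_max_left _ _).trans (le_max_left _ _)).trans hI.hN)
    rwa [Real.rpow_one] at this
  have hsm : (S.CW + S.c.Lq + 2) * I.x ≤ 1 := by
    have := hNb I.p (((le_max_right _ _).trans (le_max_left _ _)).trans hI.hN)
    rw [Real.rpow_one, le_div_iff₀ hQ] at this
    have e : I.x = I.p.x := rfl
    rw [e]; linarith
  have X : L8qeCtx I π S Cc := ⟨hπ, hI.ok, hok, hsm⟩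
  have hU0 := X.U0
  have sY : M * I.Yc llDStar ≤ min vt (π.c.zs / 2) := by
    have h2 : I.Yc llDStar ≤ I.x ^ (llDStar / 3) := by
      have h3 : I.U * I.Zc llDStar ≤ I.U * (I.x ^ (llDStar / 3) / I.U) := mul_le_mul_of_nonneg_left (min_le_right _ _) hU0.le
      rwa [mul_div_cancel₀ _ hU0.ne'] at h3
    have h4 := h2.trans (hNd I.p (((le_max_right _ _).trans (le_max_right _ _)).trans hI.hN))
    rw [le_div_iff₀ (by linarith)] at h4
    linarith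
  have hcell : L8qwCell I κ vt := Hc I (hI.mono ((le_max_left _ _).trans (le_max_right _ _)) (le_max_left _ _)) hok.xU
  have hinv : ∀ c : ℝ, 1 ≤ c → c ≤ Cr → 1 / Cr ≤ 1 / c := fun c hc hcm => one_div_le_one_div_of_le (by linarith) hcm
  have hsc : ∀ k, 0 ≤ skwR (l8pVl I k) + π.c1 * I.Yc llDStar := fun k => by
    have h3 : 0 ≤ skwR (l8pVl I k) := le_min (X.Vl_nonneg k) zero_le_one
    linarith [X.zlo0]
  refine l8qw_low_inst X hκ hM hCr0.le hcell (sY.trans (min_le_left _ _)) (sY.trans (min_le_right _ _)) ?_ ?_ (by linarith) (by linarith)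
  · intro k hk
    refine (H1 _ _ (l8qI I π) hJ (sx.trans (hinv C1 hC1 hCr1)) k hk).1.trans ?_
    exact pow_le_pow_left₀ (mul_nonneg (by linarith) (hsc k)) (mul_le_mul_of_nonneg_right hCr1 (hsc k)) 2
  · intro k hk
    have := (H2 _ _ (l8qI I π) hJ (sx.trans (hinv C2 hC2 hCr2)) k hk).2.2
    simp only [mul_one] at this
    refine this.trans ?_
    exact pow_le_pow_left₀ (mul_nonneg (by linarith) (hsc k)) (mul_le_mul_of_nonneg_right hCr2 (hsc k)) 2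

/-- the form asked by 223 -/
theorem l8qw_low_consS (𝔹 : LlBase) (T : ℝ) : ∀ F0, L8Fix 𝔹 T F0 → ∀ (pB : LLParB) (pS : ℝ), 0 < pS → pS ≤ 1 →
    ∀ (π : L8qPar) (S : SkpS) (Cc : ℝ), π.Ok S → 1 ≤ Cc → ∀ M : ℝ, 1 ≤ M → ∃ (C0 : ℝ) (N0 : ℕ) (Kf : ℝ), 0 ≤ C0 ∧
      ∀ I : L8In, L8qAt 𝔹 (F0.wExp pB.sStar pB.eta pS) N0 Kf I → L8qOk I π S Cc → L8qwLow I C0 M := by
  intro F0 hF pB pS h0 h1 π S Cc hπ hCc M hM
  obtain ⟨C0, N0, Kf, hC0, H⟩ := l8qw_low_consA 𝔹 T F0 hF pB pS h0 h1 π S Cc hπ hCc M hM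
  exact ⟨C0, N0, Kf, hC0, fun I hI hok => H I hI hok C0 le_rfl⟩

/-- **IV9-low, FREE top `M Y_c`**, shape `L8qCons`, every `π.eps ≤ 1` -/
theorem l8qw_low_cons (𝔹 : LlBase) (T : ℝ) : ∀ F0, L8Fix 𝔹 T F0 → ∀ (pB : LLParB) (pS : ℝ), 0 < pS → pS ≤ 1 → ∀ M : ℝ, 1 ≤ M →
    L8qCons 𝔹 (F0.wExp pB.sStar pB.eta pS) fun I _ C => L8qwLow I C M := by
  intro F0 hF pB pS h0 h1 M hM
  refine ⟨1, one_pos, fun π S Cc hπ hCc _ => ?_⟩
  obtain ⟨C0, N0, Kf, _, H⟩ := l8qw_low_consA 𝔹 T F0 hF pB pS h0 h1 π S Cc hπ hCc M hM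
  exact ⟨C0, N0, Kf, H⟩

theorem l8qw_int_empty (I : L8In) {lo hi : ℝ} (h : hi < lo) (g : ℕ → ℝ) : I.int lo hi g = 0 := by
  unfold L8In.int
  refine Finset.sum_eq_zero fun k hk => ?_
  obtain ⟨_, h2, h3⟩ := Finset.mem_filter.1 hk
  linarith

theorem l8qw_epsw_max {I : L8In} (hxU : I.x ≤ I.U) (Y w : ℝ) : I.epsw Y (max w I.x) = I.epsw Y w := by
  unfold L8In.epsw
  rw [max_assoc, max_eq_right hxU]

/-- the three lines of (D9) in the shape of `L8pIv` -/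
def L8qwIv9 (I : L8In) (A Y : ℝ) : Prop :=
  (∀ w, 0 < w → w ≤ 2 * Y → I.int (max w I.x) (2 * w) I.D2 ≤ A * Y * I.epsw Y w) ∧
  (∀ w, 0 < w → w ≤ 2 * Y → I.int (max w I.x) (2 * w) (fun k => I.ex false ((I.sp false).W k)) ≤ A * I.epsw Y w ^ 2) ∧
  ∀ w, 0 < w → w ≤ 2 * Y → I.int (max w I.x) (2 * w) (fun k => I.moF false k 1 fun ω => (I.sp false).Q ω - I.S k) ≤ A * Y * I.epsw Y w

theorem l8qwIv9_eqns_cite : True := by
  have := @L8qwIv9.eq_1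
  trivial

theorem l8qw_iv9_of {I : L8In} {A A' : ℝ} (hx : 0 < I.x) (hxU : I.x ≤ I.U) (hY : 0 ≤ I.Yc llDStar) (hA : 0 ≤ A) (hAA : A ≤ A')
    (h : L8qwLow I A 4) : L8qwIv9 I A' (I.Yc llDStar) := by
  have hU : 0 ≤ I.U := hx.le.trans hxU
  have he : ∀ w, 0 ≤ I.epsw (I.Yc llDStar) w := l8qw_epsw_nonneg hx.le hU _
  have key : ∀ w, 0 < w → w ≤ 2 * I.Yc llDStar → max w I.x ≤ 2 * w →
      I.int (max w I.x) (2 * w) (fun k => I.ex false ((I.sp false).W k)) ≤ A * I.epsw (I.Yc llDStar) w ^ 2 ∧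
      I.int (max w I.x) (2 * w) I.D2 ≤ A * I.Yc llDStar * I.epsw (I.Yc llDStar) w ∧
      I.int (max w I.x) (2 * w) (fun k => I.moF false k 1 fun ω => (I.sp false).Q ω - I.S k) ≤ A * I.Yc llDStar * I.epsw (I.Yc llDStar) w := by
    intro w hw hw2 hlo
    have := h (max w I.x) (2 * w) (le_max_right _ _) hlo (by linarith)
    rw [l8qw_epsw_max hxU] at this
    exact ⟨this.1, this.2 (by linarith [le_max_left w I.x])⟩
  have m1 : ∀ w, A * I.Yc llDStar * I.epsw (I.Yc llDStar) w ≤ A' * I.Yc llDStar * I.epsw (I.Yc llDStar) w := fun w =>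
    mul_le_mul_of_nonneg_right (mul_le_mul_of_nonneg_right hAA hY) (he w)
  have m2 : ∀ w, A * I.epsw (I.Yc llDStar) w ^ 2 ≤ A' * I.epsw (I.Yc llDStar) w ^ 2 := fun w =>
    mul_le_mul_of_nonneg_right hAA (sq_nonneg _)
  have z1 : ∀ w, 0 ≤ A' * I.Yc llDStar * I.epsw (I.Yc llDStar) w := fun w => mul_nonneg (mul_nonneg (hA.trans hAA) hY) (he w)
  have z2 : ∀ w, 0 ≤ A' * I.epsw (I.Yc llDStar) w ^ 2 := fun w => mul_nonneg (hA.trans hAA) (sq_nonneg _)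
  refine ⟨fun w hw hw2 => ?_, fun w hw hw2 => ?_, fun w hw hw2 => ?_⟩
  · rcases le_or_gt (max w I.x) (2 * w) with hlo | hlo
    · exact (key w hw hw2 hlo).2.1.trans (m1 w)
    · rw [l8qw_int_empty I hlo]; exact z1 w
  · rcases le_or_gt (max w I.x) (2 * w) with hlo | hlo
    · exact (key w hw hw2 hlo).1.trans (m2 w)
    · rw [l8qw_int_empty I hlo]; exact z2 w
  · rcases le_or_gt (max w I.x) (2 * w) with hlo | hlo
    · exact (key w hw hw2 hlo).2.2.trans (m1 w)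
    · rw [l8qw_int_empty I hlo]; exact z1 w

/-- **IV9-low**: the fields `n9`, `d9_W`, `d9_Q` of `L8pIv` for `l8q_iv`.      TEX[LL:lem:statistics-lower-band] TEX[LL:eq:D9] -/
theorem l8qw_iv9 (𝔹 : LlBase) (T : ℝ) : ∀ F0, L8Fix 𝔹 T F0 → ∀ (pB : LLParB) (pS : ℝ), 0 < pS → pS ≤ 1 → ∀ ε : ℝ, 0 < ε →
    L8qCons 𝔹 (F0.wExp pB.sStar pB.eta pS) fun I _ C => L8qwIv9 I (C * I.x ^ (-ε)) (I.Yc llDStar) := by
  intro F0 hF pB pS h0 h1 ε hε
  obtain ⟨e0, he0, H⟩ := l8qw_low_cons 𝔹 T F0 hF pB pS h0 h1 4 (by norm_num)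
  refine ⟨e0, he0, fun π S Cc hπ hCc he => ?_⟩
  obtain ⟨C0, N0, Kf, H'⟩ := H π S Cc hπ hCc he
  refine ⟨max C0 0, N0, Kf, fun I hI hok C hC => ?_⟩
  have hx0 : 0 < I.x := I.x_pos hI.ok
  have hx1 : I.x ≤ 1 := I.x_le_one hI.ok
  have hC0 : 0 ≤ C := (le_max_right _ _).trans hC
  have hxe : 1 ≤ I.x ^ (-ε) := Real.one_le_rpow_of_pos_of_le_one_of_nonpos hx0 hx1 (by linarith)
  have hY : 0 ≤ I.Yc llDStar := by
    have hU0 : 0 ≤ I.U := hx0.le.trans hok.xU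
    have : 0 ≤ I.Zc llDStar := zero_le_one.trans hok.Zc1
    exact mul_nonneg hU0 this
  exact l8qw_iv9_of hx0 hok.xU hY hC0 (le_mul_of_one_le_right hC0 hxe) (H' I hI hok C ((le_max_left _ _).trans hC))

end Claimed.Agent.R286
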