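import Claimed.Agent.R286.PM.Leaves

/-!
# Row 286 (S0533), folder PM, file Lay : DYADIC LAYERS ON THE GENERAL GRID, common part of (D6) and of the refined integral of `W`      (owner helper72; prefix `skpl_`, defs `skpl*`)

TEX[LL:prop:statistics-pointwise] (LL 08 l.398-500, l.534-569: "blocks starting at doubled distances from the fork").   No own sorry (uses `bud_bm_wl` of Bud/MomBoxA).
* (A) `skplT zc s D` = the first cut `i ≥ s` with `zc i ≥ zc s + D`;  API `skpl_T_mem/le/le_iff/upper/mono_D/mono_s`.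
* (B) `skpl_sum_window` : the `dz`-mass of cuts with coordinates in `(α, β]` is `≤ β - α + δ`.
* (C) dyadic distances `skplD d j = 0, d, 2d, 4d, ..`; blocks `skplt I d Bn j s` (`j ≤ Bn`: first cut at the distance `skplD d j`; `j = Bn + 1`: the end `n + 1`);
      `skpl_overlap` = (global-grid) for blocks given by two distances (constant `32 r (D' - D + δ)`), `skpl_mink` = Minkowski on a window;
      `skplMu`, `skplSg` = explicit mass bounds / squared projection scales from `vhi`, `vlo`, `D3`, `msz` (`skpl_mu`, `skpl_sg`), gaps = second halves of the distances;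
      `skpl_wl` = `bud_bm_wl` on this structure, crude form `‖∑ dz W‖_r ≤ (Bn+1)³ × (largest pair term)`.   Hypotheses on the window: `SkplGeo`.
* (D) `skpl_polylog` : `(1 + log (1/x))^n ≤ C x^(-γ)`;  `skpl_exists_Bn` : the number of dyadic distances below a level.
-/

set_option autoImplicit false

namespace Claimed.Agent.R286

open Set MeasureTheory

/-! ## (A) first cut at a given distance -/

/-- the first cut `i ≥ s` with `zc i ≥ zc s + D` -/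
noncomputable def skplT (zc : ℕ → ℝ) (s : ℕ) (D : ℝ) : ℕ := sInf {i | s ≤ i ∧ zc s + D ≤ zc i}

section A

variable {zc : ℕ → ℝ} {nb s : ℕ} {D δ : ℝ}

theorem skpl_T_mem (hs : s ≤ nb) (hD : zc s + D ≤ zc nb) :
    s ≤ skplT zc s D ∧ zc s + D ≤ zc (skplT zc s D) :=
  Nat.sInf_mem (s := {i | s ≤ i ∧ zc s + D ≤ zc i}) ⟨nb, hs, hD⟩

theorem skpl_T_le {j : ℕ} (hs : s ≤ j) (hD : zc s + D ≤ zc j) : skplT zc s D ≤ j :=
  Nat.sInf_le (s := {i | s ≤ i ∧ zc s + D ≤ zc i}) ⟨hs, hD⟩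

theorem skpl_T_zero (s : ℕ) : skplT zc s 0 = s :=
  le_antisymm (skpl_T_le le_rfl (by simp)) (skpl_T_mem (nb := s) le_rfl (by simp)).1

theorem skpl_T_le_iff (hz : Monotone zc) (hs : s ≤ nb) (hD : zc s + D ≤ zc nb) (j : ℕ) :
    skplT zc s D ≤ j ↔ s ≤ j ∧ zc s + D ≤ zc j :=
  ⟨fun h => ⟨(skpl_T_mem hs hD).1.trans h, (skpl_T_mem hs hD).2.trans (hz h)⟩,
    fun h => skpl_T_le h.1 h.2⟩

theorem skpl_T_pos_lt (hs : s ≤ nb) (hD : zc s + D ≤ zc nb) (hD0 : 0 < D) : s < skplT zc s D := by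
  have h := skpl_T_mem hs hD
  rcases h.1.eq_or_lt with e | e
  · have := h.2
    rw [← e] at this
    linarith
  · exact e

/-- the cut just before is still closer than `D` -/
theorem skpl_T_pred (hs : s ≤ nb) (hD : zc s + D ≤ zc nb) (hD0 : 0 < D) :
    zc (skplT zc s D - 1) < zc s + D := by
  have h1 := skpl_T_pos_lt hs hD hD0
  by_contra hc
  push Not at hc
  have := skpl_T_le (zc := zc) (s := s) (D := D) (j := skplT zc s D - 1) (by omega) hc
  omega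

theorem skpl_T_upper (hs : s ≤ nb) (hD : zc s + D ≤ zc nb) (hD0 : 0 < D)
    (hmesh : ∀ k < nb, zc (k + 1) - zc k ≤ δ) : zc (skplT zc s D) < zc s + D + δ := by
  have h1 := skpl_T_pos_lt hs hD hD0
  have h2 := skpl_T_pred hs hD hD0
  have h3 : skplT zc s D ≤ nb := skpl_T_le hs hD
  have h4 := hmesh (skplT zc s D - 1) (by omega)
  have e : skplT zc s D - 1 + 1 = skplT zc s D := by omega
  rw [e] at h4
  linarith

theorem skpl_T_mono_D {D' : ℝ} (hs : s ≤ nb) (hD' : zc s + D' ≤ zc nb) (hDD : D ≤ D') :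
    skplT zc s D ≤ skplT zc s D' := by
  have h := skpl_T_mem hs hD'
  exact skpl_T_le h.1 (by linarith [h.2])

theorem skpl_T_mono_s (hz : Monotone zc) {s' : ℕ} (hss : s ≤ s') (hs : s' ≤ nb) (hD : zc s' + D ≤ zc nb) :
    skplT zc s D ≤ skplT zc s' D := by
  have h := skpl_T_mem hs hD
  exact skpl_T_le (hss.trans h.1) (by linarith [h.2, hz hss])

/-! ## (B) window sums -/

/-- telescoping -/
theorem skpl_sum_Ico (zc : ℕ → ℝ) {a b : ℕ} (hab : a ≤ b) :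
    ∑ k ∈ Finset.Ico a b, (zc (k + 1) - zc k) = zc b - zc a :=
  Finset.sum_Ico_sub zc hab

/-- the `dz`-mass of a set of cuts whose coordinates lie in `(α, β]` -/
theorem skpl_sum_window (hz : Monotone zc) (hmesh : ∀ k < nb, zc (k + 1) - zc k ≤ δ) (hδ : 0 ≤ δ)
    (T : Finset ℕ) {α β : ℝ} (hαβ : α ≤ β) (hT : ∀ k ∈ T, k < nb ∧ α < zc k ∧ zc k ≤ β) :
    ∑ k ∈ T, (zc (k + 1) - zc k) ≤ β - α + δ := by
  rcases T.eq_empty_or_nonempty with rfl | hne
  · simp; linarith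
  · set a := T.min' hne
    set b := T.max' hne
    have ha := hT a (T.min'_mem hne)
    have hb := hT b (T.max'_mem hne)
    have hab : a ≤ b := T.min'_le b (T.max'_mem hne)
    have hsub : T ⊆ Finset.Ico a (b + 1) := fun k hk => by
      rw [Finset.mem_Ico]
      exact ⟨T.min'_le k hk, Nat.lt_succ_of_le (T.le_max' k hk)⟩
    calc ∑ k ∈ T, (zc (k + 1) - zc k) ≤ ∑ k ∈ Finset.Ico a (b + 1), (zc (k + 1) - zc k) :=
          Finset.sum_le_sum_of_subset_of_nonneg hsub fun k _ _ => sub_nonneg.2 (hz (Nat.le_succ k))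
      _ = zc (b + 1) - zc a := skpl_sum_Ico zc (by omega)
      _ ≤ β - α + δ := by
          have := hmesh b hb.1
          linarith [ha.2.1, hb.2.2]

end A

/-! ## (C) dyadic blocks over an instance -/

theorem skpl_R_mono : Monotone skwR := fun a b hab => by
  unfold skwR; exact min_le_min_right 1 hab

theorem skpl_R_le_one (z : ℝ) : skwR z ≤ 1 := min_le_right _ _

theorem skpl_R_le (z : ℝ) : skwR z ≤ z := min_le_left _ _

theorem skpl_R_pos {z : ℝ} (hz : 0 < z) : 0 < skwR z := lt_min hz one_pos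

/-- dyadic distances `0, d, 2d, 4d, ..` -/
def skplD (d : ℝ) : ℕ → ℝ
  | 0 => 0
  | j + 1 => 2 ^ j * d

theorem skpl_D_zero (d : ℝ) : skplD d 0 = 0 := rfl

theorem skpl_D_succ (d : ℝ) (j : ℕ) : skplD d (j + 1) = 2 ^ j * d := rfl

theorem skpl_D_nonneg {d : ℝ} (hd : 0 ≤ d) (j : ℕ) : 0 ≤ skplD d j := by
  cases j with
  | zero => exact le_rfl
  | succ j => rw [skpl_D_succ]; positivity

theorem skpl_D_mono {d : ℝ} (hd : 0 ≤ d) : Monotone (skplD d) := by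
  refine monotone_nat_of_le_succ fun j => ?_
  cases j with
  | zero => rw [skpl_D_zero]; exact skpl_D_nonneg hd 1
  | succ j =>
    rw [skpl_D_succ, skpl_D_succ, pow_succ]
    have : 0 ≤ 2 ^ j * d := by positivity
    linarith

theorem skpl_D_ge {d : ℝ} (hd : 0 ≤ d) {j : ℕ} (hj : 1 ≤ j) : d ≤ skplD d j := by
  have := skpl_D_mono hd hj
  simpa [skpl_D_succ] using this

theorem skpl_D_double (d : ℝ) {j : ℕ} (hj : 1 ≤ j) : skplD d (j + 1) = 2 * skplD d j := by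
  obtain ⟨i, rfl⟩ : ∃ i, j = i + 1 := ⟨j - 1, by omega⟩
  rw [skpl_D_succ, skpl_D_succ, pow_succ]; ring

section C

variable {Ω : Type} [mΩ : MeasurableSpace Ω] {m : ℕ} {S : SkpS} {I : SkpI Ω m}

/-- the cuts of the dyadic block structure of the fork `s` -/
noncomputable def skplt (I : SkpI Ω m) (d : ℝ) (Bn j s : ℕ) : ℕ :=
  if j ≤ Bn then skplT I.zc s (skplD d j) else I.P.n + 1

/-- mass bound of the block `j` -/
noncomputable def skplMu (S : SkpS) (I : SkpI Ω m) (k₂ : ℕ) (d : ℝ) (Bn j : ℕ) : ℝ :=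
  if j < Bn then S.Cv * skwR (I.zc k₂ + skplD d (j + 1) + I.δ) else 4 * S.Cv

/-- the radius at the start of the gap of the block `j` -/
noncomputable def skplRho (I : SkpI Ω m) (k₁ : ℕ) (d : ℝ) (j : ℕ) : ℝ := skwR (I.zc k₁ + skplD d j / 2)

/-- squared projection scale of the block `j ≥ 1` -/
noncomputable def skplSg (S : SkpS) (I : SkpI Ω m) (k₁ : ℕ) (d : ℝ) (j : ℕ) : ℝ :=
  S.Cm * I.d.x ^ 6 / ((skplRho I k₁ d j / S.Cv) ^ 2 * (S.cD3 * I.lam1 * skplRho I k₁ d j ^ 2 * (skplD d j / 4)))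

theorem skpl_dz_nonneg (hI : I.Ok S) (k : ℕ) : 0 ≤ I.dz k := sub_nonneg.2 (hI.zmono (Nat.le_succ k))

theorem skpl_sum_dz (I : SkpI Ω m) {k₁ k₂ : ℕ} (h12 : k₁ ≤ k₂) :
    ∑ k ∈ Finset.Ico k₁ k₂, I.dz k = I.zc k₂ - I.zc k₁ := skpl_sum_Ico I.zc h12

/-- (global-grid) for blocks given by two distances `D ≤ D'` -/
theorem skpl_overlap (hI : I.Ok S) {r : ℕ} (hr : 1 ≤ r) {k₁ k₂ : ℕ} (h12 : k₁ ≤ k₂) (hk₂ : k₂ ≤ I.nb) {D D' : ℝ}
    (hDD : D ≤ D') (hroom : I.zc k₂ + D' ≤ I.zc I.nb) :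
    ∫ ω, (∑ s ∈ Finset.Ico k₁ k₂, I.dz s * I.P.nXX (skplT I.zc s D) (skplT I.zc s D') ω) ^ r ∂I.P.μ ≤
      (32 * r * (D' - D + I.δ)) ^ r * ∫ ω, I.P.nXX (skplT I.zc k₁ D) (skplT I.zc k₂ D') ω ^ r ∂I.P.μ := by
  have hz := hI.zmono
  have hs : ∀ s ∈ Finset.Ico k₁ k₂, s ≤ I.nb ∧ I.zc s + D' ≤ I.zc I.nb ∧ I.zc s + D ≤ I.zc I.nb := fun s hs => by
    have h1 := (Finset.mem_Ico.1 hs).2
    have h2 := hz h1.le
    exact ⟨h1.le.trans hk₂, by linarith, by linarith⟩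
  have hroomD : I.zc k₂ + D ≤ I.zc I.nb := by linarith
  refine I.P.l6p_overlap_fam hI.sp r hr (n0 := skplT I.zc k₁ D) (n1 := skplT I.zc k₂ D') ?_
    (Finset.Ico k₁ k₂) I.dz (fun k _ => skpl_dz_nonneg hI k) (fun s => skplT I.zc s D)
    (fun s => skplT I.zc s D') ?_ ?_ ?_ ?_
  · exact (skpl_T_mono_s hz h12 hk₂ hroomD).trans (skpl_T_mono_D hk₂ hroom hDD)
  · intro s hs'
    exact skpl_T_mono_s hz (Finset.mem_Ico.1 hs').1 (hs s hs').1 (hs s hs').2.2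
  · intro s hs'
    exact skpl_T_mono_D (hs s hs').1 (hs s hs').2.1 hDD
  · intro s hs'
    exact skpl_T_mono_s hz (Finset.mem_Ico.1 hs').2.le hk₂ hroom
  · intro j _ _
    have := skpl_sum_window (zc := I.zc) (nb := I.nb) (δ := I.δ) hz hI.zmesh hI.δ0.le
      ({s ∈ Finset.Ico k₁ k₂ | skplT I.zc s D ≤ j ∧ j < skplT I.zc s D'})
      (α := I.zc j - D') (β := I.zc j - D) (by linarith) (fun s hs' => by
        rw [Finset.mem_filter] at hs'
        obtain ⟨h1, h2, h3⟩ := hs'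
        have a1 := (skpl_T_le_iff hz (hs s h1).1 (hs s h1).2.2 j).1 h2
        have a2 : ¬ (s ≤ j ∧ I.zc s + D' ≤ I.zc j) := fun hc =>
          absurd ((skpl_T_le_iff hz (hs s h1).1 (hs s h1).2.1 j).2 hc) (by omega)
        have a3 : I.zc j < I.zc s + D' := by
          by_contra hc
          exact a2 ⟨a1.1, not_lt.1 hc⟩
        refine ⟨lt_of_lt_of_le (Finset.mem_Ico.1 h1).2 hk₂, by linarith, by linarith [a1.2]⟩)
    calc _ ≤ I.zc j - D - (I.zc j - D') + I.δ := this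
      _ = D' - D + I.δ := by ring

/-- Minkowski on a window -/
theorem skpl_mink (hI : I.Ok S) {r : ℕ} (hr : 1 ≤ r) (k₁ k₂ : ℕ) (bb ee : ℕ → ℕ) (β : ℕ → ℝ)
    (hβ0 : ∀ s ∈ Finset.Ico k₁ k₂, 0 ≤ β s)
    (hβ : ∀ s ∈ Finset.Ico k₁ k₂, ∫ ω, I.P.nXX (bb s) (ee s) ω ^ r ∂I.P.μ ≤ β s ^ r) :
    ∫ ω, (∑ s ∈ Finset.Ico k₁ k₂, I.dz s * I.P.nXX (bb s) (ee s) ω) ^ r ∂I.P.μ ≤
      (∑ s ∈ Finset.Ico k₁ k₂, I.dz s * β s) ^ r := by
  have := hI.sp.prob
  have h1 := bud_bm_mink I.P.μ (Finset.Ico k₁ k₂) (fun s ω => I.dz s * I.P.nXX (bb s) (ee s) ω)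
    (fun s => I.dz s * β s) r hr (fun s _ => (bud_bm_sq_bd I.P hI.sp _ _).const_mul _)
    (fun s hs => mul_nonneg (skpl_dz_nonneg hI s) (hβ0 s hs)) (fun s hs => by
      have e : ∀ ω, |I.dz s * I.P.nXX (bb s) (ee s) ω| ^ r = I.dz s ^ r * I.P.nXX (bb s) (ee s) ω ^ r := fun ω => by
        rw [abs_of_nonneg (mul_nonneg (skpl_dz_nonneg hI s) (bud_bm_sq_nonneg I.P _ _ ω)), mul_pow]
      simp_rw [e]
      rw [integral_const_mul, mul_pow]
      exact mul_le_mul_of_nonneg_left (hβ s hs) (pow_nonneg (skpl_dz_nonneg hI s) r))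
  refine le_trans (le_of_eq ?_) h1
  refine integral_congr_ae (ae_of_all _ fun ω => ?_)
  simp only []
  rw [abs_of_nonneg (Finset.sum_nonneg fun s _ =>
    mul_nonneg (skpl_dz_nonneg hI s) (bud_bm_sq_nonneg I.P _ _ ω))]

end C

section W

variable {Ω : Type} [mΩ : MeasurableSpace Ω] {m : ℕ} {S : SkpS} {I : SkpI Ω m}

/-- geometry of a fork window `[k₁, k₂)` with the dyadic distances `d, 2d, .., 2^(Bn-1) d` -/
structure SkplGeo (S : SkpS) (I : SkpI Ω m) (k₁ k₂ : ℕ) (d : ℝ) (Bn : ℕ) : Prop where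
  h12 : k₁ ≤ k₂
  Bn1 : 1 ≤ Bn
  d4 : 4 * I.δ ≤ d
  room : I.zc k₂ + skplD d Bn ≤ I.zbuf
  zlo : I.d.zlo / 4 ≤ I.zc k₁
  lowv : I.lowb ≤ skwR (I.zc k₁) / S.Cv
  lowh : I.lowb ≤ S.cD3 * I.lam1 * skwR (I.zc k₁) ^ 2 * (d / 4)

variable {k₁ k₂ Bn : ℕ} {d : ℝ}

theorem skpl_geo_d (hI : I.Ok S) (g : SkplGeo S I k₁ k₂ d Bn) : 0 < d := by
  have := hI.δ0; have := g.d4; linarith

theorem skpl_geo_z1 (hI : I.Ok S) (g : SkplGeo S I k₁ k₂ d Bn) : 0 < I.zc k₁ := by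
  have := hI.wh.zlo0; have := g.zlo; linarith

theorem skpl_geo_k2 (hI : I.Ok S) (g : SkplGeo S I k₁ k₂ d Bn) : k₂ ≤ I.nb := by
  by_contra hc
  push Not at hc
  have h1 := hI.zmono hc.le
  have h2 := g.room
  rw [← hI.nb] at h2
  have h3 := skpl_D_ge (skpl_geo_d hI g).le g.Bn1
  have := skpl_geo_d hI g
  linarith

theorem skpl_geo_s (hI : I.Ok S) (g : SkplGeo S I k₁ k₂ d Bn) {s : ℕ} (hs : s ≤ k₂) {D : ℝ}
    (hD : D ≤ skplD d Bn) : s ≤ I.nb ∧ I.zc s + D ≤ I.zc I.nb := by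
  refine ⟨hs.trans (skpl_geo_k2 hI g), ?_⟩
  have h1 := hI.zmono hs
  have h2 := g.room
  rw [← hI.nb] at h2
  linarith

theorem skpl_t_zero (I : SkpI Ω m) (d : ℝ) (Bn s : ℕ) : skplt I d Bn 0 s = s := by
  unfold skplt
  rw [if_pos (Nat.zero_le _), skpl_D_zero, skpl_T_zero]

theorem skpl_t_last (I : SkpI Ω m) (d : ℝ) (Bn s : ℕ) : skplt I d Bn (Bn + 1) s = I.P.n + 1 := by
  unfold skplt
  rw [if_neg (by omega)]

theorem skpl_t_of_le (I : SkpI Ω m) (d : ℝ) {Bn j : ℕ} (hj : j ≤ Bn) (s : ℕ) :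
    skplt I d Bn j s = skplT I.zc s (skplD d j) := by
  unfold skplt
  rw [if_pos hj]

theorem skpl_t_mono (hI : I.Ok S) (g : SkplGeo S I k₁ k₂ d Bn) {s : ℕ} (hs : s ≤ k₂) :
    Monotone fun j => skplt I d Bn j s := by
  intro j j' hjj
  have hd := (skpl_geo_d hI g).le
  simp only []
  by_cases h1 : j' ≤ Bn
  · rw [skpl_t_of_le I d (hjj.trans h1), skpl_t_of_le I d h1]
    have := skpl_geo_s hI g hs (skpl_D_mono hd h1)
    exact skpl_T_mono_D this.1 this.2 (skpl_D_mono hd hjj)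
  · by_cases h2 : j ≤ Bn
    · rw [skpl_t_of_le I d h2]
      unfold skplt
      rw [if_neg h1]
      have := skpl_geo_s hI g hs (skpl_D_mono hd h2)
      have h3 : skplT I.zc s (skplD d j) ≤ I.nb := skpl_T_le this.1 this.2
      have := hI.nbn
      omega
    · unfold skplt
      rw [if_neg h1, if_neg h2]

theorem skpl_mu_nonneg (hS : S.Ok) (hI : I.Ok S) (g : SkplGeo S I k₁ k₂ d Bn) (j : ℕ) :
    0 ≤ skplMu S I k₂ d Bn j := by
  have hCv := hS.Cv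
  unfold skplMu
  split_ifs
  · have h1 : 0 ≤ I.zc k₂ + skplD d (j + 1) + I.δ := by
      have := skpl_geo_z1 hI g
      have := hI.zmono g.h12
      have := skpl_D_nonneg (skpl_geo_d hI g).le (j + 1)
      have := hI.δ0
      linarith
    have : 0 ≤ skwR (I.zc k₂ + skplD d (j + 1) + I.δ) := le_min h1 zero_le_one
    positivity
  · linarith

theorem skpl_lam_pos (hI : I.Ok S) : 0 < I.lam1 :=
  lt_of_lt_of_le (pow_pos hI.wh.x0 14) hI.lam1a

theorem skpl_sg_nonneg (hS : S.Ok) (hI : I.Ok S) (g : SkplGeo S I k₁ k₂ d Bn) (j : ℕ) :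
    0 ≤ skplSg S I k₁ d j := by
  have h1 := hS.Cm
  have h2 := hI.wh.x0
  have h3 := hS.cD3
  have h4 := skpl_lam_pos hI
  have h5 := skpl_D_nonneg (skpl_geo_d hI g).le j
  unfold skplSg
  positivity

/-- masses of the blocks -/
theorem skpl_mu (hS : S.Ok) (hI : I.Ok S) (g : SkplGeo S I k₁ k₂ d Bn) {s : ℕ} (hs : s ≤ k₂) {j : ℕ} (hj : j < Bn + 1)
    (hne : skplt I d Bn j s < skplt I d Bn (j + 1) s) :
    I.P.v (skplt I d Bn (j + 1) s - 1) ≤ skplMu S I k₂ d Bn j := by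
  have hd := skpl_geo_d hI g
  have hCv := hS.Cv
  unfold skplMu
  by_cases h1 : j < Bn
  · rw [if_pos h1]
    rw [skpl_t_of_le I d (by omega : j + 1 ≤ Bn)] at hne ⊢
    have h2 := skpl_geo_s hI g hs (skpl_D_mono hd.le (by omega : j + 1 ≤ Bn))
    have hDpos : 0 < skplD d (j + 1) := lt_of_lt_of_le hd (skpl_D_ge hd.le (by omega))
    have h3 : skplT I.zc s (skplD d (j + 1)) ≤ I.nb := skpl_T_le h2.1 h2.2
    have h4 := hI.vhi (skplT I.zc s (skplD d (j + 1)) - 1) (by omega)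
    have e : skplT I.zc s (skplD d (j + 1)) - 1 + 1 = skplT I.zc s (skplD d (j + 1)) := by omega
    rw [e] at h4
    refine h4.trans (mul_le_mul_of_nonneg_left (skpl_R_mono ?_) (by linarith))
    have h5 := skpl_T_upper h2.1 h2.2 hDpos hI.zmesh
    have h6 := hI.zmono hs
    unfold SkpI.z
    linarith
  · rw [if_neg h1]
    have e : j = Bn := by omega
    subst e
    rw [skpl_t_last, Nat.add_sub_cancel, hI.sp.v_term _ le_rfl]
    have := hI.a4
    linarith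

/-- the projection gaps of the blocks `j ≥ 1` -/
theorem skpl_sg (hS : S.Ok) (hI : I.Ok S) (g : SkplGeo S I k₁ k₂ d Bn) {s : ℕ} (hs1 : k₁ ≤ s) (hs : s ≤ k₂) {j : ℕ}
    (hj1 : 1 ≤ j) (hj : j ≤ Bn) :
    ∃ p, s ≤ p ∧ p < skplt I d Bn j s ∧ I.lowb ≤ I.P.v p ∧ I.lowb ≤ I.P.hlen p (skplt I d Bn j s) ∧
      1 ≤ skplSg S I k₁ d j * mbxDen I.P p (skplt I d Bn j s) := by
  have hd := skpl_geo_d hI g
  have hCv := hS.Cv
  have hz := hI.zmono
  have hDj : d ≤ skplD d j := skpl_D_ge hd.le hj1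
  have hDpos : 0 < skplD d j := lt_of_lt_of_le hd hDj
  have h2 := skpl_geo_s hI g hs (skpl_D_mono hd.le hj)
  have h2' := skpl_geo_s hI g hs (D := skplD d j / 2) (by have := skpl_D_mono hd.le hj; linarith)
  rw [skpl_t_of_le I d hj]
  set t := skplT I.zc s (skplD d j) with ht
  set p := skplT I.zc s (skplD d j / 2) with hp
  have hp1 := skpl_T_mem h2'.1 h2'.2
  have hp2 := skpl_T_upper h2'.1 h2'.2 (by linarith) hI.zmesh
  have hpnb : p ≤ I.nb := skpl_T_le h2'.1 h2'.2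
  have ht1 := skpl_T_mem h2.1 h2.2
  have htnb : t ≤ I.nb := skpl_T_le h2.1 h2.2
  have hδ := g.d4
  have hgap : skplD d j / 4 ≤ I.zc t - I.zc p := by linarith [ht1.2]
  have hpt : p < t := by
    by_contra hc
    push Not at hc
    have := hz hc
    linarith
  have hz1 := skpl_geo_z1 hI g
  have hzs := hz hs1
  have hzp : I.zc k₁ + skplD d j / 2 ≤ I.zc p := by linarith [hp1.2]
  have hzlo : I.d.zlo / 4 ≤ I.z p := by
    unfold SkpI.z; have := g.zlo; linarith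
  -- radii
  set ρ := skplRho I k₁ d j with hρ
  have hρpos : 0 < ρ := skpl_R_pos (by linarith)
  have hρp : ρ ≤ skwR (I.z p) := skpl_R_mono hzp
  have hρ1 : skwR (I.zc k₁) ≤ ρ := skpl_R_mono (by linarith)
  have hR1pos : 0 < skwR (I.zc k₁) := skpl_R_pos hz1
  -- mass and field length
  have hv : ρ / S.Cv ≤ I.P.v p :=
    (div_le_div_of_nonneg_right hρp (by linarith)).trans (hI.vlo p hpnb hzlo)
  have hlam := skpl_lam_pos hI
  have hcD := hS.cD3
  have hh : S.cD3 * I.lam1 * ρ ^ 2 * (skplD d j / 4) ≤ I.P.hlen p t := by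
    refine le_trans ?_ (hI.D3 p t hpt htnb hzlo)
    have a1 : ρ ^ 2 ≤ skwR (I.z p) ^ 2 := pow_le_pow_left₀ hρpos.le hρp 2
    have a2 : S.cD3 * I.lam1 * ρ ^ 2 ≤ S.cD3 * I.lam1 * skwR (I.z p) ^ 2 :=
      mul_le_mul_of_nonneg_left a1 (by positivity)
    exact mul_le_mul a2 hgap (by positivity) (by positivity)
  refine ⟨p, hp1.1, hpt, ?_, ?_, ?_⟩
  · refine g.lowv.trans (le_trans ?_ hv)
    exact div_le_div_of_nonneg_right hρ1 (by linarith)
  · refine g.lowh.trans (le_trans ?_ hh)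
    have a1 : skwR (I.zc k₁) ^ 2 ≤ ρ ^ 2 := pow_le_pow_left₀ hR1pos.le hρ1 2
    have a2 : S.cD3 * I.lam1 * skwR (I.zc k₁) ^ 2 ≤ S.cD3 * I.lam1 * ρ ^ 2 :=
      mul_le_mul_of_nonneg_left a1 (by positivity)
    exact mul_le_mul a2 (by linarith) (by positivity) (by positivity)
  · unfold skplSg mbxDen
    rw [← hρ]
    set a := ρ / S.Cv with ha
    set bq := S.cD3 * I.lam1 * ρ ^ 2 * (skplD d j / 4) with hbq
    have ha0 : 0 < a := div_pos hρpos (by linarith)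
    have hb0 : 0 < bq := by positivity
    have hm0 : (0 : ℝ) < m := by exact_mod_cast hI.m0
    have hmsz : 1 ≤ S.Cm * I.d.x ^ 6 * m := by
      have := hI.msz
      rw [div_le_iff₀ hm0] at this
      exact this
    have h3 : a ^ 2 * bq ≤ I.P.v p ^ 2 * I.P.hlen p t :=
      mul_le_mul (pow_le_pow_left₀ ha0.le hv 2) hh hb0.le (by positivity)
    have h4 : 0 < a ^ 2 * bq := by positivity
    calc (1 : ℝ) ≤ S.Cm * I.d.x ^ 6 * m := hmsz
      _ = S.Cm * I.d.x ^ 6 / (a ^ 2 * bq) * (m * (a ^ 2 * bq)) := by field_simp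
      _ ≤ S.Cm * I.d.x ^ 6 / (a ^ 2 * bq) * (m * (I.P.v p ^ 2 * I.P.hlen p t)) := by
          refine mul_le_mul_of_nonneg_left (mul_le_mul_of_nonneg_left h3 hm0.le) ?_
          have := hS.Cm; have := hI.wh.x0
          positivity
      _ = S.Cm * I.d.x ^ 6 / (a ^ 2 * bq) * (I.P.v p ^ 2 * m * I.P.hlen p t) := by ring

/-- **the weighted-layer lemma on dyadic `z`-distances**, crude form: `(Bn+1)³ ×` the largest pair term -/
theorem skpl_wl (hS : S.Ok) (hI : I.Ok S) (g : SkplGeo S I k₁ k₂ d Bn) {r R : ℕ} (hr : 1 ≤ r) (hR : 1 ≤ R)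
    (G : ℕ → ℝ) (hG0 : ∀ i, 0 ≤ G i)
    (hG : ∀ i ≤ Bn, ∫ ω, (∑ s ∈ Finset.Ico k₁ k₂, I.dz s *
      I.P.nXX (skplt I d Bn i s) (skplt I d Bn (i + 1) s) ω) ^ r ∂I.P.μ ≤ G i ^ r)
    {th eps T : ℝ} (hth : 1 ≤ th) (heps0 : 0 ≤ eps)
    (heps : (S.K.cA3 R * I.Lg ^ 2) ^ (2 * R) ≤ eps ^ r * th ^ R)
    (hT : ∀ i ≤ Bn, ∀ j ≤ Bn, skplMu S I k₂ d Bn j * (if i = 0 ∧ j = 0 then 4 * G 0 else
        ((S.K.cA3 1 * I.Lg ^ 2) ^ (2 * 1) + th * r) * skplSg S I k₁ d (max i j) * G (min i j)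
          + 16 * (I.zc k₂ - I.zc k₁) * eps) ≤ T) :
    ∫ ω, (∑ k ∈ Finset.Ico k₁ k₂, I.dz k * I.P.W k ω) ^ r ∂I.P.μ ≤ (((Bn + 1 : ℕ) : ℝ) ^ 3 * T) ^ r := by
  have hJ : ∀ s ∈ Finset.Ico k₁ k₂, k₁ ≤ s ∧ s ≤ k₂ := fun s hs =>
    ⟨(Finset.mem_Ico.1 hs).1, (Finset.mem_Ico.1 hs).2.le⟩
  have hc1 : 0 ≤ (S.K.cA3 1 * I.Lg ^ 2) ^ (2 * 1) := by rw [pow_mul]; positivity
  have hcR : 0 ≤ (S.K.cA3 R * I.Lg ^ 2) ^ (2 * R) := by rw [pow_mul]; positivity
  have key := bud_bm_wl I.P hI.sp hr hc1 hcR (hI.proj 1 le_rfl) (hI.proj R hR) (Finset.Ico k₁ k₂) I.dz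
    (fun s _ => skpl_dz_nonneg hI s) (Bn + 1) (skplt I d Bn)
    (fun s hs => skpl_t_mono hI g (hJ s hs).2) (fun s _ => skpl_t_zero I d Bn s)
    (fun s _ => skpl_t_last I d Bn s) (skplMu S I k₂ d Bn) (skplSg S I k₁ d) G
    (skpl_mu_nonneg hS hI g) (skpl_sg_nonneg hS hI g) hG0 hth heps0
    (fun s hs j hj hne => skpl_mu hS hI g (hJ s hs).2 hj hne)
    (fun s hs j hj1 hj _ => skpl_sg hS hI g (hJ s hs).1 (hJ s hs).2 hj1 (by omega))
    (fun i hi => hG i (by omega)) heps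
  refine key.trans ?_
  rw [skpl_sum_dz I g.h12]
  have hlen : 0 ≤ I.zc k₂ - I.zc k₁ := sub_nonneg.2 (hI.zmono g.h12)
  have hterm0 : ∀ i j, 0 ≤ skplMu S I k₂ d Bn j * (if i = 0 ∧ j = 0 then 4 * G 0 else
        ((S.K.cA3 1 * I.Lg ^ 2) ^ (2 * 1) + th * r) * skplSg S I k₁ d (max i j) * G (min i j)
          + 16 * (I.zc k₂ - I.zc k₁) * eps) := fun i j => by
    refine mul_nonneg (skpl_mu_nonneg hS hI g j) ?_
    split_ifs
    · have := hG0 0; positivity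
    · have := hG0 (min i j)
      have := skpl_sg_nonneg hS hI g (max i j)
      positivity
  refine pow_le_pow_left₀ (mul_nonneg (Nat.cast_nonneg _)
    (Finset.sum_nonneg fun i _ => Finset.sum_nonneg fun j _ => hterm0 i j)) ?_ r
  have hsum : ∑ i ∈ Finset.range (Bn + 1), ∑ j ∈ Finset.range (Bn + 1),
      skplMu S I k₂ d Bn j * (if i = 0 ∧ j = 0 then 4 * G 0 else
        ((S.K.cA3 1 * I.Lg ^ 2) ^ (2 * 1) + th * r) * skplSg S I k₁ d (max i j) * G (min i j)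
          + 16 * (I.zc k₂ - I.zc k₁) * eps)
      ≤ ∑ i ∈ Finset.range (Bn + 1), ∑ j ∈ Finset.range (Bn + 1), T :=
    Finset.sum_le_sum fun i hi => Finset.sum_le_sum fun j hj =>
      hT i (by have := Finset.mem_range.1 hi; omega) j (by have := Finset.mem_range.1 hj; omega)
  simp only [Finset.sum_const, Finset.card_range, nsmul_eq_mul] at hsum
  calc ((Bn + 1 : ℕ) : ℝ) * _ ≤ ((Bn + 1 : ℕ) : ℝ) * (((Bn + 1 : ℕ) : ℝ) * (((Bn + 1 : ℕ) : ℝ) * T)) :=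
        mul_le_mul_of_nonneg_left hsum (Nat.cast_nonneg _)
    _ = ((Bn + 1 : ℕ) : ℝ) ^ 3 * T := by ring

end W

/-! ## (D) logarithms -/

/-- powers of `1 + log (1/x)` are subpolynomial -/
theorem skpl_polylog (n : ℕ) {γ : ℝ} (hγ : 0 < γ) :
    ∃ C : ℝ, 1 ≤ C ∧ ∀ x : ℝ, 0 < x → x ≤ 1 → (1 + Real.log (1 / x)) ^ n ≤ C * x ^ (-γ) := by
  rcases Nat.eq_zero_or_pos n with rfl | hn
  · refine ⟨1, le_rfl, fun x hx hx1 => ?_⟩
    rw [pow_zero, one_mul]
    exact Real.one_le_rpow_of_pos_of_le_one_of_nonpos hx hx1 (by linarith)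
  · have hn' : (0 : ℝ) < n := by exact_mod_cast hn
    refine ⟨(1 + n / γ) ^ n, one_le_pow₀ (by have : 0 ≤ (n : ℝ) / γ := by positivity
                                             linarith), fun x hx hx1 => ?_⟩
    have hy : 1 ≤ 1 / x := by rw [le_div_iff₀ hx]; linarith
    have hy0 : 0 ≤ 1 / x := by positivity
    have h1 := Real.log_le_rpow_div hy0 (div_pos hγ hn')
    have h2 : 1 ≤ (1 / x) ^ (γ / n) := Real.one_le_rpow hy (div_pos hγ hn').le
    have h3 : 1 + Real.log (1 / x) ≤ (1 + n / γ) * (1 / x) ^ (γ / n) := by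
      have e : (1 / x) ^ (γ / n) / (γ / n) = n / γ * (1 / x) ^ (γ / n) := by field_simp
      rw [e] at h1
      nlinarith
    have h4 : 0 ≤ 1 + Real.log (1 / x) := by have := Real.log_nonneg hy; linarith
    calc (1 + Real.log (1 / x)) ^ n ≤ ((1 + n / γ) * (1 / x) ^ (γ / n)) ^ n := pow_le_pow_left₀ h4 h3 n
      _ = (1 + n / γ) ^ n * x ^ (-γ) := by
          rw [mul_pow, ← Real.rpow_natCast ((1 / x) ^ (γ / n)) n, ← Real.rpow_mul hy0,
            div_mul_cancel₀ γ hn'.ne', one_div, Real.inv_rpow hx.le, Real.rpow_neg hx.le]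

/-- the number of dyadic distances below a level `A ≥ d` -/
theorem skpl_exists_Bn {d A : ℝ} (hd : 0 < d) (hdA : d ≤ A) :
    ∃ Bn : ℕ, 1 ≤ Bn ∧ skplD d Bn ≤ A ∧ A < 2 * skplD d Bn ∧ (Bn : ℝ) ≤ 1 + 2 * Real.log (A / d) := by
  classical
  have hex : ∃ n : ℕ, A < 2 ^ n * d := by
    obtain ⟨n, hn⟩ := pow_unbounded_of_one_lt (A / d) (one_lt_two)
    exact ⟨n, by rwa [div_lt_iff₀ hd] at hn⟩
  set n₀ := Nat.find hex with hn₀
  have h1 : A < 2 ^ n₀ * d := Nat.find_spec hex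
  have h0 : 1 ≤ n₀ := by
    by_contra hc
    have e : n₀ = 0 := by omega
    rw [e] at h1
    simp at h1
    linarith
  obtain ⟨i, hi⟩ : ∃ i, n₀ = i + 1 := ⟨n₀ - 1, by omega⟩
  have h2 : 2 ^ i * d ≤ A := by
    have := Nat.find_min hex (m := i) (by omega)
    exact not_lt.1 this
  refine ⟨n₀, h0, ?_, ?_, ?_⟩
  · rw [hi, skpl_D_succ]; exact h2
  · rw [hi, skpl_D_succ]
    rw [hi, pow_succ] at h1
    linarith
  · have h3 : (2 : ℝ) ^ i ≤ A / d := by rwa [le_div_iff₀ hd]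
    have h4 : (i : ℝ) * Real.log 2 ≤ Real.log (A / d) := by
      have := Real.log_le_log (by positivity) h3
      rwa [Real.log_pow] at this
    have h5 : (0.5 : ℝ) < Real.log 2 := by have := Real.log_two_gt_d9; linarith
    have h6 : (0 : ℝ) ≤ i := Nat.cast_nonneg i
    rw [hi]
    push_cast
    nlinarith

end Claimed.Agent.R286
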