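import Claimed.Agent.R286.PM.Defs

/-!
# Row 286, folder PM, file Leaves : CONTRACTS for LL Prop 8.1 (pointwise moments (D2), (D6)) over `L8P`      (helper37; prefix `Skp`/`skp`)

v3 (03:40Z): general grid.   PART A (explicit inequalities for one path) IS NOT RESTATED HERE: it is `Bud/MomBoxA.lean` of helper176
  (`bud_bm_wl` = weighted layers = BLOCK, `bud_bm_overlap` = shifted grid, `bud_bm_win` = (A1) on a window, `bud_bm_two` = two cuts with a common past, `bud_bm_sync` + `bud_bm_polar` = TAIL,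
   `bud_bm_layer0`, `bud_bm_mink`, `bud_bm_lyap`; ALSO `skp_leaf_tail : SkpLeafTail` below, PROVED by 113 in PM/Tail.lean, norms `skpN` + PM/Kit.lean of 72) and `L08/SPA-SPD` (`l8s_*`, all proved).   `|X_l - X_k|²` = `P.nXX k l` (LL06/Pw).
PART B = this file: the instance `SkpI` (PM/Defs) and the EXITS `SkpRaw`, `SkpInc`, `SkpRef` with their intermediate leaves `SkpLeafD6`, `SkpLeafRW`.
Guide with proof sketches: `git show origin/helper37:notes/R286/L10_PM_contract.md`.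
-/

set_option autoImplicit false
set_option linter.unusedVariables false

namespace Claimed.Agent.R286

open Set MeasureTheory

variable {Ω : Type} [mΩ : MeasurableSpace Ω] {m : ℕ}

/-! ## TAIL (PROVED: `skp_leaf_tail`, PM/Tail.lean, helper113) -/

/-- projection coefficient of the gap `(k₁, k₂]` -/
noncomputable def skpKap (P : L8P Ω m) (κ0 : ℝ) (k₁ k₂ : ℕ) : ℝ :=
  κ0 / (P.v k₁ * Real.sqrt (m * P.hlen k₁ k₂))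

/-- **Leaf TAIL** (LL l.516, l.615-620), explicit: replace both terminal spins by their projections at the cut `c 1`; layers `c 1 < .. < c B`, then the terminal layer;
`g i` = start of the gap used for the layer starting at `c i`. -/
def SkpLeafTail : Prop :=
  ∀ (Ω : Type) [mΩ : MeasurableSpace Ω] (m : ℕ) (P : L8P Ω m), P.Ok → 0 < m →
    ∀ (κ0 vmin hmin : ℝ) (t k B : ℕ) (c g : ℕ → ℕ), 0 ≤ κ0 → 0 < vmin → 0 < hmin → P.Proj t (κ0 ^ (2 * t)) vmin hmin →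
    1 ≤ t → 1 ≤ B → StrictMono c → c 0 = k → c B ≤ P.n →
    (∀ i ∈ Finset.Icc 1 B, k ≤ g i ∧ g i < c i ∧ vmin ≤ P.v (g i) ∧ hmin ≤ P.hlen (g i) (c i)) →
    skpN (P.fork k) (2 * t : ℕ) (fun η => P.Q η - P.QX (c 1) (c 1) η) ≤
        ∑ i ∈ Finset.Icc 1 B, 4 * skpKap P κ0 (g i) (c i) *
          (if i < B then skpN P.μ (2 * t : ℕ) (fun ω => Real.sqrt (P.nX (c (i + 1)) ω)) else 1) ∧
    skpN P.μ (2 * t : ℕ) (fun ω => ∑ i, P.R (c 1) i ω * P.X k i ω) ≤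
        skpKap P κ0 (g 1) (c 1) * skpN P.μ (2 * t : ℕ) (fun ω => Real.sqrt (P.nX k ω))

/-! ## Part B -/

/-- the raw hypothesis of order `r` with the constant `B` -/
def SkpI.RawB (I : SkpI Ω m) (r : ℕ) (B : ℝ) : Prop :=
  ∀ k ≤ I.nb, ∫ ω, I.P.nX k ω ^ r ∂I.P.μ ≤ (B * (skwR (I.z k) + I.d.zlo)) ^ r

/-- the refined hypothesis of order `r` with the constant `B` -/
def SkpI.IncB (I : SkpI Ω m) (r : ℕ) (B : ℝ) : Prop :=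
  ∀ k k', k ≤ k' → k' ≤ I.nb → I.d.zlo ≤ I.z k →
    ∫ ω, I.P.nXX k k' ω ^ r ∂I.P.μ ≤ (B * I.d.Z ^ 2 * (I.z k' - I.z k + I.hh (I.z k))) ^ r

/-- **Leaf D6** (TEX[LL:prop:statistics-pointwise], (D6)): fork window `[k₁,k₂)` at the small scale `r = r(z_{k₁})`, `z_{k₂} ≤ 2 z_{k₁} ≤ zreg/2`. -/
def SkpLeafD6 : Prop :=
  ∀ S : SkpS, S.Ok → ∀ (r : ℕ) (ε : ℝ), 1 ≤ r → 0 < ε → ∃ C : ℝ, 1 ≤ C ∧
    ∀ (Ω : Type) [mΩ : MeasurableSpace Ω] (m : ℕ) (I : SkpI Ω m), I.Ok S → I.d.x ≤ 1 / C →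
    ∀ B : ℝ, 1 ≤ B → I.RawB r B → ∀ k₁ k₂, k₁ ≤ k₂ → I.d.zlo ≤ I.z k₁ → I.z k₂ ≤ 2 * I.z k₁ → 4 * I.z k₁ ≤ S.zreg →
    ∫ ω, (∑ k ∈ Finset.Ico k₁ k₂, I.dz k * I.P.W k ω) ^ r ∂I.P.μ ≤
      (C * I.d.x ^ (-ε) * (I.d.x ^ 6 / (I.lam1 * I.z k₁ ^ 2)) * B) ^ r

/-- **EXIT RAW** = TEX[LL:prop:statistics-pointwise], first line of (D2).  (`v + Y ≍ r(z) + zlo`.) -/
def SkpRaw : Prop :=
  ∀ S : SkpS, S.Ok → ∀ r : ℕ, 1 ≤ r → ∃ C : ℝ, 1 ≤ C ∧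
    ∀ (Ω : Type) [mΩ : MeasurableSpace Ω] (m : ℕ) (I : SkpI Ω m), I.Ok S → I.d.x ≤ 1 / C →
    ∀ k ≤ I.nb,
      ∫ ω, I.P.nX k ω ^ r ∂I.P.μ ≤ (C * (skwR (I.z k) + I.d.zlo)) ^ r ∧
      ∫ ω, I.P.L k ω ^ (2 * r) ∂I.P.μ ≤ (C * (skwR (I.z k) + I.d.zlo)) ^ (2 * r) ∧
      ∫ η, I.P.Q η ^ (2 * r) ∂(I.P.fork k) ≤ (C * (skwR (I.z k) + I.d.zlo)) ^ (2 * r)

/-- **Leaf RW** (LL 08 l.534-569, refined integral of `W` over a (D4) window `[a, a+l]` of the nontrivial cut `z₀`).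
(At a nontrivial cut `hh z₀ ≥ U²/(CW r) ≥ x²/CW` by `SkwConcl.lower`, whatever `b` is.) -/
def SkpLeafRW : Prop :=
  ∀ S : SkpS, S.Ok → ∀ (r : ℕ) (ε : ℝ), 1 ≤ r → 0 < ε → ∃ C : ℝ, 1 ≤ C ∧
    ∀ (Ω : Type) [mΩ : MeasurableSpace Ω] (m : ℕ) (I : SkpI Ω m), I.Ok S → SkwSmall C I.d →
    ∀ B : ℝ, 1 ≤ B → I.IncB r B → ∀ z₀ ∈ Icc I.d.zlo I.zbuf, I.d.Z ^ 2 * I.hh z₀ < I.d.b * skwR z₀ / S.CW →
    ∀ k₁ k₂, k₁ ≤ k₂ → I.d.zlo ≤ I.z k₁ → |I.z k₁ - z₀| ≤ 2 * S.CW * I.hh z₀ → I.z k₂ - I.z k₁ ≤ I.hh z₀ →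
    ∫ ω, (∑ k ∈ Finset.Ico k₁ k₂, I.dz k * I.P.W k ω) ^ r ∂I.P.μ ≤
      (C * I.d.x ^ (-ε) * (I.d.x ^ 6 / (I.lam1 * skwR z₀ ^ 3)) * I.hh z₀ * B * I.d.Z ^ 2) ^ r

/-- **EXIT INC** (TEX[LL:prop:statistics-pointwise], LL 08 l.518-612; hidden in the paper, exported here): increments of the posterior mean. -/
def SkpInc : Prop :=
  ∀ S : SkpS, S.Ok → ∀ (r : ℕ) (ε : ℝ), 1 ≤ r → 0 < ε → ∃ C : ℝ, 1 ≤ C ∧
    ∀ (Ω : Type) [mΩ : MeasurableSpace Ω] (m : ℕ) (I : SkpI Ω m), I.Ok S → SkwSmall C I.d →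
    I.IncB r (C * I.d.x ^ (-ε) / I.d.b ^ 2)

/-- **EXIT REF** = TEX[LL:prop:statistics-pointwise], second line of (D2). -/
def SkpRef : Prop :=
  ∀ S : SkpS, S.Ok → ∀ (r : ℕ) (ε : ℝ), 1 ≤ r → 0 < ε → ∃ C : ℝ, 1 ≤ C ∧
    ∀ (Ω : Type) [mΩ : MeasurableSpace Ω] (m : ℕ) (I : SkpI Ω m), I.Ok S → SkwSmall C I.d →
    ∀ k ≤ I.nb, I.d.zlo ≤ I.z k →
      ∫ ω, (I.P.nX k ω - I.d.q (I.z k)) ^ (2 * r) ∂I.P.μ ≤ (C * I.d.x ^ (-ε) / I.d.b ^ 2 * skwE I.d I.hh (I.z k)) ^ (2 * r) ∧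
      ∫ ω, (2 * I.P.L k ω - I.d.q (I.z k)) ^ (2 * r) ∂I.P.μ ≤ (C * I.d.x ^ (-ε) / I.d.b ^ 2 * skwE I.d I.hh (I.z k)) ^ (2 * r) ∧
      ∫ η, (I.P.Q η - I.d.q (I.z k)) ^ (2 * r) ∂(I.P.fork k) ≤ (C * I.d.x ^ (-ε) / I.d.b ^ 2 * skwE I.d I.hh (I.z k)) ^ (2 * r)

end Claimed.Agent.R286
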